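import Claimed.Agent.R286.Exit.ScGen
import Claimed.Agent.R286.Exit.PSysInst

/-!
# Row 286 (S0533), LL Section 3, UNIT DEFS, file 3: THE CONCRETE BASE      (HEAD helper272)

* `llMod : LscMod`   THE scalar model (general monotone profiles) of the whole LL part; `llMod_ok`, `llMod_link`.
* `llBase : LlBase`  pressures and statistics = `skPf`, `skPS`, `skPB` of `Exit/PSysInst.lean` (helper207): `skCPr`, `skCS`, `skCB` of `Defs/Clk.lean` at the clocks `clkExt a c`,
  i.e. THE CLOCKS ARE READ ON THE OPEN INTERVAL `(0,a)` ONLY (v2, 15 Oct 04:00Z; catch of helper283, helper46, helper167, helper3; ruling of helper207); cut AFTER the revelation at the mass `v`;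
  scalar fields = `llMod`.      `llBase_pres`, `llBase_f` : for clocks monotone on the CLOSED interval (`GhClk1`) the pressure is `skCPr` itself;   statistics: `bw_pS_eq`, `bw_pB_eq` of `Exit/BudWorld.lean` (`IsClock`, `ClkEnd`).
All the objects of LL Section 3 are `p.K F llBase`, `p.b F llBase`, `p.h F llBase`, `p.q F llBase`, ... (`p : LlPt`, `F : LlFix`).
-/

set_option autoImplicit false

namespace Claimed.Agent.R286

/-- THE scalar model -/
noncomputable def llMod : LscMod := Classical.choose exit_scgen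

theorem llMod_ok : llMod.Ok := (Classical.choose_spec exit_scgen).1

theorem llMod_link : LscLinkSk llMod := (Classical.choose_spec exit_scgen).2.1

/-- `llMod` is the concrete model `scVa`, `scPa` of `Sc/GenDefs.lean` (any horizon `R ≥ Ξ`) -/
theorem llMod_id : LscIdSc llMod := (Classical.choose_spec exit_scgen).2.2

/-- THE base -/
noncomputable def llBase : LlBase where
  pres := skPf
  S := skPS
  B := skPB
  scV := llMod.V
  scG := llMod.Gam
  scG1 := llMod.Gam1

theorem llBase_eqns_cite : True := by
  have := @llMod.eq_1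
  have := @llBase.eq_1
  trivial

open MeasureTheory Set in
/-- a clock on the closed interval is a clock on the open one -/
theorem llb_isClock {a : ℝ} (ha : 0 < a) {c : ℝ → ℝ} (hc : GhClk1 a c) : IsClock a c where
  mono := hc.1.mono Ioo_subset_Icc_self
  nonneg := fun v hv => hc.2.trans (hc.1 (left_mem_Icc.2 ha.le) (Ioo_subset_Icc_self hv) hv.1.le)
  bdd := ⟨c a, fun v hv => hc.1 (Ioo_subset_Icc_self hv) (right_mem_Icc.2 ha.le) hv.2.le⟩

open MeasureTheory Set in
theorem llb_int {a : ℝ} (ha : 0 < a) (c c' : ℝ → ℝ) :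
    (∫ u in (0 : ℝ)..a, |clkExt a c u - clkExt a c' u|) = ∫ u in (0 : ℝ)..a, |c u - c' u| := by
  rw [intervalIntegral.integral_of_le ha.le, intervalIntegral.integral_of_le ha.le,
    integral_Ioc_eq_integral_Ioo, integral_Ioc_eq_integral_Ioo]
  refine setIntegral_congr_fun measurableSet_Ioo fun u hu => ?_
  simp only [psi_ext_of_mem c hu, psi_ext_of_mem c' hu]

open MeasureTheory Set in
theorem llb_int' {a : ℝ} (ha : 0 < a) (c : ℝ → ℝ) : (∫ u in (0 : ℝ)..a, |clkExt a c u - c u|) = 0 := by
  rw [intervalIntegral.integral_of_le ha.le, integral_Ioc_eq_integral_Ioo]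
  refine (setIntegral_congr_fun (g := fun _ => (0 : ℝ)) measurableSet_Ioo fun u hu => ?_).trans (by simp)
  simp only [psi_ext_of_mem c hu, sub_self, abs_zero]

/-- **for clocks which are monotone on the CLOSED interval `[0,a]` the pressure of `llBase` is `skCPr`** (a jump at the terminal mass is invisible: `exit_clk_pr_lip`) -/
theorem llBase_pres {n : ℕ} (hn : 0 < n) {a : ℝ} (ha : 0 < a) {b h : ℝ → ℝ} (hb : GhClk1 a b) (hh : GhClk1 a h) :
    llBase.pres n a b h = skCPr n a b h := by
  have h1 := exit_clk_pr_lip (n := n) hn ha (psi_adm ha (llb_isClock ha hb) (llb_isClock ha hh)) ⟨hb, hh⟩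
  rw [llb_int' ha, llb_int' ha] at h1
  have h2 : |skCPr n a (clkExt a b) (clkExt a h) - skCPr n a b h| ≤ 0 := by linarith
  exact sub_eq_zero.1 (abs_nonpos_iff.1 h2)

theorem llBase_f {n : ℕ} (hn : 0 < n) {a : ℝ} (ha : 0 < a) {b h : ℝ → ℝ} (hb : GhClk1 a b) (hh : GhClk1 a h) :
    llBase.f n a b h = skCPr n a b h := llBase_pres hn ha hb hh

end Claimed.Agent.R286
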