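import Claimed.Agent.R286.LL.PathsDefs

/-!
# Row 286 (S0533), LL Section 3, block CLK (head helper253), file B: THE CUT-OFFS `G`, `dySum` OF (P3)      (owner of the leaves: helper267; prefix `lcb_`; ALL PROVED, 0 sorry)

LL 03-paths.tex l.356-365.   Pure real analysis on `LlFix`, `LlPt` (no scalar model).   EXIT = `lcb_main`: what file A (`Lck.Ok`) needs of `G` and `Dy = dySum`.
All constants depend on `F` ONLY through `G0, G1, phi, vb` (never on `c1, cb, sS, eta, pS`): they are produced by `lcb_consts`.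
LEAVES (prove in place, top to bottom; each has its hint).
-/

set_option autoImplicit false
set_option linter.unusedSectionVars false

namespace Claimed.Agent.R286

open Set

/-- Lipschitz constants of the fixed cut-offs: `L0` for `G0` on `[1,8]`, `L1` for `G1` on `[1,2]`, `Lp` for `phi` on `ℝ`.
HINT: `ContDiff` ⇒ `deriv` continuous ⇒ bounded on the compact (`IsCompact.exists_bound_of_continuousOn`), `Convex.norm_image_sub_le_of_norm_deriv_le`;   for `phi`: bound of `deriv phi` on `[1/2,4]`, `deriv phi = 0` outside (`phi` vanishes on the open complement), so the bound is global. -/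
theorem lcb_consts (F : LlFix) (hF : F.Ok) : ∃ L0 L1 Lp : ℝ, 0 ≤ L0 ∧ 0 ≤ L1 ∧ 0 ≤ Lp ∧
    (∀ w ∈ Icc (1 : ℝ) 8, ∀ w' ∈ Icc (1 : ℝ) 8, w ≤ w' → F.G0 w' - F.G0 w ≤ L0 * (w' - w)) ∧
    (∀ w ∈ Icc (1 : ℝ) 2, ∀ w' ∈ Icc (1 : ℝ) 2, w ≤ w' → F.G1 w' - F.G1 w ≤ L1 * (w' - w)) ∧
    (∀ w w' : ℝ, |F.phi w' - F.phi w| ≤ Lp * |w' - w|) := by
  have bd : ∀ (g : ℝ → ℝ), ContDiff ℝ (⊤ : ℕ∞) g → ∀ a b : ℝ, ∃ L : ℝ, 0 ≤ L ∧
      ∀ w ∈ Icc a b, ∀ w' ∈ Icc a b, w ≤ w' → g w' - g w ≤ L * (w' - w) := by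
    intro g hg a b
    have hc : Continuous (deriv g) := hg.continuous_deriv (by simp)
    obtain ⟨B, hB⟩ := (isCompact_Icc (a := a) (b := b)).exists_bound_of_continuousOn hc.continuousOn
    have hdiff : Differentiable ℝ g := hg.differentiable (by simp)
    refine ⟨|B|, abs_nonneg B, fun w hw w' hw' hww => ?_⟩
    exact Convex.image_sub_le_mul_sub_of_deriv_le (convex_Icc a b) hdiff.continuous.continuousOn
      hdiff.differentiableOn (C := |B|) (fun y hy => by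
        have h3 := hB y (interior_subset hy)
        rw [Real.norm_eq_abs] at h3
        exact (le_abs_self _).trans (h3.trans (le_abs_self _))) w hw w' hw' hww
  obtain ⟨L0, h0, hL0⟩ := bd F.G0 hF.G0_sm 1 8
  obtain ⟨L1, h1, hL1⟩ := bd F.G1 hF.G1_sm 1 2
  have hcs : HasCompactSupport F.phi := by
    refine HasCompactSupport.intro (K := Icc (1 / 2 : ℝ) 4) isCompact_Icc ?_
    intro w hw; exact hF.phi_supp w hw
  obtain ⟨C, hC⟩ := hF.phi_sm.lipschitzWith_of_hasCompactSupport hcs (by simp)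
  refine ⟨L0, L1, C, h0, h1, C.2, hL0, hL1, fun w w' => ?_⟩
  have := hC.dist_le_mul w' w
  rwa [Real.dist_eq, Real.dist_eq] at this

/-- `phi` vanishes at the two end points too (continuity). -/
theorem lcb_phi_zero (F : LlFix) (hF : F.Ok) (w : ℝ) (hw : w ≤ 1 / 2 ∨ 4 ≤ w) : F.phi w = 0 := by
  have hc : Continuous F.phi := hF.phi_sm.continuous
  rcases hw with hw | hw
  · rcases lt_or_eq_of_le hw with h | h
    · exact hF.phi_supp w (fun hh => absurd hh.1 (not_le.2 h))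
    · have h1 : Filter.Tendsto F.phi (nhdsWithin w (Iio w)) (nhds (F.phi w)) :=
        hc.continuousAt.tendsto.mono_left nhdsWithin_le_nhds
      have h2 : Filter.Tendsto F.phi (nhdsWithin w (Iio w)) (nhds 0) := by
        refine tendsto_const_nhds.congr' ?_
        filter_upwards [self_mem_nhdsWithin] with z hz
        exact (hF.phi_supp z (fun hh => absurd hh.1 (not_le.2 (lt_of_lt_of_le hz hw)))).symm
      exact tendsto_nhds_unique h1 h2
  · rcases lt_or_eq_of_le hw with h | h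
    · exact hF.phi_supp w (fun hh => absurd hh.2 (not_le.2 h))
    · have h1 : Filter.Tendsto F.phi (nhdsWithin w (Ioi w)) (nhds (F.phi w)) :=
        hc.continuousAt.tendsto.mono_left nhdsWithin_le_nhds
      have h2 : Filter.Tendsto F.phi (nhdsWithin w (Ioi w)) (nhds 0) := by
        refine tendsto_const_nhds.congr' ?_
        filter_upwards [self_mem_nhdsWithin] with z hz
        exact (hF.phi_supp z (fun hh => absurd hh.2 (not_le.2 (lt_of_le_of_lt hw hz)))).symm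
      exact tendsto_nhds_unique h1 h2

/-- geometric sum over the dyadic masses below a level.   HINT: empty or `h0 = min`; `∑_{h ≥ h0} 2^-h = 2 · 2^-h0` (`tsum_geometric_two`, `Finset.sum_le_tsum` after the shift `h = h0 + k`). -/
theorem lcb_geom (S : Finset ℕ) (r : ℝ) (hr : 0 ≤ r) (hS : ∀ h ∈ S, (2 : ℝ)⁻¹ ^ h ≤ r) : ∑ h ∈ S, (2 : ℝ)⁻¹ ^ h ≤ 2 * r := by
  have key : ∀ h : ℕ, (if (2 : ℝ)⁻¹ ^ h ≤ r then (2 : ℝ)⁻¹ ^ h else 0)
      ≤ 2 * (min ((2 : ℝ)⁻¹ ^ h) r - min ((2 : ℝ)⁻¹ ^ (h + 1)) r) := by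
    intro h
    have hp : (0 : ℝ) < (2 : ℝ)⁻¹ ^ h := by positivity
    have e : (2 : ℝ)⁻¹ ^ (h + 1) = (2 : ℝ)⁻¹ ^ h / 2 := by rw [pow_succ]; ring
    split_ifs with hh
    · rw [min_eq_left hh, min_eq_left (by rw [e]; linarith), e]; linarith
    · have : min ((2 : ℝ)⁻¹ ^ (h + 1)) r ≤ min ((2 : ℝ)⁻¹ ^ h) r := min_le_min_right _ (by rw [e]; linarith)
      linarith
  have hsub : S ⊆ Finset.range (S.sup id + 1) := by
    intro h hh
    rw [Finset.mem_range]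
    exact Nat.lt_succ_of_le (Finset.le_sup (f := id) hh)
  calc ∑ h ∈ S, (2 : ℝ)⁻¹ ^ h = ∑ h ∈ S, (if (2 : ℝ)⁻¹ ^ h ≤ r then (2 : ℝ)⁻¹ ^ h else 0) :=
        Finset.sum_congr rfl (fun h hh => by rw [if_pos (hS h hh)])
    _ ≤ ∑ h ∈ Finset.range (S.sup id + 1), (if (2 : ℝ)⁻¹ ^ h ≤ r then (2 : ℝ)⁻¹ ^ h else 0) :=
        Finset.sum_le_sum_of_subset_of_nonneg hsub (fun h _ _ => by split_ifs <;> positivity)
    _ ≤ ∑ h ∈ Finset.range (S.sup id + 1), 2 * (min ((2 : ℝ)⁻¹ ^ h) r - min ((2 : ℝ)⁻¹ ^ (h + 1)) r) :=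
        Finset.sum_le_sum (fun h _ => key h)
    _ = 2 * (min ((2 : ℝ)⁻¹ ^ 0) r - min ((2 : ℝ)⁻¹ ^ (S.sup id + 1)) r) := by
        rw [← Finset.mul_sum, Finset.sum_range_sub']
    _ ≤ 2 * r := by
        have h1 : min ((2 : ℝ)⁻¹ ^ 0) r ≤ r := min_le_right _ _
        have h2 : 0 ≤ min ((2 : ℝ)⁻¹ ^ (S.sup id + 1)) r := le_min (by positivity) hr
        linarith

section pt

variable (F : LlFix) (hF : F.Ok) (p : LlPt) (hx : 0 < p.x) (hxb : 8 * p.x ≤ F.vb)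

include hF hx hxb

theorem lcb_G_zero (v : ℝ) (hv : v ≤ p.x) : p.G F v = 0 := by
  unfold LlPt.G
  rw [if_pos (by linarith), hF.G0_zero _ ((div_le_one hx).2 hv), mul_zero]

theorem lcb_G_sq (v : ℝ) (h1 : 8 * p.x ≤ v) (h2 : v ≤ F.vb) : p.G F v = v ^ 2 := by
  unfold LlPt.G
  rw [if_pos h2, hF.G0_sq _ ((le_div_iff₀ hx).2 h1)]
  field_simp

theorem lcb_G_const (v : ℝ) (h1 : 2 * F.vb ≤ v) : p.G F v = F.vb ^ 2 * F.G1 2 := by
  have hvb := hF.vb0
  unfold LlPt.G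
  rw [if_neg (by linarith), hF.G1_const _ ((le_div_iff₀ hvb).2 h1)]

/-- HINT: three cases (`v' ≤ vb`; `vb < v`; `v ≤ vb < v'` through `G vb = vb^2 = vb^2 G1 1`). -/
theorem lcb_G_mono : Monotone (p.G F) := by
  intro v v' hvv
  have hvb := hF.vb0
  have hG11 : F.G1 1 = 1 := by rw [hF.G1_sq 1 ⟨by norm_num, le_rfl⟩]; norm_num
  by_cases h' : v' ≤ F.vb
  · have h : v ≤ F.vb := hvv.trans h'
    unfold LlPt.G
    rw [if_pos h, if_pos h']
    exact mul_le_mul_of_nonneg_left (hF.G0_mono (div_le_div_of_nonneg_right hvv hx.le)) (sq_nonneg _)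
  · rw [not_le] at h'
    have e' : p.G F v' = F.vb ^ 2 * F.G1 (v' / F.vb) := by unfold LlPt.G; rw [if_neg (not_le.2 h')]
    have h1' : 1 ≤ v' / F.vb := (one_le_div hvb).2 h'.le
    by_cases h : v ≤ F.vb
    · have e1 : p.G F v ≤ p.G F F.vb := by
        unfold LlPt.G
        rw [if_pos h, if_pos le_rfl]
        exact mul_le_mul_of_nonneg_left (hF.G0_mono (div_le_div_of_nonneg_right h hx.le)) (sq_nonneg _)
      rw [lcb_G_sq F hF p hx hxb F.vb hxb le_rfl] at e1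
      rw [e']
      have : 1 ≤ F.G1 (v' / F.vb) := by
        rw [← hG11]; exact hF.G1_mono (by norm_num : (0 : ℝ) ≤ 1) (by show (0 : ℝ) ≤ _; linarith) h1'
      nlinarith [sq_nonneg F.vb]
    · rw [not_le] at h
      have e : p.G F v = F.vb ^ 2 * F.G1 (v / F.vb) := by unfold LlPt.G; rw [if_neg (not_le.2 h)]
      rw [e, e']
      have h1 : 1 ≤ v / F.vb := (one_le_div hvb).2 h.le
      exact mul_le_mul_of_nonneg_left (hF.G1_mono (by show (0 : ℝ) ≤ _; linarith) (by show (0 : ℝ) ≤ _; linarith)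
        (div_le_div_of_nonneg_right hvv hvb.le)) (sq_nonneg _)

theorem lcb_G_nonneg (v : ℝ) : 0 ≤ p.G F v := by
  rcases le_total v p.x with h | h
  · rw [lcb_G_zero F hF p hx hxb v h]
  · rw [← lcb_G_zero F hF p hx hxb p.x le_rfl]; exact lcb_G_mono F hF p hx hxb h

/-- `G v ≤ max 64 (G1 2) v^2` -/
theorem lcb_G_le (v : ℝ) (hv : 0 ≤ v) : p.G F v ≤ max 64 (F.G1 2) * v ^ 2 := by
  have hvb := hF.vb0
  have hm1 : (64 : ℝ) ≤ max 64 (F.G1 2) := le_max_left _ _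
  have hm2 : F.G1 2 ≤ max 64 (F.G1 2) := le_max_right _ _
  have hG0 : ∀ w : ℝ, F.G0 w ≤ 64 * w ^ 2 := by
    intro w
    rcases le_total w 1 with h | h
    · rw [hF.G0_zero w h]; positivity
    · rcases le_total w 8 with h' | h'
      · have := hF.G0_mono h'
        rw [hF.G0_sq 8 le_rfl] at this
        nlinarith
      · rw [hF.G0_sq w h']; nlinarith [sq_nonneg w]
  unfold LlPt.G
  split_ifs with h
  · have := hG0 (v / p.x)
    have e : p.x ^ 2 * (64 * (v / p.x) ^ 2) = 64 * v ^ 2 := by field_simp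
    have h3 : p.x ^ 2 * F.G0 (v / p.x) ≤ 64 * v ^ 2 := by
      rw [← e]; exact mul_le_mul_of_nonneg_left this (sq_nonneg _)
    nlinarith [sq_nonneg v]
  · rw [not_le] at h
    have h1 : F.G1 (v / F.vb) ≤ F.G1 2 := by
      rcases le_total (v / F.vb) 2 with h2 | h2
      · exact hF.G1_mono (div_nonneg hv hvb.le) (by norm_num : (0 : ℝ) ≤ 2) h2
      · rw [hF.G1_const _ h2]
    have h3 : F.vb ^ 2 ≤ v ^ 2 := by nlinarith
    calc F.vb ^ 2 * F.G1 (v / F.vb) ≤ F.vb ^ 2 * max 64 (F.G1 2) :=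
          mul_le_mul_of_nonneg_left (h1.trans hm2) (sq_nonneg _)
      _ ≤ v ^ 2 * max 64 (F.G1 2) := mul_le_mul_of_nonneg_right h3 (by linarith)
      _ = max 64 (F.G1 2) * v ^ 2 := mul_comm _ _

/-- `G v ≥ min 1 (vb^2/16) v^2` on `[8x,4]` -/
theorem lcb_G_ge (v : ℝ) (h1 : 8 * p.x ≤ v) (h2 : v ≤ 4) : min 1 (F.vb ^ 2 / 16) * v ^ 2 ≤ p.G F v := by
  have hm1 : min (1 : ℝ) (F.vb ^ 2 / 16) ≤ 1 := min_le_left _ _
  have hm2 : min (1 : ℝ) (F.vb ^ 2 / 16) ≤ F.vb ^ 2 / 16 := min_le_right _ _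
  rcases le_total v F.vb with h' | h'
  · rw [lcb_G_sq F hF p hx hxb v h1 h']
    nlinarith [sq_nonneg v]
  · have h3 : F.vb ^ 2 ≤ p.G F v := by
      rw [← lcb_G_sq F hF p hx hxb F.vb hxb le_rfl]; exact lcb_G_mono F hF p hx hxb h'
    have h4 : v ^ 2 ≤ 16 := by nlinarith [hF.vb0]
    have h5 : min (1 : ℝ) (F.vb ^ 2 / 16) * v ^ 2 ≤ F.vb ^ 2 / 16 * 16 :=
      mul_le_mul hm2 h4 (sq_nonneg _) (by positivity)
    linarith

/-- **increments of `G`**.   HINT: on each of `[0,x]`, `[x,8x]`, `[8x,vb]`, `[vb,2vb]`, `[2vb,∞)` separately (constants `0, L0, 2, L1, 0`), then glue: if the bound `C v' (v'-v)` holds on `[v,w]` and on `[w,v']` it holds on `[v,v']`. -/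
theorem lcb_G_incr (L0 L1 : ℝ) (h0 : 0 ≤ L0) (h1 : 0 ≤ L1)
    (hL0 : ∀ w ∈ Icc (1 : ℝ) 8, ∀ w' ∈ Icc (1 : ℝ) 8, w ≤ w' → F.G0 w' - F.G0 w ≤ L0 * (w' - w))
    (hL1 : ∀ w ∈ Icc (1 : ℝ) 2, ∀ w' ∈ Icc (1 : ℝ) 2, w ≤ w' → F.G1 w' - F.G1 w ≤ L1 * (w' - w))
    (v v' : ℝ) (hv : 0 ≤ v) (hvv : v ≤ v') : p.G F v' - p.G F v ≤ (L0 + L1 + 2) * v' * (v' - v) := by
  have hvb := hF.vb0
  have hG11 : F.G1 1 = 1 := by rw [hF.G1_sq 1 ⟨by norm_num, le_rfl⟩]; norm_num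
  have hC : 0 ≤ L0 + L1 + 2 := by positivity
  -- gluing at a break point
  have glue : ∀ a w b : ℝ, 0 ≤ a →
      (∀ y y', a ≤ y → y ≤ y' → y' ≤ w → p.G F y' - p.G F y ≤ (L0 + L1 + 2) * y' * (y' - y)) →
      (∀ y y', w ≤ y → y ≤ y' → y' ≤ b → p.G F y' - p.G F y ≤ (L0 + L1 + 2) * y' * (y' - y)) →
      ∀ y y', a ≤ y → y ≤ y' → y' ≤ b → p.G F y' - p.G F y ≤ (L0 + L1 + 2) * y' * (y' - y) := by
    intro a w b ha H1 H2 y y' hy hyy hy'
    rcases le_total y' w with c1 | c1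
    · exact H1 y y' hy hyy c1
    rcases le_total w y with c2 | c2
    · exact H2 y y' c2 hyy hy'
    have a1 := H1 y w hy c2 le_rfl
    have a2 := H2 w y' le_rfl c1 hy'
    have b1 : (L0 + L1 + 2) * w * (w - y) ≤ (L0 + L1 + 2) * y' * (w - y) :=
      mul_le_mul_of_nonneg_right (mul_le_mul_of_nonneg_left c1 hC) (by linarith)
    nlinarith
  have P1 : ∀ y y', 0 ≤ y → y ≤ y' → y' ≤ p.x → p.G F y' - p.G F y ≤ (L0 + L1 + 2) * y' * (y' - y) := by
    intro y y' hy hyy hy'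
    rw [lcb_G_zero F hF p hx hxb y' hy', lcb_G_zero F hF p hx hxb y (hyy.trans hy'), sub_zero]
    exact mul_nonneg (mul_nonneg hC (hy.trans hyy)) (by linarith)
  have P2 : ∀ y y', p.x ≤ y → y ≤ y' → y' ≤ 8 * p.x →
      p.G F y' - p.G F y ≤ (L0 + L1 + 2) * y' * (y' - y) := by
    intro y y' hy hyy hy'
    have hy'0 : 0 ≤ y' := by linarith
    unfold LlPt.G
    rw [if_pos (by linarith), if_pos (by linarith)]
    have := hL0 (y / p.x) ⟨(one_le_div hx).2 hy, (div_le_iff₀ hx).2 (by linarith)⟩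
      (y' / p.x) ⟨(one_le_div hx).2 (hy.trans hyy), (div_le_iff₀ hx).2 hy'⟩
      (div_le_div_of_nonneg_right hyy hx.le)
    have e : p.x ^ 2 * (L0 * (y' / p.x - y / p.x)) = L0 * p.x * (y' - y) := by field_simp
    have h3 : p.x ^ 2 * F.G0 (y' / p.x) - p.x ^ 2 * F.G0 (y / p.x) ≤ L0 * p.x * (y' - y) := by
      rw [← e, ← mul_sub]; exact mul_le_mul_of_nonneg_left this (sq_nonneg _)
    have h4 : L0 * p.x * (y' - y) ≤ L0 * y' * (y' - y) :=
      mul_le_mul_of_nonneg_right (mul_le_mul_of_nonneg_left (hy.trans hyy) h0) (by linarith)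
    have h5 : 0 ≤ (L1 + 2) * y' * (y' - y) := mul_nonneg (mul_nonneg (by positivity) hy'0) (by linarith)
    nlinarith
  have P3 : ∀ y y', 8 * p.x ≤ y → y ≤ y' → y' ≤ F.vb →
      p.G F y' - p.G F y ≤ (L0 + L1 + 2) * y' * (y' - y) := by
    intro y y' hy hyy hy'
    have hy'0 : 0 ≤ y' := by linarith
    rw [lcb_G_sq F hF p hx hxb y' (hy.trans hyy) hy', lcb_G_sq F hF p hx hxb y hy (hyy.trans hy')]
    have h5 : 0 ≤ (L0 + L1) * y' * (y' - y) := mul_nonneg (mul_nonneg (by positivity) hy'0) (by linarith)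
    nlinarith
  have keyG : ∀ y, F.vb ≤ y → p.G F y = F.vb ^ 2 * F.G1 (y / F.vb) := by
    intro y hy
    rcases eq_or_lt_of_le hy with h | h
    · rw [← h, lcb_G_sq F hF p hx hxb F.vb hxb le_rfl, div_self hvb.ne', hG11, mul_one]
    · unfold LlPt.G; rw [if_neg (not_le.2 h)]
  have P4 : ∀ y y', F.vb ≤ y → y ≤ y' → y' ≤ 2 * F.vb →
      p.G F y' - p.G F y ≤ (L0 + L1 + 2) * y' * (y' - y) := by
    intro y y' hy hyy hy'
    have hy'0 : 0 ≤ y' := by linarith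
    rw [keyG y hy, keyG y' (hy.trans hyy)]
    have := hL1 (y / F.vb) ⟨(one_le_div hvb).2 hy, (div_le_iff₀ hvb).2 (by linarith)⟩
      (y' / F.vb) ⟨(one_le_div hvb).2 (hy.trans hyy), (div_le_iff₀ hvb).2 hy'⟩
      (div_le_div_of_nonneg_right hyy hvb.le)
    have e : F.vb ^ 2 * (L1 * (y' / F.vb - y / F.vb)) = L1 * F.vb * (y' - y) := by field_simp
    have h3 : F.vb ^ 2 * F.G1 (y' / F.vb) - F.vb ^ 2 * F.G1 (y / F.vb) ≤ L1 * F.vb * (y' - y) := by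
      rw [← e, ← mul_sub]; exact mul_le_mul_of_nonneg_left this (sq_nonneg _)
    have h4 : L1 * F.vb * (y' - y) ≤ L1 * y' * (y' - y) :=
      mul_le_mul_of_nonneg_right (mul_le_mul_of_nonneg_left (hy.trans hyy) h1) (by linarith)
    have h5 : 0 ≤ (L0 + 2) * y' * (y' - y) := mul_nonneg (mul_nonneg (by positivity) hy'0) (by linarith)
    nlinarith
  have P5 : ∀ y y', 2 * F.vb ≤ y → y ≤ y' → y' ≤ v' →
      p.G F y' - p.G F y ≤ (L0 + L1 + 2) * y' * (y' - y) := by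
    intro y y' hy hyy _
    rw [lcb_G_const F hF p hx hxb y' (hy.trans hyy), lcb_G_const F hF p hx hxb y hy, sub_self]
    exact mul_nonneg (mul_nonneg hC (by linarith)) (by linarith)
  exact glue 0 (2 * F.vb) v' le_rfl (glue 0 F.vb (2 * F.vb) le_rfl (glue 0 (8 * p.x) F.vb le_rfl
    (glue 0 p.x (8 * p.x) le_rfl P1 P2) P3) P4) P5 v v' hv hvv le_rfl

/-- the set of the dyadic indices in use is finite -/
theorem lcb_dy_finite : {h : ℕ | p.IsDy F h}.Finite := by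
  obtain ⟨H, hH⟩ := exists_pow_lt_of_lt_one (by positivity : (0 : ℝ) < 16 * p.x) (by norm_num : (2 : ℝ)⁻¹ < 1)
  refine (Finset.range H).finite_toSet.subset ?_
  intro h hd
  simp only [Finset.coe_range, mem_Iio]
  by_contra hcon
  rw [not_lt] at hcon
  have : (2 : ℝ)⁻¹ ^ h ≤ (2 : ℝ)⁻¹ ^ H := pow_le_pow_of_le_one (by norm_num) (by norm_num) hcon
  have h1 : 16 * p.x ≤ (2 : ℝ)⁻¹ ^ h := hd.1
  linarith

/-- `dySum` vanishes outside `[8x, vb/4]` -/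
theorem lcb_dy_zero (v : ℝ) (hv : v ≤ 8 * p.x ∨ F.vb / 4 ≤ v) : p.dySum F v = 0 := by
  unfold LlPt.dySum
  apply finsum_eq_zero_of_forall_eq_zero
  intro h
  split_ifs with hd
  · have hu : (0 : ℝ) < (2 : ℝ)⁻¹ ^ h := by positivity
    rcases hv with hv | hv
    · rw [lcb_phi_zero F hF _ (Or.inl ((div_le_iff₀ hu).2 (by linarith [hd.1]))), mul_zero]
    · rw [lcb_phi_zero F hF _ (Or.inr ((le_div_iff₀ hu).2 (by linarith [hd.2]))), mul_zero]
  · rfl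

/-- **increments of `dySum`**.   HINT: `finsum` = sum over `lcb_dy_finite.toFinset`; a term with `u = 2^-h > 2 v'` vanishes at `v` and at `v'` (`lcb_phi_zero`); the others: `|γ| u^2 Lp (v'-v)/u ≤ 4 Lp u (v'-v)`; `lcb_geom` with `r = 2 v'`. -/
theorem lcb_dy_incr (Lp : ℝ) (h0 : 0 ≤ Lp) (hLp : ∀ w w' : ℝ, |F.phi w' - F.phi w| ≤ Lp * |w' - w|) (hg : ∀ h, p.gu h ∈ Icc (-4 : ℝ) 4)
    (v v' : ℝ) (hv : 0 ≤ v) (hvv : v ≤ v') : |p.dySum F v' - p.dySum F v| ≤ 16 * Lp * v' * (v' - v) := by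
  classical
  have hfin := lcb_dy_finite F hF p hx hxb
  have hsum : ∀ y, p.dySum F y = ∑ h ∈ hfin.toFinset, p.gu h * ((2 : ℝ)⁻¹ ^ h) ^ 2 * F.phi (y / (2 : ℝ)⁻¹ ^ h) := by
    intro y
    unfold LlPt.dySum
    rw [finsum_eq_sum_of_support_subset (s := hfin.toFinset)]
    · refine Finset.sum_congr rfl (fun h hh => ?_)
      have hd : p.IsDy F h := hfin.mem_toFinset.1 hh
      rw [if_pos hd]
    · intro h hh
      rw [Function.mem_support] at hh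
      rw [Finset.mem_coe, hfin.mem_toFinset]
      by_contra hcon
      have hcon' : ¬ p.IsDy F h := hcon
      exact hh (if_neg hcon')
  have hv'0 : 0 ≤ v' := hv.trans hvv
  have hd0 : 0 ≤ v' - v := by linarith
  rw [hsum v', hsum v, ← Finset.sum_sub_distrib]
  refine (Finset.abs_sum_le_sum_abs _ _).trans ?_
  have key : ∀ h ∈ hfin.toFinset,
      |p.gu h * ((2 : ℝ)⁻¹ ^ h) ^ 2 * F.phi (v' / (2 : ℝ)⁻¹ ^ h) - p.gu h * ((2 : ℝ)⁻¹ ^ h) ^ 2 * F.phi (v / (2 : ℝ)⁻¹ ^ h)|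
      ≤ 4 * Lp * (v' - v) * (if (2 : ℝ)⁻¹ ^ h ≤ 2 * v' then (2 : ℝ)⁻¹ ^ h else 0) := by
    intro h _
    have hu : (0 : ℝ) < (2 : ℝ)⁻¹ ^ h := by positivity
    by_cases hb : (2 : ℝ)⁻¹ ^ h ≤ 2 * v'
    · rw [if_pos hb, ← mul_sub, abs_mul, abs_mul, abs_of_nonneg (sq_nonneg ((2 : ℝ)⁻¹ ^ h))]
      have h1 : |p.gu h| ≤ 4 := abs_le.2 (hg h)
      have h2 := hLp (v / (2 : ℝ)⁻¹ ^ h) (v' / (2 : ℝ)⁻¹ ^ h)
      rw [← sub_div, abs_div, abs_of_nonneg hd0, abs_of_pos hu] at h2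
      calc |p.gu h| * ((2 : ℝ)⁻¹ ^ h) ^ 2 * |F.phi (v' / (2 : ℝ)⁻¹ ^ h) - F.phi (v / (2 : ℝ)⁻¹ ^ h)|
          ≤ 4 * ((2 : ℝ)⁻¹ ^ h) ^ 2 * (Lp * ((v' - v) / (2 : ℝ)⁻¹ ^ h)) :=
            mul_le_mul (mul_le_mul_of_nonneg_right h1 (sq_nonneg _)) h2 (abs_nonneg _) (by positivity)
        _ = 4 * Lp * (v' - v) * (2 : ℝ)⁻¹ ^ h := by field_simp
    · rw [if_neg hb]
      rw [not_le] at hb
      rw [lcb_phi_zero F hF _ (Or.inl ((div_le_iff₀ hu).2 (by linarith))),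
        lcb_phi_zero F hF _ (Or.inl ((div_le_iff₀ hu).2 (by linarith)))]
      simp
  refine (Finset.sum_le_sum key).trans ?_
  rw [← Finset.mul_sum, ← Finset.sum_filter]
  have := lcb_geom (hfin.toFinset.filter (fun h => (2 : ℝ)⁻¹ ^ h ≤ 2 * v')) (2 * v') (by positivity)
    (fun h hh => (Finset.mem_filter.1 hh).2)
  calc 4 * Lp * (v' - v) * ∑ h ∈ hfin.toFinset.filter (fun h => (2 : ℝ)⁻¹ ^ h ≤ 2 * v'), (2 : ℝ)⁻¹ ^ h
      ≤ 4 * Lp * (v' - v) * (2 * (2 * v')) := mul_le_mul_of_nonneg_left this (by positivity)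
    _ = 16 * Lp * v' * (v' - v) := by ring

/-- **`dySum` is dominated by `G`** (this is what makes `b` monotone).   HINT: replace `v` by `max v (8x)` and `v'` by `min v' vb` (`lcb_dy_zero`, `lcb_G_mono`); on `[8x,vb]`: `v'(v'-v) ≤ v'^2 - v^2 = G v' - G v`. -/
theorem lcb_dy_le_G (Lp : ℝ) (h0 : 0 ≤ Lp) (hLp : ∀ w w' : ℝ, |F.phi w' - F.phi w| ≤ Lp * |w' - w|) (hg : ∀ h, p.gu h ∈ Icc (-4 : ℝ) 4)
    (v v' : ℝ) (hv : 0 ≤ v) (hvv : v ≤ v') : |p.dySum F v' - p.dySum F v| ≤ 16 * Lp * (p.G F v' - p.G F v) := by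
  have hvb := hF.vb0
  have hmono := lcb_G_mono F hF p hx hxb
  have hG : 0 ≤ 16 * Lp * (p.G F v' - p.G F v) := mul_nonneg (by positivity) (sub_nonneg.2 (hmono hvv))
  rcases le_total v' (8 * p.x) with c1 | c1
  · rw [lcb_dy_zero F hF p hx hxb v' (Or.inl c1), lcb_dy_zero F hF p hx hxb v (Or.inl (hvv.trans c1))]
    simpa using hG
  rcases le_total F.vb v with c2 | c2
  · rw [lcb_dy_zero F hF p hx hxb v' (Or.inr (by linarith)), lcb_dy_zero F hF p hx hxb v (Or.inr (by linarith))]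
    simpa using hG
  have e1 : p.dySum F v = p.dySum F (max v (8 * p.x)) := by
    rcases le_total v (8 * p.x) with h | h
    · rw [max_eq_right h, lcb_dy_zero F hF p hx hxb v (Or.inl h), lcb_dy_zero F hF p hx hxb _ (Or.inl le_rfl)]
    · rw [max_eq_left h]
  have e2 : p.dySum F v' = p.dySum F (min v' F.vb) := by
    rcases le_total v' F.vb with h | h
    · rw [min_eq_left h]
    · rw [min_eq_right h, lcb_dy_zero F hF p hx hxb v' (Or.inr (by linarith)),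
        lcb_dy_zero F hF p hx hxb F.vb (Or.inr (by linarith))]
  have h12 : max v (8 * p.x) ≤ min v' F.vb := max_le (le_min hvv c2) (le_min c1 hxb)
  have hm0 : 0 ≤ max v (8 * p.x) := hv.trans (le_max_left _ _)
  rw [e1, e2]
  have h3 := lcb_dy_incr F hF p hx hxb Lp h0 hLp hg (max v (8 * p.x)) (min v' F.vb) hm0 h12
  have h4 : min v' F.vb * (min v' F.vb - max v (8 * p.x)) ≤ p.G F (min v' F.vb) - p.G F (max v (8 * p.x)) := by
    rw [lcb_G_sq F hF p hx hxb _ ((le_max_right v (8 * p.x)).trans h12) (min_le_right _ _),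
      lcb_G_sq F hF p hx hxb _ (le_max_right v (8 * p.x)) (h12.trans (min_le_right _ _))]
    nlinarith
  have h5 : p.G F (min v' F.vb) ≤ p.G F v' := hmono (min_le_left _ _)
  have h6 : p.G F v ≤ p.G F (max v (8 * p.x)) := hmono (le_max_left _ _)
  calc |p.dySum F (min v' F.vb) - p.dySum F (max v (8 * p.x))|
      ≤ 16 * Lp * (min v' F.vb * (min v' F.vb - max v (8 * p.x))) := by rw [← mul_assoc]; exact h3
    _ ≤ 16 * Lp * (p.G F v' - p.G F v) := mul_le_mul_of_nonneg_left (by linarith) (by positivity)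

end pt

/-- **EXIT of file B.** -/
theorem lcb_main (F : LlFix) (hF : F.Ok) : ∃ CG CD cG : ℝ, 1 ≤ CG ∧ 0 ≤ CD ∧ 0 < cG ∧ ∀ p : LlPt, 0 < p.x → 8 * p.x ≤ F.vb → (∀ h, p.gu h ∈ Icc (-4 : ℝ) 4) →
    Monotone (p.G F) ∧ (∀ v ≤ p.x, p.G F v = 0) ∧ (∀ v, 2 * F.vb ≤ v → p.G F v = p.G F (2 * F.vb)) ∧
    (∀ v, 0 ≤ v → p.G F v ≤ CG * v ^ 2) ∧ (∀ v, 8 * p.x ≤ v → v ≤ 4 → cG * v ^ 2 ≤ p.G F v) ∧
    (∀ v v', 0 ≤ v → v ≤ v' → p.G F v' - p.G F v ≤ CG * v' * (v' - v)) ∧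
    (∀ v v', 0 ≤ v → v ≤ v' → |p.dySum F v' - p.dySum F v| ≤ CD * (p.G F v' - p.G F v)) ∧ p.dySum F 0 = 0 := by
  obtain ⟨L0, L1, Lp, h0, h1, hp0, hL0, hL1, hLp⟩ := lcb_consts F hF
  have hvb := hF.vb0
  refine ⟨max (max 64 (F.G1 2)) (L0 + L1 + 2), 16 * Lp, min 1 (F.vb ^ 2 / 16), ?_, by positivity,
    lt_min one_pos (by positivity), ?_⟩
  · exact le_trans (by norm_num : (1 : ℝ) ≤ 64) ((le_max_left _ _).trans (le_max_left _ _))
  intro p hx hxb hg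
  refine ⟨lcb_G_mono F hF p hx hxb, fun v hv => lcb_G_zero F hF p hx hxb v hv, fun v hv => ?_, fun v hv => ?_,
    fun v h8 h4 => lcb_G_ge F hF p hx hxb v h8 h4, fun v v' hv hvv => ?_,
    fun v v' hv hvv => lcb_dy_le_G F hF p hx hxb Lp hp0 hLp hg v v' hv hvv,
    lcb_dy_zero F hF p hx hxb 0 (Or.inl (by linarith))⟩
  · rw [lcb_G_const F hF p hx hxb v hv, lcb_G_const F hF p hx hxb _ le_rfl]
  · exact (lcb_G_le F hF p hx hxb v hv).trans (mul_le_mul_of_nonneg_right (le_max_left _ _) (sq_nonneg _))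
  · refine (lcb_G_incr F hF p hx hxb L0 L1 h0 h1 hL0 hL1 v v' hv hvv).trans ?_
    exact mul_le_mul_of_nonneg_right (mul_le_mul_of_nonneg_right (le_max_right _ _) (hv.trans hvv)) (by linarith)

end Claimed.Agent.R286
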