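import Claimed.Agent.R286.LL.PathsClkC

/-!
# Row 286 (S0533), LL Section 3, block CLK (head helper253), file C2: SUPPLEMENT TO FILE C      (owner helper46; prefix `lcx_`; 0 sorries)

What file C (helper269) leaves as hypotheses or does not state:
* from the DEFINITION of `A_0`:  `lcx_A0_mono` (monotone on `ℝ`), `lcx_A0_le_one`   (so `LccBase.A0mono` is free);
* producers of `LccRamp.xi_le`, `LccRamp.xi_ge` on a direct path, from the definition of `ξ(v)`:  `lcx_xi_act`, `lcx_xi_pla`;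
* `lcx_Eb_scale`:  `Ũ ≤ Ũ'  ⇒  E_b ≤ E_b' ≤ (Ũ'/Ũ)² E_b`   (LL 03 l.419 `|dE_b / d log λ| ≲ E_b`, in Lipschitz form, WITHOUT `A_0'(ξ_*-) > 0`; for file F = strength derivatives);
* `lcx_HePl_slope_up`:  the UPPER slope of the plateau profile (l.425 says "comparable to `λ_1 U² / d'^{3/2}`"; file C has the lower one).
-/

set_option autoImplicit false

namespace Claimed.Agent.R286

open MeasureTheory Set

/-! ## 0. the base profile `A_0` (from its definition) -/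

theorem lcx_A0_mono (𝔹 : LlBase) (T : ℝ) : Monotone (𝔹.A0 T) := by
  intro ξ ξ' h
  unfold LlBase.A0
  apply ENNReal.toReal_mono
  · refine ne_top_of_le_ne_top (b := volume (Ioo (0 : ℝ) 1)) (by simp) (measure_mono ?_)
    intro w hw; exact hw.1
  · apply measure_mono
    intro w hw
    exact ⟨hw.1, hw.2.trans h⟩

theorem lcx_A0_le_one (𝔹 : LlBase) (T ξ : ℝ) : 𝔹.A0 T ξ ≤ 1 := by
  unfold LlBase.A0
  have h1 : volume {w : ℝ | w ∈ Ioo (0 : ℝ) 1 ∧ T * 𝔹.zMin T w ≤ ξ} ≤ volume (Ioo (0 : ℝ) 1) :=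
    measure_mono (fun w hw => hw.1)
  have h2 : volume (Ioo (0 : ℝ) 1) = 1 := by simp
  rw [h2] at h1
  exact ENNReal.toReal_le_of_le_ofReal zero_le_one (by simpa using h1)

/-! ## 1. the implicit equation `c / E² = g E`: dependence on `c = u⁴` -/

/-- the set defining `E_b` -/
def lcxSet (g : ℝ → ℝ) (c : ℝ) : Set ℝ := {E : ℝ | 0 < E ∧ c / E ^ 2 ≤ g E}

theorem lcx_set_bdd (g : ℝ → ℝ) (c : ℝ) : BddBelow (lcxSet g c) := ⟨0, fun _ hE => hE.1.le⟩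

/-- monotone dependence on `u`, with the scaling bound `E_b(u') ≤ (u'/u)² E_b(u)` -/
theorem lcx_sInf_scale {g : ℝ → ℝ} (hg : Monotone g) {u u' : ℝ} (hu : 0 < u) (huu : u ≤ u') {E1 : ℝ}
    (hE1 : E1 ∈ lcxSet g (u' ^ 4)) :
    sInf (lcxSet g (u ^ 4)) ≤ sInf (lcxSet g (u' ^ 4)) ∧
      sInf (lcxSet g (u' ^ 4)) ≤ (u' / u) ^ 2 * sInf (lcxSet g (u ^ 4)) := by
  have hu' : 0 < u' := hu.trans_le huu
  have h44 : u ^ 4 ≤ u' ^ 4 := pow_le_pow_left₀ hu.le huu 4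
  have hsub : lcxSet g (u' ^ 4) ⊆ lcxSet g (u ^ 4) := by
    intro E hE
    refine ⟨hE.1, le_trans ?_ hE.2⟩
    have := hE.1
    exact div_le_div_of_nonneg_right h44 (by positivity)
  constructor
  · exact csInf_le_csInf (lcx_set_bdd _ _) ⟨E1, hE1⟩ hsub
  · have hr : 1 ≤ (u' / u) ^ 2 := by
      have : 1 ≤ u' / u := by rw [le_div_iff₀ hu]; linarith
      nlinarith
    have hne : (lcxSet g (u ^ 4)).Nonempty := ⟨E1, hsub hE1⟩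
    have key : ∀ E ∈ lcxSet g (u ^ 4), sInf (lcxSet g (u' ^ 4)) ≤ (u' / u) ^ 2 * E := by
      intro E hE
      apply csInf_le (lcx_set_bdd _ _)
      have hE0 := hE.1
      refine ⟨by positivity, ?_⟩
      have h1 : u' ^ 4 / ((u' / u) ^ 2 * E) ^ 2 = u ^ 4 / E ^ 2 := by
        field_simp
      rw [h1]
      exact hE.2.trans (hg (by nlinarith))
    have hpos : 0 < (u' / u) ^ 2 := by positivity
    have : sInf (lcxSet g (u' ^ 4)) / (u' / u) ^ 2 ≤ sInf (lcxSet g (u ^ 4)) := by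
      apply le_csInf hne
      intro E hE
      rw [div_le_iff₀ hpos]
      linarith [key E hE]
    rw [div_le_iff₀ hpos] at this
    linarith

/-- `g(E) = p_top - A_0(ξ_* - E)` -/
noncomputable def lcxG (𝔹 : LlBase) (T : ℝ) (E : ℝ) : ℝ := 𝔹.pTop T - 𝔹.A0 T (𝔹.xiS T - E)

theorem lcx_G_mono (𝔹 : LlBase) (T : ℝ) : Monotone (lcxG 𝔹 T) := by
  intro E E' h
  unfold lcxG
  have := lcx_A0_mono 𝔹 T (show 𝔹.xiS T - E' ≤ 𝔹.xiS T - E by linarith)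
  linarith

/-- **`E_b` as a function of `Ũ`**: two points `p`, `p'` of paths (same `F`, `𝔹`) with `Ũ ≤ Ũ'` -/
theorem lcx_Eb_scale {F : LlFix} {𝔹 : LlBase} {p p' : LlPt} {E1 : ℝ} (H' : LccBase F 𝔹 p' E1) (hU : 0 < p.Ut F)
    (hUU : p.Ut F ≤ p'.Ut F) :
    p.Eb F 𝔹 ≤ p'.Eb F 𝔹 ∧ p'.Eb F 𝔹 ≤ (p'.Ut F / p.Ut F) ^ 2 * p.Eb F 𝔹 :=
  lcx_sInf_scale (lcx_G_mono 𝔹 F.T) hU hUU (show E1 ∈ lcxSet (lcxG 𝔹 F.T) (p'.Ut F ^ 4) from ⟨H'.E10, H'.E1mem⟩)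

/-! ## 2. the normalised time `ξ(v)` of a direct path near the edge -/

theorem lcx_inv_le {A : ℝ → ℝ} {w ξ : ℝ} (h0 : 0 ≤ ξ) (h : w ≤ A ξ) : llInv A w ≤ ξ :=
  csInf_le ⟨0, fun _ hx => hx.1⟩ ⟨h0, h⟩

theorem lcx_le_inv {A : ℝ → ℝ} {w ξ0 ξ1 : ℝ} (h1 : 0 ≤ ξ1) (hw : w ≤ A ξ1) (h : ∀ ξ, 0 ≤ ξ → w ≤ A ξ → ξ0 ≤ ξ) : ξ0 ≤ llInv A w :=
  le_csInf ⟨ξ1, h1, hw⟩ (fun ξ hξ => h ξ hξ.1 hξ.2)

section direct

variable {F : LlFix} {𝔹 : LlBase} {p : LlPt}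

theorem lcx_xi_direct (hsm : p.sm = false) (v : ℝ) : p.xi F 𝔹 v = llInv (p.Adir F 𝔹) (v / p.ell) := by
  unfold LlPt.xi LlPt.Aprof
  rw [hsm]; simp

theorem lcx_Adir_ge (hP : ∀ ξ, 0 ≤ ξ → 0 ≤ F.P ξ) (hlam : 0 ≤ p.lam) {ξ : ℝ} (hξ : 0 ≤ ξ) : 𝔹.A0 F.T ξ ≤ p.Adir F 𝔹 ξ := by
  unfold LlPt.Adir
  linarith [mul_nonneg hlam (hP ξ hξ)]

/-- producer of `LccRamp.xi_le` -/
theorem lcx_xi_act (hsm : p.sm = false) (hP : ∀ ξ, 0 ≤ ξ → 0 ≤ F.P ξ) (hlam : 0 ≤ p.lam) (hxS : 0 < 𝔹.xiS F.T)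
    {v : ℝ} (h : v / p.ell < 𝔹.pTop F.T) : p.xi F 𝔹 v ≤ 𝔹.xiS F.T := by
  rw [lcx_xi_direct hsm]
  have hne : ((𝔹.A0 F.T) '' Iio (𝔹.xiS F.T)).Nonempty := ⟨_, 0, hxS, rfl⟩
  obtain ⟨y, ⟨ξ, hξ, rfl⟩, hy⟩ := exists_lt_of_lt_csSup hne h
  have h1 : 𝔹.A0 F.T ξ ≤ 𝔹.A0 F.T (max ξ 0) := lcx_A0_mono 𝔹 F.T (le_max_left _ _)
  have h2 : max ξ 0 < 𝔹.xiS F.T := max_lt hξ hxS
  have h3 := lcx_Adir_ge (𝔹 := 𝔹) (p := p) hP hlam (le_max_right ξ 0)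
  exact (lcx_inv_le (le_max_right ξ 0) (by linarith)).trans h2.le

/-- producer of `LccRamp.xi_ge` (`hA`: the direct profile stays below `p_top` before `ξ_*`: FULL SUPPORT + `λ` small) -/
theorem lcx_xi_pla (hsm : p.sm = false) (hP : ∀ ξ, 0 ≤ ξ → 0 ≤ F.P ξ) (hlam : 0 ≤ p.lam) (hxS : 0 < 𝔹.xiS F.T)
    (htop : 𝔹.A0 F.T (𝔹.xiS F.T) = 1) (hA : ∀ ξ ∈ Ico 0 (𝔹.xiS F.T), p.Adir F 𝔹 ξ < 𝔹.pTop F.T)
    {v : ℝ} (h : 𝔹.pTop F.T ≤ v / p.ell) (h1 : v / p.ell ≤ 1) : 𝔹.xiS F.T ≤ p.xi F 𝔹 v := by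
  rw [lcx_xi_direct hsm]
  refine lcx_le_inv hxS.le ?_ ?_
  · have := lcx_Adir_ge (𝔹 := 𝔹) (p := p) hP hlam hxS.le
    linarith
  · intro ξ h0 hw
    by_contra hcon
    have := hA ξ ⟨h0, not_le.mp hcon⟩
    linarith

end direct

/-! ## 3. the upper slope -/

theorem lcx_r3_eq {t : ℝ} (ht : 0 < t) : t ^ (-(3 / 2) : ℝ) = (t * Real.sqrt t)⁻¹ := by
  have h1 : (-(3 / 2) : ℝ) = -1 + -(1 / 2) := by norm_num
  rw [h1, Real.rpow_add ht, lcc_rs_eq ht.le, Real.rpow_neg_one, mul_inv]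

theorem lcx_rs_slope_up {t t' : ℝ} (ht : 0 < t) (h : t ≤ t') :
    t ^ (-(1 / 2) : ℝ) - t' ^ (-(1 / 2) : ℝ) ≤ (t' - t) / 2 * t ^ (-(3 / 2) : ℝ) := by
  have ht' : 0 < t' := ht.trans_le h
  rw [lcc_rs_eq ht.le, lcc_rs_eq ht'.le, lcx_r3_eq ht]
  set a := Real.sqrt t with ha
  set b := Real.sqrt t' with hb
  have ha0 : 0 < a := Real.sqrt_pos.mpr ht
  have hb0 : 0 < b := Real.sqrt_pos.mpr ht'
  have hab : a ≤ b := Real.sqrt_le_sqrt h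
  have hta : t = a ^ 2 := (Real.sq_sqrt ht.le).symm
  have htb : t' = b ^ 2 := (Real.sq_sqrt ht'.le).symm
  rw [hta, htb]
  have e1 : a⁻¹ - b⁻¹ = (b - a) / (a * b) := by field_simp
  have e3 : (b ^ 2 - a ^ 2) / 2 * (a ^ 2 * a)⁻¹ = (b - a) * (a + b) / (2 * a ^ 3) := by field_simp; ring
  rw [e1, e3, div_le_div_iff₀ (by positivity) (by positivity)]
  have h1 : 2 * a ^ 3 ≤ (a + b) * (a * b) := by
    nlinarith [mul_pos ha0 hb0, mul_nonneg (sub_nonneg.mpr hab) ha0.le, mul_nonneg (mul_nonneg (sub_nonneg.mpr hab) ha0.le) ha0.le,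
      mul_nonneg (mul_nonneg (sub_nonneg.mpr hab) hb0.le) ha0.le]
  nlinarith [mul_le_mul_of_nonneg_left h1 (sub_nonneg.mpr hab)]

/-- upper slope of the plateau profile -/
theorem lcx_HePl_slope_up {F : LlFix} {𝔹 : LlBase} {p : LlPt} {E1 : ℝ} (H : LccBase F 𝔹 p E1) (w w' : ℝ)
    (hw : 𝔹.pTop F.T ≤ w) (hww : w ≤ w') (hw' : w' ≤ 1) :
    p.HePl F 𝔹 w' - p.HePl F 𝔹 w ≤ p.lam1 F * F.Ups (p.U F) * p.Ut F ^ 2 * ((w' - w) / 2 *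
      ((1 - w' + p.dPl F) ^ (-(3 / 2) : ℝ) + (w - 𝔹.pTop F.T + p.dMi F 𝔹) ^ (-(3 / 2) : ℝ))) := by
  have hP := lcc_dPl_pos H
  have hM := lcc_dMi_pos H
  unfold LlPt.HePl
  rw [← mul_sub]
  refine mul_le_mul_of_nonneg_left ?_ (lcc_amp_nonneg H)
  have e1 := lcx_rs_slope_up (t := 1 - w' + p.dPl F) (t' := 1 - w + p.dPl F) (by linarith) (by linarith)
  have e2 := lcx_rs_slope_up (t := w - 𝔹.pTop F.T + p.dMi F 𝔹) (t' := w' - 𝔹.pTop F.T + p.dMi F 𝔹)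
    (by linarith) (by linarith)
  have a1 : 1 - w + p.dPl F - (1 - w' + p.dPl F) = w' - w := by ring
  have a2 : w' - 𝔹.pTop F.T + p.dMi F 𝔹 - (w - 𝔹.pTop F.T + p.dMi F 𝔹) = w' - w := by ring
  rw [a1] at e1
  rw [a2] at e2
  linarith

theorem lcx_eqns_cite : True := by
  have := @lcxSet.eq_1
  have := @lcxG.eq_1
  trivial

end Claimed.Agent.R286
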