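import Claimed.Agent.R286.LL.PathsDefs

/-!
# Row 286 (S0533), LL Section 3, block CLK (head helper253), file D: (P8) AND (P9), POINTWISE      (architect + prover: helper275; prefix `lcd_`)

LL 03-paths.tex l.439-475 ((P8)) and l.503-512 ((P9)).   Pure real analysis: every fact about the scalar model is an EXPLICIT HYPOTHESIS, all constants are explicit (`lcdC8`, `lcdC9b`, `lcdC9h`, exponent `lcdKap`).
EXITS: `lcd_p8`, `lcd_p9_b`, `lcd_p9_h`, `lcd_log_sub` (the logarithm is a subpower loss), `lcd_He_*` (elementary facts on `H_e` read off the definition).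
-/

set_option autoImplicit false

namespace Claimed.Agent.R286

open MeasureTheory Set

/-! ### measure theory -/

/-- domination by a finite sum of localized integrable majorants (no measurability of `f` needed) -/
theorem lcd_sum_bound {ι : Type} (s : Finset ι) (S : ι → Set ℝ) (h : ι → ℝ → ℝ) (B : ι → ℝ) (f : ℝ → ℝ) (T : Set ℝ)
    (hT : MeasurableSet T) (hS : ∀ i ∈ s, MeasurableSet (S i)) (hint : ∀ i ∈ s, IntegrableOn (h i) (S i))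
    (hnn : ∀ i ∈ s, ∀ v ∈ S i, 0 ≤ h i v) (hB : ∀ i ∈ s, ∫ v in S i, h i v ≤ B i)
    (hf0 : ∀ v ∈ T, 0 ≤ f v) (hf : ∀ v ∈ T, f v ≤ ∑ i ∈ s, (S i).indicator (h i) v) :
    ∫ v in T, f v ≤ ∑ i ∈ s, B i := by
  have hg0 : ∀ v, 0 ≤ ∑ i ∈ s, (S i).indicator (h i) v := fun v =>
    Finset.sum_nonneg fun i hi => indicator_nonneg (hnn i hi) v
  have hgi : Integrable (fun v => ∑ i ∈ s, (S i).indicator (h i) v) :=
    integrable_finsetSum s fun i hi => (hint i hi).integrable_indicator (hS i hi)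
  calc ∫ v in T, f v = ∫ v, T.indicator f v := (integral_indicator hT).symm
    _ ≤ ∫ v, ∑ i ∈ s, (S i).indicator (h i) v := by
        refine integral_mono_of_nonneg (Filter.Eventually.of_forall fun v => indicator_nonneg hf0 v) hgi
          (Filter.Eventually.of_forall fun v => ?_)
        by_cases hv : v ∈ T
        · simpa [indicator_of_mem hv] using hf v hv
        · simpa [indicator_of_notMem hv] using hg0 v
    _ = ∑ i ∈ s, ∫ v, (S i).indicator (h i) v :=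
        integral_finsetSum s fun i hi => (hint i hi).integrable_indicator (hS i hi)
    _ = ∑ i ∈ s, ∫ v in S i, h i v := Finset.sum_congr rfl fun i hi => integral_indicator (hS i hi)
    _ ≤ ∑ i ∈ s, B i := Finset.sum_le_sum hB

/-- `∫_0^a dv/(v²+U²) ≤ 2/U` -/
theorem lcd_int_inv_sq (a U : ℝ) (ha : 0 ≤ a) (hU : 0 < U) :
    IntegrableOn (fun v : ℝ => (v ^ 2 + U ^ 2)⁻¹) (Ioo 0 a) ∧ ∫ v in Ioo 0 a, (v ^ 2 + U ^ 2)⁻¹ ≤ 2 / U := by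
  have hpos : ∀ v : ℝ, 0 < v ^ 2 + U ^ 2 := fun v => by positivity
  have hc : Continuous fun v : ℝ => (v ^ 2 + U ^ 2)⁻¹ :=
    (by fun_prop : Continuous fun v : ℝ => v ^ 2 + U ^ 2).inv₀ fun v => (hpos v).ne'
  have hii : IntervalIntegrable (fun v : ℝ => (v ^ 2 + U ^ 2)⁻¹) volume 0 a := hc.intervalIntegrable _ _
  refine ⟨((intervalIntegrable_iff_integrableOn_Ioo_of_le ha).1 hii), ?_⟩
  have hd : ∀ v ∈ uIcc 0 a, HasDerivAt (fun v : ℝ => U⁻¹ * Real.arctan (v / U)) ((v ^ 2 + U ^ 2)⁻¹) v := by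
    intro v _
    have h1 : HasDerivAt (fun v : ℝ => v / U) (1 / U) v := (hasDerivAt_id v).div_const U
    have h2 := (h1.arctan).const_mul U⁻¹
    have h4 : (v ^ 2 + U ^ 2)⁻¹ = U⁻¹ * (1 / (1 + (v / U) ^ 2) * (1 / U)) := by
      have h3 : 1 + (v / U) ^ 2 = (v ^ 2 + U ^ 2) / U ^ 2 := by field_simp; ring
      rw [h3]
      field_simp
    rw [h4]
    exact h2
  have he := intervalIntegral.integral_eq_sub_of_hasDerivAt hd hii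
  rw [← integral_Ioc_eq_integral_Ioo, ← intervalIntegral.integral_of_le ha, he]
  simp only [zero_div, Real.arctan_zero, mul_zero, sub_zero]
  have h3 : Real.arctan (a / U) ≤ 2 := by
    have := Real.arctan_lt_pi_div_two (a / U)
    have := Real.pi_le_four
    linarith
  rw [div_eq_mul_inv, mul_comm]
  exact mul_le_mul_of_nonneg_right h3 (inv_nonneg.2 hU.le)

/-- logarithmic integrals -/
theorem lcd_int_log_up (l c α β : ℝ) (hl : 0 < l) (hαβ : α ≤ β) (hpos : 0 < α / l + c) :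
    IntegrableOn (fun v : ℝ => (v / l + c)⁻¹) (Ico α β) ∧
      ∫ v in Ico α β, (v / l + c)⁻¹ = l * Real.log ((β / l + c) / (α / l + c)) := by
  have hp : ∀ v ∈ uIcc α β, 0 < v / l + c := by
    intro v hv
    rw [uIcc_of_le hαβ] at hv
    have : α / l ≤ v / l := div_le_div_of_nonneg_right hv.1 hl.le
    linarith
  have hc : ContinuousOn (fun v : ℝ => (v / l + c)⁻¹) (uIcc α β) :=
    (by fun_prop : ContinuousOn (fun v : ℝ => v / l + c) (uIcc α β)).inv₀ fun v hv => (hp v hv).ne'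
  have hii : IntervalIntegrable (fun v : ℝ => (v / l + c)⁻¹) volume α β := hc.intervalIntegrable
  refine ⟨(intervalIntegrable_iff_integrableOn_Ico_of_le hαβ).1 hii, ?_⟩
  have hd : ∀ v ∈ uIcc α β, HasDerivAt (fun v : ℝ => l * Real.log (v / l + c)) ((v / l + c)⁻¹) v := by
    intro v hv
    have h1 : HasDerivAt (fun v : ℝ => v / l + c) (1 / l) v := ((hasDerivAt_id v).div_const l).add_const c
    have h2 := (h1.log (hp v hv).ne').const_mul l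
    have h4 : (v / l + c)⁻¹ = l * (1 / l / (v / l + c)) := by
      have := hp v hv
      field_simp
    rw [h4]
    exact h2
  have he := intervalIntegral.integral_eq_sub_of_hasDerivAt hd hii
  rw [integral_Ico_eq_integral_Ioc, ← intervalIntegral.integral_of_le hαβ, he,
    Real.log_div (hp β right_mem_uIcc).ne' hpos.ne']
  ring

theorem lcd_int_log_dn (l c α β : ℝ) (hl : 0 < l) (hαβ : α ≤ β) (hpos : 0 < c - β / l) :
    IntegrableOn (fun v : ℝ => (c - v / l)⁻¹) (Ico α β) ∧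
      ∫ v in Ico α β, (c - v / l)⁻¹ = l * Real.log ((c - α / l) / (c - β / l)) := by
  have hp : ∀ v ∈ uIcc α β, 0 < c - v / l := by
    intro v hv
    rw [uIcc_of_le hαβ] at hv
    have : v / l ≤ β / l := div_le_div_of_nonneg_right hv.2 hl.le
    linarith
  have hc : ContinuousOn (fun v : ℝ => (c - v / l)⁻¹) (uIcc α β) :=
    (by fun_prop : ContinuousOn (fun v : ℝ => c - v / l) (uIcc α β)).inv₀ fun v hv => (hp v hv).ne'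
  have hii : IntervalIntegrable (fun v : ℝ => (c - v / l)⁻¹) volume α β := hc.intervalIntegrable
  refine ⟨(intervalIntegrable_iff_integrableOn_Ico_of_le hαβ).1 hii, ?_⟩
  have hd : ∀ v ∈ uIcc α β, HasDerivAt (fun v : ℝ => -(l * Real.log (c - v / l))) ((c - v / l)⁻¹) v := by
    intro v hv
    have h1 : HasDerivAt (fun v : ℝ => c - v / l) (-(1 / l)) v := ((hasDerivAt_id v).div_const l).const_sub c
    have h2 := ((h1.log (hp v hv).ne').const_mul l).neg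
    have h4 : (c - v / l)⁻¹ = -(l * (-(1 / l) / (c - v / l))) := by
      have := hp v hv
      field_simp
    rw [h4]
    exact h2
  have he := intervalIntegral.integral_eq_sub_of_hasDerivAt hd hii
  rw [integral_Ico_eq_integral_Ioc, ← intervalIntegral.integral_of_le hαβ, he,
    Real.log_div (hp α left_mem_uIcc).ne' hpos.ne']
  ring

/-- the measure-theoretic core of (P8) -/
theorem lcd_core (a x U l pT dP dM A1 A2 A3 A4 A5 : ℝ) (f : ℝ → ℝ)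
    (ha : 0 ≤ a) (hx : 0 ≤ x) (hU : 0 < U) (hl : 0 < l) (hpT : pT ≤ 1) (hdP : 0 < dP) (hdM : 0 < dM)
    (hA1 : 0 ≤ A1) (hA2 : 0 ≤ A2) (hA3 : 0 ≤ A3) (hA4 : 0 ≤ A4) (hA5 : 0 ≤ A5)
    (hf0 : ∀ v ∈ Ioo 0 a, 0 ≤ f v)
    (hf : ∀ v ∈ Ioo 0 a, f v ≤ (Ioo 0 x).indicator (fun _ => A1) v + A2 * (v ^ 2 + U ^ 2)⁻¹ + A3
      + (Ico (l * (pT - dM)) (l * pT)).indicator (fun _ => A4) v
      + (Ico (l * pT) l).indicator (fun v => A5 * ((1 + dP - v / l)⁻¹ + (v / l + (dM - pT))⁻¹)) v) :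
    ∫ v in (0 : ℝ)..a, f v ≤ A1 * x + A2 * (2 / U) + A3 * a + A4 * (l * dM)
      + A5 * (l * Real.log ((1 - pT + dP) / dP) + l * Real.log ((1 - pT + dM) / dM)) := by
  have hlp : l * pT ≤ l := by nlinarith
  have e1 : l * pT / l = pT := by field_simp
  have e2 : l / l = 1 := div_self hl.ne'
  obtain ⟨i2, b2⟩ := lcd_int_inv_sq a U ha hU
  obtain ⟨i5, b5⟩ := lcd_int_log_dn l (1 + dP) (l * pT) l hl hlp (by rw [e2]; linarith)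
  obtain ⟨i6, b6⟩ := lcd_int_log_up l (dM - pT) (l * pT) l hl hlp (by rw [e1]; linarith)
  rw [e1, e2] at b5 b6
  have key := lcd_sum_bound (Finset.univ : Finset (Fin 5))
    ![Ioo 0 x, Ioo 0 a, Ioo 0 a, Ico (l * (pT - dM)) (l * pT), Ico (l * pT) l]
    ![fun _ => A1, fun v => A2 * (v ^ 2 + U ^ 2)⁻¹, fun _ => A3, fun _ => A4,
      fun v => A5 * ((1 + dP - v / l)⁻¹ + (v / l + (dM - pT))⁻¹)]
    ![A1 * x, A2 * (2 / U), A3 * a, A4 * (l * dM),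
      A5 * (l * Real.log ((1 - pT + dP) / dP) + l * Real.log ((1 - pT + dM) / dM))]
    f (Ioo 0 a) measurableSet_Ioo ?_ ?_ ?_ ?_ hf0 ?_
  · rw [intervalIntegral.integral_of_le ha, integral_Ioc_eq_integral_Ioo]
    simpa [Fin.sum_univ_five] using key
  · intro i _
    fin_cases i <;> simp
  · intro i _
    fin_cases i
    · simp
    · show IntegrableOn (fun v => A2 * (v ^ 2 + U ^ 2)⁻¹) (Ioo 0 a)
      exact i2.const_mul A2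
    · simp
    · simp
    · show IntegrableOn (fun v => A5 * ((1 + dP - v / l)⁻¹ + (v / l + (dM - pT))⁻¹)) (Ico (l * pT) l)
      exact (i5.add i6).const_mul A5
  · intro i _ v hv
    fin_cases i
    · simpa using hA1
    · have : 0 < v ^ 2 + U ^ 2 := by positivity
      simpa using mul_nonneg hA2 (inv_nonneg.2 this.le)
    · simpa using hA3
    · simpa using hA4
    · have hv' : v ∈ Ico (l * pT) l := by simpa using hv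
      have h1 : pT ≤ v / l := by rw [le_div_iff₀ hl]; linarith [hv'.1]
      have h2 : v / l < 1 := by rw [div_lt_one hl]; exact hv'.2
      have h3 : 0 ≤ (1 + dP - v / l)⁻¹ := inv_nonneg.2 (by linarith)
      have h4 : 0 ≤ (v / l + (dM - pT))⁻¹ := inv_nonneg.2 (by linarith)
      simpa using mul_nonneg hA5 (add_nonneg h3 h4)
  · intro i _
    fin_cases i
    · simp [hx, mul_comm]
    · show ∫ v in Ioo 0 a, A2 * (v ^ 2 + U ^ 2)⁻¹ ≤ A2 * (2 / U)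
      rw [integral_const_mul]
      exact mul_le_mul_of_nonneg_left b2 hA2
    · simp [ha, mul_comm]
    · have : l * pT - l * (pT - dM) = l * dM := by ring
      have h0 : 0 ≤ l * dM := by positivity
      simp [this, h0, mul_comm]
    · show ∫ v in Ico (l * pT) l, A5 * ((1 + dP - v / l)⁻¹ + (v / l + (dM - pT))⁻¹)
        ≤ A5 * (l * Real.log ((1 - pT + dP) / dP) + l * Real.log ((1 - pT + dM) / dM))
      have h2 : 1 + dP - pT = 1 - pT + dP := by ring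
      have h3 : 1 + dP - 1 = dP := by ring
      have h4 : 1 + (dM - pT) = 1 - pT + dM := by ring
      have h5 : pT + (dM - pT) = dM := by ring
      rw [h2, h3] at b5
      rw [h4, h5] at b6
      rw [integral_const_mul, integral_add i5 i6, b5, b6]
  · intro v hv
    have := hf v hv
    simpa [Fin.sum_univ_five, indicator_of_mem hv] using this

/-- (P8) for abstract clocks: the four pieces -/
theorem lcd_p8_abs (a x U l pT dP dM lam Lam lam1 L cg0 C4 vb chiL A4 A5 : ℝ) (d cg hS Hlo Hlin e : ℝ → ℝ)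
    (ha : 0 ≤ a) (hx : 0 < x) (hxU : x ≤ U) (hl : 0 < l) (hpT : pT ≤ 1) (hdP : 0 < dP) (hdM : 0 < dM)
    (hlam : 0 < lam) (hLam : 0 ≤ Lam) (hl1 : lam1 ^ 2 = lam * Lam) (hcg0 : 0 < cg0)
    (hvb : 0 < vb) (hA4 : 0 ≤ A4) (hA5 : 0 ≤ A5)
    (hcg : ∀ v ∈ Ioo 0 a, cg0 * lam * (v ^ 2 + U ^ 2) ≤ cg v)
    (hd1 : ∀ v ∈ Ioo 0 a, v < x → d v = -hS v)
    (hd2 : ∀ v ∈ Ioo 0 a, x ≤ v → d v = Hlo v + chiL * Hlin v + e v)
    (hhS : ∀ v ∈ Ioo 0 a, v < x → |hS v| ≤ C4 * lam * (v ^ 3 + v * U ^ 2))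
    (hHlo : ∀ v ∈ Ioo 0 a, x ≤ v → |Hlo v| ≤ lam1 * U ^ 3 * L)
    (hHlin : ∀ v ∈ Ioo 0 a, |Hlin v| ≤ 2 * x ^ 3 ∧ (v ≤ 4 * vb → Hlin v = 0))
    (he : ∀ v ∈ Ioo 0 a, x ≤ v → 3 * e v ^ 2 / (cg0 * lam * (v ^ 2 + U ^ 2)) ≤
      (Ico (l * (pT - dM)) (l * pT)).indicator (fun _ => A4) v
      + (Ico (l * pT) l).indicator (fun v => A5 * ((1 + dP - v / l)⁻¹ + (v / l + (dM - pT))⁻¹)) v) :
    ∫ v in (0 : ℝ)..a, d v ^ 2 / cg v ≤ 2 * C4 ^ 2 * lam * x ^ 2 * U ^ 2 / cg0 * x + 3 * Lam * U ^ 6 * L ^ 2 / cg0 * (2 / U)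
      + 3 * chiL ^ 2 * x ^ 6 / (4 * cg0 * lam * vb ^ 2) * a + A4 * (l * dM)
      + A5 * (l * Real.log ((1 - pT + dP) / dP) + l * Real.log ((1 - pT + dM) / dM)) := by
  have hU : 0 < U := lt_of_lt_of_le hx hxU
  have hc : ∀ v : ℝ, 0 < cg0 * lam * (v ^ 2 + U ^ 2) := fun v => by positivity
  have hi4 : ∀ v, 0 ≤ (Ico (l * (pT - dM)) (l * pT)).indicator (fun _ => A4) v := fun v => indicator_nonneg (fun _ _ => hA4) v
  have hi5 : ∀ v, 0 ≤ (Ico (l * pT) l).indicator (fun v => A5 * ((1 + dP - v / l)⁻¹ + (v / l + (dM - pT))⁻¹)) v := by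
    intro v
    refine indicator_nonneg (fun v hv => ?_) v
    have h1 : pT ≤ v / l := by rw [le_div_iff₀ hl]; linarith [hv.1]
    have h2 : v / l < 1 := by rw [div_lt_one hl]; exact hv.2
    have h3 : 0 ≤ (1 + dP - v / l)⁻¹ := inv_nonneg.2 (by linarith)
    have h4 : 0 ≤ (v / l + (dM - pT))⁻¹ := inv_nonneg.2 (by linarith)
    exact mul_nonneg hA5 (add_nonneg h3 h4)
  refine lcd_core a x U l pT dP dM _ _ _ A4 A5 _ ha hx.le hU hl hpT hdP hdM (by positivity) (by positivity) (by positivity)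
    hA4 hA5 (fun v hv => div_nonneg (sq_nonneg _) ((hc v).le.trans (hcg v hv))) (fun v hv => ?_)
  have h0 : d v ^ 2 / cg v ≤ d v ^ 2 / (cg0 * lam * (v ^ 2 + U ^ 2)) :=
    div_le_div_of_nonneg_left (sq_nonneg _) (hc v) (hcg v hv)
  refine h0.trans ?_
  have hA2 : 0 ≤ 3 * Lam * U ^ 6 * L ^ 2 / cg0 * (v ^ 2 + U ^ 2)⁻¹ := by positivity
  have hA3 : 0 ≤ 3 * chiL ^ 2 * x ^ 6 / (4 * cg0 * lam * vb ^ 2) := by positivity
  rcases lt_or_ge v x with hvx | hvx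
  · -- below the cut
    rw [indicator_of_mem (show v ∈ Ioo 0 x from ⟨hv.1, hvx⟩)]
    have h1 : d v ^ 2 / (cg0 * lam * (v ^ 2 + U ^ 2)) ≤ 2 * C4 ^ 2 * lam * x ^ 2 * U ^ 2 / cg0 := by
      rw [div_le_iff₀ (hc v), hd1 v hv hvx, neg_sq, ← sq_abs]
      have h2 : |hS v| ^ 2 ≤ (C4 * lam * (v ^ 3 + v * U ^ 2)) ^ 2 := pow_le_pow_left₀ (abs_nonneg _) (hhS v hv hvx) 2
      refine h2.trans ?_
      have h3 : v ^ 2 ≤ x ^ 2 := pow_le_pow_left₀ hv.1.le hvx.le 2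
      have h4 : x ^ 2 ≤ U ^ 2 := pow_le_pow_left₀ hx.le hxU 2
      have h5 : v ^ 2 * (v ^ 2 + U ^ 2) ≤ x ^ 2 * (2 * U ^ 2) :=
        mul_le_mul h3 (by linarith) (by positivity) (by positivity)
      have h6 : (C4 * lam * (v ^ 3 + v * U ^ 2)) ^ 2 = C4 ^ 2 * lam ^ 2 * (v ^ 2 + U ^ 2) * (v ^ 2 * (v ^ 2 + U ^ 2)) := by ring
      have h7 : 2 * C4 ^ 2 * lam * x ^ 2 * U ^ 2 / cg0 * (cg0 * lam * (v ^ 2 + U ^ 2))
          = C4 ^ 2 * lam ^ 2 * (v ^ 2 + U ^ 2) * (x ^ 2 * (2 * U ^ 2)) := by field_simp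
      rw [h6, h7]
      exact mul_le_mul_of_nonneg_left h5 (by positivity)
    linarith [hi4 v, hi5 v]
  · -- above the cut
    rw [indicator_of_notMem (show v ∉ Ioo 0 x from fun h => absurd h.2 (not_lt.2 hvx))]
    have h1 : d v ^ 2 ≤ 3 * Hlo v ^ 2 + 3 * (chiL * Hlin v) ^ 2 + 3 * e v ^ 2 := by
      rw [hd2 v hv hvx]
      nlinarith [sq_nonneg (Hlo v - chiL * Hlin v), sq_nonneg (Hlo v - e v), sq_nonneg (chiL * Hlin v - e v)]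
    have h2 : d v ^ 2 / (cg0 * lam * (v ^ 2 + U ^ 2)) ≤ 3 * Hlo v ^ 2 / (cg0 * lam * (v ^ 2 + U ^ 2))
        + 3 * (chiL * Hlin v) ^ 2 / (cg0 * lam * (v ^ 2 + U ^ 2)) + 3 * e v ^ 2 / (cg0 * lam * (v ^ 2 + U ^ 2)) := by
      rw [← add_div, ← add_div]
      exact div_le_div_of_nonneg_right h1 (hc v).le
    have h3 : 3 * Hlo v ^ 2 / (cg0 * lam * (v ^ 2 + U ^ 2)) ≤ 3 * Lam * U ^ 6 * L ^ 2 / cg0 * (v ^ 2 + U ^ 2)⁻¹ := by
      rw [div_le_iff₀ (hc v), ← sq_abs]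
      have h4 : |Hlo v| ^ 2 ≤ (lam1 * U ^ 3 * L) ^ 2 := pow_le_pow_left₀ (abs_nonneg _) (hHlo v hv hvx) 2
      have h5 : 3 * Lam * U ^ 6 * L ^ 2 / cg0 * (v ^ 2 + U ^ 2)⁻¹ * (cg0 * lam * (v ^ 2 + U ^ 2)) = 3 * ((lam * Lam) * U ^ 6 * L ^ 2) := by
        have : 0 < v ^ 2 + U ^ 2 := by positivity
        field_simp
      rw [h5, ← hl1]
      nlinarith [h4]
    have h4 : 3 * (chiL * Hlin v) ^ 2 / (cg0 * lam * (v ^ 2 + U ^ 2)) ≤ 3 * chiL ^ 2 * x ^ 6 / (4 * cg0 * lam * vb ^ 2) := by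
      rcases le_or_gt v (4 * vb) with hb | hb
      · rw [(hHlin v hv).2 hb]
        simpa using hA3
      · have h5 : cg0 * lam * (16 * vb ^ 2) ≤ cg0 * lam * (v ^ 2 + U ^ 2) := by
          refine mul_le_mul_of_nonneg_left ?_ (by positivity)
          nlinarith [sq_nonneg U]
        have h6 : 3 * (chiL * Hlin v) ^ 2 / (cg0 * lam * (v ^ 2 + U ^ 2)) ≤ 3 * (chiL * Hlin v) ^ 2 / (cg0 * lam * (16 * vb ^ 2)) :=
          div_le_div_of_nonneg_left (by positivity) (by positivity) h5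
        refine h6.trans ?_
        have h7 : |Hlin v| ^ 2 ≤ (2 * x ^ 3) ^ 2 := pow_le_pow_left₀ (abs_nonneg _) (hHlin v hv).1 2
        rw [sq_abs] at h7
        have h8 : 3 * chiL ^ 2 * x ^ 6 / (4 * cg0 * lam * vb ^ 2) = 3 * (chiL ^ 2 * (2 * x ^ 3) ^ 2) / (cg0 * lam * (16 * vb ^ 2)) := by
          field_simp; ring
        rw [h8, mul_pow]
        refine div_le_div_of_nonneg_right ?_ (by positivity)
        have := mul_le_mul_of_nonneg_left h7 (sq_nonneg chiL)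
        linarith
    linarith [he v hv hvx]

/-! ### the defect, `H_lo`, `H_lin` -/

theorem lcd_d_lo (F : LlFix) (𝔹 : LlBase) (p : LlPt) (v : ℝ) (hv : v < p.x) : p.d F 𝔹 v = -p.hS F 𝔹 v := by
  rw [LlPt.d, LlPt.h, if_pos hv, zero_sub]

theorem lcd_d_hi (F : LlFix) (𝔹 : LlBase) (p : LlPt) (v : ℝ) (hv : p.x ≤ v) :
    p.d F 𝔹 v = p.Hlo F v + p.chiL * p.Hlin F v + p.chiE * p.He F 𝔹 v := by
  rw [LlPt.d, LlPt.h, if_neg (not_lt.2 hv)]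
  ring

theorem lcd_U_pos (F : LlFix) (p : LlPt) (hx0 : 0 < p.x) (hlam : 0 < p.lam) : 0 < p.U F := by
  rw [LlPt.U]
  exact lt_min one_pos (mul_pos hx0 (Real.rpow_pos_of_pos hlam _))

theorem lcd_U_le_one (F : LlFix) (p : LlPt) : p.U F ≤ 1 := by
  rw [LlPt.U]
  exact min_le_left _ _

theorem lcd_L_ge (x : ℝ) (hx0 : 0 < x) (hx1 : x ≤ 1) : 0 ≤ Real.log (1 / x) :=
  Real.log_nonneg (by rw [le_div_iff₀ hx0]; linarith)

theorem lcd_Hlo_mem (F : LlFix) (p : LlPt) (hx0 : 0 < p.x) (hx1 : p.x ≤ 1) (hl1 : 1 ≤ p.ell) (hl2 : p.ell ≤ 2)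
    (hlam : 0 < p.lam) (v : ℝ) (hv : p.x ≤ v) :
    0 ≤ p.Hlo F v ∧ p.Hlo F v ≤ p.lam1 F * p.U F ^ 3 * (1 + Real.log (1 / p.x)) := by
  have hU := lcd_U_pos F p hx0 hlam
  have h1 : 0 ≤ p.lam1 F * p.U F ^ 3 := by
    rw [LlPt.lam1]
    have := Real.rpow_pos_of_pos hlam (1 + F.eta)
    positivity
  have hm : p.x ≤ min v p.ell := le_min hv (by linarith)
  have hm2 : min v p.ell ≤ 2 := (min_le_right _ _).trans hl2
  have h2 : 0 ≤ Real.log (min v p.ell / p.x) := Real.log_nonneg (by rw [le_div_iff₀ hx0]; linarith)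
  have h3 : Real.log (min v p.ell / p.x) ≤ 1 + Real.log (1 / p.x) := by
    have h4 : min v p.ell / p.x ≤ 2 * (1 / p.x) := by
      rw [mul_one_div]
      exact div_le_div_of_nonneg_right hm2 hx0.le
    have h5 : Real.log (min v p.ell / p.x) ≤ Real.log (2 * (1 / p.x)) :=
      Real.log_le_log (div_pos (lt_of_lt_of_le hx0 hm) hx0) h4
    rw [Real.log_mul two_ne_zero (one_div_pos.2 hx0).ne'] at h5
    have h6 : Real.log 2 ≤ 1 := by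
      have := Real.log_le_sub_one_of_pos (show (0 : ℝ) < 2 by norm_num)
      linarith
    linarith
  rw [LlPt.Hlo]
  exact ⟨mul_nonneg h1 h2, mul_le_mul_of_nonneg_left h3 h1⟩

theorem lcd_Hlin_mem (F : LlFix) (p : LlPt) (hvb : 0 < F.vb) (hx0 : 0 < p.x) (hl2 : p.ell ≤ 2) (v : ℝ) :
    0 ≤ p.Hlin F v ∧ p.Hlin F v ≤ 2 * p.x ^ 3 ∧ (v ≤ 4 * F.vb → p.Hlin F v = 0) := by
  have hx3 : 0 ≤ p.x ^ 3 := by positivity
  rw [LlPt.Hlin]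
  refine ⟨mul_nonneg hx3 (le_max_left _ _), ?_, fun h => ?_⟩
  · have : max 0 (min v p.ell - 4 * F.vb) ≤ 2 := max_le (by norm_num) (by linarith [min_le_right v p.ell])
    nlinarith
  · rw [max_eq_left (by linarith [min_le_left v p.ell]), mul_zero]

/-- bookkeeping of the five pieces -/
theorem lcd_comb (c1 c2 c3 c4 c5 P B1 B2 B3 T1 T2 T3 T4 T5 : ℝ) (h1 : 0 ≤ c1) (h2 : 0 ≤ c2) (h3 : 0 ≤ c3) (h4 : 0 ≤ c4)
    (h5 : 0 ≤ c5) (hP : 1 ≤ P) (hB1 : 0 ≤ B1) (hB2 : 0 ≤ B2) (hB3 : 0 ≤ B3) (t1 : T1 ≤ c1 * B1) (t2 : T2 ≤ c2 * P * B1)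
    (t3 : T3 ≤ c3 * B3) (t4 : T4 ≤ c4 * B2) (t5 : T5 ≤ c5 * P * B2) :
    T1 + T2 + T3 + T4 + T5 ≤ (c1 + c2 + c3 + c4 + c5) * P * (B1 + B2 + B3) := by
  have hP0 : 0 ≤ P := by linarith
  have e : (c1 + c2 + c3 + c4 + c5) * P * (B1 + B2 + B3) = c1 * B1 * P + c2 * P * B1 + c3 * B3 * P + c4 * B2 * P + c5 * P * B2
      + (c1 * P * (B2 + B3) + c2 * P * (B2 + B3) + c3 * P * (B1 + B2) + c4 * P * (B1 + B3) + c5 * P * (B1 + B3)) := by ring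
  have r : 0 ≤ c1 * P * (B2 + B3) + c2 * P * (B2 + B3) + c3 * P * (B1 + B2) + c4 * P * (B1 + B3) + c5 * P * (B1 + B3) := by positivity
  have a1 : c1 * B1 ≤ c1 * B1 * P := le_mul_of_one_le_right (by positivity) hP
  have a3 : c3 * B3 ≤ c3 * B3 * P := le_mul_of_one_le_right (by positivity) hP
  have a4 : c4 * B2 ≤ c4 * B2 * P := le_mul_of_one_le_right (by positivity) hP
  rw [e]
  linarith

/-- `log((1-p+d)/d) ≤ (1+K)(1+log(1/x))` if `x^K ≤ d ≤ 1` -/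
theorem lcd_log_edge (x KK pT dd : ℝ) (hx0 : 0 < x) (hx1 : x ≤ 1) (hKK : 0 ≤ KK) (hpT : 0 ≤ pT) (hpT1 : pT ≤ 1)
    (hd : x ^ KK ≤ dd) (hd1 : dd ≤ 1) :
    Real.log ((1 - pT + dd) / dd) ≤ (1 + KK) * (1 + Real.log (1 / x)) := by
  have hxK : 0 < x ^ KK := Real.rpow_pos_of_pos hx0 _
  have hd0 : 0 < dd := lt_of_lt_of_le hxK hd
  have hL := lcd_L_ge x hx0 hx1
  have hpos : 0 < 1 - pT + dd := by linarith
  have h1 : (1 - pT + dd) / dd ≤ 2 * (1 / x) ^ KK := by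
    rw [div_le_iff₀ hd0]
    have h2 : 1 ≤ (1 / x) ^ KK * dd := by
      have h3 : (1 / x) ^ KK * x ^ KK = 1 := by
        rw [← Real.mul_rpow (one_div_pos.2 hx0).le hx0.le, one_div_mul_cancel hx0.ne', Real.one_rpow]
      calc (1 : ℝ) = (1 / x) ^ KK * x ^ KK := h3.symm
        _ ≤ (1 / x) ^ KK * dd := mul_le_mul_of_nonneg_left hd (Real.rpow_nonneg (one_div_pos.2 hx0).le _)
    nlinarith
  have h4 := Real.log_le_log (div_pos hpos hd0) h1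
  rw [Real.log_mul two_ne_zero (Real.rpow_pos_of_pos (one_div_pos.2 hx0) _).ne', Real.log_rpow (one_div_pos.2 hx0)] at h4
  have h6 : Real.log 2 ≤ 1 := by
    have := Real.log_le_sub_one_of_pos (show (0 : ℝ) < 2 by norm_num)
    linarith
  nlinarith

structure LcdEdge (F : LlFix) (𝔹 : LlBase) (p : LlPt) (CR KK v1 : ℝ) : Prop where
  Eb0 : 0 < p.Eb F 𝔹
  dM1 : p.dMi F 𝔹 ≤ 1
  dPK : p.x ^ KK ≤ p.dPl F
  dMK : p.x ^ KK ≤ p.dMi F 𝔹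
  xi_le : ∀ v ∈ Ioo 0 p.ell, v / p.ell < 𝔹.pTop F.T → p.xi F 𝔹 v ≤ 𝔹.xiS F.T
  ramp : ∀ v ∈ Ioo 0 p.ell, v / p.ell < 𝔹.pTop F.T → 𝔹.xiS F.T - p.Eb F 𝔹 < p.xi F 𝔹 v →
    𝔹.pTop F.T - p.dMi F 𝔹 ≤ v / p.ell ∧ v1 ≤ v
  top : |p.HePl F 𝔹 (𝔹.pTop F.T)| ≤ CR * p.lam1 F * p.Eb F 𝔹

/-! ### elementary facts on `H_e`, read off the definition -/

theorem lcd_He_plat (F : LlFix) (𝔹 : LlBase) (p : LlPt) (v : ℝ) (hv : 𝔹.pTop F.T ≤ v / p.ell) :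
    p.He F 𝔹 v = p.HePl F 𝔹 (v / p.ell) := by
  rw [LlPt.He, if_pos hv]

theorem lcd_He_zero (F : LlFix) (𝔹 : LlBase) (p : LlPt) (hEb : 0 < p.Eb F 𝔹) (v : ℝ) (hv : v / p.ell < 𝔹.pTop F.T)
    (hxi : p.xi F 𝔹 v ≤ 𝔹.xiS F.T - p.Eb F 𝔹) : p.He F 𝔹 v = 0 := by
  rw [LlPt.He, if_neg (not_le.2 hv), max_eq_left (div_nonpos_of_nonpos_of_nonneg (by linarith) hEb.le), zero_mul]

theorem lcd_He_ramp (F : LlFix) (𝔹 : LlBase) (p : LlPt) (hEb : 0 < p.Eb F 𝔹) (v : ℝ) (hv : v / p.ell < 𝔹.pTop F.T)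
    (hxi : p.xi F 𝔹 v ≤ 𝔹.xiS F.T) : |p.He F 𝔹 v| ≤ |p.HePl F 𝔹 (𝔹.pTop F.T)| := by
  rw [LlPt.He, if_neg (not_le.2 hv), abs_mul, abs_of_nonneg (le_max_left _ _)]
  refine mul_le_of_le_one_left (abs_nonneg _) (max_le zero_le_one ?_)
  rw [div_le_one hEb]
  linarith

/-- C4 of file C, squared form: `H_e^2 ≤ 2 λ_1^2 Ũ^4 (1/(1-w+d_+) + 1/(w-p_top+d_-))` on the plateau -/
theorem lcd_HePl_sq (F : LlFix) (𝔹 : LlBase) (p : LlPt) (hUps : ∀ U, F.Ups U ∈ Icc (0 : ℝ) 1)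
    (w : ℝ) (h1 : 0 < 1 - w + p.dPl F) (h2 : 0 < w - 𝔹.pTop F.T + p.dMi F 𝔹) :
    p.HePl F 𝔹 w ^ 2 ≤ 2 * p.lam1 F ^ 2 * p.Ut F ^ 4 * ((1 - w + p.dPl F)⁻¹ + (w - 𝔹.pTop F.T + p.dMi F 𝔹)⁻¹) := by
  have hsq : ∀ y : ℝ, 0 < y → (y ^ (-(1 / 2) : ℝ)) ^ 2 = y⁻¹ := by
    intro y hy
    rw [← Real.rpow_natCast, ← Real.rpow_mul hy.le, ← Real.rpow_neg_one]
    norm_num
  obtain ⟨α, hα⟩ : ∃ α, α = (1 - w + p.dPl F) ^ (-(1 / 2) : ℝ) := ⟨_, rfl⟩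
  obtain ⟨β, hβ⟩ : ∃ β, β = (w - 𝔹.pTop F.T + p.dMi F 𝔹) ^ (-(1 / 2) : ℝ) := ⟨_, rfl⟩
  rw [LlPt.HePl, ← hsq _ h1, ← hsq _ h2, ← hα, ← hβ]
  obtain ⟨u0, u1⟩ := hUps (p.U F)
  have e : (p.lam1 F * F.Ups (p.U F) * p.Ut F ^ 2 * (α - β)) ^ 2 = p.lam1 F ^ 2 * p.Ut F ^ 4 * (F.Ups (p.U F) ^ 2 * (α - β) ^ 2) := by ring
  rw [e]
  have h3 : F.Ups (p.U F) ^ 2 ≤ 1 := pow_le_one₀ u0 u1
  have h4 : (α - β) ^ 2 ≤ 2 * (α ^ 2 + β ^ 2) := by nlinarith [sq_nonneg (α + β)]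
  have h5 : F.Ups (p.U F) ^ 2 * (α - β) ^ 2 ≤ 1 * (2 * (α ^ 2 + β ^ 2)) := mul_le_mul h3 h4 (sq_nonneg _) zero_le_one
  have h6 := mul_le_mul_of_nonneg_left h5 (show 0 ≤ p.lam1 F ^ 2 * p.Ut F ^ 4 by positivity)
  linarith

/-- the edge term of (P8), pointwise majorant -/
theorem lcd_edge (F : LlFix) (𝔹 : LlBase) (p : LlPt) (cg0 CR KK v1 Lam : ℝ) (hUps : ∀ U, F.Ups U ∈ Icc (0 : ℝ) 1)
    (hcg0 : 0 < cg0) (hCR : 0 ≤ CR) (hv1 : 0 < v1) (hl1 : 1 ≤ p.ell) (hlam : 0 < p.lam) (hLam : 0 ≤ Lam)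
    (hlL : p.lam1 F ^ 2 = p.lam * Lam) (hlam1 : 0 ≤ p.lam1 F) (hdP : 0 < p.dPl F) (hdM : 0 < p.dMi F 𝔹)
    (hpT : 0 < 𝔹.pTop F.T) (E : LcdEdge F 𝔹 p CR KK v1) (v : ℝ) (hv : v ∈ Ioo 0 p.ell) :
    3 * (p.chiE * p.He F 𝔹 v) ^ 2 / (cg0 * p.lam * (v ^ 2 + p.U F ^ 2)) ≤
      (Ico (p.ell * (𝔹.pTop F.T - p.dMi F 𝔹)) (p.ell * 𝔹.pTop F.T)).indicator
        (fun _ => 3 * p.chiE ^ 2 * CR ^ 2 * Lam * p.Eb F 𝔹 ^ 2 / (cg0 * v1 ^ 2)) v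
      + (Ico (p.ell * 𝔹.pTop F.T) p.ell).indicator (fun v => 6 * p.chiE ^ 2 * Lam * p.Ut F ^ 4 / (cg0 * 𝔹.pTop F.T ^ 2) *
          ((1 + p.dPl F - v / p.ell)⁻¹ + (v / p.ell + (p.dMi F 𝔹 - 𝔹.pTop F.T))⁻¹)) v := by
  have hl : 0 < p.ell := by linarith
  have hw1 : v / p.ell < 1 := by rw [div_lt_one hl]; exact hv.2
  have hc : 0 < cg0 * p.lam * (v ^ 2 + p.U F ^ 2) := by
    have := hv.1
    positivity
  rcases lt_or_ge (v / p.ell) (𝔹.pTop F.T) with hw | hw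
  · have hn5 : v ∉ Ico (p.ell * 𝔹.pTop F.T) p.ell := by
      intro h
      rw [div_lt_iff₀ hl] at hw
      linarith [h.1]
    rw [indicator_of_notMem hn5, add_zero]
    rcases le_or_gt (p.xi F 𝔹 v) (𝔹.xiS F.T - p.Eb F 𝔹) with hxi | hxi
    · rw [lcd_He_zero F 𝔹 p E.Eb0 v hw hxi]
      simp only [mul_zero, ne_eq, OfNat.ofNat_ne_zero, not_false_eq_true, zero_pow, zero_div]
      exact indicator_nonneg (fun _ _ => by positivity) v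
    · obtain ⟨r1, r2⟩ := E.ramp v hv hw hxi
      have hm : v ∈ Ico (p.ell * (𝔹.pTop F.T - p.dMi F 𝔹)) (p.ell * 𝔹.pTop F.T) := by
        rw [le_div_iff₀ hl] at r1
        rw [div_lt_iff₀ hl] at hw
        exact ⟨by linarith, by linarith⟩
      rw [indicator_of_mem hm]
      have h1 : |p.He F 𝔹 v| ≤ CR * p.lam1 F * p.Eb F 𝔹 := (lcd_He_ramp F 𝔹 p E.Eb0 v hw (E.xi_le v hv hw)).trans E.top
      have h2 : p.He F 𝔹 v ^ 2 ≤ (CR * p.lam1 F * p.Eb F 𝔹) ^ 2 := by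
        rw [← sq_abs]
        exact pow_le_pow_left₀ (abs_nonneg _) h1 2
      have h3 : cg0 * p.lam * v1 ^ 2 ≤ cg0 * p.lam * (v ^ 2 + p.U F ^ 2) := by
        refine mul_le_mul_of_nonneg_left ?_ (by positivity)
        have : v1 ^ 2 ≤ v ^ 2 := pow_le_pow_left₀ hv1.le r2 2
        nlinarith [sq_nonneg (p.U F)]
      have h4 : 3 * (p.chiE * p.He F 𝔹 v) ^ 2 / (cg0 * p.lam * (v ^ 2 + p.U F ^ 2)) ≤ 3 * (p.chiE * p.He F 𝔹 v) ^ 2 / (cg0 * p.lam * v1 ^ 2) :=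
        div_le_div_of_nonneg_left (by positivity) (by positivity) h3
      refine h4.trans ?_
      have h5 : 3 * p.chiE ^ 2 * CR ^ 2 * Lam * p.Eb F 𝔹 ^ 2 / (cg0 * v1 ^ 2)
          = 3 * (p.chiE ^ 2 * (CR ^ 2 * (p.lam * Lam) * p.Eb F 𝔹 ^ 2)) / (cg0 * p.lam * v1 ^ 2) := by
        field_simp
      rw [h5, ← hlL, mul_pow]
      refine div_le_div_of_nonneg_right ?_ (by positivity)
      have h6 := mul_le_mul_of_nonneg_left h2 (sq_nonneg p.chiE)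
      have h7 : (CR * p.lam1 F * p.Eb F 𝔹) ^ 2 = CR ^ 2 * p.lam1 F ^ 2 * p.Eb F 𝔹 ^ 2 := by ring
      rw [h7] at h6
      linarith
  · have hm : v ∈ Ico (p.ell * 𝔹.pTop F.T) p.ell := by
      have hw' := hw
      rw [le_div_iff₀ hl] at hw'
      exact ⟨by linarith, hv.2⟩
    have hn4 : v ∉ Ico (p.ell * (𝔹.pTop F.T - p.dMi F 𝔹)) (p.ell * 𝔹.pTop F.T) := fun h => absurd h.2 (not_lt.2 hm.1)
    rw [indicator_of_notMem hn4, zero_add, indicator_of_mem hm, lcd_He_plat F 𝔹 p v hw]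
    have h1 := lcd_HePl_sq F 𝔹 p hUps (v / p.ell) (by linarith) (by linarith)
    have e1 : 1 - v / p.ell + p.dPl F = 1 + p.dPl F - v / p.ell := by ring
    have e2 : v / p.ell - 𝔹.pTop F.T + p.dMi F 𝔹 = v / p.ell + (p.dMi F 𝔹 - 𝔹.pTop F.T) := by ring
    rw [e1, e2] at h1
    obtain ⟨Q, hQ⟩ : ∃ Q, Q = (1 + p.dPl F - v / p.ell)⁻¹ + (v / p.ell + (p.dMi F 𝔹 - 𝔹.pTop F.T))⁻¹ := ⟨_, rfl⟩
    rw [← hQ] at h1 ⊢
    have hQ0 : 0 ≤ Q := by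
      rw [hQ]
      exact add_nonneg (inv_nonneg.2 (by linarith)) (inv_nonneg.2 (by linarith))
    have h3 : cg0 * p.lam * 𝔹.pTop F.T ^ 2 ≤ cg0 * p.lam * (v ^ 2 + p.U F ^ 2) := by
      refine mul_le_mul_of_nonneg_left ?_ (by positivity)
      have h8 : 𝔹.pTop F.T ≤ v := by nlinarith [hm.1]
      have : 𝔹.pTop F.T ^ 2 ≤ v ^ 2 := pow_le_pow_left₀ hpT.le h8 2
      nlinarith [sq_nonneg (p.U F)]
    have h4 : 3 * (p.chiE * p.HePl F 𝔹 (v / p.ell)) ^ 2 / (cg0 * p.lam * (v ^ 2 + p.U F ^ 2))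
        ≤ 3 * (p.chiE * p.HePl F 𝔹 (v / p.ell)) ^ 2 / (cg0 * p.lam * 𝔹.pTop F.T ^ 2) :=
      div_le_div_of_nonneg_left (by positivity) (by positivity) h3
    refine h4.trans ?_
    have h5 : 6 * p.chiE ^ 2 * Lam * p.Ut F ^ 4 / (cg0 * 𝔹.pTop F.T ^ 2) * Q
        = 3 * (p.chiE ^ 2 * (2 * (p.lam * Lam) * p.Ut F ^ 4 * Q)) / (cg0 * p.lam * 𝔹.pTop F.T ^ 2) := by
      field_simp
      ring
    rw [h5, ← hlL, mul_pow]
    refine div_le_div_of_nonneg_right ?_ (by positivity)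
    have h6 := mul_le_mul_of_nonneg_left h1 (sq_nonneg p.chiE)
    linarith

/-- the constant of (P8) -/
noncomputable def lcdC8 (cg0 C4 CR KK v1 vb pT : ℝ) : ℝ :=
  2 * C4 ^ 2 / cg0 + 6 / cg0 + 3 / (cg0 * vb ^ 2) + 6 * CR ^ 2 / (cg0 * v1 ^ 2) + 48 * (1 + KK) / (cg0 * pT ^ 2)

/-- **(P8), pointwise.** -/
theorem lcd_p8 (F : LlFix) (𝔹 : LlBase) (p : LlPt) (cg0 C4 CR KK v1 : ℝ)
    (hUps : ∀ U, F.Ups U ∈ Icc (0 : ℝ) 1) (hvb : 0 < F.vb) (hU0 : 0 < F.U0)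
    (hcg0 : 0 < cg0) (hC4 : 0 ≤ C4) (hCR : 0 ≤ CR) (hKK : 0 ≤ KK) (hv1 : 0 < v1)
    (hx0 : 0 < p.x) (hx1 : p.x ≤ 1) (hl1 : 1 ≤ p.ell) (hl2 : p.ell ≤ 2) (hlam : 0 < p.lam)
    (hxU : p.x ≤ p.U F) (hxU3 : p.x ^ 3 ≤ p.lam ^ (2 * F.eta) * p.U F ^ 3)
    (hpT : 𝔹.pTop F.T ∈ Ioo (0 : ℝ) 1)
    (hcg : ∀ v ∈ Ioo 0 p.a, cg0 * p.lam * (v ^ 2 + p.U F ^ 2) ≤ p.cg F v)
    (hhS : ∀ v ∈ Ioo 0 p.x, |p.hS F 𝔹 v| ≤ C4 * p.lam * (v ^ 3 + v * p.U F ^ 2))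
    (hE : p.chiE = 0 ∨ (p.sm = false ∧ LcdEdge F 𝔹 p CR KK v1)) :
    ∫ v in (0 : ℝ)..p.a, p.d F 𝔹 v ^ 2 / p.cg F v ≤
      lcdC8 cg0 C4 CR KK v1 F.vb (𝔹.pTop F.T) * (1 + Real.log (1 / p.x)) ^ 2 *
        (p.lam ^ (1 + 2 * F.eta) * p.U F ^ 5 + p.chiE ^ 2 * p.lam ^ (1 + 2 * F.eta) * p.U F ^ 4
          + p.chiL ^ 2 * p.x ^ 6 / p.lam) := by
  have hU : 0 < p.U F := lt_of_lt_of_le hx0 hxU
  have hU1 : p.U F ≤ 1 := lcd_U_le_one F p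
  have hl : 0 < p.ell := by linarith
  obtain ⟨Lam, hLamd⟩ : ∃ Lam, Lam = p.lam ^ (1 + 2 * F.eta) := ⟨_, rfl⟩
  have hLam : 0 < Lam := hLamd ▸ Real.rpow_pos_of_pos hlam _
  have hlam1 : 0 ≤ p.lam1 F := by
    rw [LlPt.lam1]
    exact (Real.rpow_pos_of_pos hlam _).le
  have hlL : p.lam1 F ^ 2 = p.lam * Lam := by
    rw [LlPt.lam1, hLamd, ← Real.rpow_natCast, ← Real.rpow_mul hlam.le]
    nth_rewrite 2 [← Real.rpow_one p.lam]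
    rw [← Real.rpow_add hlam]
    congr 1
    push_cast
    ring
  have hlL2 : p.lam * p.lam ^ (2 * F.eta) = Lam := by
    rw [hLamd, Real.rpow_add hlam, Real.rpow_one]
  obtain ⟨L, hLd⟩ : ∃ L, L = 1 + Real.log (1 / p.x) := ⟨_, rfl⟩
  have hL1 : 1 ≤ L := by
    rw [hLd]
    linarith [lcd_L_ge p.x hx0 hx1]
  have hP : 1 ≤ L ^ 2 := one_le_pow₀ hL1
  have hLP : L ≤ L ^ 2 := by nlinarith
  have ha1 : 1 ≤ p.a := by
    rw [LlPt.a]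
    split_ifs <;> linarith
  have ha4 : p.a ≤ 4 := by
    rw [LlPt.a]
    split_ifs <;> linarith
  rw [← hLamd, ← hLd]
  -- the common part
  have main : ∀ dP dM A4 A5 : ℝ, 0 < dP → 0 < dM → 0 ≤ A4 → 0 ≤ A5 →
      (∀ v ∈ Ioo 0 p.a, p.x ≤ v → 3 * (p.chiE * p.He F 𝔹 v) ^ 2 / (cg0 * p.lam * (v ^ 2 + p.U F ^ 2)) ≤
        (Ico (p.ell * (𝔹.pTop F.T - dM)) (p.ell * 𝔹.pTop F.T)).indicator (fun _ => A4) v
        + (Ico (p.ell * 𝔹.pTop F.T) p.ell).indicator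
            (fun v => A5 * ((1 + dP - v / p.ell)⁻¹ + (v / p.ell + (dM - 𝔹.pTop F.T))⁻¹)) v) →
      A4 * (p.ell * dM) ≤ 6 * CR ^ 2 / (cg0 * v1 ^ 2) * (p.chiE ^ 2 * Lam * p.U F ^ 4) →
      A5 * (p.ell * Real.log ((1 - 𝔹.pTop F.T + dP) / dP) + p.ell * Real.log ((1 - 𝔹.pTop F.T + dM) / dM))
        ≤ 48 * (1 + KK) / (cg0 * 𝔹.pTop F.T ^ 2) * L ^ 2 * (p.chiE ^ 2 * Lam * p.U F ^ 4) →
      ∫ v in (0 : ℝ)..p.a, p.d F 𝔹 v ^ 2 / p.cg F v ≤ lcdC8 cg0 C4 CR KK v1 F.vb (𝔹.pTop F.T) * L ^ 2 *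
        (Lam * p.U F ^ 5 + p.chiE ^ 2 * Lam * p.U F ^ 4 + p.chiL ^ 2 * p.x ^ 6 / p.lam) := by
    intro dP dM A4 A5 hdP hdM hA4 hA5 he t4 t5
    have key := lcd_p8_abs p.a p.x (p.U F) p.ell (𝔹.pTop F.T) dP dM p.lam Lam (p.lam1 F) L cg0 C4 F.vb p.chiL A4 A5
      (p.d F 𝔹) (p.cg F) (p.hS F 𝔹) (p.Hlo F) (p.Hlin F) (fun v => p.chiE * p.He F 𝔹 v)
      (by linarith) hx0 hxU hl hpT.2.le hdP hdM hlam hLam.le hlL hcg0 hvb hA4 hA5 hcg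
      (fun v _ hvx => lcd_d_lo F 𝔹 p v hvx) (fun v _ hvx => lcd_d_hi F 𝔹 p v hvx)
      (fun v hv hvx => hhS v ⟨hv.1, hvx⟩)
      (fun v _ hvx => by
        obtain ⟨h1, h2⟩ := lcd_Hlo_mem F p hx0 hx1 hl1 hl2 hlam v hvx
        rw [abs_of_nonneg h1, hLd]
        exact h2)
      (fun v _ => by
        obtain ⟨h1, h2, h3⟩ := lcd_Hlin_mem F p hvb hx0 hl2 v
        rw [abs_of_nonneg h1]
        exact ⟨h2, h3⟩)
      he
    refine key.trans ?_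
    rw [lcdC8]
    have hpT0 := hpT.1
    refine lcd_comb _ _ _ _ _ _ _ _ _ _ _ _ _ _ (by positivity) (by positivity) (by positivity) (by positivity) (by positivity) hP
      (by positivity) (by positivity) (by positivity) ?_ ?_ ?_ t4 t5
    · -- below the cut
      have h1 : 2 * C4 ^ 2 * p.lam * p.x ^ 2 * p.U F ^ 2 / cg0 * p.x = 2 * C4 ^ 2 / cg0 * (p.lam * p.U F ^ 2 * p.x ^ 3) := by
        field_simp
      have h2 : p.lam * p.U F ^ 2 * p.x ^ 3 ≤ Lam * p.U F ^ 5 := by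
        have h3 := mul_le_mul_of_nonneg_left hxU3 (show 0 ≤ p.lam * p.U F ^ 2 by positivity)
        have h4 : p.lam * p.U F ^ 2 * (p.lam ^ (2 * F.eta) * p.U F ^ 3) = (p.lam * p.lam ^ (2 * F.eta)) * p.U F ^ 5 := by ring
        rw [h4, hlL2] at h3
        exact h3
      rw [h1]
      exact mul_le_mul_of_nonneg_left h2 (by positivity)
    · -- `H_lo`
      refine le_of_eq ?_
      field_simp
      ring
    · -- `H_lin`
      have h1 : 3 * p.chiL ^ 2 * p.x ^ 6 / (4 * cg0 * p.lam * F.vb ^ 2) * p.a ≤ 3 * p.chiL ^ 2 * p.x ^ 6 / (4 * cg0 * p.lam * F.vb ^ 2) * 4 :=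
        mul_le_mul_of_nonneg_left ha4 (by positivity)
      refine h1.trans (le_of_eq ?_)
      field_simp
  rcases hE with hE | ⟨hsm, E⟩
  · -- no edge term
    refine main 1 1 0 0 one_pos one_pos le_rfl le_rfl (fun v _ _ => ?_) ?_ ?_
    · simp [hE]
    · rw [hE]; simp
    · rw [hE]; simp
  · -- direct path
    have haE : p.a = p.ell := by rw [LlPt.a, hsm]; simp
    have hUt : 0 < p.Ut F := by
      rw [LlPt.Ut]
      exact lt_min hU0 hU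
    have hUtU : p.Ut F ≤ p.U F := by
      rw [LlPt.Ut]
      exact min_le_right _ _
    have hdP : 0 < p.dPl F := by
      rw [LlPt.dPl]
      positivity
    have hdP1 : p.dPl F ≤ 1 := by
      rw [LlPt.dPl]
      exact pow_le_one₀ hUt.le (hUtU.trans hU1)
    have hEb := E.Eb0
    have hdM : 0 < p.dMi F 𝔹 := by
      rw [LlPt.dMi]
      positivity
    have hEd : p.Eb F 𝔹 ^ 2 * p.dMi F 𝔹 = p.Ut F ^ 4 := by
      rw [LlPt.dMi]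
      field_simp
    have hUt4 : p.Ut F ^ 4 ≤ p.U F ^ 4 := pow_le_pow_left₀ hUt.le hUtU 4
    have hpT0 := hpT.1
    refine main (p.dPl F) (p.dMi F 𝔹) (3 * p.chiE ^ 2 * CR ^ 2 * Lam * p.Eb F 𝔹 ^ 2 / (cg0 * v1 ^ 2))
      (6 * p.chiE ^ 2 * Lam * p.Ut F ^ 4 / (cg0 * 𝔹.pTop F.T ^ 2)) hdP hdM (by positivity) (by positivity)
      (fun v hv _ => lcd_edge F 𝔹 p cg0 CR KK v1 Lam hUps hcg0 hCR hv1 hl1 hlam hLam.le hlL hlam1 hdP hdM hpT0 E v (haE ▸ hv)) ?_ ?_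
    · have h1 : 3 * p.chiE ^ 2 * CR ^ 2 * Lam * p.Eb F 𝔹 ^ 2 / (cg0 * v1 ^ 2) * (p.ell * p.dMi F 𝔹)
          = 3 * CR ^ 2 / (cg0 * v1 ^ 2) * (p.chiE ^ 2 * Lam) * (p.ell * (p.Eb F 𝔹 ^ 2 * p.dMi F 𝔹)) := by
        field_simp
      have h2 : p.ell * p.Ut F ^ 4 ≤ 2 * p.U F ^ 4 := mul_le_mul hl2 hUt4 (by positivity) (by norm_num)
      rw [h1, hEd]
      have h3 := mul_le_mul_of_nonneg_left h2 (show 0 ≤ 3 * CR ^ 2 / (cg0 * v1 ^ 2) * (p.chiE ^ 2 * Lam) by positivity)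
      refine h3.trans (le_of_eq ?_)
      field_simp
      ring
    · have g1 := lcd_log_edge p.x KK (𝔹.pTop F.T) (p.dPl F) hx0 hx1 hKK hpT0.le hpT.2.le E.dPK hdP1
      have g2 := lcd_log_edge p.x KK (𝔹.pTop F.T) (p.dMi F 𝔹) hx0 hx1 hKK hpT0.le hpT.2.le E.dMK E.dM1
      rw [← hLd] at g1 g2
      have hKL : 0 ≤ (1 + KK) * L := by positivity
      have h1 : p.ell * Real.log ((1 - 𝔹.pTop F.T + p.dPl F) / p.dPl F) + p.ell * Real.log ((1 - 𝔹.pTop F.T + p.dMi F 𝔹) / p.dMi F 𝔹)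
          ≤ 4 * ((1 + KK) * L ^ 2) := by
        have h2 : p.ell * Real.log ((1 - 𝔹.pTop F.T + p.dPl F) / p.dPl F) ≤ 2 * ((1 + KK) * L) :=
          (mul_le_mul_of_nonneg_left g1 hl.le).trans (mul_le_mul_of_nonneg_right hl2 hKL)
        have h3 : p.ell * Real.log ((1 - 𝔹.pTop F.T + p.dMi F 𝔹) / p.dMi F 𝔹) ≤ 2 * ((1 + KK) * L) :=
          (mul_le_mul_of_nonneg_left g2 hl.le).trans (mul_le_mul_of_nonneg_right hl2 hKL)
        have h4 : (1 + KK) * L ≤ (1 + KK) * L ^ 2 := mul_le_mul_of_nonneg_left hLP (by linarith)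
        linarith
      have h5 := mul_le_mul_of_nonneg_left h1 (show 0 ≤ 6 * p.chiE ^ 2 * Lam * p.Ut F ^ 4 / (cg0 * 𝔹.pTop F.T ^ 2) by positivity)
      refine h5.trans ?_
      have h6 : 6 * p.chiE ^ 2 * Lam * p.Ut F ^ 4 / (cg0 * 𝔹.pTop F.T ^ 2) * (4 * ((1 + KK) * L ^ 2))
          = 24 * (1 + KK) / (cg0 * 𝔹.pTop F.T ^ 2) * L ^ 2 * (p.chiE ^ 2 * Lam) * p.Ut F ^ 4 := by
        field_simp
        ring
      have h7 : 48 * (1 + KK) / (cg0 * 𝔹.pTop F.T ^ 2) * L ^ 2 * (p.chiE ^ 2 * Lam * p.U F ^ 4)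
          = 2 * (24 * (1 + KK) / (cg0 * 𝔹.pTop F.T ^ 2) * L ^ 2 * (p.chiE ^ 2 * Lam) * p.U F ^ 4) := by
        field_simp
        ring
      rw [h6, h7]
      have h8 : 0 ≤ 24 * (1 + KK) / (cg0 * 𝔹.pTop F.T ^ 2) * L ^ 2 * (p.chiE ^ 2 * Lam) := by positivity
      have h9 := mul_le_mul_of_nonneg_left hUt4 h8
      have h10 : 0 ≤ 24 * (1 + KK) / (cg0 * 𝔹.pTop F.T ^ 2) * L ^ 2 * (p.chiE ^ 2 * Lam) * p.U F ^ 4 := by positivity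
      linarith

/-- `1 + log(1/x) ≤ (1 + 1/δ) x^(-δ)` -/
theorem lcd_log_le (δ : ℝ) (hδ : 0 < δ) (x : ℝ) (hx0 : 0 < x) (hx1 : x ≤ 1) :
    1 + Real.log (1 / x) ≤ (1 + 1 / δ) * x ^ (-δ) := by
  have h1 : Real.log (1 / x) ≤ (1 / x) ^ δ / δ := Real.log_le_rpow_div (one_div_pos.2 hx0).le hδ
  have h2 : (1 / x) ^ δ = x ^ (-δ) := by
    rw [one_div, Real.inv_rpow hx0.le, Real.rpow_neg hx0.le]
  have h3 : 1 ≤ x ^ (-δ) := Real.one_le_rpow_of_pos_of_le_one_of_nonpos hx0 hx1 (by linarith)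
  rw [h2] at h1
  have h4 : (1 + 1 / δ) * x ^ (-δ) = x ^ (-δ) + x ^ (-δ) / δ := by ring
  rw [h4]
  linarith

/-- the logarithm is a subpower loss -/
theorem lcd_log_sub (ε : ℝ) (hε : 0 < ε) (x : ℝ) (hx0 : 0 < x) (hx1 : x ≤ 1) :
    (1 + Real.log (1 / x)) ^ 2 ≤ (1 + 2 / ε) ^ 2 * x ^ (-ε) := by
  have h1 := lcd_log_le (ε / 2) (by linarith) x hx0 hx1
  have h0 : 0 ≤ 1 + Real.log (1 / x) := by linarith [lcd_L_ge x hx0 hx1]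
  have h2 := pow_le_pow_left₀ h0 h1 2
  have h3 : (x ^ (-(ε / 2))) ^ 2 = x ^ (-ε) := by
    rw [← Real.rpow_natCast, ← Real.rpow_mul hx0.le]
    congr 1
    push_cast
    ring
  have h4 : 1 / (ε / 2) = 2 / ε := by field_simp
  rw [mul_pow, h3, h4] at h2
  exact h2

/-- the exponent of (P9) -/
noncomputable def lcdKap (F : LlFix) : ℝ := F.pS * (1 - 3 * F.sS / 2) / 2

noncomputable def lcdC9b (Cb c0 : ℝ) : ℝ := 4 * Cb * (4 + (c0 ^ 2)⁻¹)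

noncomputable def lcdC9h (C4 C5 CE c0 v0 v1 vb kap : ℝ) : ℝ :=
  4 * (C4 * (8 + 2 * (c0 ^ 2)⁻¹) + 8 * C5 / v0 ^ 3 + (c0 ^ 3)⁻¹ * (1 + 1 / kap) + 1 / (4 * vb ^ 3) + 8 * CE / v1 ^ 3)

theorem lcd_kap_pos (F : LlFix) (hs1 : F.sS ≤ 1 / 2) (hpS : 0 < F.pS) : 0 < lcdKap F := by
  rw [lcdKap]
  have : 0 < 1 - 3 * F.sS / 2 := by linarith
  positivity

/-- `λ^e ≤ x^(2κ)` for every exponent `e ≥ 1 - 3 s_*/2` -/
theorem lcd_lam_pow (F : LlFix) (p : LlPt) (hs1 : F.sS ≤ 1 / 2) (hpS : 0 < F.pS) (hx0 : 0 < p.x) (hx1 : p.x ≤ 1)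
    (hlam : 0 < p.lam) (hlamhi : p.lam ≤ p.x ^ F.pS) (e : ℝ) (he : 1 - 3 * F.sS / 2 ≤ e) :
    p.lam ^ e ≤ p.x ^ (2 * lcdKap F) := by
  have he0 : 0 ≤ e := by linarith
  calc p.lam ^ e ≤ (p.x ^ F.pS) ^ e := Real.rpow_le_rpow hlam.le hlamhi he0
    _ = p.x ^ (F.pS * e) := (Real.rpow_mul hx0.le _ _).symm
    _ ≤ p.x ^ (2 * lcdKap F) := by
        refine Real.rpow_le_rpow_of_exponent_ge hx0 hx1 ?_
        rw [lcdKap]
        nlinarith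

theorem lcd_x2k_le (F : LlFix) (p : LlPt) (hs1 : F.sS ≤ 1 / 2) (hpS : 0 < F.pS) (hx0 : 0 < p.x) (hx1 : p.x ≤ 1) :
    p.x ^ (2 * lcdKap F) ≤ p.x ^ lcdKap F :=
  Real.rpow_le_rpow_of_exponent_ge hx0 hx1 (by linarith [lcd_kap_pos F hs1 hpS])

/-- `λ^e U^j ≤ x^j λ^(e - j s_*/2)` for `j = 2, 3` -/
theorem lcd_lam_U (F : LlFix) (p : LlPt) (hx0 : 0 < p.x) (hlam : 0 < p.lam) (e : ℝ) (j : ℕ) :
    p.lam ^ e * p.U F ^ j ≤ p.x ^ j * p.lam ^ (e - j * F.sS / 2) := by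
  have hU := lcd_U_pos F p hx0 hlam
  have h1 : p.U F ≤ p.x * p.lam ^ (-(F.sS / 2)) := by
    rw [LlPt.U]
    exact min_le_right _ _
  have h2 : p.U F ^ j ≤ (p.x * p.lam ^ (-(F.sS / 2))) ^ j := pow_le_pow_left₀ hU.le h1 j
  have h3 : (p.lam ^ (-(F.sS / 2))) ^ j = p.lam ^ (-(j * F.sS / 2)) := by
    rw [← Real.rpow_natCast, ← Real.rpow_mul hlam.le]
    congr 1
    ring
  have h4 := mul_le_mul_of_nonneg_left h2 (Real.rpow_pos_of_pos hlam e).le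
  refine h4.trans (le_of_eq ?_)
  rw [mul_pow, h3, sub_eq_add_neg, Real.rpow_add hlam]
  ring

/-- **(P9), matrix clock, pointwise** (direct or not: only `v = ℓ w`, `w < 1` is used). -/
theorem lcd_p9_b (F : LlFix) (𝔹 : LlBase) (p : LlPt) (Cb c0 : ℝ) (hCb : 0 ≤ Cb) (hc0 : 0 < c0)
    (hs0 : 0 ≤ F.sS) (hs1 : F.sS ≤ 1 / 2) (hpS : 0 < F.pS)
    (hx0 : 0 < p.x) (hx1 : p.x ≤ 1) (hl1 : 1 ≤ p.ell) (hl2 : p.ell ≤ 2) (hlam : 0 < p.lam) (hlamhi : p.lam ≤ p.x ^ F.pS)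
    (hb : ∀ v ∈ Ioo 0 p.ell, |p.b F 𝔹 v - p.b0 F 𝔹| ≤ Cb * p.lam * (v ^ 2 + p.U F ^ 2))
    (w : ℝ) (hw : w ∈ Ioo (0 : ℝ) 1) (hcw : c0 * p.x ≤ w) :
    |p.ell ^ 2 * p.b F 𝔹 (p.ell * w) - p.ell ^ 2 * p.b0 F 𝔹| ≤ lcdC9b Cb c0 * p.x ^ lcdKap F * w ^ 2 := by
  have hl : 0 < p.ell := by linarith
  obtain ⟨X, hX⟩ : ∃ X, X = p.x ^ lcdKap F := ⟨_, rfl⟩
  have hX0 : 0 < X := hX ▸ Real.rpow_pos_of_pos hx0 _
  have h2k := lcd_x2k_le F p hs1 hpS hx0 hx1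
  have hv : p.ell * w ∈ Ioo 0 p.ell := ⟨mul_pos hl hw.1, by nlinarith [hw.2]⟩
  have h1 := hb _ hv
  have hla : p.lam ≤ X := by
    have := lcd_lam_pow F p hs1 hpS hx0 hx1 hlam hlamhi 1 (by linarith)
    rw [Real.rpow_one] at this
    rw [hX]
    exact this.trans h2k
  have hlU : p.lam * p.U F ^ 2 ≤ p.x ^ 2 * X := by
    have h3 := lcd_lam_U F p hx0 hlam 1 2
    rw [Real.rpow_one] at h3
    have h4 := lcd_lam_pow F p hs1 hpS hx0 hx1 hlam hlamhi (1 - (2 : ℕ) * F.sS / 2) (by push_cast; linarith)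
    rw [hX]
    exact h3.trans (mul_le_mul_of_nonneg_left (h4.trans h2k) (by positivity))
  have hxw : p.x ^ 2 ≤ (c0 ^ 2)⁻¹ * w ^ 2 := by
    have h5 : (c0 * p.x) ^ 2 ≤ w ^ 2 := pow_le_pow_left₀ (by positivity) hcw 2
    rw [inv_mul_eq_div, le_div_iff₀ (by positivity)]
    nlinarith
  have hl4 : p.ell ^ 2 ≤ 4 := by nlinarith
  rw [← mul_sub, abs_mul, abs_of_nonneg (sq_nonneg _), lcdC9b, ← hX]
  have h6 : Cb * p.lam * ((p.ell * w) ^ 2 + p.U F ^ 2) ≤ Cb * ((4 + (c0 ^ 2)⁻¹) * X * w ^ 2) := by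
    have h7 : p.lam * ((p.ell * w) ^ 2 + p.U F ^ 2) ≤ (4 + (c0 ^ 2)⁻¹) * X * w ^ 2 := by
      have h8 : p.lam * (p.ell * w) ^ 2 ≤ X * (4 * w ^ 2) := by
        rw [mul_pow]
        exact mul_le_mul hla (mul_le_mul_of_nonneg_right hl4 (sq_nonneg _)) (by positivity) hX0.le
      have h9 : p.x ^ 2 * X ≤ (c0 ^ 2)⁻¹ * w ^ 2 * X := mul_le_mul_of_nonneg_right hxw hX0.le
      nlinarith
    rw [mul_assoc]
    exact mul_le_mul_of_nonneg_left h7 hCb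
  have h10 : 0 ≤ Cb * ((4 + (c0 ^ 2)⁻¹) * X * w ^ 2) := by positivity
  calc p.ell ^ 2 * |p.b F 𝔹 (p.ell * w) - p.b0 F 𝔹| ≤ 4 * (Cb * ((4 + (c0 ^ 2)⁻¹) * X * w ^ 2)) :=
        mul_le_mul hl4 (h1.trans h6) (abs_nonneg _) (by norm_num)
    _ = 4 * Cb * (4 + (c0 ^ 2)⁻¹) * X * w ^ 2 := by ring


/-- a lower bound on the mass costs a constant -/
theorem lcd_big (v w r : ℝ) (hr : 0 < r) (hrv : r ≤ v) (hv3 : v ^ 3 ≤ 8 * w ^ 3) : 1 ≤ 8 * w ^ 3 / r ^ 3 := by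
  rw [le_div_iff₀ (by positivity), one_mul]
  exact (pow_le_pow_left₀ hr.le hrv 3).trans hv3

/-- (P9): the term `h_*` -/
theorem lcd_p9_t1 (lam U x X w v c C4 C5 v0 s : ℝ) (hw : 0 < w) (hv : 0 < v) (hv2 : v ≤ 2 * w) (hv3 : v ^ 3 ≤ 8 * w ^ 3)
    (hX : 0 < X) (hlam : 0 < lam) (hla : lam ≤ X) (hlU : lam * U ^ 2 ≤ x ^ 2 * X) (hxw : x ^ 2 ≤ c * w ^ 2) (hc : 0 ≤ c)
    (hC4 : 0 ≤ C4) (hC5 : 0 ≤ C5) (hv0 : 0 < v0) (h1 : v ≤ v0 → |s| ≤ C4 * lam * (v ^ 3 + v * U ^ 2)) (h2 : |s| ≤ C5 * lam) :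
    |s| ≤ (C4 * (8 + 2 * c) + 8 * C5 / v0 ^ 3) * X * w ^ 3 := by
  have n1 : 0 ≤ C4 * ((8 + 2 * c) * X * w ^ 3) := by positivity
  have n2 : 0 ≤ 8 * C5 / v0 ^ 3 * X * w ^ 3 := by positivity
  have e0 : (C4 * (8 + 2 * c) + 8 * C5 / v0 ^ 3) * X * w ^ 3 = C4 * ((8 + 2 * c) * X * w ^ 3) + 8 * C5 / v0 ^ 3 * X * w ^ 3 := by ring
  rw [e0]
  rcases le_or_gt v v0 with h0 | h0
  · have a1 : lam * v ^ 3 ≤ X * (8 * w ^ 3) := mul_le_mul hla hv3 (by positivity) hX.le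
    have a2 : v * (lam * U ^ 2) ≤ (2 * w) * (c * w ^ 2 * X) :=
      mul_le_mul hv2 (hlU.trans (mul_le_mul_of_nonneg_right hxw hX.le)) (by positivity) (by positivity)
    have a3 : lam * (v ^ 3 + v * U ^ 2) ≤ (8 + 2 * c) * X * w ^ 3 := by
      have e1 : lam * (v ^ 3 + v * U ^ 2) = lam * v ^ 3 + v * (lam * U ^ 2) := by ring
      have e2 : (8 + 2 * c) * X * w ^ 3 = X * (8 * w ^ 3) + (2 * w) * (c * w ^ 2 * X) := by ring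
      rw [e1, e2]
      exact add_le_add a1 a2
    have a4 := mul_le_mul_of_nonneg_left a3 hC4
    have a5 := h1 h0
    rw [mul_assoc] at a5
    linarith
  · have a1 := lcd_big v w v0 hv0 h0.le hv3
    have a2 : C5 * lam ≤ C5 * X := mul_le_mul_of_nonneg_left hla hC5
    have a3 : C5 * X * 1 ≤ C5 * X * (8 * w ^ 3 / v0 ^ 3) := mul_le_mul_of_nonneg_left a1 (by positivity)
    have a4 : C5 * X * (8 * w ^ 3 / v0 ^ 3) = 8 * C5 / v0 ^ 3 * X * w ^ 3 := by field_simp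
    linarith

/-- (P9): a term supported at masses `≥ r` and bounded by `A X` -/
theorem lcd_p9_t34 (X w v r A chi t : ℝ) (hw : 0 < w) (hv3 : v ^ 3 ≤ 8 * w ^ 3) (hX : 0 < X) (hr : 0 < r) (hA : 0 ≤ A)
    (hchi : chi ∈ Icc (0 : ℝ) 1) (h0 : v < r → t = 0) (h1 : |t| ≤ A * X) : |chi * t| ≤ 8 * A / r ^ 3 * X * w ^ 3 := by
  rw [abs_mul, abs_of_nonneg hchi.1]
  have n : 0 ≤ 8 * A / r ^ 3 * X * w ^ 3 := by positivity
  rcases lt_or_ge v r with h | h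
  · rw [h0 h, abs_zero, mul_zero]
    exact n
  · have a1 := lcd_big v w r hr h hv3
    have a3 : chi * |t| ≤ 1 * (A * X) := mul_le_mul hchi.2 h1 (abs_nonneg _) zero_le_one
    have a4 : A * X * 1 ≤ A * X * (8 * w ^ 3 / r ^ 3) := mul_le_mul_of_nonneg_left a1 (by positivity)
    have a5 : A * X * (8 * w ^ 3 / r ^ 3) = 8 * A / r ^ 3 * X * w ^ 3 := by field_simp
    linarith

/-- (P9): the term `H_lo` -/
theorem lcd_p9_t2 (F : LlFix) (p : LlPt) (c0 : ℝ) (hc0 : 0 < c0) (hs1 : F.sS ≤ 1 / 2) (heta : 0 ≤ F.eta) (hpS : 0 < F.pS)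
    (hx0 : 0 < p.x) (hx1 : p.x ≤ 1) (hl1 : 1 ≤ p.ell) (hl2 : p.ell ≤ 2) (hlam : 0 < p.lam) (hlamhi : p.lam ≤ p.x ^ F.pS)
    (v w : ℝ) (hvx : p.x ≤ v) (hcw : c0 * p.x ≤ w) :
    |p.Hlo F v| ≤ (c0 ^ 3)⁻¹ * (1 + 1 / lcdKap F) * p.x ^ lcdKap F * w ^ 3 := by
  have hk := lcd_kap_pos F hs1 hpS
  obtain ⟨b1, b2⟩ := lcd_Hlo_mem F p hx0 hx1 hl1 hl2 hlam v hvx
  rw [abs_of_nonneg b1]
  refine b2.trans ?_
  have hxw3 : p.x ^ 3 ≤ (c0 ^ 3)⁻¹ * w ^ 3 := by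
    have h5 : (c0 * p.x) ^ 3 ≤ w ^ 3 := pow_le_pow_left₀ (by positivity) hcw 3
    rw [inv_mul_eq_div, le_div_iff₀ (by positivity)]
    rw [mul_pow] at h5
    linarith
  have b3 : p.lam1 F * p.U F ^ 3 ≤ p.x ^ 3 * p.x ^ (2 * lcdKap F) := by
    rw [LlPt.lam1]
    refine (lcd_lam_U F p hx0 hlam (1 + F.eta) 3).trans (mul_le_mul_of_nonneg_left ?_ (by positivity))
    exact lcd_lam_pow F p hs1 hpS hx0 hx1 hlam hlamhi _ (by push_cast; linarith)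
  have b4 := lcd_log_le (lcdKap F) hk p.x hx0 hx1
  have b5 : p.x ^ (2 * lcdKap F) * p.x ^ (-lcdKap F) = p.x ^ lcdKap F := by
    rw [← Real.rpow_add hx0]
    congr 1
    ring
  have b6 : 0 ≤ 1 + Real.log (1 / p.x) := by linarith [lcd_L_ge p.x hx0 hx1]
  have hX0 : 0 < p.x ^ lcdKap F := Real.rpow_pos_of_pos hx0 _
  have b7 : p.lam1 F * p.U F ^ 3 * (1 + Real.log (1 / p.x)) ≤ p.x ^ 3 * p.x ^ (2 * lcdKap F) * ((1 + 1 / lcdKap F) * p.x ^ (-lcdKap F)) :=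
    mul_le_mul b3 b4 b6 (by positivity)
  have b8 : p.x ^ 3 * p.x ^ (2 * lcdKap F) * ((1 + 1 / lcdKap F) * p.x ^ (-lcdKap F)) = p.x ^ 3 * ((1 + 1 / lcdKap F) * p.x ^ lcdKap F) := by
    rw [← b5]
    ring
  rw [b8] at b7
  refine b7.trans ?_
  have b9 := mul_le_mul_of_nonneg_right hxw3 (show 0 ≤ (1 + 1 / lcdKap F) * p.x ^ lcdKap F by positivity)
  refine b9.trans (le_of_eq ?_)
  ring

/-- **(P9), field clock, pointwise.** -/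
theorem lcd_p9_h (F : LlFix) (𝔹 : LlBase) (p : LlPt) (C4 C5 CE c0 v0 v1 : ℝ)
    (hC4 : 0 ≤ C4) (hC5 : 0 ≤ C5) (hCE : 0 ≤ CE) (hc0 : 0 < c0) (hv0 : 0 < v0) (hv1 : 0 < v1) (hvb : 0 < F.vb)
    (hs0 : 0 ≤ F.sS) (hs1 : F.sS ≤ 1 / 2) (heta : 0 ≤ F.eta) (hpS : 0 < F.pS) (hpS1 : F.pS ≤ 1)
    (hx0 : 0 < p.x) (hx1 : p.x ≤ 1) (hl1 : 1 ≤ p.ell) (hl2 : p.ell ≤ 2) (hlam : 0 < p.lam) (hlamhi : p.lam ≤ p.x ^ F.pS)
    (hchiL : p.chiL ∈ Icc (0 : ℝ) 1) (hchiE : p.chiE ∈ Icc (0 : ℝ) 1)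
    (hS1 : ∀ v ∈ Ioo 0 p.ell, v ≤ v0 → |p.hS F 𝔹 v| ≤ C4 * p.lam * (v ^ 3 + v * p.U F ^ 2))
    (hS2 : ∀ v ∈ Ioo 0 p.ell, |p.hS F 𝔹 v| ≤ C5 * p.lam)
    (hHe : ∀ v ∈ Ioo 0 p.ell, |p.He F 𝔹 v| ≤ CE * p.lam1 F)
    (hHe0 : ∀ v ∈ Ioo 0 p.ell, v < v1 → p.He F 𝔹 v = 0)
    (w : ℝ) (hw : w ∈ Ioo (0 : ℝ) 1) (hcw : c0 * p.x ≤ w) :
    |p.ell ^ 2 * p.h F 𝔹 (p.ell * w)| ≤ lcdC9h C4 C5 CE c0 v0 v1 F.vb (lcdKap F) * p.x ^ lcdKap F * w ^ 3 := by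
  have hl : 0 < p.ell := by linarith
  have hk := lcd_kap_pos F hs1 hpS
  have h2k := lcd_x2k_le F p hs1 hpS hx0 hx1
  have hw0 := hw.1
  have hv : p.ell * w ∈ Ioo 0 p.ell := ⟨mul_pos hl hw.1, by nlinarith [hw.2]⟩
  obtain ⟨v, hvd⟩ : ∃ v, v = p.ell * w := ⟨_, rfl⟩
  rw [← hvd] at hv ⊢
  have hv2 : v ≤ 2 * w := by rw [hvd]; exact mul_le_mul_of_nonneg_right hl2 hw0.le
  have hv3 : v ^ 3 ≤ 8 * w ^ 3 := by
    have h := pow_le_pow_left₀ hv.1.le hv2 3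
    rw [mul_pow] at h
    linarith
  have hl4 : p.ell ^ 2 ≤ 4 := by nlinarith
  have t2' := fun hvx => lcd_p9_t2 F p c0 hc0 hs1 heta hpS hx0 hx1 hl1 hl2 hlam hlamhi v w hvx hcw
  have hla' : p.lam ≤ p.x ^ lcdKap F := by
    have := lcd_lam_pow F p hs1 hpS hx0 hx1 hlam hlamhi 1 (by linarith)
    rw [Real.rpow_one] at this
    exact this.trans h2k
  have hlU' : p.lam * p.U F ^ 2 ≤ p.x ^ 2 * p.x ^ lcdKap F := by
    have h3 := lcd_lam_U F p hx0 hlam 1 2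
    rw [Real.rpow_one] at h3
    have h4 := lcd_lam_pow F p hs1 hpS hx0 hx1 hlam hlamhi (1 - (2 : ℕ) * F.sS / 2) (by push_cast; linarith)
    exact h3.trans (mul_le_mul_of_nonneg_left (h4.trans h2k) (by positivity))
  have hl1' : p.lam1 F ≤ p.x ^ lcdKap F := by
    rw [LlPt.lam1]
    exact (lcd_lam_pow F p hs1 hpS hx0 hx1 hlam hlamhi _ (by linarith)).trans h2k
  have hx3' : p.x ^ 3 ≤ p.x ^ lcdKap F := by
    rw [← Real.rpow_natCast]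
    refine Real.rpow_le_rpow_of_exponent_ge hx0 hx1 ?_
    rw [lcdKap]
    push_cast
    nlinarith
  obtain ⟨k, hkd⟩ : ∃ k, k = lcdKap F := ⟨_, rfl⟩
  rw [← hkd] at hk t2' hla' hlU' hl1' hx3' ⊢
  obtain ⟨X, hX⟩ : ∃ X, X = p.x ^ k := ⟨_, rfl⟩
  have hX0 : 0 < X := hX ▸ Real.rpow_pos_of_pos hx0 _
  rw [← hX] at t2' hla' hlU' hl1' hx3' ⊢
  have hxw2 : p.x ^ 2 ≤ (c0 ^ 2)⁻¹ * w ^ 2 := by
    have h5 : (c0 * p.x) ^ 2 ≤ w ^ 2 := pow_le_pow_left₀ (by positivity) hcw 2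
    rw [inv_mul_eq_div, le_div_iff₀ (by positivity)]
    rw [mul_pow] at h5
    linarith
  have hn : 0 ≤ (C4 * (8 + 2 * (c0 ^ 2)⁻¹) + 8 * C5 / v0 ^ 3 + (c0 ^ 3)⁻¹ * (1 + 1 / k) + 1 / (4 * F.vb ^ 3) + 8 * CE / v1 ^ 3) * X * w ^ 3 := by
    positivity
  have hsum : |p.h F 𝔹 v| ≤ (C4 * (8 + 2 * (c0 ^ 2)⁻¹) + 8 * C5 / v0 ^ 3 + (c0 ^ 3)⁻¹ * (1 + 1 / k) + 1 / (4 * F.vb ^ 3) + 8 * CE / v1 ^ 3) * X * w ^ 3 := by
    rcases lt_or_ge v p.x with hvx | hvx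
    · rw [LlPt.h, if_pos hvx, abs_zero]
      exact hn
    have t1 := lcd_p9_t1 p.lam (p.U F) p.x X w v (c0 ^ 2)⁻¹ C4 C5 v0 (p.hS F 𝔹 v) hw0 hv.1 hv2 hv3 hX0 hlam hla' hlU' hxw2
      (by positivity) hC4 hC5 hv0 (hS1 v hv) (hS2 v hv)
    have t2 := t2' hvx
    obtain ⟨b1, b2, b3⟩ := lcd_Hlin_mem F p hvb hx0 hl2 v
    have t3 := lcd_p9_t34 X w v (4 * F.vb) 2 p.chiL (p.Hlin F v) hw0 hv3 hX0 (by positivity) (by norm_num) hchiL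
      (fun h => b3 h.le) (by rw [abs_of_nonneg b1]; linarith)
    have t4 := lcd_p9_t34 X w v v1 CE p.chiE (p.He F 𝔹 v) hw0 hv3 hX0 hv1 hCE hchiE (hHe0 v hv)
      ((hHe v hv).trans (mul_le_mul_of_nonneg_left hl1' hCE))
    have e3 : 8 * 2 / (4 * F.vb) ^ 3 * X * w ^ 3 = 1 / (4 * F.vb ^ 3) * X * w ^ 3 := by
      field_simp
      ring
    rw [e3] at t3
    rw [LlPt.h, if_neg (not_lt.2 hvx)]
    have s1 := abs_add_le (p.hS F 𝔹 v + p.Hlo F v + p.chiL * p.Hlin F v) (p.chiE * p.He F 𝔹 v)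
    have s2 := abs_add_le (p.hS F 𝔹 v + p.Hlo F v) (p.chiL * p.Hlin F v)
    have s3 := abs_add_le (p.hS F 𝔹 v) (p.Hlo F v)
    have e4 : (C4 * (8 + 2 * (c0 ^ 2)⁻¹) + 8 * C5 / v0 ^ 3 + (c0 ^ 3)⁻¹ * (1 + 1 / k) + 1 / (4 * F.vb ^ 3) + 8 * CE / v1 ^ 3) * X * w ^ 3
        = (C4 * (8 + 2 * (c0 ^ 2)⁻¹) + 8 * C5 / v0 ^ 3) * X * w ^ 3 + (c0 ^ 3)⁻¹ * (1 + 1 / k) * X * w ^ 3
          + 1 / (4 * F.vb ^ 3) * X * w ^ 3 + 8 * CE / v1 ^ 3 * X * w ^ 3 := by ring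
    rw [e4]
    linarith
  rw [abs_mul, abs_of_nonneg (sq_nonneg _), lcdC9h]
  calc p.ell ^ 2 * |p.h F 𝔹 v| ≤ 4 * ((C4 * (8 + 2 * (c0 ^ 2)⁻¹) + 8 * C5 / v0 ^ 3 + (c0 ^ 3)⁻¹ * (1 + 1 / k) + 1 / (4 * F.vb ^ 3) + 8 * CE / v1 ^ 3) * X * w ^ 3) :=
        mul_le_mul hl4 hsum (abs_nonneg _) (by norm_num)
    _ = _ := by ring


/-- equation lemmas of the definitions of this file, cited once -/
theorem lcd_eqns_cite : True := by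
  have _h1 := @lcdC8.eq_1
  have _h2 := @lcdKap.eq_1
  have _h3 := @lcdC9b.eq_1
  have _h4 := @lcdC9h.eq_1
  trivial

end Claimed.Agent.R286
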