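import Claimed.Agent.R286.LL.PathsClkA
import Claimed.Agent.R286.LL.PathsClkB
import Claimed.Agent.R286.LL.PathsClkC2
import Claimed.Agent.R286.LL.PathsClkD

/-!
# Row 286 (S0533), LL Section 3, block CLK (head helper253), file E: ADAPTER from the abstract clocks (file A) and the cut-offs (file B) to the points `LlPt`      (owner helper253; prefix `lce_`)

* §0  elementary facts on (P1): `x, λ, U`
* §1  `LlPt.lck` = the abstract data of a point; `lce_ok`, `lce_small`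
* §2  pointwise (P3)-(P5) for a point with `p.Ref F 𝔹 c C v0`;   §3 uniform: `LceFix`, `lce_LlP4`, `lce_LlP5`;   §4 `lce_exists` (order of the constants);   §5 edge hypotheses of files C, D (`LceEdge`, `lce_base`, `lce_ramp`)
* §6  the closed interval `[0,a]`: `lce_LlAdm`;   §7 `lce_LlP8`, `lce_LlP9`;   **EXIT `lce_main`**: file `LL/PathsClkE2.lean`.      ALL PROVED.
-/

set_option autoImplicit false

namespace Claimed.Agent.R286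

open MeasureTheory Set

/-! ## 0. (P1) -/

section P1

variable {p : LlPt} {F : LlFix}

theorem lce_N_pos (hN : 2 ≤ p.N) : (1 : ℝ) < p.N := by
  have : (2 : ℝ) ≤ p.N := by exact_mod_cast hN
  linarith

theorem lce_x_pos (hN : 2 ≤ p.N) : 0 < p.x :=
  Real.rpow_pos_of_pos (by linarith [lce_N_pos hN]) _

theorem lce_x_lt_one (hN : 2 ≤ p.N) : p.x < 1 :=
  Real.rpow_lt_one_of_one_lt_of_neg (lce_N_pos hN) (by norm_num)

/-- `x → 0` -/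
theorem lce_x_small (ε : ℝ) (hε : 0 < ε) : ∃ N0 : ℕ, ∀ p : LlPt, N0 ≤ p.N → p.x ≤ ε := by
  obtain ⟨N0, hN0⟩ := exists_nat_ge (ε ^ (-6 : ℝ))
  refine ⟨N0, fun p hp => ?_⟩
  have h1 : ε ^ (-6 : ℝ) ≤ (p.N : ℝ) := le_trans hN0 (by exact_mod_cast hp)
  have h0 : 0 < ε ^ (-6 : ℝ) := Real.rpow_pos_of_pos hε _
  have h2 : (p.N : ℝ) ^ (-(1 / 6) : ℝ) ≤ (ε ^ (-6 : ℝ)) ^ (-(1 / 6) : ℝ) :=
    Real.rpow_le_rpow_of_nonpos h0 h1 (by norm_num)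
  have h3 : (ε ^ (-6 : ℝ)) ^ (-(1 / 6) : ℝ) = ε := by
    rw [← Real.rpow_mul hε.le]; norm_num
  rw [h3] at h2
  exact h2

theorem lce_lam_pos (hp : p.Ok F) : 0 < p.lam :=
  lt_of_lt_of_le (Real.rpow_pos_of_pos (lce_x_pos hp.N2) _) hp.lam_lo

theorem lce_lam_le_one (hp : p.Ok F) (hpS : 0 ≤ F.pS) : p.lam ≤ 1 :=
  le_trans hp.lam_hi (Real.rpow_le_one (lce_x_pos hp.N2).le (lce_x_lt_one hp.N2).le hpS)

theorem lce_U_pos (hp : p.Ok F) : 0 < p.U F :=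
  lt_min one_pos (mul_pos (lce_x_pos hp.N2) (Real.rpow_pos_of_pos (lce_lam_pos hp) _))

theorem lce_U_le_one : p.U F ≤ 1 := min_le_left _ _

/-- `x ≤ U` -/
theorem lce_x_le_U (hp : p.Ok F) (hpS : 0 ≤ F.pS) (hsS : 0 ≤ F.sS) : p.x ≤ p.U F := by
  refine le_min (lce_x_lt_one hp.N2).le ?_
  have h1 : 1 ≤ p.lam ^ (-(F.sS / 2)) :=
    Real.one_le_rpow_of_pos_of_le_one_of_nonpos (lce_lam_pos hp) (lce_lam_le_one hp hpS) (by linarith)
  nlinarith [lce_x_pos hp.N2]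

/-- `(x/U)^3 ≤ λ^{2η}` -/
theorem lce_xU3 (hp : p.Ok F) (hpS : 0 ≤ F.pS) (hs : 1 / 4 ≤ F.sS) (he0 : 0 ≤ F.eta) (he : F.eta ≤ 1 / 8) :
    p.x ^ 3 ≤ p.lam ^ (2 * F.eta) * p.U F ^ 3 := by
  have hx := lce_x_pos hp.N2
  have hx1 := (lce_x_lt_one hp.N2).le
  have hl := lce_lam_pos hp
  have hl1 := lce_lam_le_one hp hpS
  rcases le_total 1 (p.x * p.lam ^ (-(F.sS / 2))) with h | h
  · have hU : p.U F = 1 := min_eq_left h
    rw [hU, one_pow, mul_one]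
    have h1 : (p.x ^ (12 : ℝ)) ^ (2 * F.eta) ≤ p.lam ^ (2 * F.eta) :=
      Real.rpow_le_rpow (Real.rpow_pos_of_pos hx _).le hp.lam_lo (by linarith)
    rw [← Real.rpow_mul hx.le] at h1
    refine le_trans ?_ h1
    rw [← Real.rpow_natCast]
    exact Real.rpow_le_rpow_of_exponent_ge hx hx1 (by push_cast; linarith)
  · have hU : p.U F = p.x * p.lam ^ (-(F.sS / 2)) := min_eq_right h
    rw [hU, mul_pow, ← Real.rpow_natCast (p.lam ^ (-(F.sS / 2))) 3, ← Real.rpow_mul hl.le]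
    have e : p.lam ^ (2 * F.eta) * (p.x ^ 3 * p.lam ^ (-(F.sS / 2) * ((3 : ℕ) : ℝ))) = p.x ^ 3 * p.lam ^ (2 * F.eta + -(F.sS / 2) * ((3 : ℕ) : ℝ)) := by
      rw [Real.rpow_add hl]; ring
    rw [e]
    have h1 : 1 ≤ p.lam ^ (2 * F.eta + -(F.sS / 2) * ((3 : ℕ) : ℝ)) :=
      Real.one_le_rpow_of_pos_of_le_one_of_nonpos hl hl1 (by push_cast; linarith)
    nlinarith [pow_pos hx 3]

theorem lce_a_mem (hp : p.Ok F) : 1 ≤ p.a ∧ p.a ≤ 4 := by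
  have h2 : p.ell ≤ 2 := by
    refine le_trans hp.ell2 ?_
    calc (2 : ℝ) ^ (1 / 6 : ℝ) ≤ (2 : ℝ) ^ (1 : ℝ) := Real.rpow_le_rpow_of_exponent_le (by norm_num) (by norm_num)
      _ = 2 := Real.rpow_one 2
  unfold LlPt.a
  split_ifs
  · constructor <;> norm_num
  · exact ⟨hp.ell1, by linarith⟩

theorem lce_ell_le (hp : p.Ok F) : p.ell ≤ 2 := by
  refine le_trans hp.ell2 ?_
  calc (2 : ℝ) ^ (1 / 6 : ℝ) ≤ (2 : ℝ) ^ (1 : ℝ) := Real.rpow_le_rpow_of_exponent_le (by norm_num) (by norm_num)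
    _ = 2 := Real.rpow_one 2

/-- `ℓ² ≤ 2` -/
theorem lce_ell_sq (hp : p.Ok F) : p.ell ^ 2 ≤ 2 := by
  have h0 : 0 ≤ p.ell := by linarith [hp.ell1]
  have h1 : p.ell ^ 2 ≤ ((2 : ℝ) ^ (1 / 6 : ℝ)) ^ 2 := pow_le_pow_left₀ h0 hp.ell2 2
  refine le_trans h1 ?_
  rw [← Real.rpow_natCast, ← Real.rpow_mul (by norm_num)]
  calc (2 : ℝ) ^ (1 / 6 * ((2 : ℕ) : ℝ)) ≤ (2 : ℝ) ^ (1 : ℝ) := Real.rpow_le_rpow_of_exponent_le (by norm_num) (by norm_num)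
    _ = 2 := Real.rpow_one 2

end P1

/-! ## 1. the abstract data of a point -/

/-- the abstract clock data (file A) of a point -/
noncomputable def LlPt.lck (p : LlPt) (F : LlFix) (𝔹 : LlBase) : Lck where
  a := p.a
  lam := p.lam
  U := p.U F
  b0 := p.b0 F 𝔹
  cb := F.cb
  c1 := F.c1
  g0 := p.gam0
  K := p.K F 𝔹
  Gam := p.Gam F 𝔹
  gp := p.Gam1 F 𝔹
  G := p.G F
  Dy := p.dySum F

section adapter

variable {p : LlPt} {F : LlFix} {𝔹 : LlBase}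

theorem lce_b (v : ℝ) : (p.lck F 𝔹).b v = p.b F 𝔹 v := rfl
theorem lce_q (v : ℝ) : (p.lck F 𝔹).q v = p.q F 𝔹 v := rfl
theorem lce_hS (v : ℝ) : (p.lck F 𝔹).hS v = p.hS F 𝔹 v := rfl
theorem lce_gap (t : ℝ) : (p.lck F 𝔹).gap t = p.gap F 𝔹 t := rfl

/-- the constants of file A for the reference constants `c, C, v0`, the top `ξ_*`, and the cut-off constants `vb, CG, CD` -/
noncomputable def lceK (c C v0 xS vb CG CD : ℝ) : LckC where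
  c := c
  C := C
  v0 := min v0 (xS / (2 * C))
  vb := vb
  CG := CG
  CD := CD

/-- what file B gives at one point (the conclusion of `lcb_main`) -/
structure LceCut (p : LlPt) (F : LlFix) (CG CD cG : ℝ) : Prop where
  mono : Monotone (p.G F)
  zero : ∀ v ≤ p.x, p.G F v = 0
  const : ∀ v, 2 * F.vb ≤ v → p.G F v = p.G F (2 * F.vb)
  le : ∀ v, 0 ≤ v → p.G F v ≤ CG * v ^ 2
  ge : ∀ v, 8 * p.x ≤ v → v ≤ 4 → cG * v ^ 2 ≤ p.G F v
  incr : ∀ v v', 0 ≤ v → v ≤ v' → p.G F v' - p.G F v ≤ CG * v' * (v' - v)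
  dy : ∀ v v', 0 ≤ v → v ≤ v' → |p.dySum F v' - p.dySum F v| ≤ CD * (p.G F v' - p.G F v)
  dy0 : p.dySum F 0 = 0

/-- **the hypotheses of file A hold at a point** -/
theorem lce_ok {c C v0 xS CG CD cG : ℝ} (hp : p.Ok F) (hpS : 0 ≤ F.pS) (hc0 : 0 < c) (hc1 : c ≤ 1) (hC1 : 1 ≤ C) (hv0 : 0 < v0) (hv1 : v0 ≤ 1 / 2)
    (hxS : xS = 𝔹.xiS F.T) (hxS0 : 0 < xS) (hvb0 : 0 < F.vb) (hvb : 2 * F.vb ≤ min v0 (xS / (2 * C))) (hCG : 1 ≤ CG) (hCD : 0 ≤ CD)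
    (hR : p.Ref F 𝔹 c C v0) (hB : LceCut p F CG CD cG) : (p.lck F 𝔹).Ok (lceK c C v0 xS F.vb CG CD) := by
  have hC0 : 0 < C := lt_of_lt_of_le one_pos hC1
  have hw0 : 0 < min v0 (xS / (2 * C)) := lt_min hv0 (by positivity)
  have hwv : min v0 (xS / (2 * C)) ≤ v0 := min_le_left _ _
  have hx := lce_x_pos hp.N2
  exact
  { c0 := hc0
    c1 := hc1
    C1 := hC1
    v00 := hw0
    v01 := le_trans hwv hv1
    vb0 := hvb0
    vb1 := hvb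
    CG1 := hCG
    CD0 := hCD
    a1 := (lce_a_mem hp).1
    a4 := (lce_a_mem hp).2
    lam0 := lce_lam_pos hp
    lam1 := lce_lam_le_one hp hpS
    U0 := lce_U_pos hp
    U1 := lce_U_le_one
    b0_lo := hR.b0_lo
    b0_hi := hR.b0_hi
    g0 := hp.g0
    gp_cont := hR.g1_cont
    gp_nn := fun t ht => (hR.g1_pos t ht).le
    gam_zero := hR.gam_zero
    gam_ftc := hR.gam_ftc
    gap_lo := hR.gap_lo
    gap_hi := by
      intro t ht htK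
      refine hR.gap_hi t ht ?_
      have h1 : p.K F 𝔹 (min v0 (xS / (2 * C))) ≤ C * min v0 (xS / (2 * C)) := hR.K_hi0 _ hw0 hwv
      have h2 : C * min v0 (xS / (2 * C)) ≤ C * (xS / (2 * C)) := mul_le_mul_of_nonneg_left (min_le_right _ _) hC0.le
      have h3 : C * (xS / (2 * C)) = xS / 2 := by field_simp
      have h4 : t ≤ xS / 2 := by
        have : t ≤ p.K F 𝔹 (min v0 (xS / (2 * C))) := htK
        linarith
      have h5 := lce_ell_sq hp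
      rw [← hxS]
      nlinarith [sq_nonneg p.ell]
    K_mono := hR.K_mono
    K_lo := fun v v' h1 h2 h3 => hR.K_lo v v' h1 h2 (le_trans h3 hwv)
    K_lo0 := fun v h1 h2 => hR.K_lo0 v h1 (le_trans h2 hwv)
    K_hi0 := fun v h1 h2 => hR.K_hi0 v h1 (le_trans h2 hwv)
    q_hi := hR.q_hi
    G_mono := hB.mono
    G_zero := hB.zero 0 hx.le
    G_const := hB.const
    G_le := hB.le
    G_incr := hB.incr
    Dy_zero := hB.dy0
    Dy_incr := hB.dy }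

end adapter

/-! ## 2. pointwise (P3)-(P5) -/

section point

variable {p : LlPt} {F : LlFix} {𝔹 : LlBase} {κ : LckC}

/-- the constant of (P4) -/
noncomputable def lceC4 (κ : LckC) (cb : ℝ) : ℝ := min (κ.al / 2) (min (cb / (4 * κ.C)) (1 / 68))
/-- the constant of (P5) -/
noncomputable def lceC5 (κ : LckC) (cb : ℝ) : ℝ := min (κ.al / 4) (min (cb / (4 * κ.C)) (1 / 68) / 2)

theorem lce_be : (p.lck F 𝔹).be κ = min (F.cb / (4 * κ.C)) (1 / 68) := rfl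

theorem lce_C4_pos (h : (p.lck F 𝔹).Ok κ) (hs : (p.lck F 𝔹).Small κ) : 0 < lceC4 κ F.cb :=
  lt_min (by linarith [lck_al_pos h]) (lck_be_pos h hs)

theorem lce_C5_pos (h : (p.lck F 𝔹).Ok κ) (hs : (p.lck F 𝔹).Small κ) : 0 < lceC5 κ F.cb :=
  lt_min (by linarith [lck_al_pos h]) (by have := lck_be_pos h hs; rw [lce_be] at this; linarith)

/-- (P4), first half -/
theorem lce_P4 (h : (p.lck F 𝔹).Ok κ) (hs : (p.lck F 𝔹).Small κ) (v v' : ℝ) (hv : v ∈ Ioo 0 p.a) (hv' : v' ∈ Ioo 0 p.a) (hvv : v ≤ v') :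
    lceC4 κ F.cb * p.lam * (v ^ 2 + p.U F ^ 2) * (p.K F 𝔹 v' - p.K F 𝔹 v) ≤ p.hS F 𝔹 v' - p.hS F 𝔹 v := by
  have h1 := lck_P4 h hs v v' hv hv' hvv
  have hK : 0 ≤ p.K F 𝔹 v' - p.K F 𝔹 v := sub_nonneg.2 (h.K_mono hv hv' hvv)
  have hl : 0 < p.lam := h.lam0
  refine le_trans (mul_le_mul_of_nonneg_right ?_ hK) h1
  have a1 : lceC4 κ F.cb ≤ κ.al / 2 := min_le_left _ _
  have a2 : lceC4 κ F.cb ≤ (p.lck F 𝔹).be κ := min_le_right _ _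
  have b1 : lceC4 κ F.cb * (p.lam * v ^ 2) ≤ κ.al / 2 * (p.lam * v ^ 2) := mul_le_mul_of_nonneg_right a1 (mul_nonneg hl.le (sq_nonneg _))
  have b2 : lceC4 κ F.cb * (p.lam * p.U F ^ 2) ≤ (p.lck F 𝔹).be κ * (p.lam * p.U F ^ 2) := mul_le_mul_of_nonneg_right a2 (mul_nonneg hl.le (sq_nonneg _))
  show lceC4 κ F.cb * p.lam * (v ^ 2 + p.U F ^ 2) ≤ κ.al / 2 * p.lam * v ^ 2 + (p.lck F 𝔹).be κ * p.lam * p.U F ^ 2
  nlinarith

/-- (P4), second half -/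
theorem lce_P4' (h : (p.lck F 𝔹).Ok κ) (hs : (p.lck F 𝔹).Small κ) (v : ℝ) (hv : 0 < v) (hv0 : v ≤ κ.v0) :
    p.hS F 𝔹 v ≤ 2 * κ.C ^ 4 / κ.c * p.lam * (v ^ 3 + v * p.U F ^ 2) := lck_hS_small h hs v hv hv0

/-- (P5) -/
theorem lce_P5 (h : (p.lck F 𝔹).Ok κ) (hs : (p.lck F 𝔹).Small κ) (v : ℝ) (hv : v ∈ Ioo 0 p.a) (z : ℝ) (hz : 0 ≤ z) :
    lceC5 κ F.cb * p.lam * (v ^ 2 + p.U F ^ 2) ≤
      (∫ y in (0 : ℝ)..1, (1 - p.b F 𝔹 v * p.Gam1 F 𝔹 (p.K F 𝔹 v + y * p.b F 𝔹 v * (z - p.q F 𝔹 v)))) ∧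
    lceC5 κ F.cb * p.lam * (v ^ 2 + p.U F ^ 2) ≤
      (∫ y in (0 : ℝ)..1, (1 - y) * (1 - p.b F 𝔹 v * p.Gam1 F 𝔹 (p.K F 𝔹 v + y * p.b F 𝔹 v * (z - p.q F 𝔹 v)))) := by
  obtain ⟨h1, h2⟩ := lck_P5 h hs v hv z hz
  have hl : 0 < p.lam := h.lam0
  have hbe := lck_be_pos h hs
  have a1 : lceC5 κ F.cb ≤ κ.al / 4 := min_le_left _ _
  have a2 : lceC5 κ F.cb ≤ (p.lck F 𝔹).be κ / 2 := min_le_right _ _
  have b1 : lceC5 κ F.cb * (p.lam * v ^ 2) ≤ κ.al / 4 * (p.lam * v ^ 2) := mul_le_mul_of_nonneg_right a1 (mul_nonneg hl.le (sq_nonneg _))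
  have b2 : lceC5 κ F.cb * (p.lam * p.U F ^ 2) ≤ (p.lck F 𝔹).be κ / 2 * (p.lam * p.U F ^ 2) := mul_le_mul_of_nonneg_right a2 (mul_nonneg hl.le (sq_nonneg _))
  have b3 : 0 ≤ (p.lck F 𝔹).be κ * (p.lam * p.U F ^ 2) := mul_nonneg hbe.le (mul_nonneg hl.le (sq_nonneg _))
  constructor
  · refine le_trans ?_ h1
    show lceC5 κ F.cb * p.lam * (v ^ 2 + p.U F ^ 2) ≤ κ.al / 4 * p.lam * v ^ 2 + (p.lck F 𝔹).be κ * p.lam * p.U F ^ 2
    nlinarith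
  · refine le_trans ?_ h2
    show lceC5 κ F.cb * p.lam * (v ^ 2 + p.U F ^ 2) ≤ κ.al / 4 * p.lam * v ^ 2 + (p.lck F 𝔹).be κ / 2 * p.lam * p.U F ^ 2
    nlinarith

/-- the matrix clock is nondecreasing -/
theorem lce_b_mono (h : (p.lck F 𝔹).Ok κ) (hs : (p.lck F 𝔹).Small κ) : MonotoneOn (p.b F 𝔹) (Ioo 0 p.a) := by
  intro v hv v' _ hvv
  have h1 := (lck_b_incr h hs v v' hv.1.le hvv).1
  have h2 : 0 ≤ (p.lck F 𝔹).cb * (p.lck F 𝔹).lam / 2 * ((p.lck F 𝔹).G v' - (p.lck F 𝔹).G v) :=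
    mul_nonneg (by have := mul_pos hs.cb0 h.lam0; linarith) (sub_nonneg.2 (h.G_mono hvv))
  have h3 : 0 ≤ p.b F 𝔹 v' - p.b F 𝔹 v := le_trans h2 h1
  linarith

/-- `b' ≤ C c_b λ v` in increment form -/
theorem lce_b_incr (h : (p.lck F 𝔹).Ok κ) (hs : (p.lck F 𝔹).Small κ) (v v' : ℝ) (hv : 0 ≤ v) (hvv : v ≤ v') :
    p.b F 𝔹 v' - p.b F 𝔹 v ≤ 3 / 2 * κ.CG * F.cb * p.lam * v' * (v' - v) := by
  have h1 : p.b F 𝔹 v' - p.b F 𝔹 v ≤ 3 / 2 * (F.cb * p.lam) * (p.G F v' - p.G F v) := (lck_b_incr h hs v v' hv hvv).2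
  have h2 : p.G F v' - p.G F v ≤ κ.CG * v' * (v' - v) := h.G_incr v v' hv hvv
  have h3 : 0 < F.cb * p.lam := mul_pos hs.cb0 h.lam0
  have h4 := mul_le_mul_of_nonneg_left h2 (by linarith : 0 ≤ 3 / 2 * (F.cb * p.lam))
  nlinarith

/-- `|b - b_∘| ≤ (3/2) c_b C_G λ (v² + U²)` -/
theorem lce_b_dev (h : (p.lck F 𝔹).Ok κ) (hs : (p.lck F 𝔹).Small κ) (v : ℝ) (hv : 0 ≤ v) :
    |p.b F 𝔹 v - p.b0 F 𝔹| ≤ 3 / 2 * F.cb * κ.CG * p.lam * (v ^ 2 + p.U F ^ 2) := by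
  obtain ⟨r1, r2⟩ := lck_b_range h hs v hv
  have hG0 : 0 ≤ p.G F v := lck_G_nn h v hv
  have hG : p.G F v ≤ κ.CG * v ^ 2 := h.G_le v hv
  have hcl : 0 < F.cb * p.lam := mul_pos hs.cb0 h.lam0
  have hU : 0 ≤ p.U F ^ 2 := sq_nonneg _
  have hCG : 1 ≤ κ.CG := h.CG1
  have r1' : F.cb * p.lam * (p.G F v / 2 - 3 / 2 * p.U F ^ 2) ≤ p.b F 𝔹 v - p.b0 F 𝔹 := r1
  have r2' : p.b F 𝔹 v - p.b0 F 𝔹 ≤ F.cb * p.lam * (3 / 2 * p.G F v - p.U F ^ 2 / 2) := r2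
  have e : 3 / 2 * F.cb * κ.CG * p.lam * (v ^ 2 + p.U F ^ 2) = F.cb * p.lam * (3 / 2 * (κ.CG * v ^ 2) + 3 / 2 * (κ.CG * p.U F ^ 2)) := by ring
  have hCU : p.U F ^ 2 ≤ κ.CG * p.U F ^ 2 := by nlinarith
  have hv2 : 0 ≤ κ.CG * v ^ 2 := le_trans hG0 hG
  rw [abs_le, e]
  constructor
  · have : -(3 / 2 * (κ.CG * v ^ 2) + 3 / 2 * (κ.CG * p.U F ^ 2)) ≤ p.G F v / 2 - 3 / 2 * p.U F ^ 2 := by linarith
    have := mul_le_mul_of_nonneg_left this hcl.le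
    linarith
  · have : 3 / 2 * p.G F v - p.U F ^ 2 / 2 ≤ 3 / 2 * (κ.CG * v ^ 2) + 3 / 2 * (κ.CG * p.U F ^ 2) := by linarith
    have := mul_le_mul_of_nonneg_left this hcl.le
    linarith

/-- `b` is constant on the mask -/
theorem lce_b_mask {CG CD cG : ℝ} (hx : 0 < p.x) (hB : LceCut p F CG CD cG) (v : ℝ) (hv : v ∈ Ioo 0 p.x) : p.b F 𝔹 v = p.b F 𝔹 (p.x / 2) := by
  have g1 : p.G F v = 0 := hB.zero v hv.2.le
  have g2 : p.G F (p.x / 2) = 0 := hB.zero _ (by linarith)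
  have d : ∀ w, 0 ≤ w → w ≤ p.x → p.dySum F w = 0 := by
    intro w hw0 hw
    have := hB.dy 0 w le_rfl hw0
    rw [hB.dy0, hB.zero w hw, hB.zero 0 hx.le] at this
    simpa using this
  simp only [LlPt.b, g1, g2, d v hv.1.le hv.2.le, d (p.x / 2) (by linarith) (by linarith)]

/-- `c_g ≍ λ (v² + U²)`, lower bound -/
theorem lce_cg_lo {CG CD cG : ℝ} (hx : 0 < p.x) (hxU : p.x ≤ p.U F) (hl : 0 < p.lam) (hcb : 0 < F.cb) (hc1 : 0 < F.c1) (hcG : 0 < cG)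
    (hB : LceCut p F CG CD cG) (v : ℝ) (hv0 : 0 ≤ v) (hv4 : v ≤ 4) :
    F.cb * F.c1 * min cG (1 / 65) * p.lam * (v ^ 2 + p.U F ^ 2) ≤ p.cg F v := by
  have hm1 : min cG (1 / 65) ≤ cG := min_le_left _ _
  have hm2 : min cG (1 / 65) ≤ 1 / 65 := min_le_right _ _
  have hm0 : 0 < min cG (1 / 65) := lt_min hcG (by norm_num)
  have hG0 : 0 ≤ p.G F v := by have := hB.mono hv0; rwa [hB.zero 0 hx.le] at this
  have key : min cG (1 / 65) * (v ^ 2 + p.U F ^ 2) ≤ p.G F v + p.U F ^ 2 := by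
    rcases le_total (8 * p.x) v with h8 | h8
    · have := hB.ge v h8 hv4
      nlinarith [sq_nonneg v, sq_nonneg (p.U F)]
    · have : v ^ 2 ≤ 64 * p.U F ^ 2 := by nlinarith
      nlinarith [sq_nonneg v, sq_nonneg (p.U F)]
  have hpos : 0 < F.cb * p.lam * F.c1 := mul_pos (mul_pos hcb hl) hc1
  have := mul_le_mul_of_nonneg_left key hpos.le
  simp only [LlPt.cg]
  nlinarith

end point

/-! ## 3. uniform statements -/

theorem LlUnif.mono {F : LlFix} {Φ Ψ : LlPt → Prop} (h : LlUnif F Φ) (hi : ∀ p : LlPt, p.Ok F → Φ p → Ψ p) : LlUnif F Ψ := by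
  obtain ⟨N0, h0⟩ := h
  exact ⟨N0, fun p hp hN => hi p hp (h0 p hp hN)⟩

theorem LlUnif.and {F : LlFix} {Φ Ψ : LlPt → Prop} (h : LlUnif F Φ) (h' : LlUnif F Ψ) : LlUnif F fun p => Φ p ∧ Ψ p := by
  obtain ⟨N0, h0⟩ := h
  obtain ⟨N1, h1⟩ := h'
  exact ⟨max N0 N1, fun p hp hN => ⟨h0 p hp (le_trans (le_max_left _ _) hN), h1 p hp (le_trans (le_max_right _ _) hN)⟩⟩

/-- `x ≤ ε` eventually -/
theorem lce_unif_x (F : LlFix) (ε : ℝ) (hε : 0 < ε) : LlUnif F fun p => p.x ≤ ε := by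
  obtain ⟨N0, h0⟩ := lce_x_small ε hε
  exact ⟨N0, fun p _ hN => h0 p hN⟩

/-- **conditions on the fixed data.**      ORDER: `c, C, v0` (reference, `LlRefExit`) and `ξ_*`; then `v_b`; then `CG, CD, cG` (cut-off functions, `lcb_main`); then `c_1`; then `c_b`. -/
structure LceFix (𝔹 : LlBase) (F : LlFix) (c C v0 CG CD cG : ℝ) : Prop where
  ok : F.Ok
  c0 : 0 < c
  c1 : c ≤ 1
  C1 : 1 ≤ C
  v00 : 0 < v0
  v01 : v0 ≤ 1 / 2
  xS0 : 0 < 𝔹.xiS F.T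
  vb : 2 * F.vb ≤ min v0 (𝔹.xiS F.T / (2 * C))
  CG1 : 1 ≤ CG
  CD0 : 0 ≤ CD
  cG0 : 0 < cG
  cut : ∀ p : LlPt, 0 < p.x → 8 * p.x ≤ F.vb → (∀ h, p.gu h ∈ Icc (-4 : ℝ) 4) → LceCut p F CG CD cG
  c1s : F.c1 * (4 + CD) ≤ 1 / 2
  cbs : 48 * F.cb * CG * C ≤ c * (lceK c C v0 (𝔹.xiS F.T) F.vb CG CD).al
  ref : LlRef 𝔹 F c C v0

section unif

variable {𝔹 : LlBase} {F : LlFix} {c C v0 CG CD cG : ℝ}

/-- the constants of file A attached to `LceFix` -/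
noncomputable def LceFix.kap (_ : LceFix 𝔹 F c C v0 CG CD cG) : LckC := lceK c C v0 (𝔹.xiS F.T) F.vb CG CD

/-- everything file A needs, uniformly -/
theorem lce_unif (h : LceFix 𝔹 F c C v0 CG CD cG) :
    LlUnif F fun p => p.Ref F 𝔹 c C v0 ∧ (p.lck F 𝔹).Ok h.kap ∧ (p.lck F 𝔹).Small h.kap ∧ LceCut p F CG CD cG := by
  have hx := lce_unif_x F (F.vb / 8) (by linarith [h.ok.vb0])
  refine (h.ref.and hx).mono ?_
  rintro p hp ⟨hR, hx8⟩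
  have hcut := h.cut p (lce_x_pos hp.N2) (by linarith) hp.gu
  refine ⟨hR, lce_ok hp h.ok.pS0.le h.c0 h.c1 h.C1 h.v00 h.v01 rfl h.xS0 h.ok.vb0 h.vb h.CG1 h.CD0 hR hcut, ?_, hcut⟩
  exact ⟨h.ok.c10, h.c1s, h.ok.cb0, h.cbs⟩

/-- a point exists (to evaluate positivity of constants which are defined through `Lck.Ok`) -/
theorem lce_kap_al_pos (h : LceFix 𝔹 F c C v0 CG CD cG) : 0 < h.kap.al := by
  have hC0 : 0 < C := lt_of_lt_of_le one_pos h.C1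
  have hw0 : 0 < min v0 (𝔹.xiS F.T / (2 * C)) := lt_min h.v00 (div_pos h.xS0 (by linarith))
  have hk : 0 < h.kap.k := by
    show 0 < c * min v0 (𝔹.xiS F.T / (2 * C)) / 4
    have := mul_pos h.c0 hw0
    linarith
  have : 0 < c * h.kap.k ^ 2 / 8 := by have := mul_pos h.c0 (pow_pos hk 2); linarith
  exact lt_min this (by norm_num)

theorem lce_kap_C4_pos (h : LceFix 𝔹 F c C v0 CG CD cG) : 0 < lceC4 h.kap F.cb := by
  have hC0 : 0 < C := lt_of_lt_of_le one_pos h.C1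
  refine lt_min (by linarith [lce_kap_al_pos h]) (lt_min (div_pos h.ok.cb0 ?_) (by norm_num))
  show 0 < 4 * C
  linarith

theorem lce_kap_C5_pos (h : LceFix 𝔹 F c C v0 CG CD cG) : 0 < lceC5 h.kap F.cb := by
  have hC0 : 0 < C := lt_of_lt_of_le one_pos h.C1
  have : 0 < min (F.cb / (4 * h.kap.C)) (1 / 68) := lt_min (div_pos h.ok.cb0 (by show 0 < 4 * C; linarith)) (by norm_num)
  exact lt_min (by linarith [lce_kap_al_pos h]) (by linarith)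

theorem lce_kap_v0_pos (h : LceFix 𝔹 F c C v0 CG CD cG) : 0 < h.kap.v0 := by
  have hC0 : 0 < C := lt_of_lt_of_le one_pos h.C1
  exact lt_min h.v00 (div_pos h.xS0 (by linarith))

/-- **(P4)**      TEX[LL:paths:parameter-regularity] (running text, (P4)) -/
theorem lce_LlP4 (h : LceFix 𝔹 F c C v0 CG CD cG) : LlP4 𝔹 F := by
  refine ⟨lceC4 h.kap F.cb, 2 * h.kap.C ^ 4 / h.kap.c, h.kap.v0, lce_kap_C4_pos h, lce_kap_v0_pos h, (lce_unif h).mono ?_⟩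
  rintro p _ ⟨_, hok, hs, _⟩
  exact ⟨fun v hv v' hv' hvv => lce_P4 hok hs v v' hv hv' hvv, fun v hv => lce_P4' hok hs v hv.1 hv.2⟩

/-- **(P5)**      TEX[LL:paths:parameter-regularity] (running text, (P5)) -/
theorem lce_LlP5 (h : LceFix 𝔹 F c C v0 CG CD cG) : LlP5 𝔹 F := by
  refine ⟨lceC5 h.kap F.cb, lce_kap_C5_pos h, (lce_unif h).mono ?_⟩
  rintro p _ ⟨_, hok, hs, _⟩
  exact fun v hv z hz => lce_P5 hok hs v hv z hz

/-- admissibility on the OPEN interval -/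
def LceAdmO (𝔹 : LlBase) (F : LlFix) : Prop :=
  ∃ c C : ℝ, 0 < c ∧ LlUnif F fun p =>
    MonotoneOn (p.b F 𝔹) (Ioo 0 p.a) ∧ MonotoneOn (p.h F 𝔹) (Ioo 0 p.a) ∧ MonotoneOn (p.hS F 𝔹) (Ioo 0 p.a) ∧
    MonotoneOn (p.K F 𝔹) (Ioo 0 p.a) ∧
    (∀ v ∈ Ioo 0 p.a, c ≤ p.b F 𝔹 v ∧ p.b F 𝔹 v ≤ C ∧ 0 ≤ p.h F 𝔹 v ∧ 0 ≤ p.hS F 𝔹 v) ∧
    (∀ v ∈ Ioo 0 p.a, ∀ v' ∈ Ioo 0 p.a, v ≤ v' → p.b F 𝔹 v' - p.b F 𝔹 v ≤ C * F.cb * p.lam * v' * (v' - v)) ∧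
    (∀ v ∈ Ioo 0 p.x, p.b F 𝔹 v = p.b F 𝔹 (p.x / 2))

/-- **admissibility** on the open interval, given the field clock (file C) -/
theorem lce_AdmO (h : LceFix 𝔹 F c C v0 CG CD cG)
    (hh : LlUnif F fun p => MonotoneOn (p.h F 𝔹) (Ioo 0 p.a) ∧ ∀ v ∈ Ioo 0 p.a, 0 ≤ p.h F 𝔹 v) : LceAdmO 𝔹 F := by
  refine ⟨c / 2, max (2 * C) (3 / 2 * CG), by linarith [h.c0], ((lce_unif h).and hh).mono ?_⟩
  rintro p hp ⟨⟨hR, hok, hs, hcut⟩, hm, hn⟩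
  refine ⟨lce_b_mono hok hs, hm, lck_hS_mono hok hs, hR.K_mono, ?_, ?_, fun v hv => lce_b_mask (lce_x_pos hp.N2) hcut v hv⟩
  · intro v hv
    obtain ⟨b1, b2⟩ := lck_b_bd hok hs v hv.1.le (by linarith [hv.2, (lce_a_mem hp).2])
    exact ⟨b1, le_trans b2 (le_max_left _ _), hn v hv, lck_hS_nonneg hok hs v hv⟩
  · intro v hv v' hv' hvv
    refine le_trans (lce_b_incr hok hs v v' hv.1.le hvv) ?_
    have h1 : (3 / 2 * CG) ≤ max (2 * C) (3 / 2 * CG) := le_max_right _ _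
    have h2 : 0 ≤ F.cb * p.lam * v' * (v' - v) :=
      mul_nonneg (mul_nonneg (mul_nonneg h.ok.cb0.le (lce_lam_pos hp).le) hv'.1.le) (by linarith)
    have := mul_le_mul_of_nonneg_right h1 h2
    show 3 / 2 * CG * F.cb * p.lam * v' * (v' - v) ≤ _
    nlinarith

end unif

/-! ## 4. the fixed data exist -/

/-- `lcb_main` in the form `LceCut` -/
theorem lce_cut (F : LlFix) (hF : F.Ok) : ∃ CG CD cG : ℝ, 1 ≤ CG ∧ 0 ≤ CD ∧ 0 < cG ∧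
    ∀ p : LlPt, 0 < p.x → 8 * p.x ≤ F.vb → (∀ h, p.gu h ∈ Icc (-4 : ℝ) 4) → LceCut p F CG CD cG := by
  obtain ⟨CG, CD, cG, h1, h2, h3, h⟩ := lcb_main F hF
  refine ⟨CG, CD, cG, h1, h2, h3, fun p hx h8 hg => ?_⟩
  obtain ⟨a1, a2, a3, a4, a5, a6, a7, a8⟩ := h p hx h8 hg
  exact ⟨a1, a2, a3, a4, a5, a6, a7, a8⟩

/-- `LceCut` depends on `F` through `vb, G0, G1, phi` only -/
theorem LceCut.congr {p : LlPt} {F F' : LlFix} {CG CD cG : ℝ} (h : LceCut p F CG CD cG)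
    (e1 : F'.vb = F.vb) (e2 : F'.G0 = F.G0) (e3 : F'.G1 = F.G1) (e4 : F'.phi = F.phi) : LceCut p F' CG CD cG := by
  have eG : p.G F' = p.G F := by
    funext v; simp only [LlPt.G, e1, e2, e3]
  have eD : p.dySum F' = p.dySum F := by
    funext v
    unfold LlPt.dySum
    refine finsum_congr fun h => ?_
    have hi : p.IsDy F' h ↔ p.IsDy F h := by simp only [LlPt.IsDy, e1]
    by_cases hh : p.IsDy F h
    · rw [if_pos hh, if_pos (hi.2 hh), e4]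
    · rw [if_neg hh, if_neg (fun h' => hh (hi.1 h'))]
  exact ⟨eG ▸ h.mono, eG ▸ h.zero, by rw [eG, e1]; exact h.const, eG ▸ h.le, eG ▸ h.ge, eG ▸ h.incr, by rw [eG, eD]; exact h.dy, eD ▸ h.dy0⟩

/-- **the fixed data exist**: for every small `z0` and EVERY `U0 > 0` there are `v_b, c_1, c_b` (and the concrete cut-off functions of `llFixMk`) with `LceFix`, for all exponents in the explicit ranges -/
theorem lce_exists (𝔹 : LlBase) (T : ℝ) (hT : 1 < T) (hxS : 0 < 𝔹.xiS T) (hR : LlRefExit 𝔹 T) :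
    ∃ zb : ℝ, 0 < zb ∧ ∀ z0, 0 < z0 → z0 ≤ zb → ∀ ε : ℝ, 0 < ε → ∃ c C v0 ξ0 vb c1 cb CG CD cG : ℝ, 0 < ξ0 ∧ 0 < vb ∧ vb ≤ ε ∧ 0 < c1 ∧ 0 < cb ∧
      ∀ U0, 0 < U0 → ∀ sS eta pS : ℝ, LlExpOk sS eta pS →
        LceFix 𝔹 (llFixMk T sS eta pS z0 vb c1 cb U0) c C v0 CG CD cG ∧
        LlRegL 𝔹 (llFixMk T sS eta pS z0 vb c1 cb U0) C ξ0 ∧
        ∀ R0 : ℕ, ∃ c' C' : ℝ, 0 < c' ∧ LlRegT 𝔹 (llFixMk T sS eta pS z0 vb c1 cb U0) c' C' v0 ξ0 R0 := by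
  obtain ⟨zb, hzb, hR⟩ := hR
  refine ⟨zb, hzb, fun z0 hz0 hz0b ε hε => ?_⟩
  obtain ⟨c, C, v0, ξ0, hc0, hc1, hC1, hv00, hv01, hξ0, hR⟩ := hR z0 hz0 hz0b
  have hC0 : 0 < C := lt_of_lt_of_le one_pos hC1
  have hw0 : 0 < min v0 (𝔹.xiS T / (2 * C)) := lt_min hv00 (div_pos hxS (by linarith))
  set vb := min (min v0 (𝔹.xiS T / (2 * C)) / 2) ε with hvb
  have hvb0 : 0 < vb := by rw [hvb]; exact lt_min (by linarith) hε
  have hvb1 : vb ≤ min v0 (𝔹.xiS T / (2 * C)) / 2 := by rw [hvb]; exact min_le_left _ _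
  have hvb2 : vb ≤ ε := by rw [hvb]; exact min_le_right _ _
  have hF1 : (llFixMk T (1 / 4) (1 / 8) 1 z0 vb 1 1 1).Ok :=
    llFixMk_ok hT (by norm_num) (by norm_num) (by norm_num) one_pos hz0 hvb0 one_pos one_pos one_pos
  obtain ⟨CG, CD, cG, hCG, hCD, hcG, hcut⟩ := lce_cut _ hF1
  have hCG0 : 0 < CG := lt_of_lt_of_le one_pos hCG
  set κ := lceK c C v0 (𝔹.xiS T) vb CG CD with hκ
  have hal : 0 < κ.al := by
    have hk : 0 < κ.k := by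
      show 0 < c * min v0 (𝔹.xiS T / (2 * C)) / 4
      have := mul_pos hc0 hw0
      linarith
    have : 0 < c * κ.k ^ 2 / 8 := by have := mul_pos hc0 (pow_pos hk 2); linarith
    exact lt_min this (by norm_num)
  refine ⟨c, C, v0, ξ0, vb, 1 / (2 * (4 + CD)), c * κ.al / (48 * CG * C), CG, CD, cG, hξ0, hvb0, hvb2, by positivity, by positivity, ?_⟩
  intro U0 hU0 sS eta pS hE
  have hc1' : 0 < 1 / (2 * (4 + CD)) := by positivity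
  have hcb' : 0 < c * κ.al / (48 * CG * C) := by positivity
  have hF : (llFixMk T sS eta pS z0 vb (1 / (2 * (4 + CD))) (c * κ.al / (48 * CG * C)) U0).Ok :=
    llFixMk_ok hT (by linarith [hE.s_lo]) hE.s_hi hE.e_lo hE.p_lo hz0 hvb0 hc1' hcb' hU0
  obtain ⟨r1, r2, r3⟩ := hR _ hF rfl rfl hE.p_hi
  refine ⟨?_, r2, r3⟩
  exact
  { ok := hF
    c0 := hc0
    c1 := hc1
    C1 := hC1
    v00 := hv00
    v01 := hv01
    xS0 := hxS
    vb := by show 2 * vb ≤ min v0 (𝔹.xiS T / (2 * C)); linarith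
    CG1 := hCG
    CD0 := hCD
    cG0 := hcG
    cut := fun p hx h8 hg => (hcut p hx h8 hg).congr rfl rfl rfl rfl
    c1s := by
      show 1 / (2 * (4 + CD)) * (4 + CD) ≤ 1 / 2
      have : (4 + CD) ≠ 0 := by positivity
      field_simp
      exact le_rfl
    cbs := by
      show 48 * (c * κ.al / (48 * CG * C)) * CG * C ≤ c * κ.al
      have h1 : CG ≠ 0 := hCG0.ne'
      have h2 : C ≠ 0 := hC0.ne'
      field_simp
      exact le_rfl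
    ref := r1 }

/-! ## 5. the edge term `H_e`: the hypotheses of files C, D hold uniformly -/

/-- supplement to file A: upper bound of `h_*` at every mass where the gap has its quadratic upper bound -/
theorem lce_hS_le {D : Lck} {κ : LckC} (h : D.Ok κ) (hs : D.Small κ) (v : ℝ) (hv : v ∈ Ioo 0 D.a) (Tm Cg : ℝ) (hCg : 0 ≤ Cg) (hK : D.K v ≤ Tm)
    (hgap : ∀ t, 0 ≤ t → t ≤ D.K v → D.gap t ≤ Cg * D.lam * t ^ 2) :
    D.hS v ≤ Tm * (Cg * Tm ^ 2 + 3 / 2 * D.cb / κ.c) * D.lam := by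
  have hc := h.c0
  have hK0 := lck_K_nn h v hv
  have e : D.hS v = ∫ t in (0 : ℝ)..D.K v, (1 - D.b v * D.gp t) := by
    rw [lck_int_eq h _ _ _ le_rfl hK0, h.gam_zero]
    simp only [Lck.hS, Lck.q]; ring
  obtain ⟨r1, -⟩ := lck_b_range h hs v hv.1.le
  have hG := lck_G_nn h v hv.1.le
  have hcl : 0 < D.cb * D.lam := mul_pos hs.cb0 h.lam0
  have hU2 : 0 ≤ D.U ^ 2 := sq_nonneg _
  have hU1 : D.U ^ 2 ≤ 1 := pow_le_one₀ h.U0.le h.U1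
  have r1' : -(3 / 2 * (D.cb * D.lam)) ≤ D.b v - D.b0 := by
    have : 0 ≤ D.cb * D.lam * D.G v := mul_nonneg hcl.le hG
    nlinarith
  set M := Cg * D.lam * Tm ^ 2 + 3 / 2 * (D.cb * D.lam) * (1 / κ.c) with hM
  have hpt : ∀ t ∈ Icc 0 (D.K v), 1 - D.b v * D.gp t ≤ M := by
    intro t ht
    have g1 := hgap t ht.1 ht.2
    have hP := h.gp_nn t ht.1
    have hP' := lck_gp_le' h t ht.1
    have e2 : 1 - D.b v * D.gp t = D.gap t - (D.b v - D.b0) * D.gp t := by simp only [Lck.gap]; ring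
    have g2 : Cg * D.lam * t ^ 2 ≤ Cg * D.lam * Tm ^ 2 := by
      have : t ^ 2 ≤ Tm ^ 2 := by nlinarith [ht.1, ht.2]
      exact mul_le_mul_of_nonneg_left this (mul_nonneg hCg h.lam0.le)
    have g3 : -(D.b v - D.b0) * D.gp t ≤ 3 / 2 * (D.cb * D.lam) * D.gp t :=
      mul_le_mul_of_nonneg_right (by linarith) hP
    have g4 : 3 / 2 * (D.cb * D.lam) * D.gp t ≤ 3 / 2 * (D.cb * D.lam) * (1 / κ.c) :=
      mul_le_mul_of_nonneg_left hP' (by linarith)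
    rw [e2, hM]; linarith
  have hi : IntervalIntegrable (fun t => 1 - D.b v * D.gp t) volume 0 (D.K v) :=
    (by simp : IntervalIntegrable (fun _ : ℝ => (1 : ℝ)) volume 0 (D.K v)).sub ((lck_gp_ii h _ _ le_rfl hK0).const_mul _)
  have hI := intervalIntegral.integral_mono_on (μ := volume) hK0 hi (by simp : IntervalIntegrable (fun _ : ℝ => M) volume 0 (D.K v)) hpt
  rw [intervalIntegral.integral_const, smul_eq_mul, sub_zero] at hI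
  rw [e]
  refine le_trans hI ?_
  have hM0 : 0 ≤ M := by
    rw [hM]
    have : 0 ≤ 1 / κ.c := by positivity
    have h1 : 0 ≤ Cg * D.lam * Tm ^ 2 := mul_nonneg (mul_nonneg hCg h.lam0.le) (sq_nonneg _)
    have h2 : 0 ≤ 3 / 2 * (D.cb * D.lam) * (1 / κ.c) := mul_nonneg (by linarith) this
    linarith
  have s1 : D.K v * M ≤ Tm * M := mul_le_mul_of_nonneg_right hK hM0
  refine le_trans s1 (le_of_eq ?_)
  rw [hM]; ring


/-- `x^k ≤ ε` eventually -/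
theorem lce_unif_xpow (F : LlFix) (k : ℝ) (hk : 0 < k) (ε : ℝ) (hε : 0 < ε) : LlUnif F fun p => p.x ^ k ≤ ε := by
  refine (lce_unif_x F (ε ^ (1 / k)) (Real.rpow_pos_of_pos hε _)).mono ?_
  intro p hp hx
  have h1 : p.x ^ k ≤ (ε ^ (1 / k)) ^ k := Real.rpow_le_rpow (lce_x_pos hp.N2).le hx hk.le
  rw [← Real.rpow_mul hε.le, one_div, inv_mul_cancel₀ hk.ne', Real.rpow_one] at h1
  exact h1

/-- `λ ≤ ε` eventually -/
theorem lce_unif_lam (F : LlFix) (hpS : 0 < F.pS) (ε : ℝ) (hε : 0 < ε) : LlUnif F fun p => p.lam ≤ ε :=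
  (lce_unif_xpow F F.pS hpS ε hε).mono fun _ hp hx => le_trans hp.lam_hi hx

/-- the admissible upper bound of `E_b` -/
noncomputable def lceE1 (xS : ℝ) : ℝ := min 1 (xS / 2)

/-- conditions on `z0`, `U0` (after the base profile only) -/
structure LceEdge (𝔹 : LlBase) (F : LlFix) : Prop where
  base : LlBaseProfile 𝔹 F.T
  z0 : F.z0 < 𝔹.xiS F.T
  U0 : F.U0 ^ 4 ≤ lceE1 (𝔹.xiS F.T) ^ 2 * (𝔹.pTop F.T - 𝔹.A0 F.T (𝔹.xiS F.T - lceE1 (𝔹.xiS F.T)))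

section edge

variable {𝔹 : LlBase} {F : LlFix} {p : LlPt}

theorem lce_E1 (hE : LceEdge 𝔹 F) : 0 < lceE1 (𝔹.xiS F.T) ∧ lceE1 (𝔹.xiS F.T) < 𝔹.xiS F.T ∧ lceE1 (𝔹.xiS F.T) ≤ 1 := by
  have hx := hE.base.xi_pos
  exact ⟨lt_min one_pos (by linarith), lt_of_le_of_lt (min_le_right _ _) (by linarith), min_le_left _ _⟩

theorem lce_A0_cont (hB : LlBaseProfile 𝔹 F.T) : ContinuousOn (𝔹.A0 F.T) (Ico 0 (𝔹.xiS F.T)) := by
  obtain ⟨a, ha0, -, -, hd⟩ := hB.tower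
  have h1 : ContinuousOn (a 0) (Icc 0 (𝔹.xiS F.T)) := fun ξ hξ => (hd 0 ξ hξ).continuousWithinAt
  exact (h1.mono Ico_subset_Icc_self).congr fun ξ hξ => ha0 ξ hξ

/-- the hypotheses `LccBase` of file C hold at every point -/
theorem lce_base (hF : F.Ok) (hE : LceEdge 𝔹 F) (hp : p.Ok F) : LccBase F 𝔹 p (lceE1 (𝔹.xiS F.T)) where
  pT0 := hE.base.pTop_mem.1
  pT1 := hE.base.pTop_mem.2
  A0mono := hE.base.mono.monotoneOn _
  A0cont := lce_A0_cont hE.base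
  Ut0 := lt_min hF.U00 (lce_U_pos hp)
  E10 := (lce_E1 hE).1
  E1x := (lce_E1 hE).2.1
  E11 := (lce_E1 hE).2.2
  E1mem := by
    rw [div_le_iff₀ (pow_pos (lce_E1 hE).1 2)]
    have h0 : 0 ≤ p.Ut F := (lt_min hF.U00 (lce_U_pos hp)).le
    have h1 : p.Ut F ^ 4 ≤ F.U0 ^ 4 := pow_le_pow_left₀ h0 (min_le_left _ _) 4
    have := hE.U0
    linarith
  lam0 := lce_lam_pos hp
  Ups := hF.Ups_rg _

/-- the mass below which the edge term vanishes -/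
noncomputable def lceV1 (𝔹 : LlBase) (T : ℝ) : ℝ := 𝔹.A0 T (𝔹.xiS T - lceE1 (𝔹.xiS T))

theorem lce_V1_pos (hE : LceEdge 𝔹 F) : 0 < lceV1 𝔹 F.T := by
  have h1 := lce_E1 hE
  have hx := hE.base.xi_pos
  have := hE.base.strict (a := 0) (b := 𝔹.xiS F.T - lceE1 (𝔹.xiS F.T)) ⟨le_rfl, hx.le⟩ ⟨by linarith, by linarith⟩ (by linarith)
  rwa [hE.base.zero 0 le_rfl] at this

theorem lce_V1_lt (hE : LceEdge 𝔹 F) : lceV1 𝔹 F.T < 𝔹.pTop F.T :=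
  hE.base.lt_top _ (by linarith [(lce_E1 hE).1])

theorem lce_a_direct (hsm : p.sm = false) : p.a = p.ell := by simp [LlPt.a, hsm]

/-- the constant `C_R = 1 + (1 - p_top)^(-1/2)` -/
noncomputable def lceCR (𝔹 : LlBase) (T : ℝ) : ℝ := 1 + (1 - 𝔹.pTop T) ^ (-(1 / 2) : ℝ)

theorem lce_CR_pos (hE : LceEdge 𝔹 F) : 0 < lceCR 𝔹 F.T := by
  have : 0 < (1 - 𝔹.pTop F.T) ^ (-(1 / 2) : ℝ) := Real.rpow_pos_of_pos (by linarith [hE.base.pTop_mem.2]) _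
  unfold lceCR; linarith

/-- the hypotheses `LccRamp` of file C hold uniformly on the direct paths, for every constant `c4 > 0` -/
theorem lce_ramp (hF : F.Ok) (hE : LceEdge 𝔹 F) (c4 : ℝ) (hc4 : 0 < c4) :
    LlUnif F fun p => p.sm = false → LccRamp F 𝔹 p c4 (lceV1 𝔹 F.T) := by
  have hv1 := lce_V1_pos hE
  have hCR := lce_CR_pos hE
  have hgz : 0 < 𝔹.pTop F.T - 𝔹.A0 F.T F.z0 := by linarith [hE.base.lt_top _ hE.z0]
  have u1 := lce_unif_x F (lceV1 𝔹 F.T / 2) (by linarith)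
  have u2 := lce_unif_lam F hF.pS0 ((𝔹.pTop F.T - 𝔹.A0 F.T F.z0) / (2 * F.z0)) (div_pos hgz (by linarith [hF.z00]))
  have u3 := lce_unif_xpow F (F.pS * F.eta) (mul_pos hF.pS0 hF.eta0) (c4 * lceV1 𝔹 F.T ^ 2 / (8 * lceCR 𝔹 F.T)) (by positivity)
  refine ((u1.and u2).and u3).mono ?_
  rintro p hp ⟨⟨h1, h2⟩, h3⟩ hsm
  have hH := lce_base hF hE hp
  have hl := lce_lam_pos hp
  have ha := lce_a_direct hsm
  have hell : 0 < p.ell := by linarith [hp.ell1]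
  have hPnn : ∀ ξ, 0 ≤ ξ → 0 ≤ F.P ξ := fun ξ hξ => (hF.P_nn ξ hξ).1
  have hA : ∀ ξ ∈ Ico 0 (𝔹.xiS F.T), p.Adir F 𝔹 ξ < 𝔹.pTop F.T := by
    intro ξ hξ
    unfold LlPt.Adir
    rcases le_total F.z0 ξ with hz | hz
    · rw [hF.P_zero ξ hz, mul_zero, add_zero]
      exact hE.base.lt_top ξ hξ.2
    · have a1 : 𝔹.A0 F.T ξ ≤ 𝔹.A0 F.T F.z0 := hE.base.mono hz
      have a2 : F.P ξ ≤ F.z0 := le_trans (hF.P_nn ξ hξ.1).2 hz
      have a3 : p.lam * F.P ξ ≤ p.lam * F.z0 := mul_le_mul_of_nonneg_left a2 hl.le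
      have a4 : p.lam * F.z0 ≤ (𝔹.pTop F.T - 𝔹.A0 F.T F.z0) / (2 * F.z0) * F.z0 := mul_le_mul_of_nonneg_right h2 hF.z00.le
      have a5 : (𝔹.pTop F.T - 𝔹.A0 F.T F.z0) / (2 * F.z0) * F.z0 = (𝔹.pTop F.T - 𝔹.A0 F.T F.z0) / 2 := by
        have := hF.z00.ne'
        field_simp
      linarith
  refine ⟨fun v _ h => lcx_xi_act hsm hPnn hl.le hE.base.xi_pos h, ?_, ?_, by linarith [lce_x_pos hp.N2], ?_⟩
  · intro v hv h
    refine lcx_xi_pla hsm hPnn hl.le hE.base.xi_pos (hE.base.top _ le_rfl) hA h ?_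
    rw [div_le_one hell]
    rw [ha] at hv
    exact hv.2.le
  · intro v hv h
    exact lcc_ramp_mass hH hsm (hPnn _ (by linarith [lcc_Eb_lt_xiS hH])) hp.ell1 v hv.1.le h
  · have e1 : p.lam1 F = p.lam * p.lam ^ F.eta := by
      unfold LlPt.lam1
      rw [Real.rpow_add hl, Real.rpow_one]
    have e2 : p.lam ^ F.eta ≤ p.x ^ (F.pS * F.eta) := by
      rw [Real.rpow_mul (lce_x_pos hp.N2).le]
      exact Real.rpow_le_rpow hl.le hp.lam_hi hF.eta0.le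
    have e3 : p.lam ^ F.eta ≤ c4 * lceV1 𝔹 F.T ^ 2 / (8 * lceCR 𝔹 F.T) := le_trans e2 h3
    rw [le_div_iff₀ (by positivity)] at e3
    have e4 := lce_ell_sq hp
    have e5 : 0 ≤ p.lam ^ F.eta := (Real.rpow_pos_of_pos hl _).le
    show 4 * p.ell ^ 2 * p.lam1 F * lceCR 𝔹 F.T ≤ c4 * p.lam * lceV1 𝔹 F.T ^ 2
    rw [e1]
    have e6 : 4 * p.ell ^ 2 * (p.lam ^ F.eta * lceCR 𝔹 F.T) ≤ 4 * 2 * (p.lam ^ F.eta * lceCR 𝔹 F.T) :=
      mul_le_mul_of_nonneg_right (by linarith) (mul_nonneg e5 hCR.le)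
    have e7 : 4 * p.ell ^ 2 * (p.lam ^ F.eta * lceCR 𝔹 F.T) ≤ c4 * lceV1 𝔹 F.T ^ 2 := by linarith
    have := mul_le_mul_of_nonneg_left e7 hl.le
    nlinarith

end edge

/-! ## 6. the closed interval `[0,a]` -/

theorem lce_inv_mono {A : ℝ → ℝ} {w w' : ℝ} (hww : w ≤ w') (hne : ∃ ξ, 0 ≤ ξ ∧ w' ≤ A ξ) : llInv A w ≤ llInv A w' := by
  obtain ⟨ξ, h0, h1⟩ := hne
  exact csInf_le_csInf ⟨0, fun _ h => h.1⟩ ⟨ξ, h0, h1⟩ (fun y hy => ⟨hy.1, le_trans hww hy.2⟩)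

theorem lce_inv_zero {A : ℝ → ℝ} {w : ℝ} (h : w ≤ A 0) : llInv A w = 0 :=
  le_antisymm (csInf_le ⟨0, fun _ h => h.1⟩ ⟨le_rfl, h⟩) (Real.sInf_nonneg fun _ h => h.1)

section closed

variable {𝔹 : LlBase} {F : LlFix} {p : LlPt}

/-- the profile reaches the terminal mass -/
theorem lce_prof_top (hF : F.Ok) (hB : LlBaseProfile 𝔹 F.T) (hp : p.Ok F) : ∃ ξ, 0 ≤ ξ ∧ p.a / p.ell ≤ p.Aprof F 𝔹 ξ := by
  have hell : 0 < p.ell := by linarith [hp.ell1]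
  cases hsm : p.sm
  · refine ⟨𝔹.xiS F.T, hB.xi_pos.le, ?_⟩
    have e1 : p.a = p.ell := lce_a_direct hsm
    have e2 : p.Aprof F 𝔹 = p.Adir F 𝔹 := by unfold LlPt.Aprof; rw [hsm]; simp
    rw [e1, e2, div_self hell.ne']
    unfold LlPt.Adir
    rw [hB.top _ le_rfl]
    have := mul_nonneg (lce_lam_pos hp).le (hF.P_nn _ hB.xi_pos.le).1
    linarith
  · refine ⟨max p.M 0, le_max_right _ _, ?_⟩
    have e1 : p.a = 4 := by simp [LlPt.a, hsm]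
    have e2 : p.Aprof F 𝔹 = p.Asm F 𝔹 := by unfold LlPt.Aprof; rw [hsm]; simp
    rw [e1, e2]
    unfold LlPt.Asm
    rw [if_pos (le_max_left _ _)]

theorem lce_Adir_zero (hF : F.Ok) (hp : p.Ok F) : 0 ≤ p.Adir F 𝔹 0 := by
  unfold LlPt.Adir
  have := mul_nonneg (lce_lam_pos hp).le (hF.P_nn 0 le_rfl).1
  linarith [lcc_A0_nonneg 𝔹 F.T 0]

theorem lce_prof_zero (hF : F.Ok) (hB : LlBaseProfile 𝔹 F.T) (hp : p.Ok F) : 0 ≤ p.Aprof F 𝔹 0 := by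
  have hell : 0 < p.ell := by linarith [hp.ell1]
  cases hsm : p.sm
  · have e2 : p.Aprof F 𝔹 = p.Adir F 𝔹 := by unfold LlPt.Aprof; rw [hsm]; simp
    rw [e2]; exact lce_Adir_zero hF hp
  · have e2 : p.Aprof F 𝔹 = p.Asm F 𝔹 := by unfold LlPt.Aprof; rw [hsm]; simp
    rw [e2]
    unfold LlPt.Asm
    split_ifs with h1 h2
    · positivity
    · rw [mul_zero, add_zero]; exact lce_Adir_zero hF hp
    · exact absurd hB.xi_pos h2

theorem lce_K_zero (hF : F.Ok) (hB : LlBaseProfile 𝔹 F.T) (hp : p.Ok F) : p.K F 𝔹 0 = 0 := by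
  unfold LlPt.K LlPt.xi
  rw [zero_div, lce_inv_zero (lce_prof_zero hF hB hp), mul_zero]

theorem lce_K_mono (hF : F.Ok) (hB : LlBaseProfile 𝔹 F.T) (hp : p.Ok F) : MonotoneOn (p.K F 𝔹) (Icc 0 p.a) := by
  intro v _ v' hv' hvv
  have hell : 0 < p.ell := by linarith [hp.ell1]
  obtain ⟨ξ, h0, h1⟩ := lce_prof_top hF hB hp
  unfold LlPt.K LlPt.xi
  refine mul_le_mul_of_nonneg_left (lce_inv_mono (div_le_div_of_nonneg_right hvv hell.le) ⟨ξ, h0, le_trans ?_ h1⟩) (by positivity)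
  exact div_le_div_of_nonneg_right hv'.2 hell.le

theorem lce_K_nonneg (v : ℝ) : 0 ≤ p.K F 𝔹 v := by
  unfold LlPt.K LlPt.xi
  exact mul_nonneg (by positivity) (Real.sInf_nonneg fun _ h => h.1)

theorem lce_Gam_mono {c C v0 : ℝ} (hR : p.Ref F 𝔹 c C v0) : MonotoneOn (p.Gam F 𝔹) (Ici 0) := by
  intro t ht t' _ htt
  have h1 := hR.gam_ftc t t' ht htt
  have h2 : 0 ≤ ∫ s in t..t', p.Gam1 F 𝔹 s :=
    intervalIntegral.integral_nonneg htt fun s hs => (hR.g1_pos s (le_trans ht hs.1)).le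
  linarith

theorem lce_q_mono {c C v0 : ℝ} (hF : F.Ok) (hB : LlBaseProfile 𝔹 F.T) (hp : p.Ok F) (hR : p.Ref F 𝔹 c C v0) : MonotoneOn (p.q F 𝔹) (Icc 0 p.a) := by
  intro v hv v' hv' hvv
  exact lce_Gam_mono hR (lce_K_nonneg v) (lce_K_nonneg v') (lce_K_mono hF hB hp hv hv' hvv)

theorem lce_hS_zero {c C v0 : ℝ} (hF : F.Ok) (hB : LlBaseProfile 𝔹 F.T) (hp : p.Ok F) (hR : p.Ref F 𝔹 c C v0) : p.hS F 𝔹 0 = 0 := by
  unfold LlPt.hS LlPt.q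
  rw [lce_K_zero hF hB hp, hR.gam_zero]; ring

/-- `h_*` at the terminal mass -/
theorem lce_hS_top {κ : LckC} (hF : F.Ok) (hB : LlBaseProfile 𝔹 F.T) (hp : p.Ok F) (h : (p.lck F 𝔹).Ok κ) (hs : (p.lck F 𝔹).Small κ)
    (w : ℝ) (hw : w ∈ Ioo 0 p.a) (hwb : 2 * κ.vb ≤ w) : p.hS F 𝔹 w ≤ p.hS F 𝔹 p.a := by
  have ha : w ≤ p.a := hw.2.le
  have hK : p.K F 𝔹 w ≤ p.K F 𝔹 p.a := lce_K_mono hF hB hp ⟨hw.1.le, ha⟩ ⟨by linarith [hw.1], le_rfl⟩ ha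
  have hK0 : 0 ≤ p.K F 𝔹 w := lce_K_nonneg w
  obtain ⟨b1, b2⟩ := lck_b_incr h hs w p.a hw.1.le ha
  have eG : (p.lck F 𝔹).G p.a - (p.lck F 𝔹).G w = 0 := by
    rw [h.G_const p.a (le_trans hwb ha), h.G_const w hwb, sub_self]
  rw [eG, mul_zero] at b1 b2
  have eb : p.b F 𝔹 p.a = p.b F 𝔹 w := by
    have : (p.lck F 𝔹).b p.a - (p.lck F 𝔹).b w = 0 := le_antisymm b2 b1
    have : p.b F 𝔹 p.a - p.b F 𝔹 w = 0 := this
    linarith
  have e := lck_int_eq h (p.b F 𝔹 w) _ _ hK0 hK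
  have hi : IntervalIntegrable (fun t => 1 - p.b F 𝔹 w * p.Gam1 F 𝔹 t) volume (p.K F 𝔹 w) (p.K F 𝔹 p.a) :=
    (by simp : IntervalIntegrable (fun _ : ℝ => (1 : ℝ)) volume (p.K F 𝔹 w) (p.K F 𝔹 p.a)).sub ((lck_gp_ii h _ _ hK0 (le_trans hK0 hK)).const_mul _)
  have hnn : 0 ≤ ∫ t in (p.K F 𝔹 w)..(p.K F 𝔹 p.a), (1 - p.b F 𝔹 w * p.Gam1 F 𝔹 t) := by
    refine intervalIntegral.integral_nonneg hK fun t ht => ?_
    have h1 := lck_int_strong h hs w hw t (by have : p.K F 𝔹 w ≤ t := ht.1; show p.K F 𝔹 w / 2 ≤ t; linarith)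
    have h2 : 0 ≤ κ.al * (p.lck F 𝔹).lam * w ^ 2 + (p.lck F 𝔹).be κ * (p.lck F 𝔹).lam * (p.lck F 𝔹).U ^ 2 := by
      have a1 : 0 ≤ κ.al * (p.lck F 𝔹).lam * w ^ 2 := mul_nonneg (mul_nonneg (lck_al_pos h).le h.lam0.le) (sq_nonneg _)
      have a2 : 0 ≤ (p.lck F 𝔹).be κ * (p.lck F 𝔹).lam * (p.lck F 𝔹).U ^ 2 := mul_nonneg (mul_nonneg (lck_be_pos h hs).le h.lam0.le) (sq_nonneg _)
      linarith
    exact le_trans h2 h1
  have e' : (∫ t in (p.K F 𝔹 w)..(p.K F 𝔹 p.a), (1 - p.b F 𝔹 w * p.Gam1 F 𝔹 t)) = (p.K F 𝔹 p.a - p.K F 𝔹 w) - p.b F 𝔹 w * (p.Gam F 𝔹 (p.K F 𝔹 p.a) - p.Gam F 𝔹 (p.K F 𝔹 w)) := e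
  unfold LlPt.hS LlPt.q
  rw [eb]
  rw [e'] at hnn
  linarith


/-- the field clock at the terminal mass -/
theorem lce_h_top {κ : LckC} {E1 : ℝ} (hF : F.Ok) (hB : LlBaseProfile 𝔹 F.T) (hp : p.Ok F) (h : (p.lck F 𝔹).Ok κ) (hs : (p.lck F 𝔹).Small κ)
    (hE : p.chiE = 0 ∨ (p.sm = false ∧ LccBase F 𝔹 p E1))
    (w : ℝ) (hw : w ∈ Ioo 0 p.a) (hwb : 2 * κ.vb ≤ w) (hwx : p.x ≤ w) (hwp : 𝔹.pTop F.T ≤ w / p.ell) : p.h F 𝔹 w ≤ p.h F 𝔹 p.a := by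
  have hx := lce_x_pos hp.N2
  have hell : 0 < p.ell := by linarith [hp.ell1]
  have hl := lce_lam_pos hp
  have h1 := lce_hS_top hF hB hp h hs w hw hwb
  have hmin : min w p.ell ≤ min p.a p.ell := min_le_min_right _ hw.2.le
  have hmin0 : 0 < min w p.ell := lt_min hw.1 hell
  have h2 : p.Hlo F w ≤ p.Hlo F p.a := by
    unfold LlPt.Hlo
    refine mul_le_mul_of_nonneg_left (Real.log_le_log (div_pos hmin0 hx) (div_le_div_of_nonneg_right hmin hx.le)) ?_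
    exact mul_nonneg (Real.rpow_pos_of_pos hl _).le (pow_nonneg (lce_U_pos hp).le 3)
  have h3 : p.Hlin F w ≤ p.Hlin F p.a := by
    unfold LlPt.Hlin
    exact mul_le_mul_of_nonneg_left (max_le_max_left _ (by linarith)) (pow_nonneg hx.le 3)
  have h4 : p.chiE * p.He F 𝔹 w ≤ p.chiE * p.He F 𝔹 p.a := by
    rcases hE with h0 | ⟨hsm, H⟩
    · rw [h0, zero_mul, zero_mul]
    · have ea : p.a = p.ell := lce_a_direct hsm
      have e1 : p.a / p.ell = 1 := by rw [ea, div_self hell.ne']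
      have hw1 : w / p.ell ≤ 1 := by rw [div_le_one hell, ← ea]; exact hw.2.le
      rw [lcc_He_pl w hwp, lcc_He_pl p.a (by rw [e1]; exact H.pT1.le), e1]
      exact mul_le_mul_of_nonneg_left (lcc_HePl_mono H ⟨hwp, hw1⟩ ⟨H.pT1.le, le_rfl⟩ hw1) hp.chiE.1
  have h5 := mul_le_mul_of_nonneg_left h3 hp.chiL.1
  unfold LlPt.h
  rw [if_neg (not_lt.2 hwx), if_neg (not_lt.2 (le_trans hwx hw.2.le))]
  linarith

theorem lce_mono_Icc {f : ℝ → ℝ} {a : ℝ} (hm : MonotoneOn f (Ioo 0 a)) (h0 : ∀ v ∈ Ioc 0 a, f 0 ≤ f v)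
    (h1 : ∀ v ∈ Ioo 0 a, f v ≤ f a) : MonotoneOn f (Icc 0 a) := by
  intro v hv v' hv' hvv
  rcases eq_or_lt_of_le hv.1 with e | hpos
  · rcases eq_or_lt_of_le hv'.1 with e' | hpos'
    · rw [← e, ← e']
    · rw [← e]; exact h0 v' ⟨hpos', hv'.2⟩
  · rcases eq_or_lt_of_le hv'.2 with e' | hlt'
    · rcases eq_or_lt_of_le hv.2 with e | hlt
      · rw [e, e']
      · rw [e']; exact h1 v ⟨hpos, hlt⟩
    · exact hm ⟨hpos, lt_of_le_of_lt hvv hlt'⟩ ⟨lt_of_lt_of_le hpos hvv, hlt'⟩ hvv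

theorem lce_b_mono' {κ : LckC} (h : (p.lck F 𝔹).Ok κ) (hs : (p.lck F 𝔹).Small κ) (v v' : ℝ) (hv : 0 ≤ v) (hvv : v ≤ v') : p.b F 𝔹 v ≤ p.b F 𝔹 v' := by
  have h1 := (lck_b_incr h hs v v' hv hvv).1
  have h2 : 0 ≤ (p.lck F 𝔹).cb * (p.lck F 𝔹).lam / 2 * ((p.lck F 𝔹).G v' - (p.lck F 𝔹).G v) :=
    mul_nonneg (by have := mul_pos hs.cb0 h.lam0; linarith) (sub_nonneg.2 (h.G_mono hvv))
  have h3 : 0 ≤ p.b F 𝔹 v' - p.b F 𝔹 v := le_trans h2 h1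
  linarith

theorem lce_b_mask' {CG CD cG : ℝ} (hx : 0 < p.x) (hB : LceCut p F CG CD cG) (v : ℝ) (hv : v ∈ Icc 0 p.x) : p.b F 𝔹 v = p.b F 𝔹 0 := by
  have g1 : p.G F v = 0 := hB.zero v hv.2
  have g2 : p.G F 0 = 0 := hB.zero _ hx.le
  have d : p.dySum F v = 0 := by
    have := hB.dy 0 v le_rfl hv.1
    rw [hB.dy0, g1, g2] at this
    simpa using this
  simp only [LlPt.b, g1, g2, d, hB.dy0]

end closed

section final

variable {𝔹 : LlBase} {F : LlFix} {c C v0 CG CD cG : ℝ}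

/-- everything, uniformly: reference, abstract clocks, cut-offs, edge -/
theorem lce_unif_all (h : LceFix 𝔹 F c C v0 CG CD cG) (hE : LceEdge 𝔹 F) :
    LlUnif F fun p => p.Ref F 𝔹 c C v0 ∧ (p.lck F 𝔹).Ok h.kap ∧ (p.lck F 𝔹).Small h.kap ∧ LceCut p F CG CD cG ∧
      LccBase F 𝔹 p (lceE1 (𝔹.xiS F.T)) ∧ (p.sm = false → LccRamp F 𝔹 p (lceC4 h.kap F.cb) (lceV1 𝔹 F.T)) := by
  refine ((lce_unif h).and (lce_ramp h.ok hE _ (lce_kap_C4_pos h))).mono ?_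
  rintro p hp ⟨⟨a1, a2, a3, a4⟩, a5⟩
  exact ⟨a1, a2, a3, a4, lce_base h.ok hE hp, a5⟩

/-- the field clock is admissible on the open interval -/
theorem lce_h_adm {p : LlPt} {κ : LckC} {E1 v1 : ℝ} (hp : p.Ok F) (hok : (p.lck F 𝔹).Ok κ) (hs : (p.lck F 𝔹).Small κ)
    (hH : LccBase F 𝔹 p E1) (hr : p.sm = false → LccRamp F 𝔹 p (lceC4 κ F.cb) v1) :
    MonotoneOn (p.h F 𝔹) (Ioo 0 p.a) ∧ ∀ v ∈ Ioo 0 p.a, 0 ≤ p.h F 𝔹 v := by
  have hc4 := lce_C4_pos hok hs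
  refine lcc_h_adm (E1 := E1) (v1 := v1) hp hc4.le ?_ (fun v hv => lck_hS_nonneg hok hs v hv) hok.K_mono ?_
  · intro v hv v' hv' hvv
    refine le_trans ?_ (lce_P4 hok hs v v' hv hv' hvv)
    have hK : 0 ≤ p.K F 𝔹 v' - p.K F 𝔹 v := sub_nonneg.2 (hok.K_mono hv hv' hvv)
    refine mul_le_mul_of_nonneg_right ?_ hK
    have : 0 ≤ lceC4 κ F.cb * p.lam * p.U F ^ 2 := mul_nonneg (mul_nonneg hc4.le (lce_lam_pos hp).le) (sq_nonneg _)
    nlinarith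
  · cases hsm : p.sm
    · exact Or.inr ⟨hH, hr hsm⟩
    · exact Or.inl (hp.sm_fin hsm).2

/-- **admissibility on the closed interval**      TEX[LL:paths:parameter-regularity] (running text l.369-437: (P3), (P6), (P7), "all paths are admissible") -/
theorem lce_LlAdm (h : LceFix 𝔹 F c C v0 CG CD cG) (hE : LceEdge 𝔹 F) : LlAdm 𝔹 F := by
  refine ⟨c / 2, max (2 * C) (3 / 2 * CG), by linarith [h.c0], (lce_unif_all h hE).mono ?_⟩
  rintro p hp ⟨hR, hok, hs, hcut, hH, hr⟩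
  have hF := h.ok
  have hB := hE.base
  obtain ⟨hm, hn⟩ := lce_h_adm hp hok hs hH hr
  have hx := lce_x_pos hp.N2
  have hx1 := lce_x_lt_one hp.N2
  obtain ⟨ha1, ha4⟩ := lce_a_mem hp
  have hell : 0 < p.ell := by linarith [hp.ell1]
  have hvb0 : 0 < h.kap.vb := hok.vb0
  have hvb1 : 2 * h.kap.vb < p.a := by linarith [hok.vb1, hok.v01]
  have hpa : p.ell * 𝔹.pTop F.T < p.a := by
    have h1 : p.ell * 𝔹.pTop F.T < p.ell := by nlinarith [hB.pTop_mem.2]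
    cases hsm : p.sm
    · rw [lce_a_direct hsm]; exact h1
    · have : p.a = 4 := by simp [LlPt.a, hsm]
      rw [this]; linarith [lce_ell_le hp]
  -- the comparison point
  have key : ∀ v ∈ Ioo 0 p.a, ∃ w ∈ Ioo 0 p.a, v ≤ w ∧ 2 * h.kap.vb ≤ w ∧ p.x ≤ w ∧ 𝔹.pTop F.T ≤ w / p.ell := by
    intro v hv
    refine ⟨max v (max (2 * h.kap.vb) (max p.x (p.ell * 𝔹.pTop F.T))), ⟨lt_of_lt_of_le hv.1 (le_max_left _ _), ?_⟩, le_max_left _ _, ?_, ?_, ?_⟩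
    · exact max_lt hv.2 (max_lt hvb1 (max_lt (by linarith) hpa))
    · exact le_trans (le_max_left _ _) (le_max_right _ _)
    · exact le_trans (le_trans (le_max_left _ _) (le_max_right _ _)) (le_max_right _ _)
    · rw [le_div_iff₀ hell, mul_comm]
      exact le_trans (le_trans (le_max_right _ _) (le_max_right _ _)) (le_max_right _ _)
  have hEd : p.chiE = 0 ∨ (p.sm = false ∧ LccBase F 𝔹 p (lceE1 (𝔹.xiS F.T))) := by
    cases hsm : p.sm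
    · exact Or.inr ⟨rfl, hH⟩
    · exact Or.inl (hp.sm_fin hsm).2
  have hSm : MonotoneOn (p.hS F 𝔹) (Ioo 0 p.a) := lck_hS_mono hok hs
  have hStop : ∀ v ∈ Ioo 0 p.a, p.hS F 𝔹 v ≤ p.hS F 𝔹 p.a := by
    intro v hv
    obtain ⟨w, hw, hvw, w1, _, _⟩ := key v hv
    exact le_trans (hSm hv hw hvw) (lce_hS_top hF hB hp hok hs w hw w1)
  have htop : ∀ v ∈ Ioo 0 p.a, p.h F 𝔹 v ≤ p.h F 𝔹 p.a := by
    intro v hv
    obtain ⟨w, hw, hvw, w1, w2, w3⟩ := key v hv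
    exact le_trans (hm hv hw hvw) (lce_h_top hF hB hp hok hs hEd w hw w1 w2 w3)
  have hmid : (1 / 2 : ℝ) ∈ Ioo 0 p.a := ⟨by norm_num, by linarith⟩
  have hS0 : ∀ v ∈ Icc 0 p.a, 0 ≤ p.hS F 𝔹 v := by
    intro v hv
    rcases eq_or_lt_of_le hv.1 with e | hpos
    · rw [← e, lce_hS_zero hF hB hp hR]
    · rcases eq_or_lt_of_le hv.2 with e | hlt
      · rw [e]; exact le_trans (lck_hS_nonneg hok hs _ hmid) (hStop _ hmid)
      · exact lck_hS_nonneg hok hs v ⟨hpos, hlt⟩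
  have hh0 : p.h F 𝔹 0 = 0 := by unfold LlPt.h; rw [if_pos hx]
  have hhn : ∀ v ∈ Icc 0 p.a, 0 ≤ p.h F 𝔹 v := by
    intro v hv
    rcases eq_or_lt_of_le hv.1 with e | hpos
    · rw [← e, hh0]
    · rcases eq_or_lt_of_le hv.2 with e | hlt
      · rw [e]; exact le_trans (hn _ hmid) (htop _ hmid)
      · exact hn v ⟨hpos, hlt⟩
  refine ⟨fun v hv v' _ hvv => lce_b_mono' hok hs v v' hv.1 hvv, ?_, ?_, lce_K_mono hF hB hp, lce_q_mono hF hB hp hR, ?_, ?_,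
    fun v hv => lce_b_mask' hx hcut v hv⟩
  · exact lce_mono_Icc hm (fun v hv => by rw [hh0]; exact hhn v ⟨hv.1.le, hv.2⟩) htop
  · exact lce_mono_Icc hSm (fun v hv => by rw [lce_hS_zero hF hB hp hR]; exact hS0 v ⟨hv.1.le, hv.2⟩) hStop
  · intro v hv
    obtain ⟨b1, b2⟩ := lck_b_bd hok hs v hv.1 (by linarith [hv.2])
    exact ⟨b1, le_trans b2 (le_max_left _ _), hhn v hv, hS0 v hv, lce_K_nonneg v⟩
  · intro v hv v' hv' hvv
    refine le_trans (lce_b_incr hok hs v v' hv.1 hvv) ?_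
    have h1 : (3 / 2 * CG) ≤ max (2 * C) (3 / 2 * CG) := le_max_right _ _
    have h2 : 0 ≤ F.cb * p.lam * v' * (v' - v) :=
      mul_nonneg (mul_nonneg (mul_nonneg h.ok.cb0.le (lce_lam_pos hp).le) hv'.1) (by linarith)
    have := mul_le_mul_of_nonneg_right h1 h2
    show 3 / 2 * CG * F.cb * p.lam * v' * (v' - v) ≤ _
    nlinarith

end final

/-! ## 7. (P8), (P9) -/

section p89

variable {𝔹 : LlBase} {F : LlFix} {c C v0 CG CD cG : ℝ}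

/-- the hypotheses `LcdEdge` of file D on a direct path -/
theorem lce_edgeD {p : LlPt} {E1 c4 v1 : ℝ} (hF : F.Ok) (hp : p.Ok F) (hsm : p.sm = false) (hH : LccBase F 𝔹 p E1) (hr : LccRamp F 𝔹 p c4 v1)
    (hxU : p.x ≤ p.Ut F) : LcdEdge F 𝔹 p (lceCR 𝔹 F.T) 4 v1 where
  Eb0 := lcc_Eb_pos hH
  dM1 := lcc_dMi_le_one hH
  dPK := (lcc_d_ge hH (lce_x_pos hp.N2).le hxU).1
  dMK := (lcc_d_ge hH (lce_x_pos hp.N2).le hxU).2
  xi_le := fun v hv h => hr.xi_le v (by rw [lce_a_direct hsm]; exact hv) h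
  ramp := fun v hv _ h => ⟨(lcc_ramp hH hsm ((hF.P_nn _ (by linarith [lcc_Eb_lt_xiS hH])).1) v h).le, hr.ramp v (by rw [lce_a_direct hsm]; exact hv) h⟩
  top := lcc_HePl_top hH

/-- **(P8)**      TEX[LL:paths:parameter-regularity] (running text l.441-475, (P8)) -/
theorem lce_LlP8 (h : LceFix 𝔹 F c C v0 CG CD cG) (hE : LceEdge 𝔹 F) (hs4 : 1 / 4 ≤ F.sS) (he8 : F.eta ≤ 1 / 8) : LlP8 𝔹 F := by
  intro ε hε
  have hF := h.ok
  have hv1 := lce_V1_pos hE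
  have hCR := lce_CR_pos hE
  have hcg0 : 0 < F.cb * F.c1 * min cG (1 / 65) := mul_pos (mul_pos hF.cb0 hF.c10) (lt_min h.cG0 (by norm_num))
  have hκc : 0 < h.kap.c := h.c0
  have hκC : 0 < h.kap.C := lt_of_lt_of_le one_pos h.C1
  have hC4 : 0 ≤ 2 * h.kap.C ^ 4 / h.kap.c := by positivity
  refine ⟨lcdC8 (F.cb * F.c1 * min cG (1 / 65)) (2 * h.kap.C ^ 4 / h.kap.c) (lceCR 𝔹 F.T) 4 (lceV1 𝔹 F.T) F.vb (𝔹.pTop F.T) * (1 + 2 / ε) ^ 2, ?_⟩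
  refine ((lce_unif_all h hE).and (lce_unif_x F (min F.U0 h.kap.v0) (lt_min hF.U00 (lce_kap_v0_pos h)))).mono ?_
  rintro p hp ⟨⟨hR, hok, hs, hcut, hH, hr⟩, hxs⟩ -
  have hx := lce_x_pos hp.N2
  have hx1 := (lce_x_lt_one hp.N2).le
  have hl := lce_lam_pos hp
  have hxU := lce_x_le_U hp hF.pS0.le hF.sS0.le
  have hxUt : p.x ≤ p.Ut F := le_min (le_trans hxs (min_le_left _ _)) hxU
  obtain ⟨_, ha4⟩ := lce_a_mem hp
  have hEd : p.chiE = 0 ∨ (p.sm = false ∧ LcdEdge F 𝔹 p (lceCR 𝔹 F.T) 4 (lceV1 𝔹 F.T)) := by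
    cases hsm : p.sm
    · exact Or.inr ⟨rfl, lce_edgeD hF hp hsm hH (hr hsm) hxUt⟩
    · exact Or.inl (hp.sm_fin hsm).2
  have h8 := lcd_p8 F 𝔹 p (F.cb * F.c1 * min cG (1 / 65)) (2 * h.kap.C ^ 4 / h.kap.c) (lceCR 𝔹 F.T) 4 (lceV1 𝔹 F.T)
    hF.Ups_rg hF.vb0 hF.U00 hcg0 hC4 hCR.le (by norm_num) hv1 hx hx1 hp.ell1 (lce_ell_le hp) hl hxU
    (lce_xU3 hp hF.pS0.le hs4 hF.eta0.le he8) hE.base.pTop_mem
    (fun v hv => lce_cg_lo hx hxU hl hF.cb0 hF.c10 h.cG0 hcut v hv.1.le (by linarith [hv.2]))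
    (fun v hv => by
      have hva : v ∈ Ioo 0 p.a := ⟨hv.1, by linarith [hv.2, (lce_a_mem hp).1]⟩
      have h0 : 0 ≤ p.hS F 𝔹 v := lck_hS_nonneg hok hs v hva
      rw [abs_of_nonneg h0]
      exact lce_P4' hok hs v hv.1 (le_trans hv.2.le (le_trans hxs (min_le_right _ _))))
    hEd
  refine le_trans h8 ?_
  have hlog := lcd_log_sub ε hε p.x hx hx1
  have hBnn : 0 ≤ p.lam ^ (1 + 2 * F.eta) * p.U F ^ 5 + p.chiE ^ 2 * p.lam ^ (1 + 2 * F.eta) * p.U F ^ 4 + p.chiL ^ 2 * p.x ^ 6 / p.lam := by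
    have hU := (lce_U_pos hp).le
    have hL := (Real.rpow_pos_of_pos hl (1 + 2 * F.eta)).le
    positivity
  have hC8 : 0 ≤ lcdC8 (F.cb * F.c1 * min cG (1 / 65)) (2 * h.kap.C ^ 4 / h.kap.c) (lceCR 𝔹 F.T) 4 (lceV1 𝔹 F.T) F.vb (𝔹.pTop F.T) := by
    have hpT := hE.base.pTop_mem.1
    have hvb := hF.vb0
    unfold lcdC8
    positivity
  refine mul_le_mul_of_nonneg_right ?_ hBnn
  have := mul_le_mul_of_nonneg_left hlog hC8
  linarith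


/-- **(P9)** with the explicit power `x^κ`, `κ = p_* (1 - 3 s_*/2) / 2`      TEX[LL:paths:parameter-regularity] (running text l.503-512, (P9)) -/
theorem lce_LlP9 (h : LceFix 𝔹 F c C v0 CG CD cG) (hE : LceEdge 𝔹 F) (hp1 : F.pS ≤ 1) : LlP9 𝔹 F := by
  have hF := h.ok
  have hv1 := lce_V1_pos hE
  have hκc : 0 < h.kap.c := h.c0
  have hκC : 0 < h.kap.C := lt_of_lt_of_le one_pos h.C1
  have hC0 : 0 < C := lt_of_lt_of_le one_pos h.C1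
  have hCG0 : 0 < CG := lt_of_lt_of_le one_pos h.CG1
  have hxS := hE.base.xi_pos
  have hkap := lcd_kap_pos F hF.sS1.le hF.pS0
  have hkap_le : lcdKap F ≤ F.pS := by
    unfold lcdKap
    nlinarith [hF.pS0, hF.sS0]
  refine ⟨lcdKap F, hkap, fun c0 hc0 => ?_⟩
  obtain ⟨Cb, hCb⟩ : ∃ Cb, Cb = 3 / 2 * F.cb * CG := ⟨_, rfl⟩
  obtain ⟨C4, hC4⟩ : ∃ C4, C4 = 2 * h.kap.C ^ 4 / h.kap.c := ⟨_, rfl⟩
  obtain ⟨C5, hC5⟩ : ∃ C5, C5 = 𝔹.xiS F.T * (C * 𝔹.xiS F.T ^ 2 + 3 / 2 * F.cb / c) := ⟨_, rfl⟩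
  have hCb0 : 0 ≤ Cb := by rw [hCb]; have := hF.cb0; positivity
  have hC40 : 0 ≤ C4 := by rw [hC4]; positivity
  have hC50 : 0 ≤ C5 := by rw [hC5]; have := hF.cb0; have := h.c0; positivity
  refine ⟨max C (max (lcdC9b Cb c0) (lcdC9h C4 C5 2 c0 h.kap.v0 (lceV1 𝔹 F.T) F.vb (lcdKap F))), (lce_unif_all h hE).mono ?_⟩
  rintro p hp ⟨hR, hok, hs, hcut, hH, hr⟩
  have hx := lce_x_pos hp.N2
  have hx1 := (lce_x_lt_one hp.N2).le
  have hl := lce_lam_pos hp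
  have hell : 0 < p.ell := by linarith [hp.ell1]
  have hX : 0 < p.x ^ lcdKap F := Real.rpow_pos_of_pos hx _
  constructor
  · have h1 : p.lam ≤ p.x ^ lcdKap F := le_trans hp.lam_hi (Real.rpow_le_rpow_of_exponent_ge hx hx1 hkap_le)
    calc |p.ell ^ 2 * p.b0 F 𝔹 - F.T| ≤ C * p.lam := hR.b0_T
      _ ≤ C * p.x ^ lcdKap F := mul_le_mul_of_nonneg_left h1 hC0.le
      _ ≤ _ := mul_le_mul_of_nonneg_right (le_max_left _ _) hX.le
  · intro hsm w hw hcw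
    have ea := lce_a_direct hsm
    have hR' := hr hsm
    have hw2 : 0 ≤ w ^ 2 := sq_nonneg _
    have hw3 : 0 ≤ w ^ 3 := pow_nonneg hw.1.le 3
    constructor
    · have := lcd_p9_b F 𝔹 p Cb c0 hCb0 hc0 hF.sS0.le hF.sS1.le hF.pS0 hx hx1 hp.ell1 (lce_ell_le hp) hl hp.lam_hi
        (fun v hv => by rw [hCb]; exact lce_b_dev hok hs v hv.1.le) w hw hcw
      refine le_trans this ?_
      exact mul_le_mul_of_nonneg_right (mul_le_mul_of_nonneg_right (le_trans (le_max_left _ _) (le_max_right _ _)) hX.le) hw2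
    · have hKtop : ∀ v ∈ Ioo 0 p.ell, p.ell ^ 2 * p.K F 𝔹 v ≤ 𝔹.xiS F.T := by
        intro v hv
        have := hR.K_top v (by rw [ea]; exact hv)
        simpa [hsm] using this
      have hl2 : 1 ≤ p.ell ^ 2 := one_le_pow₀ hp.ell1
      have := lcd_p9_h F 𝔹 p C4 C5 2 c0 h.kap.v0 (lceV1 𝔹 F.T) hC40 hC50 (by norm_num) hc0 (lce_kap_v0_pos h) hv1 hF.vb0
        hF.sS0.le hF.sS1.le hF.eta0.le hF.pS0 hp1 hx hx1 hp.ell1 (lce_ell_le hp) hl hp.lam_hi hp.chiL hp.chiE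
        (fun v hv hv0 => by
          have hva : v ∈ Ioo 0 p.a := by rw [ea]; exact hv
          have h0 : 0 ≤ p.hS F 𝔹 v := lck_hS_nonneg hok hs v hva
          rw [abs_of_nonneg h0, hC4]
          exact lce_P4' hok hs v hv.1 hv0)
        (fun v hv => by
          have hva : v ∈ Ioo 0 p.a := by rw [ea]; exact hv
          have h0 : 0 ≤ p.hS F 𝔹 v := lck_hS_nonneg hok hs v hva
          have hK0 : 0 ≤ p.K F 𝔹 v := lce_K_nonneg v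
          have hKt := hKtop v hv
          rw [abs_of_nonneg h0, hC5]
          refine lce_hS_le hok hs v hva (𝔹.xiS F.T) C hC0.le (by show p.K F 𝔹 v ≤ _; nlinarith) ?_
          intro t ht htK
          refine hR.gap_hi t ht ?_
          have : t ≤ p.K F 𝔹 v := htK
          nlinarith)
        (fun v hv => by
          have hva : v ∈ Ioo 0 p.a := by rw [ea]; exact hv
          rcases lt_or_ge (v / p.ell) (𝔹.pTop F.T) with hact | hpl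
          · exact le_trans (lcc_He_abs hH v hact (hR'.xi_le v hva hact)) (lcc_HePl_le hH _ ⟨le_rfl, hH.pT1.le⟩).2
          · rw [lcc_He_pl v hpl]
            exact (lcc_HePl_le hH _ ⟨hpl, by rw [div_le_one hell]; exact hv.2.le⟩).2)
        (fun v hv hvv => by
          have hva : v ∈ Ioo 0 p.a := by rw [ea]; exact hv
          have hact : v / p.ell < 𝔹.pTop F.T := by
            have : v / p.ell ≤ v := div_le_self hv.1.le hp.ell1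
            linarith [lce_V1_lt hE]
          refine lcc_He_zero hH v hact ?_
          by_contra hcon
          have := hR'.ramp v hva (not_le.1 hcon)
          linarith)
        w hw hcw
      refine le_trans this ?_
      exact mul_le_mul_of_nonneg_right (mul_le_mul_of_nonneg_right (le_trans (le_max_right _ _) (le_max_right _ _)) hX.le) hw3

end p89

/-! ## 8. equation lemmas are generated HERE      (the EXIT `lce_main` of block CLK is in `LL/PathsClkE2.lean`) -/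

theorem lce_eqns_cite : True := by
  have := @LlPt.lck.eq_1
  have := @lceK.eq_1
  have := @lceC4.eq_1
  have := @lceC5.eq_1
  have := @LceFix.kap.eq_1
  have := @LceAdmO.eq_1
  have := @lceE1.eq_1
  have := @lceV1.eq_1
  have := @lceCR.eq_1
  trivial

end Claimed.Agent.R286
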