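import Mathlib

/-!
Row 286 (S0533), LL Section 3, UNIT DEFS (HEAD helper272, co-head helper253, ADV helper46): vocabulary of LL Sections 2-3
(`02-foundations.tex` l.1-306, `03-paths.tex`): terminal mass `a`, clocks, scalar references, (A4), (P1)-(P11).      VERSION 3 (15 Oct 05:15Z).

Everything is typed over a NUMBERS-ONLY interface `LlBase`; the concrete base `llBase` (`skPf`, `skPS`, `skPB` of `Exit/PSysInst.lean`, scalar model of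
`R286/Sc`) is in `LL/PathsBase.lean`.      v2: terminal mass is an argument of `pres, S, B`; new field `scG1 = E χ²`; NO `deriv` of model functions
(`Gam1`, `gap`); constants of the reference BEFORE the other cut-offs (`LlRef`); explicit ranges of the exponents (`LlExpOk`); Lipschitz forms in `θ`, `λ`.
-/

set_option autoImplicit false

namespace Claimed.Agent.R286

open MeasureTheory Set

/-! ## 0. The interface -/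

/-- numbers-only interface.  `pres m a b h` = LL `f_m(b,h)` at terminal mass `a` (self corrected, masses in `(0,a)`);
`S m a b h v`, `B m a b h v` = `S_v`, `B_v` at the cut AFTER the revelation at the mass `v`;
`scV A j ξ z`, `scG A j ξ`, `scG1 A j ξ` = scalar continuation `V̂`, response `Γ̂ = E V̂_z²` and its derivative `Γ̂' = E V̂_zz²` in VARIANCE TIME `ξ ≥ 0`
for the mass profile `A` (nondecreasing on `[0,∞)`, `A ξ = j` for large `ξ` = terminal annealed extension);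
normalisation `V̂(ξ,z) = j⁻¹ log cosh (j z) - j ξ / 2` where `A = j` (so that `V̂(0,0)` is the self corrected one-site pressure). -/
structure LlBase where
  pres : ℕ → ℝ → (ℝ → ℝ) → (ℝ → ℝ) → ℝ
  S : ℕ → ℝ → (ℝ → ℝ) → (ℝ → ℝ) → ℝ → ℝ
  B : ℕ → ℝ → (ℝ → ℝ) → (ℝ → ℝ) → ℝ → ℝ
  scV : (ℝ → ℝ) → ℝ → ℝ → ℝ → ℝ
  scG : (ℝ → ℝ) → ℝ → ℝ → ℝ
  scG1 : (ℝ → ℝ) → ℝ → ℝ → ℝ

namespace LlBase

variable (𝔹 : LlBase)

/-- LL pressure at terminal mass `a` -/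
def f (m : ℕ) (a : ℝ) (b h : ℝ → ℝ) : ℝ := 𝔹.pres m a b h

def Sv (m : ℕ) (a : ℝ) (b h : ℝ → ℝ) (v : ℝ) : ℝ := 𝔹.S m a b h v

def Bv (m : ℕ) (a : ℝ) (b h : ℝ → ℝ) (v : ℝ) : ℝ := 𝔹.B m a b h v

/-- `D_v^2 = B_v - S_v^2` -/
def Dv2 (m : ℕ) (a : ℝ) (b h : ℝ → ℝ) (v : ℝ) : ℝ := 𝔹.Bv m a b h v - 𝔹.Sv m a b h v ^ 2

/-- self corrected one-site pressure at terminal mass `a` -/
def fspin (a : ℝ) (K : ℝ → ℝ) : ℝ := 𝔹.f 1 a 0 K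

/-- (A4): tilted minus untilted pressure (the matrix clock revealed before the mass `s` is revealed at the mass `s`) -/
noncomputable def psi (m : ℕ) (a : ℝ) (b h : ℝ → ℝ) (s : ℝ) : ℝ :=
  𝔹.f m a (fun v => if s ≤ v then b v else 0) h - 𝔹.f m a b h

/-- (A4): `K_m(s) = s m ψ_m(s)` -/
noncomputable def kap (m : ℕ) (a : ℝ) (b h : ℝ → ℝ) (s : ℝ) : ℝ := s * m * 𝔹.psi m a b h s

/-! ## 1. The fixed-temperature scalar reference (03 l.41-52) -/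

/-- admissible quantiles -/
def IsQuant (z : ℝ → ℝ) : Prop := MonotoneOn z (Icc 0 1) ∧ ∀ w ∈ Icc (0 : ℝ) 1, z w ∈ Icc (0 : ℝ) 1

noncomputable def scObj (T : ℝ) (z : ℝ → ℝ) : ℝ :=
  𝔹.fspin 1 (fun w => T * z w) + T / 4 * ∫ w in (0 : ℝ)..1, z w ^ 2

def IsMinZ (T : ℝ) (z : ℝ → ℝ) : Prop := IsQuant z ∧ ∀ z', IsQuant z' → 𝔹.scObj T z ≤ 𝔹.scObj T z'

/-- the minimising quantile (unique by PE Lemma 5.8) -/
noncomputable def zMin (T : ℝ) : ℝ → ℝ := Classical.epsilon (𝔹.IsMinZ T)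

/-- `A_0(ξ) = |{w : T z(w) ≤ ξ}|` -/
noncomputable def A0 (T : ℝ) (ξ : ℝ) : ℝ := (volume {w : ℝ | w ∈ Ioo (0 : ℝ) 1 ∧ T * 𝔹.zMin T w ≤ ξ}).toReal

/-- top of the support -/
noncomputable def xiS (T : ℝ) : ℝ := sInf {ξ : ℝ | 0 ≤ ξ ∧ 𝔹.A0 T ξ = 1}

/-- `p_top = A_0(ξ_* -)` -/
noncomputable def pTop (T : ℝ) : ℝ := sSup ((𝔹.A0 T) '' Iio (𝔹.xiS T))

/-- `κ_T`: `A_0(ξ) ∼ κ_T ξ / T` at `0` -/
noncomputable def kapT (T : ℝ) : ℝ := T * derivWithin (𝔹.A0 T) (Ici 0) 0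

end LlBase

/-- generalised inverse of a mass profile -/
noncomputable def llInv (A : ℝ → ℝ) (w : ℝ) : ℝ := sInf {ξ : ℝ | 0 ≤ ξ ∧ w ≤ A ξ}

/-! ## 2. Data fixed before `N → ∞` -/

/-- the choices of 03 made once and for all (exponents of (P1), cut-off functions, small constants) -/
structure LlFix where
  T : ℝ
  sS : ℝ
  eta : ℝ
  pS : ℝ
  z0 : ℝ
  P : ℝ → ℝ
  vb : ℝ
  G0 : ℝ → ℝ
  G1 : ℝ → ℝ
  phi : ℝ → ℝ
  c1 : ℝ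
  cb : ℝ
  U0 : ℝ
  Ups : ℝ → ℝ

/-- the requirements on the fixed data that do not involve the model -/
structure LlFix.Ok (F : LlFix) : Prop where
  T1 : 1 < F.T
  sS0 : 0 < F.sS
  sS1 : F.sS < 1 / 2
  eta0 : 0 < F.eta
  pS0 : 0 < F.pS
  z00 : 0 < F.z0
  P_sm : ContDiff ℝ (⊤ : ℕ∞) F.P
  P_nn : ∀ ξ, 0 ≤ ξ → 0 ≤ F.P ξ ∧ F.P ξ ≤ ξ
  P_lin : ∀ ξ ∈ Icc 0 (F.z0 / 2), F.P ξ = ξ
  P_zero : ∀ ξ, F.z0 ≤ ξ → F.P ξ = 0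
  vb0 : 0 < F.vb
  G0_sm : ContDiff ℝ (⊤ : ℕ∞) F.G0
  G0_mono : Monotone F.G0
  G0_zero : ∀ w ≤ 1, F.G0 w = 0
  G0_sq : ∀ w, 8 ≤ w → F.G0 w = w ^ 2
  G1_sm : ContDiff ℝ (⊤ : ℕ∞) F.G1
  G1_mono : MonotoneOn F.G1 (Ici 0)
  G1_sq : ∀ w ∈ Icc (0 : ℝ) 1, F.G1 w = w ^ 2
  G1_const : ∀ w, 2 ≤ w → F.G1 w = F.G1 2
  phi_sm : ContDiff ℝ (⊤ : ℕ∞) F.phi
  phi_nn : ∀ w, 0 ≤ F.phi w
  phi_supp : ∀ w, w ∉ Icc (1 / 2 : ℝ) 4 → F.phi w = 0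
  phi_pos : ∀ w ∈ Icc (1 : ℝ) 2, 0 < F.phi w
  c10 : 0 < F.c1
  cb0 : 0 < F.cb
  U00 : 0 < F.U0
  Ups_sm : ContDiff ℝ (⊤ : ℕ∞) F.Ups
  Ups_rg : ∀ U, F.Ups U ∈ Icc (0 : ℝ) 1
  Ups_one : ∀ U ∈ Icc 0 (F.U0 / 2), F.Ups U = 1
  Ups_zero : ∀ U, F.U0 ≤ U → F.Ups U = 0

/-! ## 3. A point of a comparison path -/

/-- dyad `N`, size coordinate `ℓ = e^{θ/6}`, strength `λ`, deterministic path parameters `γ = (γ_0,(γ_u)_u)`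
(`gu h` belongs to the dyadic mass `u = 2^-h`), multipliers, direct (`sm = false`) or smoothed path -/
structure LlPt where
  N : ℕ
  ell : ℝ
  lam : ℝ
  gam0 : ℝ
  gu : ℕ → ℝ
  chiL : ℝ
  chiE : ℝ
  sm : Bool

namespace LlPt

variable (p : LlPt) (F : LlFix) (𝔹 : LlBase)

noncomputable def x : ℝ := (p.N : ℝ) ^ (-(1 / 6) : ℝ)
/-- (P1) -/
noncomputable def om : ℝ := p.x ^ (5 + 1 / 4 : ℝ)
noncomputable def M : ℝ := Real.log (1 / p.x) ^ 3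
noncomputable def U : ℝ := min 1 (p.x * p.lam ^ (-(F.sS / 2)))
noncomputable def lam1 : ℝ := p.lam ^ (1 + F.eta)
/-- terminal mass -/
noncomputable def a : ℝ := if p.sm then 4 else p.ell
/-- normalised terminal mass `j` -/
noncomputable def j : ℝ := if p.sm then 4 / p.ell else 1

/-- ranges of the parameters: (P1), `1 ≤ ℓ ≤ 2^{1/6}`, `γ ∈ [-4,4]`, `χ ∈ [0,1]`; a smoothed path is at final strength -/
structure Ok : Prop where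
  N2 : 2 ≤ p.N
  ell1 : 1 ≤ p.ell
  ell2 : p.ell ≤ (2 : ℝ) ^ (1 / 6 : ℝ)
  lam_lo : p.x ^ (12 : ℝ) ≤ p.lam
  lam_hi : p.lam ≤ p.x ^ F.pS
  g0 : p.gam0 ∈ Icc (-4 : ℝ) 4
  gu : ∀ h, p.gu h ∈ Icc (-4 : ℝ) 4
  chiL : p.chiL ∈ Icc (0 : ℝ) 1
  chiE : p.chiE ∈ Icc (0 : ℝ) 1
  sm_fin : p.sm = true → p.lam = p.x ^ F.pS ∧ p.chiE = 0

/-- `A_λ = A_0 + λ P` (03 l.113-117), extended by `1` at and after `ξ_*` -/
noncomputable def Adir (ξ : ℝ) : ℝ := 𝔹.A0 F.T ξ + p.lam * F.P ξ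

/-- the smoothed profile `Â` (03 l.119-128) -/
noncomputable def Asm (ξ : ℝ) : ℝ :=
  if p.M ≤ ξ then 4 / p.ell
  else (if ξ < 𝔹.xiS F.T then p.Adir F 𝔹 ξ
        else 𝔹.pTop F.T + (1 - 𝔹.pTop F.T) * min 1 ((ξ - 𝔹.xiS F.T) / p.om)) + p.om * ξ

/-- the normalised mass profile in use -/
noncomputable def Aprof : ℝ → ℝ := if p.sm then p.Asm F 𝔹 else p.Adir F 𝔹

/-- normalised scalar time at mass `v`: `ξ(v) = Â⁻¹(v/ℓ)` -/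
noncomputable def xi (v : ℝ) : ℝ := llInv (p.Aprof F 𝔹) (v / p.ell)

/-- the physical scalar clock `K(v) = t(v) = ℓ⁻² Â⁻¹(v/ℓ)` -/
noncomputable def K (v : ℝ) : ℝ := (p.ell ^ 2)⁻¹ * p.xi F 𝔹 v

/-- normalised response `Γ̂(ξ)` and physical response `Γ(t) = Γ̂(ℓ² t)` -/
noncomputable def GamN (ξ : ℝ) : ℝ := 𝔹.scG (p.Aprof F 𝔹) p.j ξ
noncomputable def Gam (t : ℝ) : ℝ := p.GamN F 𝔹 (p.ell ^ 2 * t)

/-- physical continuation `V(t,z) = ℓ⁻¹ V̂(ℓ² t, ℓ z)` -/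
noncomputable def V (t z : ℝ) : ℝ := p.ell⁻¹ * 𝔹.scV (p.Aprof F 𝔹) p.j (p.ell ^ 2 * t) (p.ell * z)

/-- `q(v) = Γ(K(v))` -/
noncomputable def q (v : ℝ) : ℝ := p.Gam F 𝔹 (p.K F 𝔹 v)

/-- normalised `Γ̂'(ξ) = E V̂_zz²` and physical `Γ'(t) = ℓ² Γ̂'(ℓ² t)` -/
noncomputable def Gam1N (ξ : ℝ) : ℝ := 𝔹.scG1 (p.Aprof F 𝔹) p.j ξ
noncomputable def Gam1 (t : ℝ) : ℝ := p.ell ^ 2 * p.Gam1N F 𝔹 (p.ell ^ 2 * t)

/-- `b_∘ = 1 / V_zz(0,0)^2 = 1 / Γ'(0)` -/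
noncomputable def b0 : ℝ := 1 / p.Gam1 F 𝔹 0

/-- the scalar gap `1 - b_∘ Γ'(t)`, and the same at the normalised time `ξ`: `1 - Γ̂'(ξ) / Γ̂'(0)` -/
noncomputable def gap (t : ℝ) : ℝ := 1 - p.b0 F 𝔹 * p.Gam1 F 𝔹 t
noncomputable def gapN (ξ : ℝ) : ℝ := 1 - p.Gam1N F 𝔹 ξ / p.Gam1N F 𝔹 0

/-- `G(v)`: `0` on `[0,x]`, `v^2` on `[8x,v_b]`, constant above `2 v_b` -/
noncomputable def G (v : ℝ) : ℝ := if v ≤ F.vb then p.x ^ 2 * F.G0 (v / p.x) else F.vb ^ 2 * F.G1 (v / F.vb)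

/-- the dyadic masses in use -/
def IsDy (h : ℕ) : Prop := 16 * p.x ≤ (2 : ℝ)⁻¹ ^ h ∧ (2 : ℝ)⁻¹ ^ h ≤ F.vb / 16

open Classical in
/-- `Σ_u γ_u u^2 φ(v/u)` -/
noncomputable def dySum (v : ℝ) : ℝ :=
  ∑ᶠ h : ℕ, if p.IsDy F h then p.gu h * ((2 : ℝ)⁻¹ ^ h) ^ 2 * F.phi (v / (2 : ℝ)⁻¹ ^ h) else 0

/-- (P3) the matrix clock -/
noncomputable def b (v : ℝ) : ℝ :=
  p.b0 F 𝔹 + F.cb * p.lam * (p.G F v - p.U F ^ 2 - F.c1 * p.gam0 * (p.G F v + p.U F ^ 2) - F.c1 * p.dySum F v)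

/-- `c_g = -∂_{γ_0} b` -/
noncomputable def cg (v : ℝ) : ℝ := F.cb * p.lam * F.c1 * (p.G F v + p.U F ^ 2)

/-- `h_* = K - b q` -/
noncomputable def hS (v : ℝ) : ℝ := p.K F 𝔹 v - p.b F 𝔹 v * p.q F 𝔹 v

/-- (P6) -/
noncomputable def Hlo (v : ℝ) : ℝ := p.lam1 F * p.U F ^ 3 * Real.log (min v p.ell / p.x)
noncomputable def Hlin (v : ℝ) : ℝ := p.x ^ 3 * max 0 (min v p.ell - 4 * F.vb)

noncomputable def Ut : ℝ := min F.U0 (p.U F)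
noncomputable def dPl : ℝ := p.Ut F ^ 4
/-- `E_b`: `p_top - A_0(ξ_* - E_b) = Ũ^4 / E_b^2` -/
noncomputable def Eb : ℝ := sInf {E : ℝ | 0 < E ∧ p.Ut F ^ 4 / E ^ 2 ≤ 𝔹.pTop F.T - 𝔹.A0 F.T (𝔹.xiS F.T - E)}
noncomputable def dMi : ℝ := p.Ut F ^ 4 / p.Eb F 𝔹 ^ 2

/-- (P7) on the plateau, `w = v/ℓ` -/
noncomputable def HePl (w : ℝ) : ℝ :=
  p.lam1 F * F.Ups (p.U F) * p.Ut F ^ 2 *
    ((1 - w + p.dPl F) ^ (-(1 / 2) : ℝ) - (w - 𝔹.pTop F.T + p.dMi F 𝔹) ^ (-(1 / 2) : ℝ))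

/-- `H_e`: plateau profile, linear ramp in `ξ` on `[ξ_* - E_b, ξ_*]`, zero below -/
noncomputable def He (v : ℝ) : ℝ :=
  if 𝔹.pTop F.T ≤ v / p.ell then p.HePl F 𝔹 (v / p.ell)
  else max 0 ((p.xi F 𝔹 v - (𝔹.xiS F.T - p.Eb F 𝔹)) / p.Eb F 𝔹) * p.HePl F 𝔹 (𝔹.pTop F.T)

/-- (P6) the field clock -/
noncomputable def h (v : ℝ) : ℝ :=
  if v < p.x then 0 else p.hS F 𝔹 v + p.Hlo F v + p.chiL * p.Hlin F v + p.chiE * p.He F 𝔹 v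

/-- the field defect `d = h - h_*` -/
noncomputable def d (v : ℝ) : ℝ := p.h F 𝔹 v - p.hS F 𝔹 v

/-- pressures, statistics and Laplace tests along the path -/
noncomputable def f0 (m : ℕ) : ℝ := 𝔹.f m p.a (p.b F 𝔹) (p.h F 𝔹)
noncomputable def psi (m : ℕ) (s : ℝ) : ℝ := 𝔹.psi m p.a (p.b F 𝔹) (p.h F 𝔹) s
noncomputable def kap (m : ℕ) (s : ℝ) : ℝ := 𝔹.kap m p.a (p.b F 𝔹) (p.h F 𝔹) s
noncomputable def S (m : ℕ) (v : ℝ) : ℝ := 𝔹.Sv m p.a (p.b F 𝔹) (p.h F 𝔹) v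
noncomputable def B (m : ℕ) (v : ℝ) : ℝ := 𝔹.Bv m p.a (p.b F 𝔹) (p.h F 𝔹) v
/-- `A_v = B_v - 2 q S_v + q^2` (07 l.27) -/
noncomputable def Aerr (m : ℕ) (v : ℝ) : ℝ := p.B F 𝔹 m v - 2 * p.q F 𝔹 v * p.S F 𝔹 m v + p.q F 𝔹 v ^ 2
/-- the restored pressure `f_m^0 - ∫ b q^2 / 4` -/
noncomputable def fRest (m : ℕ) : ℝ := p.f0 F 𝔹 m - ∫ v in (0 : ℝ)..p.a, p.b F 𝔹 v * p.q F 𝔹 v ^ 2 / 4
/-- the scalar trial gap of (C2), Prop. paths:switch -/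
noncomputable def trialGap (m : ℕ) : ℝ :=
  𝔹.fspin p.a (p.K F 𝔹) + (∫ v in (0 : ℝ)..p.a, (p.K F 𝔹 v - p.h F 𝔹 v) ^ 2 / (4 * p.b F 𝔹 v)) - p.f0 F 𝔹 m

end LlPt

end Claimed.Agent.R286

/-! ## 4. CONTRACTS of LL Section 3, closed form (all quantifiers explicit) -/

namespace Claimed.Agent.R286

open MeasureTheory Set Filter Topology

/-- explicit ranges of the exponents of (P1) which are enough for ALL of Section 3 (later sections restrict them further) -/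
structure LlExpOk (sS eta pS : ℝ) : Prop where
  s_lo : 1 / 4 ≤ sS
  s_hi : sS < 1 / 2
  e_lo : 0 < eta
  e_hi : eta ≤ 1 / 8
  p_lo : 0 < pS
  p_hi : pS ≤ 1

/-- "uniformly, for all sufficiently large `N`" -/
def LlUnif (F : LlFix) (Φ : LlPt → Prop) : Prop := ∃ N0 : ℕ, ∀ p : LlPt, p.Ok F → N0 ≤ p.N → Φ p

/-- `A ≲_∘ B` : subpower loss `C_ε x^{-ε}` for every `ε > 0` -/
def LlSub (F : LlFix) (R : LlPt → Prop) (A B : LlPt → ℝ) : Prop :=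
  ∀ ε > (0 : ℝ), ∃ C : ℝ, LlUnif F fun p => R p → A p ≤ C * p.x ^ (-ε) * B p

/-- Lemma paths:base-profile (03 l.53-108).      OWNER of the proof: BOX-C (helper68 `Sc/Top.lean`, helper229 `Sc/Pkg.lean`, chief helper183). -/
structure LlBaseProfile (𝔹 : LlBase) (T : ℝ) : Prop where
  isMin : 𝔹.IsMinZ T (𝔹.zMin T)
  xi_pos : 0 < 𝔹.xiS T
  xi_le : 𝔹.xiS T ≤ T
  self : ∀ ξ ∈ Icc 0 (𝔹.xiS T), 𝔹.scG (𝔹.A0 T) 1 ξ = ξ / T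
  self1 : ∀ ξ ∈ Icc 0 (𝔹.xiS T), 𝔹.scG1 (𝔹.A0 T) 1 ξ = 1 / T
  mono : Monotone (𝔹.A0 T)
  zero : ∀ ξ ≤ 0, 𝔹.A0 T ξ = 0
  top : ∀ ξ, 𝔹.xiS T ≤ ξ → 𝔹.A0 T ξ = 1
  strict : StrictMonoOn (𝔹.A0 T) (Icc 0 (𝔹.xiS T))
  /-- active-side derivatives of every order, as a tower on the CLOSED interval -/
  tower : ∃ a : ℕ → ℝ → ℝ, (∀ ξ ∈ Ico 0 (𝔹.xiS T), 𝔹.A0 T ξ = a 0 ξ) ∧ a 0 (𝔹.xiS T) = 𝔹.pTop T ∧ a 1 0 = 𝔹.kapT T / T ∧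
    ∀ k, ∀ ξ ∈ Icc 0 (𝔹.xiS T), HasDerivWithinAt (a k) (a (k + 1) ξ) (Icc 0 (𝔹.xiS T)) ξ
  kap_pos : 0 < 𝔹.kapT T
  pTop_mem : 𝔹.pTop T ∈ Ioo (0 : ℝ) 1
  lt_top : ∀ ξ < 𝔹.xiS T, 𝔹.A0 T ξ < 𝔹.pTop T

namespace LlPt
/-- reparametrisations -/
noncomputable def wLam (p : LlPt) (L : ℝ) : LlPt := { p with lam := Real.exp L }
def wLm (p : LlPt) (l : ℝ) : LlPt := { p with lam := l }
noncomputable def wTh (p : LlPt) (θ : ℝ) : LlPt := { p with ell := Real.exp (θ / 6) }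
def wG0 (p : LlPt) (g : ℝ) : LlPt := { p with gam0 := g }
def wGu (p : LlPt) (h : ℕ) (g : ℝ) : LlPt := { p with gu := Function.update p.gu h g }
def wChi (p : LlPt) (cl ce : ℝ) : LlPt := { p with chiL := cl, chiE := ce }

/-- **(P2), Lemma paths:lift, at one point** (direct or smoothed), constants `c, C, v0` -/
structure Ref (p : LlPt) (F : LlFix) (𝔹 : LlBase) (c C v0 : ℝ) : Prop where
  b0_lo : c ≤ p.b0 F 𝔹
  b0_hi : p.b0 F 𝔹 ≤ C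
  b0_T : |p.ell ^ 2 * p.b0 F 𝔹 - F.T| ≤ C * p.lam
  v2 : iteratedDeriv 2 (fun z => p.V F 𝔹 0 z) 0 ^ 2 = p.Gam1 F 𝔹 0
  g1_cont : ContinuousOn (p.Gam1 F 𝔹) (Ici 0)
  g1_pos : ∀ t, 0 ≤ t → 0 < p.Gam1 F 𝔹 t
  gam_zero : p.Gam F 𝔹 0 = 0
  gam_ftc : ∀ t t', 0 ≤ t → t ≤ t' → p.Gam F 𝔹 t' - p.Gam F 𝔹 t = ∫ s in t..t', p.Gam1 F 𝔹 s
  gam_le : ∀ t, 0 ≤ t → p.Gam F 𝔹 t ≤ 1
  gap_lo : ∀ t, 0 ≤ t → c * p.lam * min (t ^ 2) 1 ≤ p.gap F 𝔹 t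
  gap_hi : ∀ t, 0 ≤ t → p.ell ^ 2 * t ≤ 𝔹.xiS F.T → p.gap F 𝔹 t ≤ C * p.lam * t ^ 2
  K_mono : MonotoneOn (p.K F 𝔹) (Ioo 0 p.a)
  K_lo : ∀ v v', 0 < v → v ≤ v' → v' ≤ v0 → c * (v' - v) ≤ p.K F 𝔹 v' - p.K F 𝔹 v
  K_hi : ∀ v v', 0 < v → v ≤ v' → v' ≤ v0 → p.K F 𝔹 v' - p.K F 𝔹 v ≤ C * (v' - v)
  K_lo0 : ∀ v, 0 < v → v ≤ v0 → c * v ≤ p.K F 𝔹 v
  K_hi0 : ∀ v, 0 < v → v ≤ v0 → p.K F 𝔹 v ≤ C * v
  K_top : ∀ v ∈ Ioo 0 p.a, p.ell ^ 2 * p.K F 𝔹 v ≤ if p.sm then p.M else 𝔹.xiS F.T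
  q_lo : ∀ v ∈ Ioo 0 p.a, c * v ≤ p.q F 𝔹 v
  q_hi : ∀ v ∈ Ioo 0 p.a, p.q F 𝔹 v ≤ C * v
  /-- `q(v)/v → 1/(ℓ κ_T)` with a rate (ask B4 of the LL ledger) -/
  q_slope : ∀ v, 0 < v → v ≤ v0 → |p.q F 𝔹 v - v / (p.ell * 𝔹.kapT F.T)| ≤ C * v * (v + p.lam)

/-- **Lemma paths:parameter-regularity, direct reference**: Lipschitz dependence on the strength (`p' = p.wLm l'`; divide by `λ` for `∂_{log λ}`) -/
structure RegL (p : LlPt) (F : LlFix) (𝔹 : LlBase) (C ξ0 : ℝ) (l' : ℝ) : Prop where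
  b0 : |(p.wLm l').b0 F 𝔹 - p.b0 F 𝔹| ≤ C * |l' - p.lam|
  K : ∀ v ∈ Ioo 0 p.a, |(p.wLm l').K F 𝔹 v - p.K F 𝔹 v| ≤ C * |l' - p.lam| * v
  K_far : ∀ v ∈ Ioo 0 p.a, F.z0 ≤ p.xi F 𝔹 v → (p.wLm l').K F 𝔹 v = p.K F 𝔹 v
  q : ∀ v ∈ Ioo 0 p.a, |(p.wLm l').q F 𝔹 v - p.q F 𝔹 v| ≤ C * |l' - p.lam| * min v 1
  gap0 : ∀ ξ ∈ Icc 0 ξ0, |(p.wLm l').gapN F 𝔹 ξ - p.gapN F 𝔹 ξ| ≤ C * |l' - p.lam| * ξ ^ 2
  gap : ∀ ξ, 0 ≤ ξ → |(p.wLm l').gapN F 𝔹 ξ - p.gapN F 𝔹 ξ| ≤ C * |l' - p.lam|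

/-- **Lemma paths:parameter-regularity, smoothed reference**: Lipschitz dependence on the size coordinate (`p' = p.wTh θ'`, `p = p.wTh θ`);
`gap0` = (P2a), `l1` = (P2b), `jet` = the rescaling bound for `ℓ^{1-r} ∂_z^r V(0,0) = ∂_z^r V̂_j(0,0)`, orders `r ≤ R0` -/
structure RegT (p : LlPt) (F : LlFix) (𝔹 : LlBase) (c C v0 ξ0 : ℝ) (R0 : ℕ) (θ θ' : ℝ) : Prop where
  b0 : |(p.wTh θ').ell ^ 2 * (p.wTh θ').b0 F 𝔹 - (p.wTh θ).ell ^ 2 * (p.wTh θ).b0 F 𝔹| ≤ C * Real.exp (-c * p.M) * |θ' - θ|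
  gap0 : ∀ ξ ∈ Icc 0 ξ0, |(p.wTh θ').gapN F 𝔹 ξ - (p.wTh θ).gapN F 𝔹 ξ| ≤ C * Real.exp (-c * p.M) * ξ ^ 2 * |θ' - θ|
  jet : ∀ r, 1 ≤ r → r ≤ R0 → |iteratedDeriv r (𝔹.scV ((p.wTh θ').Aprof F 𝔹) (p.wTh θ').j 0) 0
      - iteratedDeriv r (𝔹.scV ((p.wTh θ).Aprof F 𝔹) (p.wTh θ).j 0) 0| ≤ C * Real.exp (-c * p.M) * |θ' - θ|
  /-- `|∂_j Γ̂_j(ξ)| ≤ C (1 + M)` on `[0,M]` (03 l.325-345; ask of L09/Reg: helper216, helper260, helper258) -/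
  gamN : ∀ ξ ∈ Icc 0 p.M, |(p.wTh θ').GamN F 𝔹 ξ - (p.wTh θ).GamN F 𝔹 ξ| ≤ C * (1 + p.M) * |θ' - θ|
  K0 : ∀ v, 0 < v → v ≤ v0 → |(p.wTh θ').K F 𝔹 v - (p.wTh θ).K F 𝔹 v| ≤ C * v * |θ' - θ|
  q0 : ∀ v, 0 < v → v ≤ v0 → |(p.wTh θ').q F 𝔹 v - (p.wTh θ).q F 𝔹 v| ≤ C * v * |θ' - θ|
  Kpt : ∀ v ∈ Ioo (0 : ℝ) 4, |(p.wTh θ').K F 𝔹 v - (p.wTh θ).K F 𝔹 v| ≤ C / p.om * |θ' - θ|
  qpt : ∀ v ∈ Ioo (0 : ℝ) 4, |(p.wTh θ').q F 𝔹 v - (p.wTh θ).q F 𝔹 v| ≤ C / p.om * |θ' - θ|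
  l1 : (∫ v in (0 : ℝ)..4, (|(p.wTh θ').K F 𝔹 v - (p.wTh θ).K F 𝔹 v| + |(p.wTh θ').q F 𝔹 v - (p.wTh θ).q F 𝔹 v|))
      ≤ C * p.M ^ 2 * |θ' - θ|

end LlPt

/-- (P2) uniformly -/
def LlRef (𝔹 : LlBase) (F : LlFix) (c C v0 : ℝ) : Prop := LlUnif F fun p => p.Ref F 𝔹 c C v0

/-- strength regularity, uniformly on the direct paths -/
def LlRegL (𝔹 : LlBase) (F : LlFix) (C ξ0 : ℝ) : Prop :=
  LlUnif F fun p => p.sm = false → ∀ l', p.x ^ (12 : ℝ) ≤ l' → l' ≤ p.x ^ F.pS → p.RegL F 𝔹 C ξ0 l'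

/-- size regularity, uniformly on the smoothed paths -/
def LlRegT (𝔹 : LlBase) (F : LlFix) (c C v0 ξ0 : ℝ) (R0 : ℕ) : Prop :=
  LlUnif F fun p => p.sm = true → ∀ θ ∈ Icc 0 (Real.log 2), ∀ θ' ∈ Icc 0 (Real.log 2), p.RegT F 𝔹 c C v0 ξ0 R0 θ θ'

/-- **EXIT of the scalar half of Section 3** (Lemmas paths:lift, paths:parameter-regularity).      ORDER OF THE CONSTANTS: `z0` small; then `c, C, v0, ξ0`
(they depend on `T, z0` only); then ANY admissible remaining data `F` (`v_b, c_1, c_b, U_0`, cut-off functions, exponents); then `N0` (inside `LlUnif`).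
`F.pS ≤ 1` (added 04:35Z, 202/136/267): the smoothed lift needs `(ω (M² + 1))^{1/2} ≤ κ λ`, `ω = x^{5+1/4}`, `λ = x^{p_*}`: false for `p_* > 2.6`, which `F.Ok` allows. -/
def LlRefExit (𝔹 : LlBase) (T : ℝ) : Prop :=
  ∃ zb : ℝ, 0 < zb ∧ ∀ z0, 0 < z0 → z0 ≤ zb → ∃ c C v0 ξ0 : ℝ, 0 < c ∧ c ≤ 1 ∧ 1 ≤ C ∧ 0 < v0 ∧ v0 ≤ 1 / 2 ∧ 0 < ξ0 ∧
    ∀ F : LlFix, F.Ok → F.T = T → F.z0 = z0 → F.pS ≤ 1 →
      LlRef 𝔹 F c C v0 ∧ LlRegL 𝔹 F C ξ0 ∧ ∀ R0 : ℕ, ∃ c' C' : ℝ, 0 < c' ∧ LlRegT 𝔹 F c' C' v0 ξ0 R0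

/-- admissibility: nonnegative nondecreasing clocks on the CLOSED interval `[0,a]` (= `CkAdm p.a b h` of `Fd/ClkDefs.lean`); consequences of (P3) -/
def LlAdm (𝔹 : LlBase) (F : LlFix) : Prop :=
  ∃ c C : ℝ, 0 < c ∧ LlUnif F fun p =>
    MonotoneOn (p.b F 𝔹) (Icc 0 p.a) ∧ MonotoneOn (p.h F 𝔹) (Icc 0 p.a) ∧ MonotoneOn (p.hS F 𝔹) (Icc 0 p.a) ∧
    MonotoneOn (p.K F 𝔹) (Icc 0 p.a) ∧ MonotoneOn (p.q F 𝔹) (Icc 0 p.a) ∧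
    (∀ v ∈ Icc 0 p.a, c ≤ p.b F 𝔹 v ∧ p.b F 𝔹 v ≤ C ∧ 0 ≤ p.h F 𝔹 v ∧ 0 ≤ p.hS F 𝔹 v ∧ 0 ≤ p.K F 𝔹 v) ∧
    (∀ v ∈ Icc 0 p.a, ∀ v' ∈ Icc 0 p.a, v ≤ v' → p.b F 𝔹 v' - p.b F 𝔹 v ≤ C * F.cb * p.lam * v' * (v' - v)) ∧
    (∀ v ∈ Icc 0 p.x, p.b F 𝔹 v = p.b F 𝔹 0)

/-- NO JUMP AT THE TERMINAL MASS: the clocks are left continuous at `v = a` (ask of LL 07, helper162: `skCPr` reads `c(a)`, the abstract worlds read the clocks on `(0,a)`;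
`ClkEnd a c` of `Exit/BudWorld.lean` follows).      Added and PROVED by helper253 (`lce_LlAdmEnd`, `LL/PathsClkE2.lean`). -/
def LlAdmEnd (𝔹 : LlBase) (F : LlFix) : Prop :=
  LlUnif F fun p =>
    Tendsto (p.b F 𝔹) (𝓝[<] p.a) (𝓝 (p.b F 𝔹 p.a)) ∧ Tendsto (p.h F 𝔹) (𝓝[<] p.a) (𝓝 (p.h F 𝔹 p.a)) ∧
    Tendsto (p.hS F 𝔹) (𝓝[<] p.a) (𝓝 (p.hS F 𝔹 p.a)) ∧ Tendsto (p.K F 𝔹) (𝓝[<] p.a) (𝓝 (p.K F 𝔹 p.a)) ∧
    Tendsto (p.q F 𝔹) (𝓝[<] p.a) (𝓝 (p.q F 𝔹 p.a))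

/-- (PROF) (ask of LL 06, helper291) the time distribution of the normalised direct clock IS the profile: `|{w ∈ (0,1) : ξ(ℓ w) ≤ s}| = A_λ(s)`, `s ≥ 0`.      PROVED: `lch_LlProfId` (`LL/PathsClkH.lean`, 253). -/
def LlProfId (𝔹 : LlBase) (F : LlFix) : Prop :=
  LlUnif F fun p => p.sm = false → ∀ s : ℝ, 0 ≤ s →
    (volume {w : ℝ | w ∈ Ioo (0 : ℝ) 1 ∧ p.xi F 𝔹 (p.ell * w) ≤ s}).toReal = p.Aprof F 𝔹 s

/-- (GAP-B) (ask of LL 06, helper291; 06 l.556-566) "the positive part of `b(v) - b_∘` is at most `C c_b λ v²`, which is absorbed by (P2) when `c_b` is small".      PROVED: `lch_LlGapB` (`LL/PathsClkH.lean`, 253). -/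
def LlGapB (𝔹 : LlBase) (F : LlFix) : Prop :=
  ∃ C : ℝ, LlUnif F fun p => p.sm = false → ∀ v ∈ Ioo 0 p.a,
    (∀ t : ℝ, p.K F 𝔹 (v / 4) / 4 ≤ t → 0 ≤ 1 - p.b F 𝔹 v * p.Gam1 F 𝔹 t) ∧
    (∀ t : ℝ, 0 ≤ t → -(C * p.lam * v ^ 2) ≤ 1 - p.b F 𝔹 v * p.Gam1 F 𝔹 t)

/-- (EQUI) (ask of LL 08/09, helper75) **equicontinuity of the clocks in the mass at fixed `N`, UNIFORMLY in the point** `(ℓ, λ, γ, χ, sm)`: one modulus for `K, q, b, h_*` on `[0,a]` and for `h` on `[0,x)` and on `[x,a]`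
(`h` JUMPS at the mask `v = x`: `h = 0` before, `h(x) = h_*(x) > 0`).      `LL/PathsClkH.lean` (253): `lch_LlEqui`. -/
def LlEqui (𝔹 : LlBase) (F : LlFix) : Prop :=
  ∃ N0 : ℕ, ∀ N : ℕ, N0 ≤ N → ∀ η : ℝ, 0 < η → ∃ δ : ℝ, 0 < δ ∧ ∀ p : LlPt, p.Ok F → p.N = N →
    ∀ v v' : ℝ, 0 ≤ v → v ≤ v' → v' ≤ p.a → v' - v ≤ δ →
      p.K F 𝔹 v' - p.K F 𝔹 v ≤ η ∧ p.q F 𝔹 v' - p.q F 𝔹 v ≤ η ∧ p.b F 𝔹 v' - p.b F 𝔹 v ≤ η ∧ p.hS F 𝔹 v' - p.hS F 𝔹 v ≤ η ∧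
      ((v' < p.x ∨ p.x ≤ v) → p.h F 𝔹 v' - p.h F 𝔹 v ≤ η)

/-- a mass profile on `[0,∞)`: nondecreasing, right continuous, nonnegative, equal to the terminal mass `j` from `τ` on      (kit: `LL/PathsKit281.lean`, helper281) -/
structure LpqProf (A : ℝ → ℝ) (τ j : ℝ) : Prop where
  mono : MonotoneOn A (Ici 0)
  rc : ∀ ξ, 0 ≤ ξ → ContinuousWithinAt A (Ici ξ) ξ
  nn : 0 ≤ A 0
  top : ∀ ξ, τ ≤ ξ → A ξ = j
  tau : 0 ≤ τ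

/-- (DIR-PROF) (281; asks of LL 06 helper159, LL 07 helper79) the direct profile `A_λ = A_0 + λ P` is an admissible mass profile with a strict top plateau (Lemma paths:base-profile + l.113-117; needs `z_0` small).
PRODUCERS: `lch_LlDirProf` (253), `lsw_dirProf` (281). -/
def LlDirProf (𝔹 : LlBase) (F : LlFix) : Prop :=
  𝔹.pTop F.T ∈ Ioo (0 : ℝ) 1 ∧ LlUnif F fun p =>
    LpqProf (p.Adir F 𝔹) (𝔹.xiS F.T) 1 ∧ ∀ ξ, 0 ≤ ξ → ξ < 𝔹.xiS F.T → p.Adir F 𝔹 ξ ≤ 𝔹.pTop F.T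

/-- **(P2) near the origin, direct reference, at one point**      (helper143; asks of LL 07: N11, N12, N18a, `bi_tie`; PRODUCER `lrd_main`, `LL/PathsRefD.lean`) -/
structure LlPt.RefD (p : LlPt) (F : LlFix) (𝔹 : LlBase) (C v1 : ℝ) : Prop where
  A_mono : MonotoneOn (p.Aprof F 𝔹) (Ici 0)
  A_zero : p.Aprof F 𝔹 0 = 0
  A_top : ∀ ξ, 𝔹.xiS F.T ≤ ξ → p.Aprof F 𝔹 ξ = 1
  /-- the profile is the distribution function of the normalised clock (`= llDist 1 (fun w => ℓ² K(ℓ w)) ξ`) -/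
  dist : ∀ ξ, 0 ≤ ξ → (volume {w : ℝ | w ∈ Ioo (0 : ℝ) 1 ∧ p.ell ^ 2 * p.K F 𝔹 (p.ell * w) ≤ ξ}).toReal = p.Aprof F 𝔹 ξ
  /-- `Γ'' = O(λ t)` -/
  g1_lip : ∀ t t', 0 ≤ t → t ≤ t' → t' ≤ v1 → |p.Gam1 F 𝔹 t' - p.Gam1 F 𝔹 t| ≤ C * p.lam * t' * (t' - t)
  K_diff : ∀ v ∈ Ioo 0 v1, DifferentiableAt ℝ (p.K F 𝔹) v
  /-- `ℓ³ K' → T / κ_T` with a rate -/
  K_der : ∀ v ∈ Ioo 0 v1, |p.ell ^ 3 * deriv (p.K F 𝔹) v - F.T / 𝔹.kapT F.T| ≤ C * (v + p.lam)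

/-- uniformly on the direct paths -/
def LlRefD (𝔹 : LlBase) (F : LlFix) (C v1 : ℝ) : Prop := LlUnif F fun p => p.sm = false → p.RefD F 𝔹 C v1

/-- (SEED) (ask of LL 07, helper79) below a fixed mass the field defect is the logarithmic term alone: `d = h - h_* = H_lo` on `[x, v_1]` (ALL points, direct or smoothed).      PROVED: `lch_LlSeed` (253). -/
def LlSeed (𝔹 : LlBase) (F : LlFix) : Prop :=
  ∃ v1 : ℝ, 0 < v1 ∧ LlUnif F fun p => ∀ v, p.x ≤ v → v ≤ v1 → p.d F 𝔹 v = p.Hlo F v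

/-- (SLOPE) (ask of LL 08, helper78 `L8yClk`; 03 l.425-437) **`h - H_lo` is nondecreasing above the mask**: the ramp of `H_e` is paid by `h_*`.      PROVED: `lch_LlSlope` (`LL/PathsClkH.lean`, 258). -/
def LlSlope (𝔹 : LlBase) (F : LlFix) : Prop :=
  LlUnif F fun p => ∀ v v' : ℝ, p.x ≤ v → v ≤ v' → v' ≤ p.a → p.Hlo F v' - p.Hlo F v ≤ p.h F 𝔹 v' - p.h F 𝔹 v

/-- what the K-kit (`LL/PathsKk.lean`, 267) uses of the base profile: densities `≥ ca` on `[0,ξ1]`, `≤ Ca` on `[0,ξs)`      (moved here from `LL/PathsKk.lean`; `lkk_base : LlBaseProfile 𝔹 T → ∃ ca Ca ξ1, LkkBase ..`) -/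
structure LkkBase (A0 : ℝ → ℝ) (ξs pT ca Ca ξ1 : ℝ) : Prop where
  pT0 : 0 < pT
  pT1 : pT < 1
  ca0 : 0 < ca
  Ca0 : 0 ≤ Ca
  x10 : 0 < ξ1
  x1s : ξ1 < ξs
  mono : Monotone A0
  zero : ∀ ξ ≤ 0, A0 ξ = 0
  top : ∀ ξ, ξs ≤ ξ → A0 ξ = 1
  lt_top : ∀ ξ < ξs, A0 ξ < pT
  rc : ∀ ξ, 0 ≤ ξ → ContinuousWithinAt A0 (Ici ξ) ξ
  lo : ∀ ξ ξ', 0 ≤ ξ → ξ ≤ ξ' → ξ' ≤ ξ1 → ca * (ξ' - ξ) ≤ A0 ξ' - A0 ξ
  hi : ∀ ξ ξ', 0 ≤ ξ → ξ ≤ ξ' → ξ' < ξs → A0 ξ' - A0 ξ ≤ Ca * (ξ' - ξ)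

/-- (PROF-RAW) **the smallness of `z_0` in the form read by the K-kit**: the cut-off `P` lives where the base profile has density `≥ ca`.      RAW MATERIAL (272, ask of LL 09: helper11, helper47):
every lemma of the form "`∃ zb > 0, ∀ F Ok, F.T = T, F.z0 ≤ zb → ..`" whose `zb` is the `ξ1` of `lkk_base` is restated with `(hB : LkkBase ..) (hz : F.z0 ≤ ξ1)` and called with this field. -/
def LlProfRaw (𝔹 : LlBase) (F : LlFix) : Prop :=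
  ∃ ca Ca ξ1 : ℝ, LkkBase (𝔹.A0 F.T) (𝔹.xiS F.T) (𝔹.pTop F.T) ca Ca ξ1 ∧ F.z0 ≤ ξ1

/-- (P4) in increment form -/
def LlP4 (𝔹 : LlBase) (F : LlFix) : Prop :=
  ∃ c C v0 : ℝ, 0 < c ∧ 0 < v0 ∧ LlUnif F fun p =>
    (∀ v ∈ Ioo 0 p.a, ∀ v' ∈ Ioo 0 p.a, v ≤ v' →
      c * p.lam * (v ^ 2 + p.U F ^ 2) * (p.K F 𝔹 v' - p.K F 𝔹 v) ≤ p.hS F 𝔹 v' - p.hS F 𝔹 v) ∧
    (∀ v ∈ Ioc 0 v0, p.hS F 𝔹 v ≤ C * p.lam * (v ^ 3 + v * p.U F ^ 2))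

/-- (P5) with both weights -/
def LlP5 (𝔹 : LlBase) (F : LlFix) : Prop :=
  ∃ c : ℝ, 0 < c ∧ LlUnif F fun p => ∀ v ∈ Ioo 0 p.a, ∀ z, 0 ≤ z →
    c * p.lam * (v ^ 2 + p.U F ^ 2) ≤
      (∫ y in (0 : ℝ)..1, (1 - p.b F 𝔹 v * p.Gam1 F 𝔹 (p.K F 𝔹 v + y * p.b F 𝔹 v * (z - p.q F 𝔹 v)))) ∧
    c * p.lam * (v ^ 2 + p.U F ^ 2) ≤
      (∫ y in (0 : ℝ)..1, (1 - y) *
        (1 - p.b F 𝔹 v * p.Gam1 F 𝔹 (p.K F 𝔹 v + y * p.b F 𝔹 v * (z - p.q F 𝔹 v))))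

/-- (P8) -/
def LlP8 (𝔹 : LlBase) (F : LlFix) : Prop :=
  LlSub F (fun _ => True) (fun p => ∫ v in (0 : ℝ)..p.a, p.d F 𝔹 v ^ 2 / p.cg F v)
    (fun p => p.lam ^ (1 + 2 * F.eta) * p.U F ^ 5 + p.chiE ^ 2 * p.lam ^ (1 + 2 * F.eta) * p.U F ^ 4
      + p.chiL ^ 2 * p.x ^ 6 / p.lam)

/-- (P9) with an explicit POWER: the PE endpoint hypothesis (4) with the common base `T_m = ℓ² b_∘ → T` -/
def LlP9 (𝔹 : LlBase) (F : LlFix) : Prop :=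
  ∃ κ : ℝ, 0 < κ ∧ ∀ c0 > (0 : ℝ), ∃ C : ℝ, LlUnif F fun p =>
    |p.ell ^ 2 * p.b0 F 𝔹 - F.T| ≤ C * p.x ^ κ ∧
    (p.sm = false → ∀ w ∈ Ioo (0 : ℝ) 1, c0 * p.x ≤ w →
      |p.ell ^ 2 * p.b F 𝔹 (p.ell * w) - p.ell ^ 2 * p.b0 F 𝔹| ≤ C * p.x ^ κ * w ^ 2 ∧
      |p.ell ^ 2 * p.h F 𝔹 (p.ell * w)| ≤ C * p.x ^ κ * w ^ 3)

/-- (P10) for the global parameter `γ_0` and for a dyadic parameter `γ_u`, in integrated form
(`c = -∂_γ b`; the restored pressure is nondecreasing in `γ`) -/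
def LlP10 (𝔹 : LlBase) (F : LlFix) : Prop :=
  LlUnif F fun p => ∀ m : ℕ, p.N ≤ 2 * m → m ≤ 3 * p.N → ∀ g g' : ℝ, -4 ≤ g → g ≤ g' → g' ≤ 4 →
    (∫ r in g..g', ∫ v in (0 : ℝ)..p.a, (p.wG0 r).cg F v / 4 * (p.wG0 r).Aerr F 𝔹 m v)
        ≤ (p.wG0 g').fRest F 𝔹 m - (p.wG0 g).fRest F 𝔹 m ∧
    ∀ h : ℕ, p.IsDy F h →
      (∫ r in g..g', ∫ v in (0 : ℝ)..p.a,
          F.cb * p.lam * F.c1 * ((2 : ℝ)⁻¹ ^ h) ^ 2 * F.phi (v / (2 : ℝ)⁻¹ ^ h) / 4 * (p.wGu h r).Aerr F 𝔹 m v)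
        ≤ (p.wGu h g').fRest F 𝔹 m - (p.wGu h g).fRest F 𝔹 m

/-- (P11), Prop. paths:switch, with the EXPLICIT saving `x^(5 + 1/8)` (independent of the exponents).
`p` is a smoothed point, `pd` the direct point with the same parameters. -/
def LlP11 (𝔹 : LlBase) (F : LlFix) : Prop :=
  ∃ C : ℝ, LlUnif F fun p => p.sm = true → p.chiL = 1 →
    ∃ κ : ℝ, -- the γ-independent constant (depends on N, ℓ only)
    ∀ g0 ∈ Icc (-4 : ℝ) 4, ∀ gu : ℕ → ℝ, (∀ h, gu h ∈ Icc (-4 : ℝ) 4) →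
    ∀ m : ℕ, p.N ≤ 2 * m → m ≤ 3 * p.N → ∀ s ∈ Ioo 0 p.x,
      let ps : LlPt := { p with gam0 := g0, gu := gu }
      let pd : LlPt := { p with gam0 := g0, gu := gu, sm := false }
      |ps.psi F 𝔹 m s - pd.psi F 𝔹 m s| ≤ C * p.x ^ (5 + 1 / 8 : ℝ) ∧
      |ps.fRest F 𝔹 m - pd.fRest F 𝔹 m - κ| ≤ C * p.x ^ (5 + 1 / 8 : ℝ) ∧
      |ps.trialGap F 𝔹 m - pd.trialGap F 𝔹 m| ≤ C * p.x ^ (5 + 1 / 8 : ℝ)

/-- (NOT a field of `LlSec3` any more, 253 15 Oct 04:40Z: no consumer; LL 04 derives what it needs from `Ll04Clk`.)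
**regularity of the Laplace test in the path parameters** (what LL Prop. 4.4 uses besides Prop. 4.1): `ψ_m(s)` is Lipschitz along each of the four
kinds of segments; `L¹` bounds of the dotted clocks through line 1 of (A1) -/
def LlRegPsi (𝔹 : LlBase) (F : LlFix) : Prop :=
  ∃ C : ℝ, LlUnif F fun p => ∀ m : ℕ, p.N ≤ 2 * m → m ≤ 3 * p.N → ∀ s ∈ Ioo 0 p.x,
    (p.sm = true → ∀ θ ∈ Icc 0 (Real.log 2), ∀ θ' ∈ Icc 0 (Real.log 2),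
      |(p.wTh θ').psi F 𝔹 m s - (p.wTh θ).psi F 𝔹 m s| ≤ C * p.M ^ 2 * |θ' - θ|) ∧
    (p.sm = false → ∃ L : ℝ, ∀ l, p.x ^ (12 : ℝ) ≤ l → l ≤ p.x ^ F.pS → ∀ l', p.x ^ (12 : ℝ) ≤ l' → l' ≤ p.x ^ F.pS →
      |(p.wLm l').psi F 𝔹 m s - (p.wLm l).psi F 𝔹 m s| ≤ L * |l' - l|) ∧
    (p.sm = false → ∀ cl ∈ Icc (0 : ℝ) 1, ∀ ce ∈ Icc (0 : ℝ) 1, ∀ cl' ∈ Icc (0 : ℝ) 1, ∀ ce' ∈ Icc (0 : ℝ) 1,
      |(p.wChi cl' ce').psi F 𝔹 m s - (p.wChi cl ce).psi F 𝔹 m s| ≤ C * (|cl' - cl| + |ce' - ce|)) ∧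
    |p.psi F 𝔹 m s| ≤ C

/-- (ask of LL 07 N15, helper8; consumer `Bud/HpInst.lean`)  **the path facts of Lemma bud:high-primitive at ONE direct point**, in NORMALISED masses `w = v/ℓ` (normalised field clock `ℓ² h(ℓ w)`):
`act`: (P4) with the bounded active density, on the WHOLE active part `[x/ℓ, p_top]` (the ramp of `H_e` absorbed);   on the top plateau `[p_top, 1]`: `q_pl`: `q` is constant; `pl`: linear slope (P6) and edge profile (P7);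
`q_var`: the reference varies by `O(E_b) = O(Ũ²/√d_-)` on the preceding active interval of length `d_-`.      TEX[LL:eq:P4] TEX[LL:eq:P6] TEX[LL:eq:P7] -/
structure LlPt.Hp (p : LlPt) (F : LlFix) (𝔹 : LlBase) (ca Cq : ℝ) : Prop where
  dm_pos : 0 < p.dMi F 𝔹
  dp_pos : 0 < p.dPl F
  act : ∀ s t, p.x / p.ell ≤ s → s ≤ t → t ≤ 𝔹.pTop F.T →
    ca * p.lam * s ^ 2 * (t - s) ≤ p.ell ^ 2 * p.h F 𝔹 (p.ell * t) - p.ell ^ 2 * p.h F 𝔹 (p.ell * s)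
  pl : ∀ s t, 𝔹.pTop F.T ≤ s → s ≤ t → t ≤ 1 →
    p.chiL * p.x ^ 3 * (t - s) + p.chiE * (p.HePl F 𝔹 t - p.HePl F 𝔹 s)
      ≤ p.ell ^ 2 * p.h F 𝔹 (p.ell * t) - p.ell ^ 2 * p.h F 𝔹 (p.ell * s)
  q_pl : ∀ w ∈ Icc (𝔹.pTop F.T) 1, p.q F 𝔹 (p.ell * w) = p.q F 𝔹 (p.ell * 𝔹.pTop F.T)
  q_var : ∀ w ∈ Icc (𝔹.pTop F.T - p.dMi F 𝔹) (𝔹.pTop F.T),
    p.q F 𝔹 (p.ell * 𝔹.pTop F.T) - p.q F 𝔹 (p.ell * w) ≤ Cq * p.Ut F ^ 2 / Real.sqrt (p.dMi F 𝔹)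

/-- (HP) (P4), (P6), (P7) in the form used by LL 07 l.1643-1768, uniformly at the direct points with small `Ũ`; `d_- → 0` with `Ũ`.      PRODUCER `lhp_main` (`LL/PathsHp.lean`, helper8) -/
def LlHp (𝔹 : LlBase) (F : LlFix) : Prop :=
  𝔹.pTop F.T ∈ Ioo (0 : ℝ) 1 ∧
  (∃ ca Cq δ0 : ℝ, 0 < ca ∧ 0 ≤ Cq ∧ 0 < δ0 ∧ LlUnif F fun p => p.sm = false → p.Ut F ≤ δ0 → p.Hp F 𝔹 ca Cq) ∧
    ∀ ε : ℝ, 0 < ε → ∃ δ : ℝ, 0 < δ ∧ ∀ p : LlPt, p.Ok F → p.Ut F ≤ δ → p.dMi F 𝔹 ≤ ε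

/-- **(K8)** (ask of LL 08, helper163; producer `lch_k8`, `LL/PathsClkH.lean`, helper202).  The scalar clock of the smoothed size paths, 08 l.1018-1020: `low`: slope of `K` `≥ c` up to a mass `v1 > 2 v_b`;
`dens`, `slow`: both coordinate derivatives are `≤ C/ω` before the wall `v_M = ℓ (1 + ω M)`; after the wall `ℓ² K = M`. -/
def LlK8 (𝔹 : LlBase) (F : LlFix) : Prop :=
  ∃ c v1 : ℝ, 0 < c ∧ 2 * F.vb < v1 ∧ v1 ≤ 1 ∧ LlUnif F fun p => p.sm = true →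
    (∀ v v', 0 < v → v ≤ v' → v' ≤ v1 → c * (v' - v) ≤ p.K F 𝔹 v' - p.K F 𝔹 v) ∧
    (∀ v v', 0 < v → v ≤ v' → v' ≤ 4 → c * p.om * (p.K F 𝔹 v' - p.K F 𝔹 v) ≤ v' - v) ∧
    (∀ v v', 0 < v → v ≤ v' → v' ≤ p.ell * (1 + p.om * p.M) → c * p.om * (v' - v) ≤ p.K F 𝔹 v' - p.K F 𝔹 v) ∧
    (∀ v, p.ell * (1 + p.om * p.M) ≤ v → v ≤ 4 → p.ell ^ 2 * p.K F 𝔹 v = p.M)

/-- all of Section 3 for one choice of the fixed data -/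
structure LlSec3 (𝔹 : LlBase) (F : LlFix) : Prop where
  ok : F.Ok
  ref : ∃ c C v0 : ℝ, 0 < c ∧ 0 < v0 ∧ LlRef 𝔹 F c C v0
  regL : ∃ C ξ0 : ℝ, 0 < ξ0 ∧ LlRegL 𝔹 F C ξ0
  regT : ∃ v0 ξ0 : ℝ, 0 < v0 ∧ 0 < ξ0 ∧ ∀ R0 : ℕ, ∃ c C : ℝ, 0 < c ∧ LlRegT 𝔹 F c C v0 ξ0 R0
  adm : LlAdm 𝔹 F
  admEnd : LlAdmEnd 𝔹 F
  profId : LlProfId 𝔹 F
  gapB : LlGapB 𝔹 F
  equi : LlEqui 𝔹 F
  dirProf : LlDirProf 𝔹 F
  refd : ∃ C v1 : ℝ, 0 < v1 ∧ LlRefD 𝔹 F C v1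
  seed : LlSeed 𝔹 F
  hp : LlHp 𝔹 F
  k8 : LlK8 𝔹 F
  slope : LlSlope 𝔹 F
  prof : LlProfRaw 𝔹 F
  p4 : LlP4 𝔹 F
  p5 : LlP5 𝔹 F
  p8 : LlP8 𝔹 F
  p9 : LlP9 𝔹 F
  p10 : LlP10 𝔹 F
  p11 : LlP11 𝔹 F

/-- **EXIT of Section 3**: the cut-offs can be fixed (depending on `T` only), with `z_0`, `v_b` AS SMALL AS ONE LIKES (later sections have thresholds which depend on `T` only: helper83, helper281),
so that everything holds for ALL exponents in the explicit ranges `LlExpOk` -/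
def LlSec3Exit (𝔹 : LlBase) (T : ℝ) : Prop :=
  LlBaseProfile 𝔹 T ∧ ∀ ε : ℝ, 0 < ε → ∃ F0 : LlFix, F0.T = T ∧ F0.z0 ≤ ε ∧ F0.vb ≤ ε ∧
    ∀ sS eta pS : ℝ, LlExpOk sS eta pS → LlSec3 𝔹 { F0 with sS := sS, eta := eta, pS := pS }

end Claimed.Agent.R286

/-! ## 5. Sanity: the cut-offs exist -/

namespace Claimed.Agent.R286

open Set

/-- smooth step down: `1` on `(-∞,a]`, `0` on `[b,∞)` -/
noncomputable def llDown (a b : ℝ) (x : ℝ) : ℝ := 1 - Real.smoothTransition ((x - a) / (b - a))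

theorem llDown_contDiff (a b : ℝ) : ContDiff ℝ (⊤ : ℕ∞) (llDown a b) := by
  unfold llDown
  exact contDiff_const.sub (Real.smoothTransition.contDiff.comp ((contDiff_id.sub contDiff_const).div_const _))

theorem llDown_mem (a b x : ℝ) : llDown a b x ∈ Icc (0 : ℝ) 1 := by
  unfold llDown
  constructor
  · linarith [Real.smoothTransition.le_one ((x - a) / (b - a))]
  · linarith [Real.smoothTransition.nonneg ((x - a) / (b - a))]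

theorem llDown_one {a b x : ℝ} (hab : a < b) (hx : x ≤ a) : llDown a b x = 1 := by
  unfold llDown
  rw [Real.smoothTransition.zero_of_nonpos]; · simp
  exact div_nonpos_of_nonpos_of_nonneg (by linarith) (by linarith)

theorem llDown_zero {a b x : ℝ} (hab : a < b) (hx : b ≤ x) : llDown a b x = 0 := by
  unfold llDown
  rw [Real.smoothTransition.one_of_one_le]; · simp
  rw [le_div_iff₀ (by linarith)]; linarith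

/-- a concrete choice of the cut-off functions -/
noncomputable def llFixMk (T sS eta pS z0 vb c1 cb U0 : ℝ) : LlFix where
  T := T
  sS := sS
  eta := eta
  pS := pS
  z0 := z0
  P := fun ξ => ξ * llDown (z0 / 2) z0 ξ
  vb := vb
  G0 := fun w => Real.smoothTransition ((w - 1) / 7) * w ^ 2
  G1 := fun w => w ^ 2 * (1 - Real.smoothTransition (w - 1)) + 4 * Real.smoothTransition (w - 1)
  phi := fun w => Real.smoothTransition (2 * (w - 1 / 2)) * Real.smoothTransition ((4 - w) / 2)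
  c1 := c1
  cb := cb
  U0 := U0
  Ups := llDown (U0 / 2) U0

theorem llFixMk_ok {T sS eta pS z0 vb c1 cb U0 : ℝ} (hT : 1 < T) (hs0 : 0 < sS) (hs1 : sS < 1 / 2) (he : 0 < eta)
    (hp : 0 < pS) (hz : 0 < z0) (hv : 0 < vb) (h1 : 0 < c1) (hb : 0 < cb) (hU : 0 < U0) :
    (llFixMk T sS eta pS z0 vb c1 cb U0).Ok where
  T1 := hT
  sS0 := hs0
  sS1 := hs1
  eta0 := he
  pS0 := hp
  z00 := hz
  P_sm := contDiff_id.mul (llDown_contDiff _ _)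
  P_nn := by
    intro ξ hξ
    have := llDown_mem (z0 / 2) z0 ξ
    exact ⟨mul_nonneg hξ this.1, mul_le_of_le_one_right hξ this.2⟩
  P_lin := by
    intro ξ hξ
    have h2 : ξ ≤ z0 / 2 := hξ.2
    show ξ * llDown (z0 / 2) z0 ξ = ξ
    rw [llDown_one (by linarith) h2, mul_one]
  P_zero := by
    intro ξ hξ
    have h2 : z0 ≤ ξ := hξ
    show ξ * llDown (z0 / 2) z0 ξ = 0
    rw [llDown_zero (by linarith) h2, mul_zero]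
  vb0 := hv
  G0_sm := (Real.smoothTransition.contDiff.comp ((contDiff_id.sub contDiff_const).div_const _)).mul (contDiff_id.pow 2)
  G0_mono := by
    intro w w' hww
    show Real.smoothTransition ((w - 1) / 7) * w ^ 2 ≤ Real.smoothTransition ((w' - 1) / 7) * w' ^ 2
    rcases le_or_gt w 1 with h | h
    · rw [Real.smoothTransition.zero_of_nonpos (by linarith), zero_mul]
      exact mul_nonneg (Real.smoothTransition.nonneg _) (sq_nonneg _)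
    · exact mul_le_mul (Real.smoothTransition.monotone (by linarith)) (by nlinarith) (sq_nonneg _)
        (Real.smoothTransition.nonneg _)
  G0_zero := by
    intro w hw
    show Real.smoothTransition ((w - 1) / 7) * w ^ 2 = 0
    rw [Real.smoothTransition.zero_of_nonpos (by linarith), zero_mul]
  G0_sq := by
    intro w hw
    show Real.smoothTransition ((w - 1) / 7) * w ^ 2 = w ^ 2
    rw [Real.smoothTransition.one_of_one_le (by linarith), one_mul]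
  G1_sm := ((contDiff_id.pow 2).mul (contDiff_const.sub
      (Real.smoothTransition.contDiff.comp (contDiff_id.sub contDiff_const)))).add
      (contDiff_const.mul (Real.smoothTransition.contDiff.comp (contDiff_id.sub contDiff_const)))
  G1_mono := by
    intro w hw w' _ hww
    have hw0 : (0 : ℝ) ≤ w := hw
    show w ^ 2 * (1 - Real.smoothTransition (w - 1)) + 4 * Real.smoothTransition (w - 1)
      ≤ w' ^ 2 * (1 - Real.smoothTransition (w' - 1)) + 4 * Real.smoothTransition (w' - 1)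
    have hs : Real.smoothTransition (w - 1) ≤ Real.smoothTransition (w' - 1) :=
      Real.smoothTransition.monotone (by linarith)
    have h0 := Real.smoothTransition.nonneg (w - 1)
    have h1 := Real.smoothTransition.le_one (w - 1)
    have h1' := Real.smoothTransition.le_one (w' - 1)
    rcases le_or_gt 2 w' with h | h
    · rw [Real.smoothTransition.one_of_one_le (x := w' - 1) (by linarith)]
      rcases le_or_gt 2 w with h2 | h2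
      · rw [Real.smoothTransition.one_of_one_le (x := w - 1) (by linarith)]; linarith
      · have h4 : w ^ 2 ≤ 4 := by nlinarith
        nlinarith
    · have hsq : w ^ 2 ≤ w' ^ 2 := by nlinarith
      have h4 : w' ^ 2 ≤ 4 := by nlinarith
      nlinarith
  G1_sq := by
    intro w hw
    show w ^ 2 * (1 - Real.smoothTransition (w - 1)) + 4 * Real.smoothTransition (w - 1) = w ^ 2
    rw [Real.smoothTransition.zero_of_nonpos (by linarith [hw.2])]; ring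
  G1_const := by
    intro w hw
    show w ^ 2 * (1 - Real.smoothTransition (w - 1)) + 4 * Real.smoothTransition (w - 1)
      = 2 ^ 2 * (1 - Real.smoothTransition (2 - 1)) + 4 * Real.smoothTransition (2 - 1)
    rw [Real.smoothTransition.one_of_one_le (x := w - 1) (by linarith),
      Real.smoothTransition.one_of_one_le (x := (2 : ℝ) - 1) (by norm_num)]; ring
  phi_sm := (Real.smoothTransition.contDiff.comp (contDiff_const.mul (contDiff_id.sub contDiff_const))).mul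
      (Real.smoothTransition.contDiff.comp ((contDiff_const.sub contDiff_id).div_const _))
  phi_nn := fun w => mul_nonneg (Real.smoothTransition.nonneg _) (Real.smoothTransition.nonneg _)
  phi_supp := by
    intro w hw
    show Real.smoothTransition (2 * (w - 1 / 2)) * Real.smoothTransition ((4 - w) / 2) = 0
    rw [mem_Icc, not_and_or, not_le, not_le] at hw
    rcases hw with h | h
    · rw [Real.smoothTransition.zero_of_nonpos (by linarith), zero_mul]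
    · rw [Real.smoothTransition.zero_of_nonpos (x := (4 - w) / 2) (by linarith), mul_zero]
  phi_pos := by
    intro w hw
    exact mul_pos (Real.smoothTransition.pos_of_pos (by linarith [hw.1]))
      (Real.smoothTransition.pos_of_pos (by linarith [hw.2]))
  c10 := h1
  cb0 := hb
  U00 := hU
  Ups_sm := llDown_contDiff _ _
  Ups_rg := fun U => llDown_mem _ _ U
  Ups_one := fun U hU' => llDown_one (a := U0 / 2) (b := U0) (by linarith) hU'.2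
  Ups_zero := fun U hU' => llDown_zero (a := U0 / 2) (b := U0) (by linarith) hU'

end Claimed.Agent.R286

/-! ## 6. equation lemmas are generated HERE -/

namespace Claimed.Agent.R286

theorem ll_pathsDefs_eqns_cite : True := by
  have := @LlSlope.eq_1; have := @LlProfRaw.eq_1
  have := @LlBase.f.eq_1
  have := @LlBase.Sv.eq_1
  have := @LlBase.Bv.eq_1
  have := @LlBase.Dv2.eq_1
  have := @LlBase.fspin.eq_1
  have := @LlBase.psi.eq_1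
  have := @LlBase.kap.eq_1
  have := @LlBase.IsQuant.eq_1
  have := @LlBase.scObj.eq_1
  have := @LlBase.IsMinZ.eq_1
  have := @LlBase.zMin.eq_1
  have := @LlBase.A0.eq_1
  have := @LlBase.xiS.eq_1
  have := @LlBase.pTop.eq_1
  have := @LlBase.kapT.eq_1
  have := @llInv.eq_1
  have := @LlPt.x.eq_1
  have := @LlPt.om.eq_1
  have := @LlPt.M.eq_1
  have := @LlPt.U.eq_1
  have := @LlPt.lam1.eq_1
  have := @LlPt.a.eq_1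
  have := @LlPt.j.eq_1
  have := @LlPt.Adir.eq_1
  have := @LlPt.Asm.eq_1
  have := @LlPt.Aprof.eq_1
  have := @LlPt.xi.eq_1
  have := @LlPt.K.eq_1
  have := @LlPt.GamN.eq_1
  have := @LlPt.Gam.eq_1
  have := @LlPt.V.eq_1
  have := @LlPt.q.eq_1
  have := @LlPt.Gam1N.eq_1
  have := @LlPt.Gam1.eq_1
  have := @LlPt.b0.eq_1
  have := @LlPt.gap.eq_1
  have := @LlPt.gapN.eq_1
  have := @LlPt.G.eq_1
  have := @LlPt.IsDy.eq_1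
  have := @LlPt.dySum.eq_1
  have := @LlPt.b.eq_1
  have := @LlPt.cg.eq_1
  have := @LlPt.hS.eq_1
  have := @LlPt.Hlo.eq_1
  have := @LlPt.Hlin.eq_1
  have := @LlPt.Ut.eq_1
  have := @LlPt.dPl.eq_1
  have := @LlPt.Eb.eq_1
  have := @LlPt.dMi.eq_1
  have := @LlPt.HePl.eq_1
  have := @LlPt.He.eq_1
  have := @LlPt.h.eq_1
  have := @LlPt.d.eq_1
  have := @LlPt.f0.eq_1
  have := @LlPt.psi.eq_1
  have := @LlPt.kap.eq_1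
  have := @LlPt.S.eq_1
  have := @LlPt.B.eq_1
  have := @LlPt.Aerr.eq_1
  have := @LlPt.fRest.eq_1
  have := @LlPt.trialGap.eq_1
  have := @LlUnif.eq_1
  have := @LlSub.eq_1
  have := @LlPt.wLam.eq_1
  have := @LlPt.wLm.eq_1
  have := @LlPt.wChi.eq_1
  have := @LlRef.eq_1
  have := @LlRegL.eq_1
  have := @LlRegT.eq_1
  have := @LlRefExit.eq_1
  have := @LlRegPsi.eq_1
  have := @LlPt.wTh.eq_1
  have := @LlPt.wG0.eq_1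
  have := @LlPt.wGu.eq_1
  have := @LlAdm.eq_1
  have := @LlAdmEnd.eq_1
  have := @LlProfId.eq_1
  have := @LlGapB.eq_1
  have := @LlEqui.eq_1
  have := @LlDirProf.eq_1
  have := @LlRefD.eq_1
  have := @LlSeed.eq_1
  have := @LlP4.eq_1
  have := @LlP5.eq_1
  have := @LlP8.eq_1
  have := @LlP9.eq_1
  have := @LlP10.eq_1
  have := @LlP11.eq_1
  have := @LlHp.eq_1
  have := @LlSec3Exit.eq_1
  have := @llDown.eq_1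
  have := @llFixMk.eq_1
  trivial

end Claimed.Agent.R286
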