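import Claimed.Agent.R286.LL.PathsClkA
import Claimed.Agent.R286.LL.PathsDefs

/-!
# Row 286 (S0533), LL Section 3, block CLK (head helper253), file F: DOTTED CLOCKS IN DIFFERENCE FORM      (architect helper23; prefix `lcf_`, `Lcf`)

LL 03-paths.tex l.469-490 (paragraphs "Strength derivatives", "Size derivatives").   TEX[LL:paths:parameter-regularity]#369-522.   SPEC: origin/helper253:notes/R286/LL03_CLK_F_253.md.
FORM: NO derivative.   Two points of the same segment, bounds on DIFFERENCES `|X'(v) - X(v)| ≤ δ * bound(v)`.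
* Part 1 (abstract, on `Lck` of file A): `lcf_bx_diff` (F1), `lcf_b_diff` (F2), `lcf_hS_diff_small` (F3), `lcf_hS_diff` (F4), `lcf_hS_small_O` (F3 in the form `O(δ λ (v³ + v U²))`).
* Part 2 (elementary functions of the strength): `lcf_lam_diff`, `lcf_U_le`, `lcf_U_sq_diff`, `lcf_lamU_diff`, `lcf_Hlo_str`.
* Part 3 (`LlPt`): the adapter `lcfLck`, strength sweep `lcf_str_*` (S1-S4), multiplier sweeps `lcf_chi*`, size segment `lcf_siz_*` (Z1-Z4).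
-/

set_option autoImplicit false

namespace Claimed.Agent.R286

open MeasureTheory Set

/-! ## Part 1: two abstract data of the same segment -/

/-- `b - b_∘` -/
def Lck.bx (D : Lck) (v : ℝ) : ℝ := D.b v - D.b0

/-- two data of the same segment: the same `a, cb, c1, g0, G, Dy` -/
structure LcfPair (D D' : Lck) : Prop where
  a : D'.a = D.a
  cb : D'.cb = D.cb
  c1 : D'.c1 = D.c1
  g0 : D'.g0 = D.g0
  G : D'.G = D.G
  Dy : D'.Dy = D.Dy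

variable {D D' : Lck} {κ : LckC}

/-- the bound of F1 -/
noncomputable def lcfF1 (D D' : Lck) (v : ℝ) : ℝ :=
  3 / 2 * D.cb * (|D'.lam - D.lam| * (D.G v + D'.U ^ 2) + D.lam * |D'.U ^ 2 - D.U ^ 2|)

/-- `|b - b_∘| ≤ (3/2) cb λ (G + U²)` -/
theorem lcf_bx_abs (h : D.Ok κ) (hs : D.Small κ) (v : ℝ) (hv : 0 ≤ v) :
    |D.bx v| ≤ 3 / 2 * D.cb * D.lam * (D.G v + D.U ^ 2) := by
  obtain ⟨r1, r2⟩ := lck_b_range h hs v hv
  have hG := lck_G_nn h v hv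
  have hcl : 0 < D.cb * D.lam := mul_pos hs.cb0 h.lam0
  have hU : 0 ≤ D.U ^ 2 := sq_nonneg _
  simp only [Lck.bx]
  rw [abs_le]
  constructor <;> nlinarith [mul_nonneg hcl.le hG, mul_nonneg hcl.le hU]

/-- **F1** -/
theorem lcf_bx_diff (h : D.Ok κ) (h' : D'.Ok κ) (hs : D.Small κ) (hp : LcfPair D D') (v : ℝ) (hv : 0 ≤ v) :
    |D'.bx v - D.bx v| ≤ lcfF1 D D' v := by
  have hG := lck_G_nn h v hv
  have hDy := h.Dy_incr 0 v le_rfl hv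
  rw [h.Dy_zero, h.G_zero, sub_zero, sub_zero] at hDy
  obtain ⟨hg1, hg2⟩ := h.g0
  have hc1 := hs.c10
  have hc1s := hs.c1s
  have hCD := h.CD0
  have hU' : 0 ≤ D'.U ^ 2 := sq_nonneg _
  have hg : |D.c1 * D.g0| ≤ 4 * D.c1 := by
    rw [abs_mul, abs_of_pos hc1, mul_comm]
    exact mul_le_mul_of_nonneg_right (abs_le.2 ⟨hg1, hg2⟩) hc1.le
  have h4 : 4 * D.c1 ≤ 1 / 2 := by nlinarith
  set A' : ℝ := D.G v - D'.U ^ 2 - D.c1 * D.g0 * (D.G v + D'.U ^ 2) - D.c1 * D.Dy v with hA'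
  have e : D'.bx v - D.bx v
      = D.cb * ((D'.lam - D.lam) * A' + D.lam * (-(D'.U ^ 2 - D.U ^ 2) * (1 + D.c1 * D.g0))) := by
    simp only [Lck.bx, Lck.b, hp.cb, hp.c1, hp.g0, hp.G, hp.Dy, hA']
    ring
  have hAb : |A'| ≤ 3 / 2 * (D.G v + D'.U ^ 2) := by
    have t1 : |D.c1 * D.g0 * (D.G v + D'.U ^ 2)| ≤ 4 * D.c1 * (D.G v + D'.U ^ 2) := by
      rw [abs_mul, abs_of_nonneg (add_nonneg hG hU')]
      exact mul_le_mul_of_nonneg_right hg (add_nonneg hG hU')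
    have t2 : |D.c1 * D.Dy v| ≤ D.c1 * (κ.CD * D.G v) := by
      rw [abs_mul, abs_of_pos hc1]
      exact mul_le_mul_of_nonneg_left hDy hc1.le
    have t3 : D.c1 * (4 + κ.CD) * (D.G v + D'.U ^ 2) ≤ 1 / 2 * (D.G v + D'.U ^ 2) :=
      mul_le_mul_of_nonneg_right hc1s (add_nonneg hG hU')
    have t4 : 0 ≤ D.c1 * κ.CD * D'.U ^ 2 := by positivity
    rw [abs_le] at t1 t2 ⊢
    constructor <;> nlinarith [t1.1, t1.2, t2.1, t2.2]
  have hBb : |1 + D.c1 * D.g0| ≤ 3 / 2 := by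
    rw [abs_le] at hg ⊢
    constructor <;> linarith [hg.1, hg.2]
  rw [e, abs_mul, abs_of_pos hs.cb0, lcfF1]
  have s1 : |(D'.lam - D.lam) * A'| ≤ |D'.lam - D.lam| * (3 / 2 * (D.G v + D'.U ^ 2)) := by
    rw [abs_mul]; exact mul_le_mul_of_nonneg_left hAb (abs_nonneg _)
  have s2 : |D.lam * (-(D'.U ^ 2 - D.U ^ 2) * (1 + D.c1 * D.g0))| ≤ D.lam * (|D'.U ^ 2 - D.U ^ 2| * (3 / 2)) := by
    rw [abs_mul, abs_of_pos h.lam0, abs_mul, abs_neg]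
    exact mul_le_mul_of_nonneg_left (mul_le_mul_of_nonneg_left hBb (abs_nonneg _)) h.lam0.le
  have s3 := (abs_add_le ((D'.lam - D.lam) * A') (D.lam * (-(D'.U ^ 2 - D.U ^ 2) * (1 + D.c1 * D.g0)))).trans (add_le_add s1 s2)
  calc D.cb * |(D'.lam - D.lam) * A' + D.lam * (-(D'.U ^ 2 - D.U ^ 2) * (1 + D.c1 * D.g0))|
      ≤ D.cb * (|D'.lam - D.lam| * (3 / 2 * (D.G v + D'.U ^ 2)) + D.lam * (|D'.U ^ 2 - D.U ^ 2| * (3 / 2))) :=
        mul_le_mul_of_nonneg_left s3 hs.cb0.le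
    _ = 3 / 2 * D.cb * (|D'.lam - D.lam| * (D.G v + D'.U ^ 2) + D.lam * |D'.U ^ 2 - D.U ^ 2|) := by ring

/-- **F2** -/
theorem lcf_b_diff (h : D.Ok κ) (h' : D'.Ok κ) (hs : D.Small κ) (hp : LcfPair D D') (v : ℝ) (hv : 0 ≤ v) :
    |D'.b v - D.b v| ≤ |D'.b0 - D.b0| + lcfF1 D D' v := by
  have e : D'.b v - D.b v = (D'.b0 - D.b0) + (D'.bx v - D.bx v) := by simp only [Lck.bx]; ring
  rw [e]
  exact (abs_add_le _ _).trans (add_le_add le_rfl (lcf_bx_diff h h' hs hp v hv))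

/-- `h_*(v) = ∫_0^{K v} (gap - (b - b_∘) Γ')` -/
theorem lcf_hS_int (h : D.Ok κ) (v : ℝ) (hv : v ∈ Ioo 0 D.a) :
    D.hS v = ∫ t in (0 : ℝ)..D.K v, (D.gap t - D.bx v * D.gp t) := by
  have hK := lck_K_nn h v hv
  have hgpI : IntervalIntegrable D.gp volume 0 (D.K v) :=
    (h.gp_cont.mono (fun t ht => ht.1)).intervalIntegrable_of_Icc hK
  have hq : D.q v = ∫ s in (0 : ℝ)..D.K v, D.gp s := by
    have := h.gam_ftc 0 (D.K v) le_rfl hK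
    rw [h.gam_zero, sub_zero] at this
    exact this
  have e : (fun t => D.gap t - D.bx v * D.gp t) = fun t => 1 - D.b v * D.gp t := by
    funext t; simp only [Lck.gap, Lck.bx]; ring
  rw [e, intervalIntegral.integral_sub intervalIntegrable_const (hgpI.const_mul _),
    intervalIntegral.integral_const_mul, ← hq]
  simp [Lck.hS]

/-- **F3** (small mass).   `eg`, `ep`: differences of the scalar gap (RELATIVE to its value at zero: factor `t²`) and of `Γ'`. -/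
theorem lcf_hS_diff_small (h : D.Ok κ) (h' : D'.Ok κ) (hs : D.Small κ) (hs' : D'.Small κ) (hp : LcfPair D D')
    (eg ep : ℝ) (v : ℝ) (hv : 0 < v) (hv0 : v ≤ κ.v0) (hKK : D.K v ≤ D'.K κ.v0)
    (hgap : ∀ t, 0 ≤ t → t ≤ D.K v → |D'.gap t - D.gap t| ≤ eg * t ^ 2)
    (hgp : ∀ t, 0 ≤ t → t ≤ D.K v → |D'.gp t - D.gp t| ≤ ep) :
    |D'.hS v - D.hS v| ≤
      |D'.K v - D.K v| * (κ.C * D'.lam * (max (D.K v) (D'.K v)) ^ 2 + 3 / 2 * D.cb * D'.lam * (D.G v + D'.U ^ 2) / κ.c)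
      + D.K v * (eg * (D.K v) ^ 2 + lcfF1 D D' v / κ.c + 3 / 2 * D.cb * D.lam * (D.G v + D.U ^ 2) * ep) := by
  have hva : v ∈ Ioo 0 D.a := ⟨hv, by linarith [h.v01, h.a1]⟩
  have hva' : v ∈ Ioo 0 D'.a := ⟨hv, by linarith [h'.v01, h'.a1]⟩
  have hK0 : 0 < D.K v := lt_of_lt_of_le (mul_pos h.c0 hv) (h.K_lo0 v hv hv0)
  have hK0' : 0 < D'.K v := lt_of_lt_of_le (mul_pos h'.c0 hv) (h'.K_lo0 v hv hv0)
  have hKv0 : D'.K v ≤ D'.K κ.v0 := h'.K_mono hva' (lck_v0_mem h') hv0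
  have hc0 := h.c0
  have heg : 0 ≤ eg := by
    have h1 := (abs_nonneg _).trans (hgap (D.K v) hK0.le le_rfl)
    exact (mul_nonneg_iff_of_pos_right (pow_pos hK0 2)).1 h1
  have hbx := lcf_bx_abs h hs v hv.le
  have hbx' := lcf_bx_abs h' hs' v hv.le
  rw [hp.cb, hp.G] at hbx'
  have hF1 := lcf_bx_diff h h' hs hp v hv.le
  have hcf' : ContinuousOn (fun t => D'.gap t - D'.bx v * D'.gp t) (Ici 0) := by
    simp only [Lck.gap]
    exact (continuousOn_const.sub (continuousOn_const.mul h'.gp_cont)).sub (continuousOn_const.mul h'.gp_cont)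
  have hcf : ContinuousOn (fun t => D.gap t - D.bx v * D.gp t) (Ici 0) := by
    simp only [Lck.gap]
    exact (continuousOn_const.sub (continuousOn_const.mul h.gp_cont)).sub (continuousOn_const.mul h.gp_cont)
  have hsubI : ∀ a b : ℝ, 0 ≤ a → 0 ≤ b → uIcc a b ⊆ Ici (0 : ℝ) := fun a b ha hb t ht =>
    (le_min ha hb).trans ht.1
  have hI' : ∀ a b : ℝ, 0 ≤ a → 0 ≤ b → IntervalIntegrable (fun t => D'.gap t - D'.bx v * D'.gp t) volume a b :=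
    fun a b ha hb => (hcf'.mono (hsubI a b ha hb)).intervalIntegrable
  have hI : ∀ a b : ℝ, 0 ≤ a → 0 ≤ b → IntervalIntegrable (fun t => D.gap t - D.bx v * D.gp t) volume a b :=
    fun a b ha hb => (hcf.mono (hsubI a b ha hb)).intervalIntegrable
  rw [lcf_hS_int h' v hva', lcf_hS_int h v hva]
  have split : (∫ t in (0 : ℝ)..D'.K v, (D'.gap t - D'.bx v * D'.gp t)) - ∫ t in (0 : ℝ)..D.K v, (D.gap t - D.bx v * D.gp t)
      = (∫ t in D.K v..D'.K v, (D'.gap t - D'.bx v * D'.gp t))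
        + ∫ t in (0 : ℝ)..D.K v, ((D'.gap t - D'.bx v * D'.gp t) - (D.gap t - D.bx v * D.gp t)) := by
    rw [intervalIntegral.integral_sub (hI' 0 _ le_rfl hK0.le) (hI 0 _ le_rfl hK0.le),
      ← intervalIntegral.integral_add_adjacent_intervals (hI' 0 _ le_rfl hK0.le) (hI' _ _ hK0.le hK0'.le)]
    ring
  rw [split]
  have b1 : |∫ t in D.K v..D'.K v, (D'.gap t - D'.bx v * D'.gp t)|
      ≤ (κ.C * D'.lam * (max (D.K v) (D'.K v)) ^ 2 + 3 / 2 * D.cb * D'.lam * (D.G v + D'.U ^ 2) / κ.c) * |D'.K v - D.K v| := by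
    rw [← Real.norm_eq_abs]
    apply intervalIntegral.norm_integral_le_of_norm_le_const
    intro t ht
    rw [uIoc, mem_Ioc] at ht
    have ht0 : 0 ≤ t := (le_min hK0.le hK0'.le).trans ht.1.le
    have htv : t ≤ D'.K κ.v0 := ht.2.trans (max_le hKK hKv0)
    have g1 := lck_gap_nn h' t ht0
    have g2 := h'.gap_hi t ht0 htv
    have g3 : t ^ 2 ≤ (max (D.K v) (D'.K v)) ^ 2 := pow_le_pow_left₀ ht0 ht.2 2
    have g4 : κ.C * D'.lam * t ^ 2 ≤ κ.C * D'.lam * (max (D.K v) (D'.K v)) ^ 2 :=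
      mul_le_mul_of_nonneg_left g3 (mul_nonneg (by linarith [h.C1]) h'.lam0.le)
    have g5 := h'.gp_nn t ht0
    have g6 := lck_gp_le' h' t ht0
    have g7 : |D'.bx v * D'.gp t| ≤ 3 / 2 * D.cb * D'.lam * (D.G v + D'.U ^ 2) * (1 / κ.c) := by
      rw [abs_mul, abs_of_nonneg g5]
      exact mul_le_mul hbx' g6 g5 ((abs_nonneg _).trans hbx')
    rw [Real.norm_eq_abs]
    calc |D'.gap t - D'.bx v * D'.gp t| ≤ |D'.gap t| + |D'.bx v * D'.gp t| := abs_sub _ _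
      _ ≤ κ.C * D'.lam * (max (D.K v) (D'.K v)) ^ 2 + 3 / 2 * D.cb * D'.lam * (D.G v + D'.U ^ 2) * (1 / κ.c) := by
          rw [abs_of_nonneg g1]; exact add_le_add (g2.trans g4) g7
      _ = _ := by ring
  have b2 : |∫ t in (0 : ℝ)..D.K v, ((D'.gap t - D'.bx v * D'.gp t) - (D.gap t - D.bx v * D.gp t))|
      ≤ (eg * (D.K v) ^ 2 + lcfF1 D D' v / κ.c + 3 / 2 * D.cb * D.lam * (D.G v + D.U ^ 2) * ep) * |D.K v - 0| := by
    rw [← Real.norm_eq_abs]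
    apply intervalIntegral.norm_integral_le_of_norm_le_const
    intro t ht
    rw [uIoc_of_le hK0.le, mem_Ioc] at ht
    have ht0 : 0 ≤ t := ht.1.le
    have g1 := hgap t ht0 ht.2
    have g2 := hgp t ht0 ht.2
    have g3 : eg * t ^ 2 ≤ eg * (D.K v) ^ 2 := mul_le_mul_of_nonneg_left (pow_le_pow_left₀ ht0 ht.2 2) heg
    have g5 := h'.gp_nn t ht0
    have g6 := lck_gp_le' h' t ht0
    have g7 : |(D'.bx v - D.bx v) * D'.gp t| ≤ lcfF1 D D' v * (1 / κ.c) := by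
      rw [abs_mul, abs_of_nonneg g5]
      exact mul_le_mul hF1 g6 g5 ((abs_nonneg _).trans hF1)
    have g8 : |D.bx v * (D'.gp t - D.gp t)| ≤ 3 / 2 * D.cb * D.lam * (D.G v + D.U ^ 2) * ep := by
      rw [abs_mul]
      exact mul_le_mul hbx g2 (abs_nonneg _) ((abs_nonneg _).trans hbx)
    have e : (D'.gap t - D'.bx v * D'.gp t) - (D.gap t - D.bx v * D.gp t)
        = (D'.gap t - D.gap t) + (-((D'.bx v - D.bx v) * D'.gp t)) + (-(D.bx v * (D'.gp t - D.gp t))) := by ring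
    rw [Real.norm_eq_abs, e]
    calc _ ≤ |D'.gap t - D.gap t| + |-((D'.bx v - D.bx v) * D'.gp t)| + |-(D.bx v * (D'.gp t - D.gp t))| := abs_add_three _ _ _
      _ ≤ eg * (D.K v) ^ 2 + lcfF1 D D' v * (1 / κ.c) + 3 / 2 * D.cb * D.lam * (D.G v + D.U ^ 2) * ep := by
          rw [abs_neg, abs_neg]; exact add_le_add (add_le_add (g1.trans g3) g7) g8
      _ = _ := by ring
  rw [sub_zero, abs_of_pos hK0] at b2
  calc _ ≤ _ := abs_add_le _ _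
    _ ≤ _ := add_le_add b1 b2
    _ = _ := by ring

/-- **F4** (all masses) -/
theorem lcf_hS_diff (D D' : Lck) (v : ℝ) :
    |D'.hS v - D.hS v| ≤ |D'.K v - D.K v| + |D'.b v - D.b v| * |D'.q v| + |D.b v| * |D'.q v - D.q v| := by
  have e : D'.hS v - D.hS v = (D'.K v - D.K v) + (-((D'.b v - D.b v) * D'.q v)) + (-(D.b v * (D'.q v - D.q v))) := by
    simp only [Lck.hS]; ring
  rw [e]
  refine (abs_add_le _ _).trans (add_le_add ((abs_add_le _ _).trans (add_le_add le_rfl ?_)) ?_)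
  · rw [abs_neg, abs_mul]
  · rw [abs_neg, abs_mul]

/-- the constant of `lcf_hS_small_O` -/
noncomputable def lcfC3 (κ : LckC) (A : ℝ) : ℝ := 8 * A * κ.C ^ 3 * κ.CG / κ.c

theorem lcf_hS_small_O_arith {c C CG v W : ℝ} (hc0 : 0 < c) (hc1 : c ≤ 1) (hC1 : 1 ≤ C) (hCG1 : 1 ≤ CG) (hv : 0 < v) (hW0 : 0 < W) :
    (C ^ 3 * v ^ 2 + (CG * v ^ 2 + W ^ 2) / 2176)
      + C * (C ^ 2 * v ^ 2 + (CG * v ^ 2 + 2 * W ^ 2) / 2176 + (CG * v ^ 2 + W ^ 2) / 2176)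
      ≤ 8 * (C ^ 3 * CG / c) * (v ^ 2 + W ^ 2) := by
  have hv2 : 0 < v ^ 2 := pow_pos hv 2
  have hW2 : 0 < W ^ 2 := pow_pos hW0 2
  have hC0 : 0 < C := by linarith
  have hC3 : 1 ≤ C ^ 3 := one_le_pow₀ hC1
  obtain ⟨Q, hQ⟩ : ∃ Q, Q = C ^ 3 * CG := ⟨_, rfl⟩
  rw [← hQ]
  have q1 : C ^ 3 ≤ Q := by rw [hQ]; exact le_mul_of_one_le_right (by positivity) hCG1
  have q2 : CG ≤ Q := by rw [hQ]; exact le_mul_of_one_le_left (by linarith) hC3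
  have hCC : C ≤ C ^ 3 := le_self_pow₀ hC1 (by norm_num)
  have q3 : C * CG ≤ Q := by rw [hQ]; exact mul_le_mul_of_nonneg_right hCC (by linarith)
  have q4 : C ≤ Q := hCC.trans q1
  have q5 : 1 ≤ Q := hC3.trans q1
  have hQc : Q ≤ Q / c := le_div_self (by linarith) hc0 hc1
  have e1 : C ^ 3 * v ^ 2 ≤ Q * v ^ 2 := mul_le_mul_of_nonneg_right q1 hv2.le
  have e2 : CG * v ^ 2 ≤ Q * v ^ 2 := mul_le_mul_of_nonneg_right q2 hv2.le
  have e3 : W ^ 2 ≤ Q * W ^ 2 := le_mul_of_one_le_left hW2.le q5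
  have e4 : C * CG * v ^ 2 ≤ Q * v ^ 2 := mul_le_mul_of_nonneg_right q3 hv2.le
  have e5 : C * W ^ 2 ≤ Q * W ^ 2 := mul_le_mul_of_nonneg_right q4 hW2.le
  have e6 : Q * (v ^ 2 + W ^ 2) ≤ Q / c * (v ^ 2 + W ^ 2) := mul_le_mul_of_nonneg_right hQc (by positivity)
  have e7 : 0 ≤ Q * v ^ 2 := by positivity
  have e8 : 0 ≤ Q * W ^ 2 := by positivity
  linarith

/-- **F3, order form**: if all the inputs are `≤ A μ δ` (`μ ≥ λ, λ'` the reference strength, `W ≥ U, U'` the reference offset), then `|Δ h_*| ≤ C δ μ (v³ + v W²)`.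
Strength sweep: `μ = λ'`, `W = U` (at the smaller strength).   Size segment: `μ = λ`, `W = U`.   NOTE `hK`, `hgp` carry NO factor `μ` (the bracket multiplying them is already `O(μ (v² + W²))`).
Proof: `lcf_hS_diff_small`, `K v, K' v ≤ C v` (`K_hi0`), `G v ≤ CG v²`, `cb ≤ c / 3264` (`lck_cb_le`); the sum is `≤ 4 A C³ CG δ μ (v³ + v W²)`. -/
theorem lcf_hS_small_O (h : D.Ok κ) (h' : D'.Ok κ) (hs : D.Small κ) (hs' : D'.Small κ) (hp : LcfPair D D')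
    (A μ W δ : ℝ) (hA : 1 ≤ A) (hδ : 0 ≤ δ) (hμ1 : μ ≤ 1) (hlam : D.lam ≤ μ) (hlam' : D'.lam ≤ μ) (hU : D.U ≤ W) (hU' : D'.U ≤ W)
    (v : ℝ) (hv : 0 < v) (hv0 : v ≤ κ.v0) (hKK : D.K v ≤ D'.K κ.v0)
    (hK : |D'.K v - D.K v| ≤ A * v * δ)
    (hgap : ∀ t, 0 ≤ t → t ≤ D.K v → |D'.gap t - D.gap t| ≤ A * μ * δ * t ^ 2)
    (hgp : ∀ t, 0 ≤ t → t ≤ D.K v → |D'.gp t - D.gp t| ≤ A * δ)
    (hl : |D'.lam - D.lam| ≤ A * μ * δ) (hUU : D.lam * |D'.U ^ 2 - D.U ^ 2| ≤ A * μ * W ^ 2 * δ) :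
    |D'.hS v - D.hS v| ≤ lcfC3 κ A * δ * μ * (v ^ 3 + v * W ^ 2) := by
  have hF3 := lcf_hS_diff_small h h' hs hs' hp (A * μ * δ) (A * δ) v hv hv0 hKK hgap hgp
  refine hF3.trans ?_
  have hc0 := h.c0
  have hc1 := h.c1
  have hC1 := h.C1
  have hCG1 := h.CG1
  have hA0 : 0 < A := by linarith
  have hμ0 : 0 < μ := h.lam0.trans_le hlam
  have hW0 : 0 < W := h.U0.trans_le hU
  have hG0 := lck_G_nn h v hv.le
  have hG := h.G_le v hv.le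
  have hK0 : 0 < D.K v := lt_of_lt_of_le (mul_pos h.c0 hv) (h.K_lo0 v hv hv0)
  have hK0' : 0 < D'.K v := lt_of_lt_of_le (mul_pos h'.c0 hv) (h'.K_lo0 v hv hv0)
  have hKh := h.K_hi0 v hv hv0
  have hKh' := h'.K_hi0 v hv hv0
  have hcb := lck_cb_le h hs
  have hcb0 := hs.cb0
  have hU2 : D.U ^ 2 ≤ W ^ 2 := pow_le_pow_left₀ h.U0.le hU 2
  have hU2' : D'.U ^ 2 ≤ W ^ 2 := pow_le_pow_left₀ h'.U0.le hU' 2
  have hv2 : 0 < v ^ 2 := pow_pos hv 2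
  have hW2 : 0 < W ^ 2 := pow_pos hW0 2
  have hCv : 0 < κ.C * v := mul_pos (by linarith) hv
  -- `3/2 cb / c ≤ 1/2176`
  have hr : 3 / 2 * D.cb / κ.c ≤ 1 / 2176 := by
    rw [div_le_iff₀ hc0]; linarith
  have hr' : 3 / 2 * D.cb ≤ 1 / 2176 := by linarith
  have hGW : D.G v + D'.U ^ 2 ≤ κ.CG * v ^ 2 + W ^ 2 := add_le_add hG hU2'
  have hGW0 : D.G v + D.U ^ 2 ≤ κ.CG * v ^ 2 + W ^ 2 := add_le_add hG hU2
  have hGWn : 0 ≤ D.G v + D'.U ^ 2 := add_nonneg hG0 (sq_nonneg _)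
  have hGWn0 : 0 ≤ D.G v + D.U ^ 2 := add_nonneg hG0 (sq_nonneg _)
  have hR0 : 0 < κ.CG * v ^ 2 + W ^ 2 := by positivity
  have hmax : (max (D.K v) (D'.K v)) ^ 2 ≤ (κ.C * v) ^ 2 :=
    pow_le_pow_left₀ (hK0.le.trans (le_max_left _ _)) (max_le hKh hKh') 2
  -- first bracket
  have B1 : κ.C * D'.lam * (max (D.K v) (D'.K v)) ^ 2 + 3 / 2 * D.cb * D'.lam * (D.G v + D'.U ^ 2) / κ.c
      ≤ μ * (κ.C ^ 3 * v ^ 2 + (κ.CG * v ^ 2 + W ^ 2) / 2176) := by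
    have t1 : κ.C * D'.lam * (max (D.K v) (D'.K v)) ^ 2 ≤ κ.C * μ * (κ.C * v) ^ 2 :=
      mul_le_mul (mul_le_mul_of_nonneg_left hlam' (by linarith)) hmax (sq_nonneg _) (by positivity)
    have t2 : 3 / 2 * D.cb * D'.lam * (D.G v + D'.U ^ 2) / κ.c ≤ 1 / 2176 * (μ * (κ.CG * v ^ 2 + W ^ 2)) := by
      have e : 3 / 2 * D.cb * D'.lam * (D.G v + D'.U ^ 2) / κ.c = (3 / 2 * D.cb / κ.c) * (D'.lam * (D.G v + D'.U ^ 2)) := by ring
      rw [e]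
      exact mul_le_mul hr (mul_le_mul hlam' hGW hGWn hμ0.le) (mul_nonneg h'.lam0.le hGWn) (by norm_num)
    calc _ ≤ κ.C * μ * (κ.C * v) ^ 2 + 1 / 2176 * (μ * (κ.CG * v ^ 2 + W ^ 2)) := add_le_add t1 t2
      _ = _ := by ring
  have hF1 : lcfF1 D D' v / κ.c ≤ A * μ * δ * ((κ.CG * v ^ 2 + 2 * W ^ 2) / 2176) := by
    have t1 : |D'.lam - D.lam| * (D.G v + D'.U ^ 2) ≤ A * μ * δ * (κ.CG * v ^ 2 + W ^ 2) :=
      mul_le_mul hl hGW hGWn (by positivity)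
    have e : lcfF1 D D' v / κ.c
        = (3 / 2 * D.cb / κ.c) * (|D'.lam - D.lam| * (D.G v + D'.U ^ 2) + D.lam * |D'.U ^ 2 - D.U ^ 2|) := by
      simp only [lcfF1]; ring
    rw [e]
    calc _ ≤ 1 / 2176 * (A * μ * δ * (κ.CG * v ^ 2 + W ^ 2) + A * μ * W ^ 2 * δ) :=
          mul_le_mul hr (add_le_add t1 hUU)
            (add_nonneg (mul_nonneg (abs_nonneg _) hGWn) (mul_nonneg h.lam0.le (abs_nonneg _))) (by norm_num)
      _ = _ := by ring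
  have B2 : A * μ * δ * (D.K v) ^ 2 + lcfF1 D D' v / κ.c + 3 / 2 * D.cb * D.lam * (D.G v + D.U ^ 2) * (A * δ)
      ≤ A * μ * δ * (κ.C ^ 2 * v ^ 2 + (κ.CG * v ^ 2 + 2 * W ^ 2) / 2176 + (κ.CG * v ^ 2 + W ^ 2) / 2176) := by
    have t1 : A * μ * δ * (D.K v) ^ 2 ≤ A * μ * δ * (κ.C * v) ^ 2 :=
      mul_le_mul_of_nonneg_left (pow_le_pow_left₀ hK0.le hKh 2) (by positivity)
    have t3 : 3 / 2 * D.cb * D.lam * (D.G v + D.U ^ 2) * (A * δ) ≤ 1 / 2176 * μ * (κ.CG * v ^ 2 + W ^ 2) * (A * δ) := by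
      apply mul_le_mul_of_nonneg_right _ (by positivity)
      exact mul_le_mul (mul_le_mul hr' hlam h.lam0.le (by norm_num)) hGW0 hGWn0 (by positivity)
    calc _ ≤ A * μ * δ * (κ.C * v) ^ 2 + A * μ * δ * ((κ.CG * v ^ 2 + 2 * W ^ 2) / 2176)
          + 1 / 2176 * μ * (κ.CG * v ^ 2 + W ^ 2) * (A * δ) := add_le_add (add_le_add t1 hF1) t3
      _ = _ := by ring
  have hB1n : 0 ≤ μ * (κ.C ^ 3 * v ^ 2 + (κ.CG * v ^ 2 + W ^ 2) / 2176) := by positivity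
  have hB2n : 0 ≤ A * μ * δ * (κ.C ^ 2 * v ^ 2 + (κ.CG * v ^ 2 + 2 * W ^ 2) / 2176 + (κ.CG * v ^ 2 + W ^ 2) / 2176) := by positivity
  have T1 := mul_le_mul hK B1 (by
    have : 0 ≤ κ.C * D'.lam * (max (D.K v) (D'.K v)) ^ 2 := mul_nonneg (mul_nonneg (by linarith) h'.lam0.le) (sq_nonneg _)
    have : 0 ≤ 3 / 2 * D.cb * D'.lam * (D.G v + D'.U ^ 2) / κ.c :=
      div_nonneg (mul_nonneg (mul_nonneg (by positivity) h'.lam0.le) hGWn) hc0.le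
    linarith) (by positivity)
  have T2 := mul_le_mul hKh B2 (by
    have t1 : 0 ≤ A * μ * δ * (D.K v) ^ 2 := by positivity
    have t2 : 0 ≤ lcfF1 D D' v / κ.c := by
      apply div_nonneg _ hc0.le
      simp only [lcfF1]
      exact mul_nonneg (by positivity) (add_nonneg (mul_nonneg (abs_nonneg _) hGWn) (mul_nonneg h.lam0.le (abs_nonneg _)))
    have t3 : 0 ≤ 3 / 2 * D.cb * D.lam * (D.G v + D.U ^ 2) * (A * δ) :=
      mul_nonneg (mul_nonneg (mul_nonneg (by positivity) h.lam0.le) hGWn0) (by positivity)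
    linarith) hCv.le
  refine (add_le_add T1 T2).trans ?_
  have key := lcf_hS_small_O_arith hc0 hc1 hC1 hCG1 hv hW0
  have hAn : 0 ≤ A * δ * μ * v := by positivity
  have fin := mul_le_mul_of_nonneg_left key hAn
  have eL : A * v * δ * (μ * (κ.C ^ 3 * v ^ 2 + (κ.CG * v ^ 2 + W ^ 2) / 2176))
      + κ.C * v * (A * μ * δ * (κ.C ^ 2 * v ^ 2 + (κ.CG * v ^ 2 + 2 * W ^ 2) / 2176 + (κ.CG * v ^ 2 + W ^ 2) / 2176))
      = A * δ * μ * v * ((κ.C ^ 3 * v ^ 2 + (κ.CG * v ^ 2 + W ^ 2) / 2176)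
      + κ.C * (κ.C ^ 2 * v ^ 2 + (κ.CG * v ^ 2 + 2 * W ^ 2) / 2176 + (κ.CG * v ^ 2 + W ^ 2) / 2176)) := by ring
  have eR : lcfC3 κ A * δ * μ * (v ^ 3 + v * W ^ 2) = A * δ * μ * v * (8 * (κ.C ^ 3 * κ.CG / κ.c) * (v ^ 2 + W ^ 2)) := by
    simp only [lcfC3]; ring
  rw [eL, eR]
  exact fin

/-! ## Part 2: elementary functions of the strength -/

/-- `λ' - λ ≤ λ' log (λ'/λ)` -/
theorem lcf_lam_diff (lam lam' : ℝ) (h0 : 0 < lam) (h1 : lam ≤ lam') : lam' - lam ≤ lam' * Real.log (lam' / lam) := by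
  have h0' : 0 < lam' := h0.trans_le h1
  have h2 := Real.one_sub_inv_le_log_of_pos (div_pos h0' h0)
  rw [inv_div] at h2
  have h3 := mul_le_mul_of_nonneg_left h2 h0'.le
  have e : lam' * (1 - lam / lam') = lam' - lam := by field_simp
  linarith

/-- powers: `λ'^e - λ^e ≤ e λ'^e log (λ'/λ)`, `e ≥ 0` -/
theorem lcf_rpow_diff (lam lam' e : ℝ) (h0 : 0 < lam) (h1 : lam ≤ lam') (he : 0 ≤ e) :
    0 ≤ lam' ^ e - lam ^ e ∧ lam' ^ e - lam ^ e ≤ e * lam' ^ e * Real.log (lam' / lam) := by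
  have h0' : 0 < lam' := h0.trans_le h1
  have hm : lam ^ e ≤ lam' ^ e := Real.rpow_le_rpow h0.le h1 he
  refine ⟨sub_nonneg.2 hm, ?_⟩
  have h2 := lcf_lam_diff (lam ^ e) (lam' ^ e) (Real.rpow_pos_of_pos h0 e) hm
  rw [← Real.div_rpow h0'.le h0.le, Real.log_rpow (div_pos h0' h0)] at h2
  linarith

/-- the offset `U = min 1 (x λ^(-s/2))` as a function of the strength -/
noncomputable def lcfU (x s lam : ℝ) : ℝ := min 1 (x * lam ^ (-(s / 2)))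

/-- `U` decreases in the strength, at most at the logarithmic rate `s/2` -/
theorem lcf_U_le (x s lam lam' : ℝ) (hx : 0 < x) (hs : 0 ≤ s) (h0 : 0 < lam) (h1 : lam ≤ lam') :
    lcfU x s lam' ≤ lcfU x s lam ∧ (lam' / lam) ^ (-(s / 2)) * lcfU x s lam ≤ lcfU x s lam' := by
  have h0' : 0 < lam' := h0.trans_le h1
  have hm : lam' ^ (-(s / 2)) ≤ lam ^ (-(s / 2)) := Real.rpow_le_rpow_of_nonpos h0 h1 (by linarith)
  have hρ : (lam' / lam) ^ (-(s / 2)) ≤ 1 :=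
    Real.rpow_le_one_of_one_le_of_nonpos ((one_le_div h0).2 h1) (by linarith)
  have hρ0 : 0 < (lam' / lam) ^ (-(s / 2)) := Real.rpow_pos_of_pos (div_pos h0' h0) _
  have e : (lam' / lam) ^ (-(s / 2)) * lam ^ (-(s / 2)) = lam' ^ (-(s / 2)) := by
    rw [← Real.mul_rpow (div_pos h0' h0).le h0.le, div_mul_cancel₀ _ h0.ne']
  constructor
  · exact min_le_min le_rfl (mul_le_mul_of_nonneg_left hm hx.le)
  · simp only [lcfU]
    apply le_min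
    · calc (lam' / lam) ^ (-(s / 2)) * min 1 (x * lam ^ (-(s / 2))) ≤ (lam' / lam) ^ (-(s / 2)) * 1 :=
            mul_le_mul_of_nonneg_left (min_le_left _ _) hρ0.le
        _ ≤ 1 := by rw [mul_one]; exact hρ
    · calc (lam' / lam) ^ (-(s / 2)) * min 1 (x * lam ^ (-(s / 2)))
          ≤ (lam' / lam) ^ (-(s / 2)) * (x * lam ^ (-(s / 2))) := mul_le_mul_of_nonneg_left (min_le_right _ _) hρ0.le
        _ = x * lam' ^ (-(s / 2)) := by rw [← e]; ring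

/-- `0 ≤ U^k - U'^k ≤ (k s / 2) U^k log (λ'/λ)` -/
theorem lcf_U_pow_diff (x s lam lam' : ℝ) (k : ℕ) (hx : 0 < x) (hs : 0 ≤ s) (h0 : 0 < lam) (h1 : lam ≤ lam') :
    0 ≤ lcfU x s lam ^ k - lcfU x s lam' ^ k ∧
      lcfU x s lam ^ k - lcfU x s lam' ^ k ≤ k * (s / 2) * lcfU x s lam ^ k * Real.log (lam' / lam) := by
  have h0' : 0 < lam' := h0.trans_le h1
  obtain ⟨hle, hge⟩ := lcf_U_le x s lam lam' hx hs h0 h1
  have hU0 : 0 < lcfU x s lam := lt_min one_pos (mul_pos hx (Real.rpow_pos_of_pos h0 _))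
  have hU0' : 0 < lcfU x s lam' := lt_min one_pos (mul_pos hx (Real.rpow_pos_of_pos h0' _))
  have hρ0 : 0 < (lam' / lam) ^ (-(s / 2)) := Real.rpow_pos_of_pos (div_pos h0' h0) _
  refine ⟨sub_nonneg.2 (pow_le_pow_left₀ hU0'.le hle k), ?_⟩
  have h2 : ((lam' / lam) ^ (-(s / 2)) * lcfU x s lam) ^ k ≤ lcfU x s lam' ^ k :=
    pow_le_pow_left₀ (mul_pos hρ0 hU0).le hge k
  rw [mul_pow] at h2
  have h3 : 1 - k * (s / 2) * Real.log (lam' / lam) ≤ ((lam' / lam) ^ (-(s / 2))) ^ k := by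
    rw [← Real.rpow_natCast, ← Real.rpow_mul (div_pos h0' h0).le, Real.rpow_def_of_pos (div_pos h0' h0)]
    have := Real.add_one_le_exp (Real.log (lam' / lam) * (-(s / 2) * k))
    linarith
  have h4 := mul_le_mul_of_nonneg_right h3 (pow_pos hU0 k).le
  nlinarith

/-- `λ^(1+η) U³` -/
theorem lcf_lamU_diff (x s eta lam lam' : ℝ) (hx : 0 < x) (hs : 0 ≤ s) (he : 0 ≤ eta) (h0 : 0 < lam) (h1 : lam ≤ lam') :
    |lam' ^ (1 + eta) * lcfU x s lam' ^ 3 - lam ^ (1 + eta) * lcfU x s lam ^ 3| ≤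
      (1 + eta + 3 * s / 2) * (lam' ^ (1 + eta) * lcfU x s lam ^ 3) * Real.log (lam' / lam) := by
  have h0' : 0 < lam' := h0.trans_le h1
  obtain ⟨a1, a2⟩ := lcf_rpow_diff lam lam' (1 + eta) h0 h1 (by linarith)
  obtain ⟨b1, b2⟩ := lcf_U_pow_diff x s lam lam' 3 hx hs h0 h1
  have hU0 : 0 < lcfU x s lam := lt_min one_pos (mul_pos hx (Real.rpow_pos_of_pos h0 _))
  have hP : 0 < lam' ^ (1 + eta) := Real.rpow_pos_of_pos h0' _
  have hU3 : 0 < lcfU x s lam ^ 3 := pow_pos hU0 3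
  have e : lam' ^ (1 + eta) * lcfU x s lam' ^ 3 - lam ^ (1 + eta) * lcfU x s lam ^ 3
      = (lam' ^ (1 + eta) - lam ^ (1 + eta)) * lcfU x s lam ^ 3 - lam' ^ (1 + eta) * (lcfU x s lam ^ 3 - lcfU x s lam' ^ 3) := by ring
  have c1 := mul_le_mul_of_nonneg_right a2 hU3.le
  have c2 := mul_le_mul_of_nonneg_left b2 hP.le
  have c3 := mul_nonneg a1 hU3.le
  have c4 := mul_nonneg hP.le b1
  push_cast at c2
  rw [e, abs_le]
  constructor <;> nlinarith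

/-! ## Part 3: the physical points -/

/-- the adapter `LlPt → Lck` (file A) -/
noncomputable def lcfLck (F : LlFix) (𝔹 : LlBase) (p : LlPt) : Lck where
  a := p.a
  lam := p.lam
  U := p.U F
  b0 := p.b0 F 𝔹
  cb := F.cb
  c1 := F.c1
  g0 := p.gam0
  K := p.K F 𝔹
  Gam := p.Gam F 𝔹
  gp := p.Gam1 F 𝔹
  G := p.G F
  Dy := p.dySum F

variable (F : LlFix) (𝔹 : LlBase) (p : LlPt)

theorem lcf_lck_b : (lcfLck F 𝔹 p).b = p.b F 𝔹 := rfl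
theorem lcf_lck_q : (lcfLck F 𝔹 p).q = p.q F 𝔹 := rfl
theorem lcf_lck_hS : (lcfLck F 𝔹 p).hS = p.hS F 𝔹 := rfl
theorem lcf_U_eq : p.U F = lcfU p.x F.sS p.lam := rfl

/-- the defect: `-h_*` on the mask, the three added terms above -/
theorem lcf_d_eq (v : ℝ) :
    p.d F 𝔹 v = if v < p.x then -p.hS F 𝔹 v else p.Hlo F v + p.chiL * p.Hlin F v + p.chiE * p.He F 𝔹 v := by
  simp only [LlPt.d, LlPt.h]
  split_ifs <;> ring

/-- the point with another strength / size / multipliers -/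
def LlPt.sLam (p : LlPt) (lam' : ℝ) : LlPt := { p with lam := lam' }
def LlPt.sEll (p : LlPt) (ell' : ℝ) : LlPt := { p with ell := ell' }
def LlPt.sChi (p : LlPt) (cL cE : ℝ) : LlPt := { p with chiL := cL, chiE := cE }

theorem lcf_pair_lam (lam' : ℝ) : LcfPair (lcfLck F 𝔹 p) (lcfLck F 𝔹 (p.sLam lam')) :=
  ⟨rfl, rfl, rfl, rfl, rfl, rfl⟩

/-- on a smoothed path (`a = 4`) the size does not move `a, G, Dy` -/
theorem lcf_pair_ell (ell' : ℝ) (hsm : p.sm = true) : LcfPair (lcfLck F 𝔹 p) (lcfLck F 𝔹 (p.sEll ell')) := by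
  refine ⟨?_, rfl, rfl, rfl, rfl, rfl⟩
  show (p.sEll ell').a = p.a
  simp [LlPt.a, LlPt.sEll, hsm]

/-! ### strength sweep (direct path; `ℓ, γ, χ` fixed; `λ ≤ λ'`, `δ = log (λ'/λ)`) -/

/-- INPUTS of the strength sweep = Lemma paths:parameter-regularity, direct part, in LIPSCHITZ form (supplied by the scalar block, 272 / 33).
`gap`: the scalar gap is differentiated only after subtracting its value at zero (factor `t²`). -/
structure LcfStrIn (κ : LckC) (A lam' : ℝ) : Prop where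
  b0 : |(p.sLam lam').b0 F 𝔹 - p.b0 F 𝔹| ≤ A * lam' * Real.log (lam' / p.lam)
  K : ∀ v ∈ Ioo 0 p.a, |(p.sLam lam').K F 𝔹 v - p.K F 𝔹 v| ≤ A * lam' * min v 1 * Real.log (lam' / p.lam)
  q : ∀ v ∈ Ioo 0 p.a, |(p.sLam lam').q F 𝔹 v - p.q F 𝔹 v| ≤ A * lam' * min v 1 * Real.log (lam' / p.lam)
  gap : ∀ t, 0 ≤ t → t ≤ p.K F 𝔹 κ.v0 →
    |(lcfLck F 𝔹 (p.sLam lam')).gap t - (lcfLck F 𝔹 p).gap t| ≤ A * lam' * Real.log (lam' / p.lam) * t ^ 2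
  gp : ∀ t, 0 ≤ t → t ≤ p.K F 𝔹 κ.v0 →
    |(p.sLam lam').Gam1 F 𝔹 t - p.Gam1 F 𝔹 t| ≤ A * lam' * Real.log (lam' / p.lam)

/-- constants of S1 -/
noncomputable def lcfCb (κ : LckC) (A : ℝ) : ℝ := A + 34 * κ.CG
noncomputable def lcfCh (κ : LckC) (A : ℝ) : ℝ := A + 4 * κ.C * lcfCb κ A + 2 * κ.C * A

variable {F 𝔹 p}

/-- the bound of F1 on the strength sweep -/
theorem lcf_str_F1 {κ : LckC} {lam' : ℝ} (h : (lcfLck F 𝔹 p).Ok κ) (h' : (lcfLck F 𝔹 (p.sLam lam')).Ok κ) (hs : (lcfLck F 𝔹 p).Small κ)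
    (hx : 0 < p.x) (hsS : F.sS ∈ Icc (0 : ℝ) 1) (hll : p.lam ≤ lam') (v : ℝ) (hv : v ∈ Ioo 0 p.a) :
    lcfF1 (lcfLck F 𝔹 p) (lcfLck F 𝔹 (p.sLam lam')) v ≤ 34 * κ.CG * lam' * Real.log (lam' / p.lam) := by
  have hlam0 : 0 < p.lam := h.lam0
  have hlam0' : 0 < lam' := hlam0.trans_le hll
  have hδ0 : 0 ≤ Real.log (lam' / p.lam) := Real.log_nonneg ((one_le_div hlam0).2 hll)
  have hCG1 : 1 ≤ κ.CG := h.CG1
  have hcb0 : 0 < F.cb := hs.cb0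
  have hcb : F.cb ≤ 1 := by
    have h1 : F.cb ≤ κ.c / 3264 := lck_cb_le h hs
    have h2 : κ.c ≤ 1 := h.c1
    linarith
  have ha4 : p.a ≤ 4 := h.a4
  have a1 : |lam' - p.lam| ≤ lam' * Real.log (lam' / p.lam) := by
    rw [abs_of_nonneg (sub_nonneg.2 hll)]; exact lcf_lam_diff _ _ hlam0 hll
  have hG0 : 0 ≤ p.G F v := lck_G_nn h v hv.1.le
  have a2 : p.G F v ≤ 16 * κ.CG := by
    have h1 : p.G F v ≤ κ.CG * v ^ 2 := h.G_le v hv.1.le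
    have h2 : v ^ 2 ≤ 16 := by nlinarith [hv.1, hv.2]
    nlinarith
  have hU0 : 0 < lcfU p.x F.sS p.lam := h.U0
  have hU1 : lcfU p.x F.sS p.lam ≤ 1 := h.U1
  have hU0' : 0 < lcfU p.x F.sS lam' := h'.U0
  have hU1' : lcfU p.x F.sS lam' ≤ 1 := h'.U1
  have a3 : lcfU p.x F.sS lam' ^ 2 ≤ 1 := pow_le_one₀ hU0'.le hU1'
  have a3' : lcfU p.x F.sS p.lam ^ 2 ≤ 1 := pow_le_one₀ hU0.le hU1
  obtain ⟨u1, u2⟩ := lcf_U_pow_diff p.x F.sS p.lam lam' 2 hx hsS.1 hlam0 hll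
  have a4 : p.lam * |lcfU p.x F.sS lam' ^ 2 - lcfU p.x F.sS p.lam ^ 2| ≤ lam' * Real.log (lam' / p.lam) := by
    rw [abs_sub_comm, abs_of_nonneg u1]
    have h3 : lcfU p.x F.sS p.lam ^ 2 - lcfU p.x F.sS lam' ^ 2 ≤ Real.log (lam' / p.lam) := by
      refine u2.trans ?_
      have h4 : ((2 : ℕ) : ℝ) * (F.sS / 2) * lcfU p.x F.sS p.lam ^ 2 ≤ 1 := by
        push_cast
        have := hsS.2
        have := hsS.1
        nlinarith [sq_nonneg (lcfU p.x F.sS p.lam)]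
      calc _ ≤ 1 * Real.log (lam' / p.lam) := mul_le_mul_of_nonneg_right h4 hδ0
        _ = _ := one_mul _
    exact mul_le_mul hll h3 u1 hlam0'.le
  have hLd : 0 ≤ lam' * Real.log (lam' / p.lam) := mul_nonneg hlam0'.le hδ0
  have a5 : |lam' - p.lam| * (p.G F v + lcfU p.x F.sS lam' ^ 2) ≤ lam' * Real.log (lam' / p.lam) * (16 * κ.CG + 1) :=
    mul_le_mul a1 (add_le_add a2 a3) (add_nonneg hG0 (sq_nonneg _)) hLd
  show 3 / 2 * F.cb * (|lam' - p.lam| * (p.G F v + lcfU p.x F.sS lam' ^ 2)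
    + p.lam * |lcfU p.x F.sS lam' ^ 2 - lcfU p.x F.sS p.lam ^ 2|) ≤ _
  have a6 : |lam' - p.lam| * (p.G F v + lcfU p.x F.sS lam' ^ 2)
      + p.lam * |lcfU p.x F.sS lam' ^ 2 - lcfU p.x F.sS p.lam ^ 2| ≤ lam' * Real.log (lam' / p.lam) * (18 * κ.CG) := by
    nlinarith
  have a7 : 0 ≤ |lam' - p.lam| * (p.G F v + lcfU p.x F.sS lam' ^ 2)
      + p.lam * |lcfU p.x F.sS lam' ^ 2 - lcfU p.x F.sS p.lam ^ 2| :=
    add_nonneg (mul_nonneg (abs_nonneg _) (add_nonneg hG0 (sq_nonneg _))) (mul_nonneg hlam0.le (abs_nonneg _))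
  calc _ ≤ 3 / 2 * 1 * (lam' * Real.log (lam' / p.lam) * (18 * κ.CG)) :=
        mul_le_mul (by linarith) a6 a7 (by norm_num)
    _ ≤ _ := by nlinarith [mul_nonneg hLd (by linarith : (0 : ℝ) ≤ κ.CG)]

/-- **S1 (matrix clock)**: `|Δb| ≤ C λ' δ`.      Proof: `lcf_b_diff`, `lcf_lam_diff`, `lcf_U_pow_diff` (`k = 2`), `G ≤ 16 CG`, `U ≤ 1`, `cb ≤ 1`, `s ≤ 1`. -/
theorem lcf_str_b {κ : LckC} {A lam' : ℝ} (h : (lcfLck F 𝔹 p).Ok κ) (h' : (lcfLck F 𝔹 (p.sLam lam')).Ok κ) (hs : (lcfLck F 𝔹 p).Small κ)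
    (hx : 0 < p.x) (hsS : F.sS ∈ Icc (0 : ℝ) 1) (hll : p.lam ≤ lam') (hin : LcfStrIn F 𝔹 p κ A lam') (v : ℝ) (hv : v ∈ Ioo 0 p.a) :
    |(p.sLam lam').b F 𝔹 v - p.b F 𝔹 v| ≤ lcfCb κ A * lam' * Real.log (lam' / p.lam) := by
  have hlam0 : 0 < p.lam := h.lam0
  have hlam0' : 0 < lam' := hlam0.trans_le hll
  have hδ0 : 0 ≤ Real.log (lam' / p.lam) := Real.log_nonneg ((one_le_div hlam0).2 hll)
  have h1 : |(p.sLam lam').b F 𝔹 v - p.b F 𝔹 v| ≤ |(p.sLam lam').b0 F 𝔹 - p.b0 F 𝔹|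
      + lcfF1 (lcfLck F 𝔹 p) (lcfLck F 𝔹 (p.sLam lam')) v :=
    lcf_b_diff h h' hs (lcf_pair_lam F 𝔹 p lam') v hv.1.le
  have hF1 := lcf_str_F1 h h' hs hx hsS hll v hv
  have h2 := hin.b0
  simp only [lcfCb]
  nlinarith

/-- **S1 (reference field)**: `|Δh_*| ≤ C λ' δ` at all masses.      Proof: `lcf_hS_diff`, `lcf_str_b`, `q' ≤ 4 C`, `|b| ≤ 2 C`. -/
theorem lcf_str_hS {κ : LckC} {A lam' : ℝ} (h : (lcfLck F 𝔹 p).Ok κ) (h' : (lcfLck F 𝔹 (p.sLam lam')).Ok κ) (hs : (lcfLck F 𝔹 p).Small κ)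
    (hx : 0 < p.x) (hsS : F.sS ∈ Icc (0 : ℝ) 1) (hA : 0 ≤ A) (hll : p.lam ≤ lam') (hin : LcfStrIn F 𝔹 p κ A lam') (v : ℝ) (hv : v ∈ Ioo 0 p.a)
    (hq0 : 0 ≤ (p.sLam lam').q F 𝔹 v) :
    |(p.sLam lam').hS F 𝔹 v - p.hS F 𝔹 v| ≤ lcfCh κ A * lam' * Real.log (lam' / p.lam) := by
  have hlam0 : 0 < p.lam := h.lam0
  have hlam0' : 0 < lam' := hlam0.trans_le hll
  have hδ0 : 0 ≤ Real.log (lam' / p.lam) := Real.log_nonneg ((one_le_div hlam0).2 hll)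
  have hLd : 0 ≤ lam' * Real.log (lam' / p.lam) := mul_nonneg hlam0'.le hδ0
  have hC1 : 1 ≤ κ.C := h.C1
  have hCG1 : 1 ≤ κ.CG := h.CG1
  have ha4 : p.a ≤ 4 := h.a4
  have h1 : |(p.sLam lam').hS F 𝔹 v - p.hS F 𝔹 v| ≤ |(p.sLam lam').K F 𝔹 v - p.K F 𝔹 v|
      + |(p.sLam lam').b F 𝔹 v - p.b F 𝔹 v| * |(p.sLam lam').q F 𝔹 v| + |p.b F 𝔹 v| * |(p.sLam lam').q F 𝔹 v - p.q F 𝔹 v| :=
    lcf_hS_diff (lcfLck F 𝔹 p) (lcfLck F 𝔹 (p.sLam lam')) v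
  have hb := lcf_str_b h h' hs hx hsS hll hin v hv
  have hmin : min v 1 ≤ 1 := min_le_right _ _
  have hmin0 : 0 ≤ min v 1 := le_min hv.1.le zero_le_one
  have hAL : 0 ≤ A * (lam' * Real.log (lam' / p.lam)) := mul_nonneg hA hLd
  have hK : |(p.sLam lam').K F 𝔹 v - p.K F 𝔹 v| ≤ A * (lam' * Real.log (lam' / p.lam)) := by
    refine (hin.K v hv).trans ?_
    have : A * lam' * min v 1 * Real.log (lam' / p.lam) = A * (lam' * Real.log (lam' / p.lam)) * min v 1 := by ring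
    rw [this]
    exact mul_le_of_le_one_right hAL hmin
  have hq : |(p.sLam lam').q F 𝔹 v - p.q F 𝔹 v| ≤ A * (lam' * Real.log (lam' / p.lam)) := by
    refine (hin.q v hv).trans ?_
    have : A * lam' * min v 1 * Real.log (lam' / p.lam) = A * (lam' * Real.log (lam' / p.lam)) * min v 1 := by ring
    rw [this]
    exact mul_le_of_le_one_right hAL hmin
  have hq' : |(p.sLam lam').q F 𝔹 v| ≤ 4 * κ.C := by
    rw [abs_of_nonneg hq0]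
    have h2 : (p.sLam lam').q F 𝔹 v ≤ κ.C * v := h'.q_hi v hv
    nlinarith [hv.2]
  have hbb : |p.b F 𝔹 v| ≤ 2 * κ.C := by
    have h2 : κ.c / 2 ≤ p.b F 𝔹 v ∧ p.b F 𝔹 v ≤ 2 * κ.C := lck_b_bd h hs v hv.1.le (hv.2.le.trans ha4)
    have hc0 : 0 < κ.c := h.c0
    rw [abs_of_nonneg (by linarith [h2.1])]
    exact h2.2
  have hCb0 : 0 ≤ lcfCb κ A := by simp only [lcfCb]; linarith
  have m1 := mul_le_mul hb hq' (abs_nonneg _) (mul_nonneg (mul_nonneg hCb0 hlam0'.le) hδ0)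
  have m2 := mul_le_mul hbb hq (abs_nonneg _) (by linarith : (0 : ℝ) ≤ 2 * κ.C)
  refine h1.trans ?_
  simp only [lcfCh]
  nlinarith

/-- **S2 (small mass, in particular the mask)**: `|Δh_*| ≤ C δ λ' (v³ + v U²)`, `U` at the smaller strength.      Proof: `lcf_hS_small_O` with `μ = λ'`, `W = U`. -/
theorem lcf_str_hS_small {κ : LckC} {A lam' : ℝ} (h : (lcfLck F 𝔹 p).Ok κ) (h' : (lcfLck F 𝔹 (p.sLam lam')).Ok κ)
    (hs : (lcfLck F 𝔹 p).Small κ) (hs' : (lcfLck F 𝔹 (p.sLam lam')).Small κ)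
    (hx : 0 < p.x) (hsS : F.sS ∈ Icc (0 : ℝ) 1) (hA : 1 ≤ A) (hll : p.lam ≤ lam') (hin : LcfStrIn F 𝔹 p κ A lam')
    (v : ℝ) (hv : 0 < v) (hv0 : v ≤ κ.c * κ.v0 / κ.C) :
    |(p.sLam lam').hS F 𝔹 v - p.hS F 𝔹 v| ≤ lcfC3 κ A * Real.log (lam' / p.lam) * lam' * (v ^ 3 + v * p.U F ^ 2) := by
  have hlam0 : 0 < p.lam := h.lam0
  have hlam0' : 0 < lam' := hlam0.trans_le hll
  have hlam1' : lam' ≤ 1 := h'.lam1
  have hδ0 : 0 ≤ Real.log (lam' / p.lam) := Real.log_nonneg ((one_le_div hlam0).2 hll)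
  have hc0 : 0 < κ.c := h.c0
  have hc1 : κ.c ≤ 1 := h.c1
  have hC1 : 1 ≤ κ.C := h.C1
  have hv00 : 0 < κ.v0 := h.v00
  have hA0 : 0 < A := by linarith
  have hCv : κ.C * v ≤ κ.c * κ.v0 := by
    rw [le_div_iff₀ (by linarith)] at hv0; linarith
  have hvv0 : v ≤ κ.v0 := by nlinarith
  have hva : v ∈ Ioo 0 p.a := ⟨hv, by
    have h1 : κ.v0 ≤ 1 / 2 := h.v01
    have h2 : 1 ≤ p.a := h.a1
    linarith⟩
  have hKv : p.K F 𝔹 v ≤ κ.C * v := h.K_hi0 v hv hvv0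
  have hKK : p.K F 𝔹 v ≤ (p.sLam lam').K F 𝔹 κ.v0 := by
    have h1 : κ.c * κ.v0 ≤ (p.sLam lam').K F 𝔹 κ.v0 := h'.K_lo0 κ.v0 hv00 le_rfl
    linarith
  have hKm : p.K F 𝔹 v ≤ p.K F 𝔹 κ.v0 := h.K_mono hva (lck_v0_mem h) hvv0
  obtain ⟨hUle, -⟩ := lcf_U_le p.x F.sS p.lam lam' hx hsS.1 hlam0 hll
  obtain ⟨u1, u2⟩ := lcf_U_pow_diff p.x F.sS p.lam lam' 2 hx hsS.1 hlam0 hll
  have hAd : 0 ≤ A * Real.log (lam' / p.lam) := mul_nonneg hA0.le hδ0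
  refine lcf_hS_small_O h h' hs hs' (lcf_pair_lam F 𝔹 p lam') A lam' (p.U F) (Real.log (lam' / p.lam)) hA hδ0 hlam1' hll le_rfl le_rfl
    hUle v hv hvv0 hKK ?_ ?_ ?_ ?_ ?_
  · refine (hin.K v hva).trans ?_
    have h1 : min v 1 ≤ v := min_le_left _ _
    have h2 : lam' * min v 1 ≤ 1 * v := mul_le_mul hlam1' h1 (le_min hv.le zero_le_one) zero_le_one
    calc A * lam' * min v 1 * Real.log (lam' / p.lam) = A * Real.log (lam' / p.lam) * (lam' * min v 1) := by ring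
      _ ≤ A * Real.log (lam' / p.lam) * (1 * v) := mul_le_mul_of_nonneg_left h2 hAd
      _ = _ := by ring
  · intro t ht0 ht
    exact hin.gap t ht0 (ht.trans hKm)
  · intro t ht0 ht
    refine (hin.gp t ht0 (ht.trans hKm)).trans ?_
    calc A * lam' * Real.log (lam' / p.lam) = A * Real.log (lam' / p.lam) * lam' := by ring
      _ ≤ A * Real.log (lam' / p.lam) * 1 := mul_le_mul_of_nonneg_left hlam1' hAd
      _ = _ := by ring
  · show |lam' - p.lam| ≤ _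
    rw [abs_of_nonneg (sub_nonneg.2 hll)]
    refine (lcf_lam_diff _ _ hlam0 hll).trans ?_
    have : 0 ≤ lam' * Real.log (lam' / p.lam) := mul_nonneg hlam0'.le hδ0
    nlinarith
  · show p.lam * |lcfU p.x F.sS lam' ^ 2 - lcfU p.x F.sS p.lam ^ 2| ≤ A * lam' * lcfU p.x F.sS p.lam ^ 2 * Real.log (lam' / p.lam)
    rw [abs_sub_comm, abs_of_nonneg u1]
    have hU2 : 0 ≤ lcfU p.x F.sS p.lam ^ 2 := sq_nonneg _
    have h3 : lcfU p.x F.sS p.lam ^ 2 - lcfU p.x F.sS lam' ^ 2 ≤ A * (lcfU p.x F.sS p.lam ^ 2 * Real.log (lam' / p.lam)) := by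
      refine u2.trans ?_
      push_cast
      have h5 : 0 ≤ lcfU p.x F.sS p.lam ^ 2 * Real.log (lam' / p.lam) := mul_nonneg hU2 hδ0
      have h6 := hsS.2
      nlinarith
    calc _ ≤ lam' * (A * (lcfU p.x F.sS p.lam ^ 2 * Real.log (lam' / p.lam))) := mul_le_mul hll h3 u1 hlam0'.le
      _ = _ := by ring

/-- **S3 (`H_lo`)** -/
theorem lcf_str_Hlo {lam' : ℝ} (hx : 0 < p.x) (hsS : 0 ≤ F.sS) (heta : 0 ≤ F.eta) (h0 : 0 < p.lam) (hll : p.lam ≤ lam')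
    (hl : p.x ≤ p.ell) (v : ℝ) (hv : p.x ≤ v) :
    |(p.sLam lam').Hlo F v - p.Hlo F v| ≤
      (1 + F.eta + 3 * F.sS / 2) * (lam' ^ (1 + F.eta) * p.U F ^ 3) * Real.log (min v p.ell / p.x) * Real.log (lam' / p.lam) := by
  have hlg : 0 ≤ Real.log (min v p.ell / p.x) := Real.log_nonneg ((one_le_div hx).2 (le_min hv hl))
  have h1 := lcf_lamU_diff p.x F.sS F.eta p.lam lam' hx hsS heta h0 hll
  have e : (p.sLam lam').Hlo F v - p.Hlo F v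
      = (lam' ^ (1 + F.eta) * lcfU p.x F.sS lam' ^ 3 - p.lam ^ (1 + F.eta) * lcfU p.x F.sS p.lam ^ 3) * Real.log (min v p.ell / p.x) := by
    show lam' ^ (1 + F.eta) * lcfU p.x F.sS lam' ^ 3 * Real.log (min v p.ell / p.x)
      - p.lam ^ (1 + F.eta) * lcfU p.x F.sS p.lam ^ 3 * Real.log (min v p.ell / p.x) = _
    ring
  rw [e, abs_mul, abs_of_nonneg hlg]
  calc _ ≤ (1 + F.eta + 3 * F.sS / 2) * (lam' ^ (1 + F.eta) * lcfU p.x F.sS p.lam ^ 3) * Real.log (lam' / p.lam)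
        * Real.log (min v p.ell / p.x) := mul_le_mul_of_nonneg_right h1 hlg
    _ = _ := by rw [lcf_U_eq]; ring

/-- **S3 (defect)**: on the mask `Δd = -Δh_*`; above it `Δd = ΔH_lo + χ_e ΔH_e` (`H_lin` does not move) -/
theorem lcf_str_d (lam' v : ℝ) :
    (p.sLam lam').d F 𝔹 v - p.d F 𝔹 v =
      if v < p.x then -((p.sLam lam').hS F 𝔹 v - p.hS F 𝔹 v)
      else ((p.sLam lam').Hlo F v - p.Hlo F v) + p.chiE * ((p.sLam lam').He F 𝔹 v - p.He F 𝔹 v) := by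
  rw [lcf_d_eq, lcf_d_eq]
  have e1 : (p.sLam lam').x = p.x := rfl
  have e2 : (p.sLam lam').Hlin F v = p.Hlin F v := rfl
  have e3 : (p.sLam lam').chiL = p.chiL := rfl
  have e4 : (p.sLam lam').chiE = p.chiE := rfl
  rw [e1, e2, e3, e4]
  split_ifs <;> ring

/-- **S4** `Δh = Δh_* + Δd` -/
theorem lcf_h_split (p p' : LlPt) (v : ℝ) :
    p'.h F 𝔹 v - p.h F 𝔹 v = (p'.hS F 𝔹 v - p.hS F 𝔹 v) + (p'.d F 𝔹 v - p.d F 𝔹 v) := by
  simp only [LlPt.d]; ring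

/-! ### multiplier sweeps -/

theorem lcf_chi_b (cL cE : ℝ) : (p.sChi cL cE).b F 𝔹 = p.b F 𝔹 := rfl
theorem lcf_chi_hS (cL cE : ℝ) : (p.sChi cL cE).hS F 𝔹 = p.hS F 𝔹 := rfl

theorem lcf_chi_h (cL cE v : ℝ) :
    (p.sChi cL cE).h F 𝔹 v - p.h F 𝔹 v = if v < p.x then 0 else (cL - p.chiL) * p.Hlin F v + (cE - p.chiE) * p.He F 𝔹 v := by
  have e1 : (p.sChi cL cE).x = p.x := rfl
  have e2 : (p.sChi cL cE).Hlin F v = p.Hlin F v := rfl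
  have e3 : (p.sChi cL cE).chiL = cL := rfl
  have e4 : (p.sChi cL cE).chiE = cE := rfl
  have e5 : (p.sChi cL cE).hS F 𝔹 v = p.hS F 𝔹 v := rfl
  have e6 : (p.sChi cL cE).Hlo F v = p.Hlo F v := rfl
  have e7 : (p.sChi cL cE).He F 𝔹 v = p.He F 𝔹 v := rfl
  simp only [LlPt.h, e1, e2, e3, e4, e5, e6, e7]
  split_ifs <;> ring

theorem lcf_Hlin_bd (hx : 0 ≤ p.x) (hvb : 0 ≤ F.vb) (hl : 0 ≤ p.ell) (v : ℝ) : 0 ≤ p.Hlin F v ∧ p.Hlin F v ≤ p.x ^ 3 * p.ell := by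
  have hx3 : 0 ≤ p.x ^ 3 := pow_nonneg hx 3
  simp only [LlPt.Hlin]
  refine ⟨mul_nonneg hx3 (le_max_left _ _), mul_le_mul_of_nonneg_left (max_le hl ?_) hx3⟩
  have := min_le_right v p.ell
  linarith

/-! ### size segment (smoothed path, `a = 4`; `λ, γ, χ` fixed; `ℓ, ℓ'`) -/

/-- **Z3**: only `b_∘` moves -/
theorem lcf_siz_b (ell' v : ℝ) : (p.sEll ell').b F 𝔹 v - p.b F 𝔹 v = (p.sEll ell').b0 F 𝔹 - p.b0 F 𝔹 := by
  have e1 : (p.sEll ell').G F v = p.G F v := rfl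
  have e2 : (p.sEll ell').U F = p.U F := rfl
  have e3 : (p.sEll ell').dySum F v = p.dySum F v := rfl
  have e4 : (p.sEll ell').lam = p.lam := rfl
  have e5 : (p.sEll ell').gam0 = p.gam0 := rfl
  simp only [LlPt.b, e1, e2, e3, e4, e5]
  ring

/-- **Z2 (`H_lo`)**: `|ΔH_lo| ≤ λ_1 U³ |log (ℓ'/ℓ)|`, and `= 0` for `v ≤ min ℓ ℓ'` -/
theorem lcf_siz_Hlo {ell' : ℝ} (hx : 0 < p.x) (hl : 0 < p.ell) (hl' : 0 < ell') (h0 : 0 ≤ p.lam) (v : ℝ) (hv : 0 < v) :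
    |(p.sEll ell').Hlo F v - p.Hlo F v| ≤ p.lam1 F * p.U F ^ 3 * |Real.log (ell' / p.ell)| ∧
      (v ≤ min p.ell ell' → (p.sEll ell').Hlo F v = p.Hlo F v) := by
  have hl1 : 0 ≤ p.lam1 F := Real.rpow_nonneg h0 _
  have hU : 0 ≤ p.U F := le_min zero_le_one (mul_nonneg hx.le (Real.rpow_nonneg h0 _))
  have hc : 0 ≤ p.lam1 F * p.U F ^ 3 := mul_nonneg hl1 (pow_nonneg hU 3)
  have e : (p.sEll ell').Hlo F v = p.lam1 F * p.U F ^ 3 * Real.log (min v ell' / p.x) := rfl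
  constructor
  · rw [e]
    simp only [LlPt.Hlo]
    rw [← mul_sub, abs_mul, abs_of_nonneg hc]
    apply mul_le_mul_of_nonneg_left _ hc
    have hm' : 0 < min v ell' := lt_min hv hl'
    have hm : 0 < min v p.ell := lt_min hv hl
    rw [Real.log_div hm'.ne' hx.ne', Real.log_div hm.ne' hx.ne', Real.log_div hl'.ne' hl.ne']
    have k1 : Real.log (min v ell') = min (Real.log v) (Real.log ell') :=
      (Real.strictMonoOn_log.monotoneOn).map_min (show v ∈ Ioi (0 : ℝ) from hv) (show ell' ∈ Ioi (0 : ℝ) from hl')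
    have k2 : Real.log (min v p.ell) = min (Real.log v) (Real.log p.ell) :=
      (Real.strictMonoOn_log.monotoneOn).map_min (show v ∈ Ioi (0 : ℝ) from hv) (show p.ell ∈ Ioi (0 : ℝ) from hl)
    rw [k1, k2]
    have := abs_min_sub_min_le_max (Real.log v) (Real.log ell') (Real.log v) (Real.log p.ell)
    simpa using this
  · intro hvm
    rw [e]
    simp only [LlPt.Hlo]
    rw [min_eq_left (hvm.trans (min_le_right _ _)), min_eq_left (hvm.trans (min_le_left _ _))]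

/-- **Z2 (`H_lin`)** -/
theorem lcf_siz_Hlin {ell' : ℝ} (hx : 0 ≤ p.x) (v : ℝ) :
    |(p.sEll ell').Hlin F v - p.Hlin F v| ≤ p.x ^ 3 * |ell' - p.ell| ∧
      (v ≤ min p.ell ell' → (p.sEll ell').Hlin F v = p.Hlin F v) := by
  have hx3 : 0 ≤ p.x ^ 3 := pow_nonneg hx 3
  have e : (p.sEll ell').Hlin F v = p.x ^ 3 * max 0 (min v ell' - 4 * F.vb) := rfl
  constructor
  · rw [e]
    simp only [LlPt.Hlin]
    rw [← mul_sub, abs_mul, abs_of_nonneg hx3]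
    apply mul_le_mul_of_nonneg_left _ hx3
    have k1 := abs_max_sub_max_le_max 0 (min v ell' - 4 * F.vb) 0 (min v p.ell - 4 * F.vb)
    have k2 := abs_min_sub_min_le_max v ell' v p.ell
    simp only [sub_self, abs_zero] at k1 k2
    have k3 : min v ell' - 4 * F.vb - (min v p.ell - 4 * F.vb) = min v ell' - min v p.ell := by ring
    rw [k3] at k1
    exact k1.trans (max_le (abs_nonneg _) (k2.trans (max_le (abs_nonneg _) le_rfl)))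
  · intro hvm
    rw [e]
    simp only [LlPt.Hlin]
    rw [min_eq_left (hvm.trans (min_le_right _ _)), min_eq_left (hvm.trans (min_le_left _ _))]

/-- INPUTS of the size segment at small mass = Lemma paths:parameter-regularity, smoothed part, LIPSCHITZ form (`δ = |θ' - θ|`).
`gap`: exact rescaling + (P2a) + the bound `|ĝ(ξ') - ĝ(ξ)| ≤ C λ ξ' |ξ' - ξ|`. -/
structure LcfSizIn (F : LlFix) (𝔹 : LlBase) (p : LlPt) (κ : LckC) (A ell' δ : ℝ) : Prop where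
  b0 : |(p.sEll ell').b0 F 𝔹 - p.b0 F 𝔹| ≤ A * δ
  K : ∀ v, 0 < v → v ≤ κ.v0 → |(p.sEll ell').K F 𝔹 v - p.K F 𝔹 v| ≤ A * v * δ
  q : ∀ v, 0 < v → v ≤ κ.v0 → |(p.sEll ell').q F 𝔹 v - p.q F 𝔹 v| ≤ A * v * δ
  gap : ∀ t, 0 ≤ t → t ≤ p.K F 𝔹 κ.v0 →
    |(lcfLck F 𝔹 (p.sEll ell')).gap t - (lcfLck F 𝔹 p).gap t| ≤ A * p.lam * δ * t ^ 2
  gp : ∀ t, 0 ≤ t → t ≤ p.K F 𝔹 κ.v0 → |(p.sEll ell').Gam1 F 𝔹 t - p.Gam1 F 𝔹 t| ≤ A * δ

/-- **Z1**: `|Δh_*| ≤ C δ λ (v³ + v U²)` at small mass (on the mask this is `|Δd|`).      Proof: `lcf_hS_small_O`, `μ = λ`, `W = U`, `Δλ = ΔU = 0`. -/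
theorem lcf_siz_hS_small {κ : LckC} {A ell' δ : ℝ} (hsm : p.sm = true) (h : (lcfLck F 𝔹 p).Ok κ) (h' : (lcfLck F 𝔹 (p.sEll ell')).Ok κ)
    (hs : (lcfLck F 𝔹 p).Small κ) (hs' : (lcfLck F 𝔹 (p.sEll ell')).Small κ) (hA : 1 ≤ A) (hδ : 0 ≤ δ)
    (hin : LcfSizIn F 𝔹 p κ A ell' δ) (v : ℝ) (hv : 0 < v) (hv0 : v ≤ κ.c * κ.v0 / κ.C) :
    |(p.sEll ell').hS F 𝔹 v - p.hS F 𝔹 v| ≤ lcfC3 κ A * δ * p.lam * (v ^ 3 + v * p.U F ^ 2) := by
  have hlam0 : 0 < p.lam := h.lam0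
  have hlam1 : p.lam ≤ 1 := h.lam1
  have hc0 : 0 < κ.c := h.c0
  have hc1 : κ.c ≤ 1 := h.c1
  have hC1 : 1 ≤ κ.C := h.C1
  have hv00 : 0 < κ.v0 := h.v00
  have hA0 : 0 < A := by linarith
  have hCv : κ.C * v ≤ κ.c * κ.v0 := by
    rw [le_div_iff₀ (by linarith)] at hv0; linarith
  have hvv0 : v ≤ κ.v0 := by nlinarith
  have hva : v ∈ Ioo 0 p.a := ⟨hv, by
    have h1 : κ.v0 ≤ 1 / 2 := h.v01
    have h2 : 1 ≤ p.a := h.a1
    linarith⟩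
  have hKv : p.K F 𝔹 v ≤ κ.C * v := h.K_hi0 v hv hvv0
  have hKK : p.K F 𝔹 v ≤ (p.sEll ell').K F 𝔹 κ.v0 := by
    have h1 : κ.c * κ.v0 ≤ (p.sEll ell').K F 𝔹 κ.v0 := h'.K_lo0 κ.v0 hv00 le_rfl
    linarith
  have hKm : p.K F 𝔹 v ≤ p.K F 𝔹 κ.v0 := h.K_mono hva (lck_v0_mem h) hvv0
  refine lcf_hS_small_O h h' hs hs' (lcf_pair_ell F 𝔹 p ell' hsm) A p.lam (p.U F) δ hA hδ hlam1 le_rfl le_rfl le_rfl
    le_rfl v hv hvv0 hKK (hin.K v hv hvv0) ?_ ?_ ?_ ?_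
  · intro t ht0 ht
    exact hin.gap t ht0 (ht.trans hKm)
  · intro t ht0 ht
    exact hin.gp t ht0 (ht.trans hKm)
  · show |p.lam - p.lam| ≤ _
    rw [sub_self, abs_zero]
    positivity
  · show p.lam * |p.U F ^ 2 - p.U F ^ 2| ≤ _
    rw [sub_self, abs_zero, mul_zero]
    positivity

/-- **Z2 (defect)** on a smoothed path (`χ_e` arbitrary but `H_e` is multiplied by it: at `χ_e = 0` it disappears) -/
theorem lcf_siz_d (ell' v : ℝ) (hE : p.chiE = 0) :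
    (p.sEll ell').d F 𝔹 v - p.d F 𝔹 v =
      if v < p.x then -((p.sEll ell').hS F 𝔹 v - p.hS F 𝔹 v)
      else ((p.sEll ell').Hlo F v - p.Hlo F v) + p.chiL * ((p.sEll ell').Hlin F v - p.Hlin F v) := by
  rw [lcf_d_eq, lcf_d_eq]
  have e1 : (p.sEll ell').x = p.x := rfl
  have e3 : (p.sEll ell').chiL = p.chiL := rfl
  have e4 : (p.sEll ell').chiE = p.chiE := rfl
  rw [e1, e3, e4, hE]
  split_ifs <;> ring

/-- **Z4**: `L¹(dv)` bound of `Δh_*` from the `L¹` bounds of `ΔK`, `Δq` ((P2b) in Lipschitz form).      Proof: `lcf_hS_diff` + `lcf_siz_b` pointwise, `integral_mono_of_nonneg`. -/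
theorem lcf_siz_hS_L1 {ell' Cb Cq : ℝ} (hCb : 0 ≤ Cb) (hCq : 0 ≤ Cq)
    (hb : ∀ v ∈ Ioo (0 : ℝ) 4, |p.b F 𝔹 v| ≤ Cb) (hq : ∀ v ∈ Ioo (0 : ℝ) 4, |(p.sEll ell').q F 𝔹 v| ≤ Cq)
    (hKi : IntervalIntegrable (fun v => (p.sEll ell').K F 𝔹 v - p.K F 𝔹 v) volume 0 4)
    (hqi : IntervalIntegrable (fun v => (p.sEll ell').q F 𝔹 v - p.q F 𝔹 v) volume 0 4) :
    ∫ v in (0 : ℝ)..4, |(p.sEll ell').hS F 𝔹 v - p.hS F 𝔹 v| ≤
      (∫ v in (0 : ℝ)..4, |(p.sEll ell').K F 𝔹 v - p.K F 𝔹 v|) + 4 * Cq * |(p.sEll ell').b0 F 𝔹 - p.b0 F 𝔹|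
        + Cb * ∫ v in (0 : ℝ)..4, |(p.sEll ell').q F 𝔹 v - p.q F 𝔹 v| := by
  have h04 : (0 : ℝ) ≤ 4 := by norm_num
  have hgi : IntervalIntegrable (fun v => |(p.sEll ell').K F 𝔹 v - p.K F 𝔹 v| + Cq * |(p.sEll ell').b0 F 𝔹 - p.b0 F 𝔹|
      + Cb * |(p.sEll ell').q F 𝔹 v - p.q F 𝔹 v|) volume 0 4 :=
    (hKi.abs.add intervalIntegrable_const).add (hqi.abs.const_mul Cb)
  have hle : ∫ v in (0 : ℝ)..4, |(p.sEll ell').hS F 𝔹 v - p.hS F 𝔹 v| ≤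
      ∫ v in (0 : ℝ)..4, (|(p.sEll ell').K F 𝔹 v - p.K F 𝔹 v| + Cq * |(p.sEll ell').b0 F 𝔹 - p.b0 F 𝔹|
      + Cb * |(p.sEll ell').q F 𝔹 v - p.q F 𝔹 v|) := by
    rw [intervalIntegral.integral_of_le h04, intervalIntegral.integral_of_le h04,
      integral_Ioc_eq_integral_Ioo, integral_Ioc_eq_integral_Ioo]
    apply integral_mono_of_nonneg (Filter.Eventually.of_forall fun v => abs_nonneg _)
    · have := (intervalIntegrable_iff_integrableOn_Ioo_of_le h04).1 hgi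
      exact this
    · rw [Filter.EventuallyLE, ae_restrict_iff' measurableSet_Ioo]
      refine Filter.Eventually.of_forall fun v hv => ?_
      have h1 : |(p.sEll ell').hS F 𝔹 v - p.hS F 𝔹 v| ≤ |(p.sEll ell').K F 𝔹 v - p.K F 𝔹 v|
          + |(p.sEll ell').b F 𝔹 v - p.b F 𝔹 v| * |(p.sEll ell').q F 𝔹 v| + |p.b F 𝔹 v| * |(p.sEll ell').q F 𝔹 v - p.q F 𝔹 v| :=
        lcf_hS_diff (lcfLck F 𝔹 p) (lcfLck F 𝔹 (p.sEll ell')) v
      rw [lcf_siz_b] at h1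
      have m1 := mul_le_mul_of_nonneg_left (hq v hv) (abs_nonneg ((p.sEll ell').b0 F 𝔹 - p.b0 F 𝔹))
      have m2 := mul_le_mul_of_nonneg_right (hb v hv) (abs_nonneg ((p.sEll ell').q F 𝔹 v - p.q F 𝔹 v))
      linarith
  refine hle.trans (le_of_eq ?_)
  rw [intervalIntegral.integral_add (hKi.abs.add intervalIntegrable_const) (hqi.abs.const_mul Cb),
    intervalIntegral.integral_add hKi.abs intervalIntegrable_const, intervalIntegral.integral_const,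
    intervalIntegral.integral_const_mul]
  simp only [smul_eq_mul]
  ring

end Claimed.Agent.R286
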