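import Claimed.Agent.R286.LL.PathsDefs

/-!
# Row 286 (S0533), LL Section 3 (paths): KIT OF GENERALISED INVERSES      (owner helper281; head of LL 03: helper272, co-head helper253; prefix `lpq_`, `LpqProf`)

0 sorries.   `llInv A w = sInf {ξ ≥ 0 | w ≤ A ξ}` (PathsDefs).   `LpqProf A τ j` = mass profile on `[0,∞)`: nondecreasing, right continuous, `0 ≤ A 0`, `A = j` from `τ` on.
* `lpq_galois`       : `llInv A w ≤ ξ ↔ w ≤ A ξ`   (`w ≤ j`, `0 ≤ ξ`);   `lpq_le_at_inv`, `lpq_lt_of_lt_inv`, `lpq_inv_mono`, `lpq_inv_le_tau`, `lpq_inv_zero`, `lpq_inv_congr`, `lpq_inv_at`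
* `lpq_inv_lip`      : density of `A` `≥ c` on `[0,R]`  ⇒  `c (llInv A w' - llInv A w) ≤ w' - w`
* `lpq_at_inv_eq`, `lpq_inv_lip_lower` : density `≤ C` on `[0,R]`  ⇒  `A (llInv A w) = w`, `w' - w ≤ C (llInv A w' - llInv A w)`
* `lpq_L1_iso`, `lpq_L1_iso'` : **the area between two monotone quantiles equals the area between their mass profiles** (LL 03 l.533, proof of Prop. 3.4)
-/

set_option autoImplicit false

namespace Claimed.Agent.R286

open MeasureTheory Set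

/- `structure LpqProf` lives in `LL/PathsDefs.lean` since 15 Oct 05:50Z (it is used by the field `dirProf` of `LlSec3`). -/

namespace LpqProf

variable {A : ℝ → ℝ} {τ j : ℝ} (hA : LpqProf A τ j)

include hA

theorem mem_Icc (ξ : ℝ) (hξ : 0 ≤ ξ) : A ξ ∈ Icc 0 j := by
  constructor
  · exact hA.nn.trans (hA.mono (mem_Ici.mpr le_rfl) (mem_Ici.mpr hξ) hξ)
  · rw [← hA.top (max ξ τ) (le_max_right _ _)]
    exact hA.mono (mem_Ici.mpr hξ) (mem_Ici.mpr (hξ.trans (le_max_left _ _))) (le_max_left _ _)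

theorem j_nonneg : 0 ≤ j := (hA.mem_Icc 0 le_rfl).1.trans (hA.mem_Icc 0 le_rfl).2

end LpqProf

theorem lpq_bdd (A : ℝ → ℝ) (w : ℝ) : BddBelow {ξ : ℝ | 0 ≤ ξ ∧ w ≤ A ξ} := ⟨0, fun _ h => h.1⟩

theorem lpq_inv_nonneg (A : ℝ → ℝ) (w : ℝ) : 0 ≤ llInv A w := Real.sInf_nonneg fun _ h => h.1

theorem lpq_inv_le (A : ℝ → ℝ) (w ξ : ℝ) (hξ : 0 ≤ ξ) (h : w ≤ A ξ) : llInv A w ≤ ξ :=
  csInf_le (lpq_bdd A w) ⟨hξ, h⟩

section prof

variable {A : ℝ → ℝ} {τ j : ℝ} (hA : LpqProf A τ j)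

include hA

theorem lpq_inv_le_tau (w : ℝ) (hw : w ≤ j) : llInv A w ≤ τ :=
  lpq_inv_le A w τ hA.tau (by rw [hA.top τ le_rfl]; exact hw)

/-- the infimum is attained (right continuity) -/
theorem lpq_le_at_inv (w : ℝ) (hw : w ≤ j) : w ≤ A (llInv A w) := by
  by_contra hcon
  push Not at hcon
  have h0 := lpq_inv_nonneg A w
  have hne : {ξ : ℝ | 0 ≤ ξ ∧ w ≤ A ξ}.Nonempty := ⟨τ, hA.tau, by rw [hA.top τ le_rfl]; exact hw⟩
  have hev : ∀ᶠ ξ in nhdsWithin (llInv A w) (Ici (llInv A w)), A ξ < w :=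
    (hA.rc _ h0).eventually (Iio_mem_nhds hcon)
  rw [eventually_nhdsWithin_iff, Metric.eventually_nhds_iff] at hev
  obtain ⟨δ, hδ, H⟩ := hev
  obtain ⟨s, hs, hsl⟩ := exists_lt_of_csInf_lt hne (show sInf {ξ : ℝ | 0 ≤ ξ ∧ w ≤ A ξ} < llInv A w + δ by
    unfold llInv; linarith)
  have hge : llInv A w ≤ s := csInf_le (lpq_bdd A w) hs
  have := H (y := s) (by rw [Real.dist_eq, abs_of_nonneg (by linarith)]; linarith) hge
  exact absurd hs.2 (not_le.mpr this)

/-- Galois connection between a profile and its generalised inverse -/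
theorem lpq_galois (w ξ : ℝ) (hw : w ≤ j) (hξ : 0 ≤ ξ) : llInv A w ≤ ξ ↔ w ≤ A ξ :=
  ⟨fun h => (lpq_le_at_inv hA w hw).trans (hA.mono (mem_Ici.mpr (lpq_inv_nonneg A w)) (mem_Ici.mpr hξ) h),
    fun h => lpq_inv_le A w ξ hξ h⟩

theorem lpq_inv_mono (w w' : ℝ) (hww : w ≤ w') (hw : w' ≤ j) : llInv A w ≤ llInv A w' :=
  lpq_inv_le A w _ (lpq_inv_nonneg A w') (hww.trans (lpq_le_at_inv hA w' hw))

omit hA in
theorem lpq_inv_zero (w : ℝ) (hw : w ≤ A 0) : llInv A w = 0 :=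
  le_antisymm (lpq_inv_le A w 0 le_rfl hw) (lpq_inv_nonneg A w)

omit hA in
/-- below the inverse the profile is below the level -/
theorem lpq_lt_of_lt_inv (w ξ : ℝ) (hξ : 0 ≤ ξ) (h : ξ < llInv A w) : A ξ < w := by
  by_contra hcon
  push Not at hcon
  exact absurd (lpq_inv_le A w ξ hξ hcon) (not_le.mpr h)

end prof


/-! ### regularity of the inverse from density bounds of the profile -/

section prof2

variable {A : ℝ → ℝ} {τ j : ℝ} (hA : LpqProf A τ j)

include hA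

theorem lpq_inv_monoOn : MonotoneOn (llInv A) (Iic j) := fun w _ w' hw' hww => lpq_inv_mono hA w w' hww hw'

theorem lpq_inv_intble (a b : ℝ) (ha : a ≤ j) (hb : b ≤ j) : IntervalIntegrable (llInv A) volume a b :=
  ((lpq_inv_monoOn hA).mono fun _ hx => mem_Iic.mpr (hx.2.trans (max_le ha hb))).intervalIntegrable

/-- a lower bound `c` of the density of the profile on `[0,R]` makes the inverse `1/c`-Lipschitz below the level `A R` -/
theorem lpq_inv_lip (c R : ℝ) (hd : ∀ ξ ξ', 0 ≤ ξ → ξ ≤ ξ' → ξ' ≤ R → c * (ξ' - ξ) ≤ A ξ' - A ξ)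
    (hR : 0 ≤ R) (w w' : ℝ) (hww : w ≤ w') (hw' : w' ≤ A R) :
    c * (llInv A w' - llInv A w) ≤ w' - w := by
  have hj : w' ≤ j := hw'.trans (hA.mem_Icc R hR).2
  have h1 : llInv A w' ≤ R := lpq_inv_le A w' R hR hw'
  have h0 := lpq_inv_nonneg A w
  have hle := lpq_inv_mono hA w w' hww hj
  have hAw := lpq_le_at_inv hA w (hww.trans hj)
  rcases eq_or_lt_of_le hle with he | hlt
  · rw [he]; simpa using hww
  -- approach the upper inverse from below
  have key : ∀ ξ'', llInv A w ≤ ξ'' → ξ'' < llInv A w' → c * (ξ'' - llInv A w) ≤ w' - w := by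
    intro ξ'' h2 h3
    have := hd _ _ h0 h2 (h3.le.trans h1)
    have := lpq_lt_of_lt_inv (A := A) w' ξ'' (h0.trans h2) h3
    linarith
  have hcont : Filter.Tendsto (fun ξ'' : ℝ => c * (ξ'' - llInv A w)) (nhdsWithin (llInv A w') (Iio (llInv A w')))
      (nhds (c * (llInv A w' - llInv A w))) := by
    have : Continuous fun ξ'' : ℝ => c * (ξ'' - llInv A w) := by fun_prop
    exact (this.tendsto _).mono_left nhdsWithin_le_nhds
  refine le_of_tendsto hcont ?_
  filter_upwards [Ioo_mem_nhdsLT hlt] with ξ'' hξ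
  exact key ξ'' hξ.1.le hξ.2

/-- an upper bound `C` of the density of the profile on `[0,R]`: the level is attained and the inverse grows at least at
the rate `1/C` -/
theorem lpq_at_inv_eq (C R : ℝ) (hd : ∀ ξ ξ', 0 ≤ ξ → ξ ≤ ξ' → ξ' ≤ R → A ξ' - A ξ ≤ C * (ξ' - ξ))
    (hR : 0 ≤ R) (w : ℝ) (hw0 : A 0 ≤ w) (hw : w ≤ A R) : A (llInv A w) = w := by
  have hj : w ≤ j := hw.trans (hA.mem_Icc R hR).2
  refine le_antisymm ?_ (lpq_le_at_inv hA w hj)
  have h1 : llInv A w ≤ R := lpq_inv_le A w R hR hw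
  rcases eq_or_lt_of_le (lpq_inv_nonneg A w) with he | hlt
  · rw [← he]; exact hw0
  have key : ∀ ξ'', 0 ≤ ξ'' → ξ'' < llInv A w → A (llInv A w) ≤ w + C * (llInv A w - ξ'') := by
    intro ξ'' h2 h3
    have := hd _ _ h2 h3.le h1
    have := lpq_lt_of_lt_inv (A := A) w ξ'' h2 h3
    linarith
  have hcont : Filter.Tendsto (fun ξ'' : ℝ => w + C * (llInv A w - ξ'')) (nhdsWithin (llInv A w) (Iio (llInv A w)))
      (nhds (w + C * (llInv A w - llInv A w))) := by
    have : Continuous fun ξ'' : ℝ => w + C * (llInv A w - ξ'') := by fun_prop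
    exact (this.tendsto _).mono_left nhdsWithin_le_nhds
  have := ge_of_tendsto hcont (b := A (llInv A w)) (by
    filter_upwards [Ioo_mem_nhdsLT hlt] with ξ'' hξ
    exact key ξ'' hξ.1.le hξ.2)
  simpa using this

theorem lpq_inv_lip_lower (C R : ℝ) (hd : ∀ ξ ξ', 0 ≤ ξ → ξ ≤ ξ' → ξ' ≤ R → A ξ' - A ξ ≤ C * (ξ' - ξ))
    (hR : 0 ≤ R) (w w' : ℝ) (hw0 : A 0 ≤ w) (hww : w ≤ w') (hw' : w' ≤ A R) :
    w' - w ≤ C * (llInv A w' - llInv A w) := by
  have hj : w' ≤ j := hw'.trans (hA.mem_Icc R hR).2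
  have e1 := lpq_at_inv_eq hA C R hd hR w hw0 (hww.trans hw')
  have e2 := lpq_at_inv_eq hA C R hd hR w' (hw0.trans hww) hw'
  have := hd _ _ (lpq_inv_nonneg A w) (lpq_inv_mono hA w w' hww hj) (lpq_inv_le A w' R hR hw')
  rw [e1, e2] at this
  exact this

/-- the inverse undoes the profile at a point of strict increase -/
theorem lpq_inv_at (ξ : ℝ) (hξ : 0 ≤ ξ) (hs : ∀ ξ', 0 ≤ ξ' → ξ' < ξ → A ξ' < A ξ) : llInv A (A ξ) = ξ := by
  refine le_antisymm (lpq_inv_le A _ ξ hξ le_rfl) ?_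
  by_contra hcon
  push Not at hcon
  have h1 := hs _ (lpq_inv_nonneg A (A ξ)) hcon
  have h2 := lpq_le_at_inv hA (A ξ) (hA.mem_Icc ξ hξ).2
  linarith

end prof2

/-- two profiles which agree below a level have the same inverse below this level -/
theorem lpq_inv_congr {A B : ℝ → ℝ} (w : ℝ) (h : ∀ ξ, 0 ≤ ξ → (w ≤ A ξ ↔ w ≤ B ξ)) : llInv A w = llInv B w := by
  unfold llInv
  congr 1
  exact Set.ext fun ξ => and_congr_right fun h0 => h ξ h0

/-! ### the area between two quantiles equals the area between the two profiles -/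

theorem lpq_int_ge (c τ : ℝ) (h0 : 0 ≤ c) (hc : c ≤ τ) :
    ∫ ξ in Icc 0 τ, (if c ≤ ξ then (1 : ℝ) else 0) = τ - c := by
  have e : (fun ξ : ℝ => if c ≤ ξ then (1 : ℝ) else 0) = (Ici c).indicator fun _ => (1 : ℝ) := by
    funext ξ; simp [indicator, mem_Ici]
  have e2 : Icc 0 τ ∩ Ici c = Icc c τ := by
    ext ξ; simp only [mem_inter_iff, mem_Icc, mem_Ici]; constructor
    · rintro ⟨⟨_, h2⟩, h3⟩; exact ⟨h3, h2⟩
    · rintro ⟨h1, h2⟩; exact ⟨⟨h0.trans h1, h2⟩, h1⟩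
  rw [e, setIntegral_indicator measurableSet_Ici, e2, setIntegral_const, Real.volume_real_Icc_of_le hc]
  simp

theorem lpq_int_le (c j : ℝ) (h0 : 0 ≤ c) (hc : c ≤ j) :
    ∫ w in Icc 0 j, (if w ≤ c then (1 : ℝ) else 0) = c := by
  have e : (fun w : ℝ => if w ≤ c then (1 : ℝ) else 0) = (Iic c).indicator fun _ => (1 : ℝ) := by
    funext ξ; simp [indicator, mem_Iic]
  have e2 : Icc 0 j ∩ Iic c = Icc 0 c := by
    ext ξ; simp only [mem_inter_iff, mem_Icc, mem_Iic]; constructor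
    · rintro ⟨⟨h1, _⟩, h3⟩; exact ⟨h1, h3⟩
    · rintro ⟨h1, h2⟩; exact ⟨⟨h1, h2.trans hc⟩, h2⟩
  rw [e, setIntegral_indicator measurableSet_Iic, e2, setIntegral_const, Real.volume_real_Icc_of_le h0]
  simp

theorem lpq_intble_ge (c τ : ℝ) : IntegrableOn (fun ξ : ℝ => if c ≤ ξ then (1 : ℝ) else 0) (Icc 0 τ) := by
  have e : (fun ξ : ℝ => if c ≤ ξ then (1 : ℝ) else 0) = (Ici c).indicator fun _ => (1 : ℝ) := by
    funext ξ; simp [indicator, mem_Ici]
  rw [e]
  exact (integrableOn_const (by simp)).indicator measurableSet_Ici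

theorem lpq_intble_le (c j : ℝ) : IntegrableOn (fun w : ℝ => if w ≤ c then (1 : ℝ) else 0) (Icc 0 j) := by
  have e : (fun w : ℝ => if w ≤ c then (1 : ℝ) else 0) = (Iic c).indicator fun _ => (1 : ℝ) := by
    funext ξ; simp [indicator, mem_Iic]
  rw [e]
  exact (integrableOn_const (by simp)).indicator measurableSet_Iic

theorem lpq_int_abs_ge (a b τ : ℝ) (ha : a ∈ Icc 0 τ) (hb : b ∈ Icc 0 τ) :
    ∫ ξ in Icc 0 τ, |(if a ≤ ξ then (1 : ℝ) else 0) - (if b ≤ ξ then (1 : ℝ) else 0)| = |a - b| := by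
  wlog hab : a ≤ b generalizing a b
  · have := this b a hb ha (le_of_not_ge hab)
    rw [abs_sub_comm a b, ← this]
    exact setIntegral_congr_fun measurableSet_Icc fun ξ _ => abs_sub_comm _ _
  have e : ∀ ξ : ℝ, |(if a ≤ ξ then (1 : ℝ) else 0) - (if b ≤ ξ then (1 : ℝ) else 0)|
      = (if a ≤ ξ then (1 : ℝ) else 0) - (if b ≤ ξ then (1 : ℝ) else 0) := by
    intro ξ
    by_cases h1 : b ≤ ξ
    · simp [h1, hab.trans h1]
    · by_cases h2 : a ≤ ξ <;> simp [h1, h2]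
  simp_rw [e]
  rw [integral_sub (lpq_intble_ge a τ) (lpq_intble_ge b τ), lpq_int_ge a τ ha.1 ha.2, lpq_int_ge b τ hb.1 hb.2,
    abs_sub_comm, abs_of_nonneg (by linarith)]
  ring

theorem lpq_int_abs_le (a b j : ℝ) (ha : a ∈ Icc 0 j) (hb : b ∈ Icc 0 j) :
    ∫ w in Icc 0 j, |(if w ≤ a then (1 : ℝ) else 0) - (if w ≤ b then (1 : ℝ) else 0)| = |a - b| := by
  wlog hab : b ≤ a generalizing a b
  · have := this b a hb ha (le_of_not_ge hab)
    rw [abs_sub_comm a b, ← this]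
    exact setIntegral_congr_fun measurableSet_Icc fun ξ _ => abs_sub_comm _ _
  have e : ∀ w : ℝ, |(if w ≤ a then (1 : ℝ) else 0) - (if w ≤ b then (1 : ℝ) else 0)|
      = (if w ≤ a then (1 : ℝ) else 0) - (if w ≤ b then (1 : ℝ) else 0) := by
    intro w
    by_cases h1 : w ≤ b
    · simp [h1, h1.trans hab]
    · by_cases h2 : w ≤ a <;> simp [h1, h2]
  simp_rw [e]
  rw [integral_sub (lpq_intble_le a j) (lpq_intble_le b j), lpq_int_le a j ha.1 ha.2, lpq_int_le b j hb.1 hb.2,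
    abs_of_nonneg (by linarith)]


theorem LpqProf.meas {A : ℝ → ℝ} {τ j : ℝ} (hA : LpqProf A τ j) : Measurable fun ξ : ℝ => A (max ξ 0) := by
  have : Monotone fun ξ : ℝ => A (max ξ 0) := fun a b hab =>
    hA.mono (mem_Ici.mpr (le_max_right _ _)) (mem_Ici.mpr (le_max_right _ _)) (max_le_max hab le_rfl)
  exact this.measurable

/-- **the area between two monotone quantiles equals the area between their mass profiles** (LL 03, proof of Prop. 3.4) -/
theorem lpq_L1_iso {A B : ℝ → ℝ} {τ j : ℝ} (hA : LpqProf A τ j) (hB : LpqProf B τ j) :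
    ∫ w in Icc 0 j, |llInv A w - llInv B w| = ∫ ξ in Icc 0 τ, |A ξ - B ξ| := by
  let I : ℝ → ℝ → ℝ := fun w ξ =>
    |(if w ≤ A (max ξ 0) then (1 : ℝ) else 0) - (if w ≤ B (max ξ 0) then (1 : ℝ) else 0)|
  have hmeas : Measurable (Function.uncurry I) := by
    have h1 : Measurable fun x : ℝ × ℝ => if x.1 ≤ A (max x.2 0) then (1 : ℝ) else 0 :=
      Measurable.ite (measurableSet_le measurable_fst (hA.meas.comp measurable_snd)) measurable_const
        measurable_const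
    have h2 : Measurable fun x : ℝ × ℝ => if x.1 ≤ B (max x.2 0) then (1 : ℝ) else 0 :=
      Measurable.ite (measurableSet_le measurable_fst (hB.meas.comp measurable_snd)) measurable_const
        measurable_const
    exact (h1.sub h2).abs
  have hI : Integrable (Function.uncurry I)
      ((volume.restrict (Icc (0 : ℝ) j)).prod (volume.restrict (Icc (0 : ℝ) τ))) := by
    refine Integrable.of_bound hmeas.aestronglyMeasurable 1 (Filter.Eventually.of_forall fun x => ?_)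
    simp only [Function.uncurry, I, Real.norm_eq_abs, abs_abs]
    split_ifs <;> simp
  have swap := integral_integral_swap hI
  calc ∫ w in Icc 0 j, |llInv A w - llInv B w|
      = ∫ w in Icc 0 j, ∫ ξ in Icc 0 τ, I w ξ := by
        refine setIntegral_congr_fun measurableSet_Icc fun w hw => ?_
        rw [← lpq_int_abs_ge (llInv A w) (llInv B w) τ ⟨lpq_inv_nonneg A w, lpq_inv_le_tau hA w hw.2⟩
          ⟨lpq_inv_nonneg B w, lpq_inv_le_tau hB w hw.2⟩]
        refine setIntegral_congr_fun measurableSet_Icc fun ξ hξ => ?_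
        simp only [I, max_eq_left hξ.1, lpq_galois hA w ξ hw.2 hξ.1, lpq_galois hB w ξ hw.2 hξ.1]
    _ = ∫ ξ in Icc 0 τ, ∫ w in Icc 0 j, I w ξ := swap
    _ = ∫ ξ in Icc 0 τ, |A ξ - B ξ| := by
        refine setIntegral_congr_fun measurableSet_Icc fun ξ hξ => ?_
        simp only [I, max_eq_left hξ.1]
        exact lpq_int_abs_le (A ξ) (B ξ) j (hA.mem_Icc ξ hξ.1) (hB.mem_Icc ξ hξ.1)

/-- interval-integral form -/
theorem lpq_L1_iso' {A B : ℝ → ℝ} {τ j : ℝ} (hA : LpqProf A τ j) (hB : LpqProf B τ j) :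
    ∫ w in (0 : ℝ)..j, |llInv A w - llInv B w| = ∫ ξ in (0 : ℝ)..τ, |A ξ - B ξ| := by
  rw [intervalIntegral.integral_of_le hA.j_nonneg, intervalIntegral.integral_of_le hA.tau,
    ← integral_Icc_eq_integral_Ioc, ← integral_Icc_eq_integral_Ioc]
  exact lpq_L1_iso hA hB

end Claimed.Agent.R286
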