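import Claimed.Agent.R286.LL.PathsKit281

/-!
# Row 286 (S0533), LL Section 3 (paths): THE K-KIT      (owner helper267; head of LL 03: helper272, co-head helper253; prefix `lkk_`, `Lkk`)

The fields `K_mono K_lo K_hi K_lo0 K_hi0 K_top` of `LlPt.Ref` (PathsDefs v2), for the DIRECT and the SMOOTHED profile, from `LlBaseProfile` and the kit of
generalised inverses (`PathsKit281`).   LL 03-paths.tex l.113-128.
* `LkkBase A0 ξs pT ca Ca ξ1` : what is used of the base profile (densities `≥ ca` on `[0,ξ1]`, `≤ Ca` on `[0,ξs)`);   `lkk_base` : it follows from `LlBaseProfile`.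
* `lkkDir`, `lkkSm` : the two profiles as functions of real parameters (`p.Adir F 𝔹`, `p.Asm F 𝔹` by `rfl`);   `lkk_dir_prof`, `lkk_sm_prof` : they are `LpqProf`.
* `lkk_K` : the six fields for an abstract profile;   EXIT `lkk_main` (constants depend on `𝔹, T` only; `N0` on `F`).
* §7-8 (for Lemma paths:parameter-regularity, `LL/PathsReg.lean`): `lkk_dir_inv_far/lip/le` (strength), `lkk_mono_shift`, `lkk_K_diff_alg`, `lkk_sm_inv_congr/lip_glob/lip0/le0`, `lkk_sm_xi_pt/0/l1` (size).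
-/

set_option autoImplicit false
set_option linter.unusedSectionVars false

namespace Claimed.Agent.R286

open MeasureTheory Set Filter Topology

/-! ## 0. the base profile -/

-- `structure LkkBase` : moved to `LL/PathsDefs.lean` (272, 15 Oct 06:25Z: raw field `prof` of `LlSec3`)

theorem lkk_base (𝔹 : LlBase) (T : ℝ) (hb : LlBaseProfile 𝔹 T) :
    ∃ ca Ca ξ1 : ℝ, LkkBase (𝔹.A0 T) (𝔹.xiS T) (𝔹.pTop T) ca Ca ξ1 := by
  obtain ⟨a, ha0, _, ha1, hder⟩ := hb.tower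
  have hxs := hb.xi_pos
  set ξs := 𝔹.xiS T with hξs
  have hT : 0 < T := lt_of_lt_of_le hxs hb.xi_le
  have hk : 0 < a 1 0 := by rw [ha1]; exact div_pos hb.kap_pos hT
  have hc0 : ContinuousOn (a 0) (Icc 0 ξs) := fun ξ hξ => (hder 0 ξ hξ).continuousWithinAt
  have hc1 : ContinuousOn (a 1) (Icc 0 ξs) := fun ξ hξ => (hder 1 ξ hξ).continuousWithinAt
  -- upper bound of the density
  obtain ⟨B, hB⟩ := isCompact_Icc.exists_bound_of_continuousOn hc1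
  have hup : ∀ ξ ξ', 0 ≤ ξ → ξ ≤ ξ' → ξ' ≤ ξs → a 0 ξ' - a 0 ξ ≤ |B| * (ξ' - ξ) := by
    intro ξ ξ' h0 h1 h2
    have := Convex.norm_image_sub_le_of_norm_hasDerivWithin_le (f := a 0) (f' := a 1) (C := |B|)
      (s := Icc 0 ξs) (x := ξ) (y := ξ') (fun y hy => hder 0 y hy)
      (fun y hy => (hB y hy).trans (le_abs_self _)) (convex_Icc _ _) ⟨h0, h1.trans h2⟩ ⟨h0.trans h1, h2⟩
    rw [Real.norm_eq_abs, Real.norm_eq_abs, abs_of_nonneg (by linarith : 0 ≤ ξ' - ξ)] at this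
    exact (le_abs_self _).trans this
  -- lower bound of the density near zero
  have hev : ∀ᶠ ξ in 𝓝[Icc 0 ξs] (0 : ℝ), a 1 0 / 2 < a 1 ξ :=
    (hc1 0 ⟨le_rfl, hxs.le⟩).eventually (Ioi_mem_nhds (by linarith))
  rw [eventually_nhdsWithin_iff, Metric.eventually_nhds_iff] at hev
  obtain ⟨δ, hδ, H⟩ := hev
  set ξ1 := min (δ / 2) (ξs / 2) with hξ1
  have h10 : 0 < ξ1 := lt_min (by linarith) (by linarith)
  have h1s : ξ1 < ξs := lt_of_le_of_lt (min_le_right _ _) (by linarith)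
  have h1δ : ξ1 < δ := lt_of_le_of_lt (min_le_left _ _) (by linarith)
  have hlow : ∀ ξ ξ', 0 ≤ ξ → ξ ≤ ξ' → ξ' ≤ ξ1 → a 1 0 / 2 * (ξ' - ξ) ≤ a 0 ξ' - a 0 ξ := by
    intro ξ ξ' h0 h1 h2
    have hsub : Icc ξ ξ' ⊆ Icc 0 ξs := Icc_subset_Icc h0 (h2.trans h1s.le)
    have hmono : MonotoneOn (fun y => a 0 y - a 1 0 / 2 * y) (Icc ξ ξ') := by
      refine monotoneOn_of_deriv_nonneg (convex_Icc _ _) ?_ ?_ ?_
      · exact (hc0.mono hsub).sub (by fun_prop)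
      · intro y hy
        rw [interior_Icc] at hy
        have hy' : y ∈ Icc 0 ξs := hsub ⟨hy.1.le, hy.2.le⟩
        have hd : HasDerivAt (a 0) (a 1 y) y := (hder 0 y hy').hasDerivAt
          (Icc_mem_nhds (lt_of_le_of_lt h0 hy.1) (lt_of_lt_of_le hy.2 (h2.trans h1s.le)))
        exact ((hd.sub ((hasDerivAt_id y).const_mul (a 1 0 / 2))).differentiableAt).differentiableWithinAt
      · intro y hy
        rw [interior_Icc] at hy
        have hy' : y ∈ Icc 0 ξs := hsub ⟨hy.1.le, hy.2.le⟩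
        have hd : HasDerivAt (a 0) (a 1 y) y := (hder 0 y hy').hasDerivAt
          (Icc_mem_nhds (lt_of_le_of_lt h0 hy.1) (lt_of_lt_of_le hy.2 (h2.trans h1s.le)))
        have hd2 := hd.sub ((hasDerivAt_id y).const_mul (a 1 0 / 2))
        have e : deriv (fun y => a 0 y - a 1 0 / 2 * y) y = a 1 y - a 1 0 / 2 * 1 := hd2.deriv
        rw [e]
        have := H (y := y) (by
          rw [Real.dist_eq, sub_zero, abs_of_nonneg (h0.trans hy.1.le)]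
          linarith [hy.2]) hy'
        linarith
    have := hmono (left_mem_Icc.2 h1) (right_mem_Icc.2 h1) h1
    simp only at this
    linarith
  refine ⟨a 1 0 / 2, |B|, ξ1, ⟨hb.pTop_mem.1, hb.pTop_mem.2, by linarith, abs_nonneg _, h10, h1s, hb.mono, hb.zero,
    hb.top, hb.lt_top, ?_, ?_, ?_⟩⟩
  · -- right continuity
    intro ξ hξ
    rcases lt_or_ge ξ ξs with h | h
    · have h1 : ContinuousWithinAt (a 0) (Ici ξ) ξ := by
        have h2 : ContinuousWithinAt (a 0) (Icc ξ ξs) ξ := (hc0 ξ ⟨hξ, h.le⟩).mono (Icc_subset_Icc_left hξ)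
        rwa [continuousWithinAt_Icc_iff_Ici h] at h2
      refine h1.congr_of_eventuallyEq ?_ (ha0 ξ ⟨hξ, h⟩)
      filter_upwards [Ico_mem_nhdsGE h] with y hy
      exact ha0 y ⟨hξ.trans hy.1, hy.2⟩
    · refine (continuousWithinAt_const (b := (1 : ℝ))).congr (fun y hy => hb.top y (h.trans hy)) (hb.top ξ h)
  · intro ξ ξ' h0 h1 h2
    rw [ha0 ξ ⟨h0, lt_of_le_of_lt (h1.trans h2) h1s⟩, ha0 ξ' ⟨h0.trans h1, lt_of_le_of_lt h2 h1s⟩]
    exact hlow ξ ξ' h0 h1 h2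
  · intro ξ ξ' h0 h1 h2
    rw [ha0 ξ ⟨h0, lt_of_le_of_lt h1 h2⟩, ha0 ξ' ⟨h0.trans h1, h2⟩]
    exact hup ξ ξ' h0 h1 h2.le

/-! ## 1. the cut-off `P` -/

/-- what is used of the cut-off `P` -/
structure LkkCut (P : ℝ → ℝ) (z0 LP : ℝ) : Prop where
  z00 : 0 < z0
  LP0 : 0 ≤ LP
  cont : Continuous P
  at0 : P 0 = 0
  nn : ∀ ξ, 0 ≤ ξ → 0 ≤ P ξ
  le : ∀ ξ, 0 ≤ ξ → P ξ ≤ ξ
  zero : ∀ ξ, z0 ≤ ξ → P ξ = 0
  lip : ∀ ξ ξ', 0 ≤ ξ → ξ ≤ ξ' → |P ξ' - P ξ| ≤ LP * (ξ' - ξ)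

theorem lkk_cut (F : LlFix) (hF : F.Ok) : ∃ LP : ℝ, LkkCut F.P F.z0 LP := by
  have hz := hF.z00
  have hc : Continuous (deriv F.P) := hF.P_sm.continuous_deriv (by simp)
  have hdiff : Differentiable ℝ F.P := hF.P_sm.differentiable (by simp)
  obtain ⟨B, hB⟩ := (isCompact_Icc (a := (0 : ℝ)) (b := F.z0)).exists_bound_of_continuousOn hc.continuousOn
  have key : ∀ ξ ξ', 0 ≤ ξ → ξ ≤ ξ' → ξ' ≤ F.z0 → |F.P ξ' - F.P ξ| ≤ |B| * (ξ' - ξ) := by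
    intro ξ ξ' h0 h1 h2
    have := Convex.norm_image_sub_le_of_norm_deriv_le (f := F.P) (C := |B|) (s := Icc 0 F.z0) (x := ξ) (y := ξ')
      (fun y _ => hdiff y) (fun y hy => (hB y hy).trans (le_abs_self _)) (convex_Icc _ _)
      ⟨h0, h1.trans h2⟩ ⟨h0.trans h1, h2⟩
    rwa [Real.norm_eq_abs, Real.norm_eq_abs, abs_of_nonneg (by linarith : 0 ≤ ξ' - ξ)] at this
  refine ⟨|B|, hz, abs_nonneg _, hF.P_sm.continuous, ?_, fun ξ h => (hF.P_nn ξ h).1, fun ξ h => (hF.P_nn ξ h).2,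
    hF.P_zero, ?_⟩
  · exact hF.P_lin 0 ⟨le_rfl, by linarith⟩
  · intro ξ ξ' h0 h1
    rcases le_total ξ' F.z0 with c1 | c1
    · exact key ξ ξ' h0 h1 c1
    rcases le_total F.z0 ξ with c2 | c2
    · rw [hF.P_zero ξ' c1, hF.P_zero ξ c2, sub_self, abs_zero]
      exact mul_nonneg (abs_nonneg _) (by linarith)
    · rw [hF.P_zero ξ' c1, ← hF.P_zero F.z0 le_rfl]
      exact (key ξ F.z0 h0 c2 le_rfl).trans (mul_le_mul_of_nonneg_left (by linarith) (abs_nonneg _))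

/-! ## 2. the direct profile -/

/-- `A_λ = A_0 + λ P` -/
def lkkDir (A0 P : ℝ → ℝ) (lam : ℝ) : ℝ → ℝ := fun ξ => A0 ξ + lam * P ξ

section dir

variable {A0 P : ℝ → ℝ} {ξs pT ca Ca ξ1 z0 LP lam : ℝ}
  (hb : LkkBase A0 ξs pT ca Ca ξ1) (hP : LkkCut P z0 LP) (hz : z0 ≤ ξ1) (hl0 : 0 ≤ lam) (hl : lam * LP ≤ ca / 2)

include hb hP hz hl0 hl

theorem lkk_dir_lo (ξ ξ' : ℝ) (h0 : 0 ≤ ξ) (h1 : ξ ≤ ξ') (h2 : ξ' ≤ ξ1) :
    ca / 2 * (ξ' - ξ) ≤ lkkDir A0 P lam ξ' - lkkDir A0 P lam ξ := by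
  have a1 := hb.lo ξ ξ' h0 h1 h2
  have a2 := (abs_le.1 (hP.lip ξ ξ' h0 h1)).1
  have a3 : lam * (-(LP * (ξ' - ξ))) ≤ lam * (P ξ' - P ξ) := mul_le_mul_of_nonneg_left a2 hl0
  have a4 : lam * LP * (ξ' - ξ) ≤ ca / 2 * (ξ' - ξ) := mul_le_mul_of_nonneg_right hl (by linarith)
  unfold lkkDir
  nlinarith

theorem lkk_dir_hi (ξ ξ' : ℝ) (h0 : 0 ≤ ξ) (h1 : ξ ≤ ξ') (h2 : ξ' < ξs) :
    lkkDir A0 P lam ξ' - lkkDir A0 P lam ξ ≤ (Ca + ca / 2) * (ξ' - ξ) := by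
  have a1 := hb.hi ξ ξ' h0 h1 h2
  have a2 := (abs_le.1 (hP.lip ξ ξ' h0 h1)).2
  have a3 : lam * (P ξ' - P ξ) ≤ lam * (LP * (ξ' - ξ)) := mul_le_mul_of_nonneg_left a2 hl0
  have a4 : lam * LP * (ξ' - ξ) ≤ ca / 2 * (ξ' - ξ) := mul_le_mul_of_nonneg_right hl (by linarith)
  unfold lkkDir
  nlinarith

theorem lkk_dir_far (ξ : ℝ) (h : z0 ≤ ξ) : lkkDir A0 P lam ξ = A0 ξ := by
  unfold lkkDir; rw [hP.zero ξ h, mul_zero, add_zero]

theorem lkk_dir_mono : MonotoneOn (lkkDir A0 P lam) (Ici 0) := by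
  intro ξ h0 ξ' _ h1
  have h0' : (0 : ℝ) ≤ ξ := h0
  have hca := hb.ca0
  rcases le_total ξ' ξ1 with c1 | c1
  · have := lkk_dir_lo hb hP hz hl0 hl ξ ξ' h0' h1 c1
    have : 0 ≤ ca / 2 * (ξ' - ξ) := mul_nonneg (by linarith) (by linarith)
    linarith
  rcases le_total z0 ξ with c2 | c2
  · rw [lkk_dir_far hb hP hz hl0 hl ξ c2, lkk_dir_far hb hP hz hl0 hl ξ' (c2.trans h1)]
    exact hb.mono h1
  · have a1 := lkk_dir_lo hb hP hz hl0 hl ξ ξ1 h0' (c2.trans hz) le_rfl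
    have a2 : 0 ≤ ca / 2 * (ξ1 - ξ) := mul_nonneg (by linarith) (by linarith)
    have a3 : lkkDir A0 P lam ξ1 ≤ lkkDir A0 P lam ξ' := by
      rw [lkk_dir_far hb hP hz hl0 hl ξ1 hz, lkk_dir_far hb hP hz hl0 hl ξ' (hz.trans c1)]
      exact hb.mono c1
    linarith

theorem lkk_dir_zero : lkkDir A0 P lam 0 = 0 := by
  unfold lkkDir; rw [hb.zero 0 le_rfl, hP.at0, mul_zero, add_zero]

theorem lkk_dir_rc (ξ : ℝ) (h0 : 0 ≤ ξ) : ContinuousWithinAt (lkkDir A0 P lam) (Ici ξ) ξ :=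
  (hb.rc ξ h0).add (continuousWithinAt_const.mul hP.cont.continuousWithinAt)

theorem lkk_dir_lt_top (ξ : ℝ) (h0 : 0 ≤ ξ) (h : ξ < ξs) : lkkDir A0 P lam ξ < pT := by
  rcases le_total z0 ξ with c2 | c2
  · rw [lkk_dir_far hb hP hz hl0 hl ξ c2]; exact hb.lt_top ξ h
  · have a1 := lkk_dir_mono hb hP hz hl0 hl (mem_Ici.2 h0) (mem_Ici.2 hP.z00.le) c2
    rw [lkk_dir_far hb hP hz hl0 hl z0 le_rfl] at a1
    exact lt_of_le_of_lt a1 (hb.lt_top z0 (lt_of_le_of_lt hz hb.x1s))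

theorem lkk_dir_prof : LpqProf (lkkDir A0 P lam) ξs 1 where
  mono := lkk_dir_mono hb hP hz hl0 hl
  rc := lkk_dir_rc hb hP hz hl0 hl
  nn := (lkk_dir_zero hb hP hz hl0 hl).ge
  top := fun ξ h => by
    rw [lkk_dir_far hb hP hz hl0 hl ξ ((hz.trans hb.x1s.le).trans h)]; exact hb.top ξ h
  tau := (hb.x10.trans hb.x1s).le

end dir

/-! ## 3. the smoothed profile -/

/-- the bracket of `Â`: direct profile below `ξ_*`, then the atom spread linearly over `[ξ_*, ξ_* + ω]` -/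
noncomputable def lkkBr (A0 P : ℝ → ℝ) (lam ξs pT om : ℝ) : ℝ → ℝ := fun ξ =>
  if ξ < ξs then lkkDir A0 P lam ξ else pT + (1 - pT) * min 1 ((ξ - ξs) / om)

/-- `Â` with terminal mass `J` from `M` on -/
noncomputable def lkkSm (A0 P : ℝ → ℝ) (lam ξs pT om M J : ℝ) : ℝ → ℝ := fun ξ =>
  if M ≤ ξ then J else lkkBr A0 P lam ξs pT om ξ + om * ξ

section sm

variable {A0 P : ℝ → ℝ} {ξs pT ca Ca ξ1 z0 LP lam om M J : ℝ}
  (hb : LkkBase A0 ξs pT ca Ca ξ1) (hP : LkkCut P z0 LP) (hz : z0 ≤ ξ1) (hl0 : 0 ≤ lam) (hl : lam * LP ≤ ca / 2)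
  (ho : 0 < om) (hM : ξs < M) (hJ : 1 + om * M ≤ J)

include hb hP hz hl0 hl ho

theorem lkk_br_mono : MonotoneOn (lkkBr A0 P lam ξs pT om) (Ici 0) := by
  intro ξ h0 ξ' h0' h1
  have hp1 := hb.pT1
  unfold lkkBr
  by_cases c' : ξ' < ξs
  · rw [if_pos c', if_pos (lt_of_le_of_lt h1 c')]
    exact lkk_dir_mono hb hP hz hl0 hl h0 h0' h1
  · rw [if_neg c']
    rw [not_lt] at c'
    by_cases c : ξ < ξs
    · rw [if_pos c]
      have a1 := lkk_dir_lt_top hb hP hz hl0 hl ξ h0 c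
      have a2 : 0 ≤ (1 - pT) * min 1 ((ξ' - ξs) / om) :=
        mul_nonneg (by linarith) (le_min zero_le_one (div_nonneg (by linarith) ho.le))
      linarith
    · rw [if_neg c]
      have : min 1 ((ξ - ξs) / om) ≤ min 1 ((ξ' - ξs) / om) :=
        min_le_min_left _ (div_le_div_of_nonneg_right (by linarith) ho.le)
      have := mul_le_mul_of_nonneg_left this (by linarith : 0 ≤ 1 - pT)
      linarith

theorem lkk_br_le_one (ξ : ℝ) (h0 : 0 ≤ ξ) : lkkBr A0 P lam ξs pT om ξ ≤ 1 := by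
  have hp1 := hb.pT1
  unfold lkkBr
  split_ifs with c
  · exact ((lkk_dir_lt_top hb hP hz hl0 hl ξ h0 c).trans hp1).le
  · have : (1 - pT) * min 1 ((ξ - ξs) / om) ≤ (1 - pT) * 1 :=
      mul_le_mul_of_nonneg_left (min_le_left _ _) (by linarith)
    linarith

theorem lkk_br_rc (ξ : ℝ) (h0 : 0 ≤ ξ) : ContinuousWithinAt (lkkBr A0 P lam ξs pT om) (Ici ξ) ξ := by
  rcases lt_or_ge ξ ξs with h | h
  · refine (lkk_dir_rc hb hP hz hl0 hl ξ h0).congr_of_eventuallyEq ?_ (by unfold lkkBr; rw [if_pos h])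
    filter_upwards [Ico_mem_nhdsGE h] with y hy
    unfold lkkBr; rw [if_pos hy.2]
  · have hc : Continuous fun y : ℝ => pT + (1 - pT) * min 1 ((y - ξs) / om) := by fun_prop
    refine hc.continuousWithinAt.congr (fun y hy => ?_) ?_
    · unfold lkkBr; rw [if_neg (not_lt.2 (h.trans hy))]
    · unfold lkkBr; rw [if_neg (not_lt.2 h)]

include hM hJ

theorem lkk_sm_low (ξ : ℝ) (h : ξ < ξs) : lkkSm A0 P lam ξs pT om M J ξ = lkkDir A0 P lam ξ + om * ξ := by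
  unfold lkkSm lkkBr
  rw [if_neg (not_le.2 (h.trans hM)), if_pos h]

theorem lkk_sm_mono : MonotoneOn (lkkSm A0 P lam ξs pT om M J) (Ici 0) := by
  intro ξ h0 ξ' h0' h1
  have h00 : (0 : ℝ) ≤ ξ := h0
  unfold lkkSm
  by_cases c' : M ≤ ξ'
  · rw [if_pos c']
    by_cases c : M ≤ ξ
    · rw [if_pos c]
    · rw [if_neg c]
      rw [not_le] at c
      have a1 := lkk_br_le_one hb hP hz hl0 hl ho ξ h0
      have a2 : om * ξ ≤ om * M := mul_le_mul_of_nonneg_left c.le ho.le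
      linarith
  · rw [if_neg c', if_neg (fun c => c' (c.trans h1))]
    have a1 := lkk_br_mono hb hP hz hl0 hl ho h0 h0' h1
    have a2 : om * ξ ≤ om * ξ' := mul_le_mul_of_nonneg_left h1 ho.le
    linarith

theorem lkk_sm_rc (ξ : ℝ) (h0 : 0 ≤ ξ) : ContinuousWithinAt (lkkSm A0 P lam ξs pT om M J) (Ici ξ) ξ := by
  rcases lt_or_ge ξ M with h | h
  · have hc : ContinuousWithinAt (fun y => lkkBr A0 P lam ξs pT om y + om * y) (Ici ξ) ξ :=
      (lkk_br_rc hb hP hz hl0 hl ho ξ h0).add (by fun_prop)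
    refine hc.congr_of_eventuallyEq ?_ (by unfold lkkSm; rw [if_neg (not_le.2 h)])
    filter_upwards [Ico_mem_nhdsGE h] with y hy
    unfold lkkSm; rw [if_neg (not_le.2 hy.2)]
  · refine (continuousWithinAt_const (b := J)).congr (fun y hy => ?_) ?_
    · unfold lkkSm; rw [if_pos (h.trans hy)]
    · unfold lkkSm; rw [if_pos h]

theorem lkk_sm_zero : lkkSm A0 P lam ξs pT om M J 0 = 0 := by
  rw [lkk_sm_low hb hP hz hl0 hl ho hM hJ 0 (hb.x10.trans hb.x1s), lkk_dir_zero hb hP hz hl0 hl, mul_zero, add_zero]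

theorem lkk_sm_prof : LpqProf (lkkSm A0 P lam ξs pT om M J) M J where
  mono := lkk_sm_mono hb hP hz hl0 hl ho hM hJ
  rc := lkk_sm_rc hb hP hz hl0 hl ho hM hJ
  nn := (lkk_sm_zero hb hP hz hl0 hl ho hM hJ).ge
  top := fun ξ h => by unfold lkkSm; rw [if_pos h]
  tau := ((hb.x10.trans hb.x1s).trans hM).le

theorem lkk_sm_lo (ξ ξ' : ℝ) (h0 : 0 ≤ ξ) (h1 : ξ ≤ ξ') (h2 : ξ' ≤ ξ1) :
    ca / 2 * (ξ' - ξ) ≤ lkkSm A0 P lam ξs pT om M J ξ' - lkkSm A0 P lam ξs pT om M J ξ := by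
  rw [lkk_sm_low hb hP hz hl0 hl ho hM hJ ξ' (lt_of_le_of_lt h2 hb.x1s),
    lkk_sm_low hb hP hz hl0 hl ho hM hJ ξ (lt_of_le_of_lt (h1.trans h2) hb.x1s)]
  have a1 := lkk_dir_lo hb hP hz hl0 hl ξ ξ' h0 h1 h2
  have a2 : om * ξ ≤ om * ξ' := mul_le_mul_of_nonneg_left h1 ho.le
  linarith

theorem lkk_sm_hi (ξ ξ' : ℝ) (h0 : 0 ≤ ξ) (h1 : ξ ≤ ξ') (h2 : ξ' < ξs) :
    lkkSm A0 P lam ξs pT om M J ξ' - lkkSm A0 P lam ξs pT om M J ξ ≤ (Ca + ca / 2 + om) * (ξ' - ξ) := by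
  rw [lkk_sm_low hb hP hz hl0 hl ho hM hJ ξ' h2, lkk_sm_low hb hP hz hl0 hl ho hM hJ ξ (lt_of_le_of_lt h1 h2)]
  have a1 := lkk_dir_hi hb hP hz hl0 hl ξ ξ' h0 h1 h2
  nlinarith

/-- the global lower density `ω` below `M` -/
theorem lkk_sm_lo_glob (ξ ξ' : ℝ) (h0 : 0 ≤ ξ) (h1 : ξ ≤ ξ') (h2 : ξ' < M) :
    om * (ξ' - ξ) ≤ lkkSm A0 P lam ξs pT om M J ξ' - lkkSm A0 P lam ξs pT om M J ξ := by
  unfold lkkSm
  rw [if_neg (not_le.2 h2), if_neg (not_le.2 (lt_of_le_of_lt h1 h2))]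
  have a1 := lkk_br_mono hb hP hz hl0 hl ho (mem_Ici.2 h0) (mem_Ici.2 (h0.trans h1)) h1
  nlinarith

end sm

/-! ## 4. the clock of an abstract profile -/

/-- the physical clock of the profile `A` at the size `ℓ` -/
noncomputable def lkkK (A : ℝ → ℝ) (ell : ℝ) : ℝ → ℝ := fun v => (ell ^ 2)⁻¹ * llInv A (v / ell)

section clock

variable {A : ℝ → ℝ} {τ J cl Ch ξ1 ell v0 : ℝ} (hA : LpqProf A τ J) (hA0 : A 0 = 0) (hcl : 0 < cl) (hCh : 0 < Ch)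
  (h1 : 0 ≤ ξ1)
  (lo : ∀ ξ ξ', 0 ≤ ξ → ξ ≤ ξ' → ξ' ≤ ξ1 → cl * (ξ' - ξ) ≤ A ξ' - A ξ)
  (hi : ∀ ξ ξ', 0 ≤ ξ → ξ ≤ ξ' → ξ' ≤ ξ1 → A ξ' - A ξ ≤ Ch * (ξ' - ξ))
  (hl1 : 1 ≤ ell) (hl3 : ell ^ 3 ≤ 2) (hv0 : v0 ≤ cl * ξ1)

include hA hl1

theorem lkk_K_mono : MonotoneOn (lkkK A ell) (Iic (ell * J)) := by
  intro v _ v' hv' hvv
  have hl : 0 < ell := by linarith
  unfold lkkK
  refine mul_le_mul_of_nonneg_left ?_ (by positivity)
  exact lpq_inv_mono hA _ _ (div_le_div_of_nonneg_right hvv hl.le) ((div_le_iff₀ hl).2 (by rw [mul_comm]; exact hv'))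

theorem lkk_K_top (v : ℝ) (hv : v ≤ ell * J) : ell ^ 2 * lkkK A ell v ≤ τ := by
  have hl : 0 < ell := by linarith
  unfold lkkK
  rw [← mul_assoc, mul_inv_cancel₀ (by positivity), one_mul]
  exact lpq_inv_le_tau hA _ ((div_le_iff₀ hl).2 (by rw [mul_comm]; exact hv))

include hA0

theorem lkk_K_zero : lkkK A ell 0 = 0 := by
  unfold lkkK
  rw [zero_div, lpq_inv_zero 0 hA0.ge, mul_zero]

include hcl h1 lo hv0

theorem lkk_level (v' : ℝ) (h0 : 0 ≤ v') (hv' : v' ≤ v0) : v' / ell ≤ A ξ1 := by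
  have hl : 0 < ell := by linarith
  have a1 := lo 0 ξ1 le_rfl h1 le_rfl
  rw [hA0, sub_zero, sub_zero] at a1
  have a2 : v' / ell ≤ v' := div_le_self h0 hl1
  linarith

theorem lkk_K_hi (v v' : ℝ) (h0 : 0 ≤ v) (hvv : v ≤ v') (hv' : v' ≤ v0) :
    lkkK A ell v' - lkkK A ell v ≤ 1 / cl * (v' - v) := by
  have hl : 0 < ell := by linarith
  have a1 := lpq_inv_lip hA cl ξ1 lo h1 (v / ell) (v' / ell) (div_le_div_of_nonneg_right hvv hl.le)
    (lkk_level hA hA0 hcl h1 lo hl1 hv0 v' (h0.trans hvv) hv')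
  have a2 : v' / ell - v / ell ≤ v' - v := by
    rw [← sub_div]; exact div_le_self (by linarith) hl1
  have hm := lpq_inv_mono hA (v / ell) (v' / ell) (div_le_div_of_nonneg_right hvv hl.le)
    ((lkk_level hA hA0 hcl h1 lo hl1 hv0 v' (h0.trans hvv) hv').trans (hA.mem_Icc ξ1 h1).2)
  have a3 : llInv A (v' / ell) - llInv A (v / ell) ≤ 1 / cl * (v' - v) := by
    rw [one_div, inv_mul_eq_div, le_div_iff₀ hcl]; linarith
  have a4 : (ell ^ 2)⁻¹ ≤ 1 := inv_le_one_of_one_le₀ (one_le_pow₀ hl1)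
  unfold lkkK
  rw [← mul_sub]
  calc (ell ^ 2)⁻¹ * (llInv A (v' / ell) - llInv A (v / ell))
      ≤ 1 * (llInv A (v' / ell) - llInv A (v / ell)) := mul_le_mul_of_nonneg_right a4 (by linarith)
    _ ≤ 1 / cl * (v' - v) := by rw [one_mul]; exact a3

include hCh hi hl3

theorem lkk_K_lo (v v' : ℝ) (h0 : 0 ≤ v) (hvv : v ≤ v') (hv' : v' ≤ v0) :
    1 / (2 * Ch) * (v' - v) ≤ lkkK A ell v' - lkkK A ell v := by
  have hl : 0 < ell := by linarith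
  have a1 := lpq_inv_lip_lower hA Ch ξ1 hi h1 (v / ell) (v' / ell) (by rw [hA0]; positivity)
    (div_le_div_of_nonneg_right hvv hl.le) (lkk_level hA hA0 hcl h1 lo hl1 hv0 v' (h0.trans hvv) hv')
  unfold lkkK
  rw [← mul_sub, ← sub_div] at *
  set d := llInv A (v' / ell) - llInv A (v / ell) with hd
  -- `(v'-v)/ℓ ≤ Ch d`, so `(v'-v) ≤ Ch ℓ d`, and `ℓ³ ≤ 2`
  have a2 : v' - v ≤ Ch * d * ell := by rwa [div_le_iff₀ hl] at a1
  have hd0 : 0 ≤ d := by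
    have : 0 ≤ Ch * d * ell := le_trans (by linarith) a2
    by_contra hneg
    rw [not_le] at hneg
    have : Ch * d * ell < 0 := mul_neg_of_neg_of_pos (mul_neg_of_pos_of_neg hCh hneg) hl
    linarith
  rw [one_div, inv_mul_eq_div, div_le_iff₀ (by positivity)]
  have e : (ell ^ 2)⁻¹ * d * (2 * Ch) = (2 * (Ch * d)) / ell ^ 2 := by field_simp
  rw [e, le_div_iff₀ (by positivity)]
  have a3 : (v' - v) * ell ^ 2 ≤ Ch * d * ell * ell ^ 2 := mul_le_mul_of_nonneg_right a2 (by positivity)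
  have a4 : Ch * d * ell * ell ^ 2 = Ch * d * ell ^ 3 := by ring
  have a5 : Ch * d * ell ^ 3 ≤ Ch * d * 2 := mul_le_mul_of_nonneg_left hl3 (by positivity)
  linarith

end clock

/-! ## 5. scales -/

theorem lkk_x_pos {p : LlPt} (h : 2 ≤ p.N) : 0 < p.x := by
  have : (0 : ℝ) < p.N := by exact_mod_cast (by omega : 0 < p.N)
  exact Real.rpow_pos_of_pos this _

theorem lkk_x_lt_one {p : LlPt} (h : 2 ≤ p.N) : p.x < 1 := by
  have : (1 : ℝ) < p.N := by exact_mod_cast (by omega : 1 < p.N)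
  exact Real.rpow_lt_one_of_one_lt_of_neg this (by norm_num)

/-- `x → 0` -/
theorem lkk_x_small {ε : ℝ} (hε : 0 < ε) : ∃ N0 : ℕ, ∀ p : LlPt, N0 ≤ p.N → p.x ≤ ε := by
  have h1 : Tendsto (fun n : ℕ => (n : ℝ) ^ (-(1 / 6) : ℝ)) atTop (𝓝 0) :=
    (tendsto_rpow_neg_atTop (by norm_num : (0 : ℝ) < 1 / 6)).comp tendsto_natCast_atTop_atTop
  have h2 : ∀ᶠ n : ℕ in atTop, (n : ℝ) ^ (-(1 / 6) : ℝ) ≤ ε := h1.eventually_le_const hε
  obtain ⟨N0, hN0⟩ := eventually_atTop.1 h2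
  exact ⟨N0, fun p hp => hN0 p.N hp⟩

theorem lkk_lam_pos {p : LlPt} {F : LlFix} (hp : p.Ok F) : 0 < p.lam :=
  lt_of_lt_of_le (Real.rpow_pos_of_pos (lkk_x_pos hp.N2) _) hp.lam_lo

/-- `λ → 0` uniformly -/
theorem lkk_lam_small {F : LlFix} (hF : F.Ok) {ε : ℝ} (hε : 0 < ε) :
    ∃ N0 : ℕ, ∀ p : LlPt, p.Ok F → N0 ≤ p.N → p.lam ≤ ε := by
  obtain ⟨N0, hN0⟩ := lkk_x_small (ε := ε ^ (1 / F.pS)) (Real.rpow_pos_of_pos hε _)
  refine ⟨N0, fun p hp hN => hp.lam_hi.trans ?_⟩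
  calc p.x ^ F.pS ≤ (ε ^ (1 / F.pS)) ^ F.pS :=
        Real.rpow_le_rpow (lkk_x_pos hp.N2).le (hN0 p hN) hF.pS0.le
    _ = ε := by
        rw [← Real.rpow_mul hε.le, one_div, inv_mul_cancel₀ hF.pS0.ne', Real.rpow_one]

theorem lkk_ell6 {p : LlPt} {F : LlFix} (hp : p.Ok F) : p.ell ^ 6 ≤ 2 := by
  have h0 : 0 ≤ p.ell := by linarith [hp.ell1]
  calc p.ell ^ 6 ≤ ((2 : ℝ) ^ (1 / 6 : ℝ)) ^ 6 := pow_le_pow_left₀ h0 hp.ell2 6
    _ = 2 := by
        rw [← Real.rpow_natCast, ← Real.rpow_mul (by norm_num)]; norm_num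

theorem lkk_ell3 {p : LlPt} {F : LlFix} (hp : p.Ok F) : p.ell ^ 3 ≤ 2 := by
  have h1 := hp.ell1
  have h6 := lkk_ell6 hp
  have : p.ell ^ 3 ≤ p.ell ^ 6 := pow_le_pow_right₀ h1 (by norm_num)
  linarith

theorem lkk_ell_le_two {p : LlPt} {F : LlFix} (hp : p.Ok F) : p.ell ≤ 2 := by
  have h1 := hp.ell1
  have h3 := lkk_ell3 hp
  have : p.ell ^ 1 ≤ p.ell ^ 3 := pow_le_pow_right₀ h1 (by norm_num)
  linarith

theorem lkk_om_pos {p : LlPt} (h : 2 ≤ p.N) : 0 < p.om := Real.rpow_pos_of_pos (lkk_x_pos h) _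

theorem lkk_om_le {p : LlPt} (h : 2 ≤ p.N) : p.om ≤ p.x ^ 3 := by
  unfold LlPt.om
  rw [← Real.rpow_natCast]
  exact Real.rpow_le_rpow_of_exponent_ge (lkk_x_pos h) (lkk_x_lt_one h).le (by norm_num)

theorem lkk_om_le_one {p : LlPt} (h : 2 ≤ p.N) : p.om ≤ 1 :=
  (lkk_om_le h).trans (pow_le_one₀ (lkk_x_pos h).le (lkk_x_lt_one h).le)

theorem lkk_log_nonneg {p : LlPt} (h : 2 ≤ p.N) : 0 ≤ Real.log (1 / p.x) :=
  Real.log_nonneg (by rw [le_div_iff₀ (lkk_x_pos h)]; linarith [lkk_x_lt_one h])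

theorem lkk_M_nonneg {p : LlPt} (h : 2 ≤ p.N) : 0 ≤ p.M := pow_nonneg (lkk_log_nonneg h) 3

/-- `ω M ≤ 1` -/
theorem lkk_omM {p : LlPt} (h : 2 ≤ p.N) : p.om * p.M ≤ 1 := by
  have hx := lkk_x_pos h
  have h0 := lkk_log_nonneg h
  have h1 : Real.log (1 / p.x) ≤ 1 / p.x := by
    have := Real.log_le_sub_one_of_pos (by positivity : 0 < 1 / p.x)
    linarith
  have h2 : p.x * Real.log (1 / p.x) ≤ 1 := by
    calc p.x * Real.log (1 / p.x) ≤ p.x * (1 / p.x) := mul_le_mul_of_nonneg_left h1 hx.le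
      _ = 1 := by field_simp
  have h3 : (p.x * Real.log (1 / p.x)) ^ 3 ≤ 1 := pow_le_one₀ (by positivity) h2
  calc p.om * p.M ≤ p.x ^ 3 * p.M := mul_le_mul_of_nonneg_right (lkk_om_le h) (lkk_M_nonneg h)
    _ = (p.x * Real.log (1 / p.x)) ^ 3 := by unfold LlPt.M; ring
    _ ≤ 1 := h3

/-- `M → ∞` -/
theorem lkk_M_large (R : ℝ) : ∃ N0 : ℕ, ∀ p : LlPt, 2 ≤ p.N → N0 ≤ p.N → R < p.M := by
  obtain ⟨N0, hN0⟩ := lkk_x_small (ε := Real.exp (-(|R| + 1))) (Real.exp_pos _)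
  refine ⟨N0, fun p h2 hN => ?_⟩
  have hx := lkk_x_pos h2
  have h1 : |R| + 1 ≤ Real.log (1 / p.x) := by
    rw [one_div, Real.log_inv, le_neg, ← Real.log_exp (-(|R| + 1))]
    exact Real.log_le_log hx (hN0 p hN)
  have h3 : (1 : ℝ) ≤ |R| + 1 := by linarith [abs_nonneg R]
  have h4 : |R| + 1 ≤ (|R| + 1) ^ 3 := by
    have : (|R| + 1) ^ 1 ≤ (|R| + 1) ^ 3 := pow_le_pow_right₀ h3 (by norm_num)
    simpa using this
  have h5 : (|R| + 1) ^ 3 ≤ p.M := pow_le_pow_left₀ (by linarith) h1 3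
  linarith [le_abs_self R]

/-! ## 6. the exit -/

/-- the six `K`-fields of `LlPt.Ref` -/
structure LlPt.KRef (p : LlPt) (F : LlFix) (𝔹 : LlBase) (c C v0 : ℝ) : Prop where
  K_mono : MonotoneOn (p.K F 𝔹) (Ioo 0 p.a)
  K_lo : ∀ v v', 0 < v → v ≤ v' → v' ≤ v0 → c * (v' - v) ≤ p.K F 𝔹 v' - p.K F 𝔹 v
  K_hi : ∀ v v', 0 < v → v ≤ v' → v' ≤ v0 → p.K F 𝔹 v' - p.K F 𝔹 v ≤ C * (v' - v)
  K_lo0 : ∀ v, 0 < v → v ≤ v0 → c * v ≤ p.K F 𝔹 v
  K_hi0 : ∀ v, 0 < v → v ≤ v0 → p.K F 𝔹 v ≤ C * v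
  K_top : ∀ v ∈ Ioo 0 p.a, p.ell ^ 2 * p.K F 𝔹 v ≤ if p.sm then p.M else 𝔹.xiS F.T

theorem lkk_Adir_eq (p : LlPt) (F : LlFix) (𝔹 : LlBase) : p.Adir F 𝔹 = lkkDir (𝔹.A0 F.T) F.P p.lam := rfl

theorem lkk_Asm_eq (p : LlPt) (F : LlFix) (𝔹 : LlBase) :
    p.Asm F 𝔹 = lkkSm (𝔹.A0 F.T) F.P p.lam (𝔹.xiS F.T) (𝔹.pTop F.T) p.om p.M (4 / p.ell) := rfl

theorem lkk_K_eq (p : LlPt) (F : LlFix) (𝔹 : LlBase) : p.K F 𝔹 = lkkK (p.Aprof F 𝔹) p.ell := rfl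

/-- the constants of the exit -/
noncomputable def lkkC1 (ca Ca : ℝ) : ℝ := min 1 (1 / (2 * (Ca + ca / 2 + 1)))
noncomputable def lkkC2 (ca : ℝ) : ℝ := max 1 (1 / (ca / 2))
noncomputable def lkkV0 (ca ξ1 : ℝ) : ℝ := min (1 / 2) (ca / 2 * ξ1)

/-- from an abstract profile to the six fields -/
theorem lkk_KRef_of {p : LlPt} {F : LlFix} {𝔹 : LlBase} {ca Ca ξ1 τ J : ℝ} (hp : p.Ok F) (hca : 0 < ca) (hCa : 0 ≤ Ca)
    (h1 : 0 ≤ ξ1) (hA : LpqProf (p.Aprof F 𝔹) τ J) (hA0 : p.Aprof F 𝔹 0 = 0)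
    (lo : ∀ ξ ξ', 0 ≤ ξ → ξ ≤ ξ' → ξ' ≤ ξ1 → ca / 2 * (ξ' - ξ) ≤ p.Aprof F 𝔹 ξ' - p.Aprof F 𝔹 ξ)
    (hi : ∀ ξ ξ', 0 ≤ ξ → ξ ≤ ξ' → ξ' ≤ ξ1 → p.Aprof F 𝔹 ξ' - p.Aprof F 𝔹 ξ ≤ (Ca + ca / 2 + 1) * (ξ' - ξ))
    (haJ : p.a = p.ell * J) (hτ : τ = if p.sm then p.M else 𝔹.xiS F.T) :
    p.KRef F 𝔹 (lkkC1 ca Ca) (lkkC2 ca) (lkkV0 ca ξ1) := by
  have hcl : 0 < ca / 2 := by linarith
  have hCh : 0 < Ca + ca / 2 + 1 := by linarith
  have hl1 := hp.ell1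
  have hl3 := lkk_ell3 hp
  have hv0 : lkkV0 ca ξ1 ≤ ca / 2 * ξ1 := min_le_right _ _
  have hc1 : lkkC1 ca Ca ≤ 1 / (2 * (Ca + ca / 2 + 1)) := min_le_right _ _
  have hc2 : 1 / (ca / 2) ≤ lkkC2 ca := le_max_right _ _
  have LO : ∀ v v', 0 ≤ v → v ≤ v' → v' ≤ lkkV0 ca ξ1 → lkkC1 ca Ca * (v' - v) ≤ p.K F 𝔹 v' - p.K F 𝔹 v := by
    intro v v' h0 hvv hv'
    rw [lkk_K_eq]
    exact (mul_le_mul_of_nonneg_right hc1 (by linarith)).trans
      (lkk_K_lo hA hA0 hcl hCh h1 lo hi hl1 hl3 hv0 v v' h0 hvv hv')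
  have HI : ∀ v v', 0 ≤ v → v ≤ v' → v' ≤ lkkV0 ca ξ1 → p.K F 𝔹 v' - p.K F 𝔹 v ≤ lkkC2 ca * (v' - v) := by
    intro v v' h0 hvv hv'
    rw [lkk_K_eq]
    exact (lkk_K_hi hA hA0 hcl h1 lo hl1 hv0 v v' h0 hvv hv').trans (mul_le_mul_of_nonneg_right hc2 (by linarith))
  have K0 : p.K F 𝔹 0 = 0 := by rw [lkk_K_eq]; exact lkk_K_zero hA hA0 hl1
  refine ⟨?_, fun v v' h0 => LO v v' h0.le, fun v v' h0 => HI v v' h0.le, ?_, ?_, ?_⟩
  · rw [lkk_K_eq]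
    exact (lkk_K_mono hA hl1).mono (fun v hv => by rw [mem_Iic, ← haJ]; exact hv.2.le)
  · intro v h0 hv
    have := LO 0 v le_rfl h0.le hv
    rwa [K0, sub_zero, sub_zero] at this
  · intro v h0 hv
    have := HI 0 v le_rfl h0.le hv
    rwa [K0, sub_zero, sub_zero] at this
  · intro v hv
    rw [← hτ, lkk_K_eq]
    exact lkk_K_top hA hl1 v (by rw [← haJ]; exact hv.2.le)

/-- **the K-kit at one point** -/
theorem lkk_point {p : LlPt} {F : LlFix} {𝔹 : LlBase} {ca Ca ξ1 LP : ℝ}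
    (hb : LkkBase (𝔹.A0 F.T) (𝔹.xiS F.T) (𝔹.pTop F.T) ca Ca ξ1) (hP : LkkCut F.P F.z0 LP) (hz : F.z0 ≤ ξ1)
    (hp : p.Ok F) (hl : p.lam * LP ≤ ca / 2) (hM : 𝔹.xiS F.T < p.M) :
    p.KRef F 𝔹 (lkkC1 ca Ca) (lkkC2 ca) (lkkV0 ca ξ1) := by
  have hl0 := (lkk_lam_pos hp).le
  have hell : 0 < p.ell := by linarith [hp.ell1]
  have ho := lkk_om_pos hp.N2
  have ho1 := lkk_om_le_one hp.N2
  have hJ : 1 + p.om * p.M ≤ 4 / p.ell := by
    rw [le_div_iff₀ hell]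
    have h1 := lkk_omM hp.N2
    have h2 := lkk_ell_le_two hp
    have h3 : 0 ≤ p.om * p.M := mul_nonneg ho.le (lkk_M_nonneg hp.N2)
    nlinarith
  cases hsm : p.sm with
  | false =>
    have eA : p.Aprof F 𝔹 = lkkDir (𝔹.A0 F.T) F.P p.lam := by unfold LlPt.Aprof; rw [hsm]; rfl
    refine lkk_KRef_of (τ := 𝔹.xiS F.T) (J := 1) hp hb.ca0 hb.Ca0 hb.x10.le ?_ ?_ ?_ ?_ ?_ ?_
    · rw [eA]; exact lkk_dir_prof hb hP hz hl0 hl
    · rw [eA]; exact lkk_dir_zero hb hP hz hl0 hl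
    · rw [eA]; exact lkk_dir_lo hb hP hz hl0 hl
    · rw [eA]
      intro ξ ξ' h0 h1 h2
      refine (lkk_dir_hi hb hP hz hl0 hl ξ ξ' h0 h1 (lt_of_le_of_lt h2 hb.x1s)).trans ?_
      exact mul_le_mul_of_nonneg_right (by linarith) (by linarith)
    · unfold LlPt.a; rw [hsm]; simp
    · rw [hsm]; simp
  | true =>
    have eA : p.Aprof F 𝔹 = lkkSm (𝔹.A0 F.T) F.P p.lam (𝔹.xiS F.T) (𝔹.pTop F.T) p.om p.M (4 / p.ell) := by
      unfold LlPt.Aprof; rw [hsm]; rfl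
    refine lkk_KRef_of (τ := p.M) (J := 4 / p.ell) hp hb.ca0 hb.Ca0 hb.x10.le ?_ ?_ ?_ ?_ ?_ ?_
    · rw [eA]; exact lkk_sm_prof hb hP hz hl0 hl ho hM hJ
    · rw [eA]; exact lkk_sm_zero hb hP hz hl0 hl ho hM hJ
    · rw [eA]; exact lkk_sm_lo hb hP hz hl0 hl ho hM hJ
    · rw [eA]
      intro ξ ξ' h0 h1 h2
      refine (lkk_sm_hi hb hP hz hl0 hl ho hM hJ ξ ξ' h0 h1 (lt_of_le_of_lt h2 hb.x1s)).trans ?_
      exact mul_le_mul_of_nonneg_right (by linarith) (by linarith)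
    · unfold LlPt.a; rw [hsm]; field_simp; simp
    · rw [hsm]; simp

/-- **EXIT of the K-kit.**   `zb, c, C, v0` depend on `𝔹, T` only; `N0` (inside `LlUnif`) on `F`. -/
theorem lkk_main (𝔹 : LlBase) (T : ℝ) (hb : LlBaseProfile 𝔹 T) :
    ∃ zb c C v0 : ℝ, 0 < zb ∧ 0 < c ∧ c ≤ 1 ∧ 1 ≤ C ∧ 0 < v0 ∧ v0 ≤ 1 / 2 ∧
      ∀ F : LlFix, F.Ok → F.T = T → F.z0 ≤ zb → LlUnif F fun p => p.KRef F 𝔹 c C v0 := by
  obtain ⟨ca, Ca, ξ1, hB⟩ := lkk_base 𝔹 T hb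
  have hca := hB.ca0
  have hCa := hB.Ca0
  have h1 := hB.x10
  refine ⟨ξ1, lkkC1 ca Ca, lkkC2 ca, lkkV0 ca ξ1, h1, lt_min one_pos (by positivity), min_le_left _ _,
    le_max_left _ _, lt_min (by norm_num) (by positivity), min_le_left _ _, ?_⟩
  intro F hF hT hz
  subst hT
  obtain ⟨LP, hP⟩ := lkk_cut F hF
  obtain ⟨N1, hN1⟩ := lkk_lam_small hF (ε := ca / 2 / (LP + 1)) (by have := hP.LP0; positivity)
  obtain ⟨N2, hN2⟩ := lkk_M_large (𝔹.xiS F.T)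
  refine ⟨max N1 N2, fun p hp hN => ?_⟩
  refine lkk_point hB hP hz hp ?_ (hN2 p hp.N2 ((le_max_right _ _).trans hN))
  have a1 := hN1 p hp ((le_max_left _ _).trans hN)
  have hLP := hP.LP0
  have a2 : p.lam * (LP + 1) ≤ ca / 2 := by rwa [le_div_iff₀ (by linarith)] at a1
  have := lkk_lam_pos hp
  nlinarith

/-! ## 7. the direct clock as a function of the strength (fields `K`, `K_far` of `LlPt.RegL`) -/

section dirL

variable {A0 P : ℝ → ℝ} {ξs pT ca Ca ξ1 z0 LP lam lam' : ℝ}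
  (hb : LkkBase A0 ξs pT ca Ca ξ1) (hP : LkkCut P z0 LP) (hz : z0 ≤ ξ1) (hl0 : 0 ≤ lam) (hl : lam * LP ≤ ca / 2)
  (hl0' : 0 ≤ lam') (hl' : lam' * LP ≤ ca / 2)

include hb hP hz hl0 hl hl0' hl'

/-- beyond `z_0` the inverse does not see the strength -/
theorem lkk_dir_inv_far (w : ℝ) (hw : w ≤ 1) (hfar : z0 ≤ llInv (lkkDir A0 P lam) w) :
    llInv (lkkDir A0 P lam') w = llInv (lkkDir A0 P lam) w := by
  have hz0 := hP.z00
  have hca := hb.ca0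
  have hzs : z0 < ξs := lt_of_le_of_lt hz hb.x1s
  -- `A z0 ≤ w`
  have hAz : lkkDir A0 P lam z0 ≤ w := by
    refine le_of_forall_pos_le_add (fun ε hε => ?_)
    set η := max 0 (z0 - ε / (Ca + ca / 2 + 1)) with hη
    have hC : 0 < Ca + ca / 2 + 1 := by linarith [hb.Ca0]
    have hη0 : 0 ≤ η := le_max_left _ _
    have hηz : η < z0 := max_lt hz0 (by have : 0 < ε / (Ca + ca / 2 + 1) := by positivity
                                        linarith)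
    have h1 := lpq_lt_of_lt_inv (A := lkkDir A0 P lam) w η hη0 (lt_of_lt_of_le hηz hfar)
    have h2 := lkk_dir_hi hb hP hz hl0 hl η z0 hη0 hηz.le hzs
    have h3 : z0 - η ≤ ε / (Ca + ca / 2 + 1) := by linarith [le_max_right 0 (z0 - ε / (Ca + ca / 2 + 1))]
    have h4 : (Ca + ca / 2) * (z0 - η) ≤ (Ca + ca / 2 + 1) * (ε / (Ca + ca / 2 + 1)) :=
      mul_le_mul (by linarith) h3 (by linarith) hC.le
    rw [mul_div_cancel₀ _ hC.ne'] at h4
    linarith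
  refine lpq_inv_congr w (fun η hη0 => ?_)
  rcases le_total z0 η with c | c
  · rw [lkk_dir_far hb hP hz hl0 hl η c, lkk_dir_far hb hP hz hl0' hl' η c]
  · rcases eq_or_lt_of_le c with c | c
    · rw [c, lkk_dir_far hb hP hz hl0 hl z0 le_rfl, lkk_dir_far hb hP hz hl0' hl' z0 le_rfl]
    · have h1 := lpq_lt_of_lt_inv (A := lkkDir A0 P lam) w η hη0 (lt_of_lt_of_le c hfar)
      have h2 := lkk_dir_lo hb hP hz hl0' hl' η z0 hη0 c.le hz
      have h3 : 0 < ca / 2 * (z0 - η) := mul_pos (by linarith) (by linarith)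
      rw [lkk_dir_far hb hP hz hl0' hl' z0 le_rfl, ← lkk_dir_far hb hP hz hl0 hl z0 le_rfl] at h2
      constructor
      · intro h; linarith
      · intro h; linarith

/-- Lipschitz dependence of the inverse on the strength -/
theorem lkk_dir_inv_lip (w : ℝ) (hw0 : 0 ≤ w) (hw : w ≤ 1) :
    |llInv (lkkDir A0 P lam') w - llInv (lkkDir A0 P lam) w| ≤ (2 / ca) ^ 2 * |lam' - lam| * w := by
  have hca := hb.ca0
  have hr : 0 ≤ (2 / ca) ^ 2 * |lam' - lam| * w := by positivity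
  rcases le_or_gt z0 (llInv (lkkDir A0 P lam) w) with c | c
  · rw [lkk_dir_inv_far hb hP hz hl0 hl hl0' hl' w hw c, sub_self, abs_zero]; exact hr
  rcases le_or_gt z0 (llInv (lkkDir A0 P lam') w) with c' | c'
  · rw [lkk_dir_inv_far hb hP hz hl0' hl' hl0 hl w hw c', sub_self, abs_zero]; exact hr
  have hA := lkk_dir_prof hb hP hz hl0 hl
  have hA' := lkk_dir_prof hb hP hz hl0' hl'
  set ξ := llInv (lkkDir A0 P lam) w with hξ
  set ξ' := llInv (lkkDir A0 P lam') w with hξ'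
  have h0 : 0 ≤ ξ := lpq_inv_nonneg _ _
  have h0' : 0 ≤ ξ' := lpq_inv_nonneg _ _
  have hi : ∀ (l : ℝ), 0 ≤ l → l * LP ≤ ca / 2 → ∀ η η', 0 ≤ η → η ≤ η' → η' ≤ ξ1 →
      lkkDir A0 P l η' - lkkDir A0 P l η ≤ (Ca + ca / 2) * (η' - η) := fun l a b η η' c d e =>
    lkk_dir_hi hb hP hz a b η η' c d (lt_of_le_of_lt e hb.x1s)
  -- the level is attained
  have e1 : lkkDir A0 P lam ξ = w := by
    refine lpq_at_inv_eq hA (Ca + ca / 2) ξ1 (hi lam hl0 hl) hb.x10.le w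
      (by rw [lkk_dir_zero hb hP hz hl0 hl]; exact hw0) ?_
    exact (lpq_le_at_inv hA w hw).trans (hA.mono (mem_Ici.2 h0) (mem_Ici.2 hb.x10.le) (c.le.trans hz))
  have e2 : lkkDir A0 P lam' ξ' = w := by
    refine lpq_at_inv_eq hA' (Ca + ca / 2) ξ1 (hi lam' hl0' hl') hb.x10.le w
      (by rw [lkk_dir_zero hb hP hz hl0' hl']; exact hw0) ?_
    exact (lpq_le_at_inv hA' w hw).trans (hA'.mono (mem_Ici.2 h0') (mem_Ici.2 hb.x10.le) (c'.le.trans hz))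
  -- `ξ' ≤ (2/ca) w`
  have hx' : ca / 2 * ξ' ≤ w := by
    have := lkk_dir_lo hb hP hz hl0' hl' 0 ξ' le_rfl h0' (c'.le.trans hz)
    rw [lkk_dir_zero hb hP hz hl0' hl', e2] at this
    linarith
  -- `A ξ' - A ξ = (λ - λ') P ξ'`
  have e3 : lkkDir A0 P lam ξ' - lkkDir A0 P lam ξ = (lam - lam') * P ξ' := by
    rw [e1, ← e2]; unfold lkkDir; ring
  have hPx : |P ξ'| ≤ ξ' := by rw [abs_of_nonneg (hP.nn ξ' h0')]; exact hP.le ξ' h0'
  have key : ca / 2 * |ξ' - ξ| ≤ |lam' - lam| * ξ' := by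
    have hb1 : |(lam - lam') * P ξ'| ≤ |lam' - lam| * ξ' := by
      rw [abs_mul, abs_sub_comm]; exact mul_le_mul_of_nonneg_left hPx (abs_nonneg _)
    rcases le_total ξ ξ' with d | d
    · have := lkk_dir_lo hb hP hz hl0 hl ξ ξ' h0 d (c'.le.trans hz)
      rw [abs_of_nonneg (by linarith : 0 ≤ ξ' - ξ)]
      rw [e3] at this
      exact this.trans ((le_abs_self _).trans hb1)
    · have := lkk_dir_lo hb hP hz hl0 hl ξ' ξ h0' d (c.le.trans hz)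
      rw [abs_of_nonpos (by linarith : ξ' - ξ ≤ 0)]
      have e4 : lkkDir A0 P lam ξ - lkkDir A0 P lam ξ' = -((lam - lam') * P ξ') := by linarith
      rw [e4] at this
      have h5 : ca / 2 * -(ξ' - ξ) = ca / 2 * (ξ - ξ') := by ring
      rw [h5]
      exact this.trans ((neg_le_abs _).trans hb1)
  have hd : 0 ≤ |lam' - lam| := abs_nonneg _
  have k2 : |lam' - lam| * (ca / 2 * ξ') ≤ |lam' - lam| * w := mul_le_mul_of_nonneg_left hx' hd
  have e5 : (2 / ca) ^ 2 * |lam' - lam| * w = (|lam' - lam| * w) / (ca / 2) ^ 2 := by field_simp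
  rw [e5, le_div_iff₀ (by positivity)]
  nlinarith

/-- the inverse is `O(w)` on the whole mass interval -/
theorem lkk_dir_inv_le (w : ℝ) (hw0 : 0 ≤ w) (hw : w ≤ 1) :
    llInv (lkkDir A0 P lam) w ≤ 2 * ξs / (ca * ξ1) * w := by
  have hca := hb.ca0
  have h1 := hb.x10
  have h1s := hb.x1s
  have hA := lkk_dir_prof hb hP hz hl0 hl
  rcases le_total w (ca / 2 * ξ1) with c | c
  · have hx : 2 / ca * w ≤ ξ1 := by
      rw [div_mul_eq_mul_div, div_le_iff₀ hca]; linarith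
    have hx0 : 0 ≤ 2 / ca * w := by positivity
    have a1 := lkk_dir_lo hb hP hz hl0 hl 0 (2 / ca * w) le_rfl hx0 hx
    rw [lkk_dir_zero hb hP hz hl0 hl, sub_zero, sub_zero] at a1
    have a2 : ca / 2 * (2 / ca * w) = w := by field_simp
    rw [a2] at a1
    refine (lpq_inv_le _ w _ hx0 a1).trans ?_
    refine mul_le_mul_of_nonneg_right ?_ hw0
    rw [div_le_div_iff₀ hca (by positivity)]
    nlinarith
  · refine (lpq_inv_le_tau hA w hw).trans ?_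
    have a2 : ξs = 2 * ξs / (ca * ξ1) * (ca / 2 * ξ1) := by field_simp
    calc ξs = 2 * ξs / (ca * ξ1) * (ca / 2 * ξ1) := a2
      _ ≤ 2 * ξs / (ca * ξ1) * w := mul_le_mul_of_nonneg_left c (by have := h1.trans h1s; positivity)

end dirL

/-! ## 8. the smoothed clock as a function of the size (fields `K0`, `Kpt`, `l1` of `LlPt.RegT`) -/

/-- a monotone bounded function read at two scales: the `L¹` distance is controlled without any modulus of continuity -/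
theorem lkk_mono_shift {f : ℝ → ℝ} {Bf ell ell' : ℝ} (h1 : 1 ≤ ell) (hll : ell ≤ ell')
    (hf : MonotoneOn f (Icc 0 (4 / ell))) (hf0 : ∀ w ∈ Icc 0 (4 / ell), 0 ≤ f w) (hfB : ∀ w ∈ Icc 0 (4 / ell), f w ≤ Bf) :
    ∫ v in (0 : ℝ)..4, |f (v / ell) - f (v / ell')| ≤ 4 * Bf * (ell' - ell) := by
  have hl : 0 < ell := by linarith
  have hl' : 0 < ell' := by linarith
  have h44 : 4 / ell' ≤ 4 / ell := div_le_div_of_nonneg_left (by norm_num) hl hll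
  have h40 : 0 ≤ 4 / ell' := by positivity
  have hB0 : 0 ≤ Bf := (hf0 0 ⟨le_rfl, by positivity⟩).trans (hfB 0 ⟨le_rfl, by positivity⟩)
  have i1 : IntervalIntegrable f volume 0 (4 / ell) := by
    refine MonotoneOn.intervalIntegrable ?_
    rwa [uIcc_of_le (by positivity)]
  have i2 : IntervalIntegrable f volume 0 (4 / ell') :=
    i1.mono_set (by rw [uIcc_of_le h40, uIcc_of_le (by positivity)]; exact Icc_subset_Icc_right h44)
  have i3 : IntervalIntegrable f volume (4 / ell') (4 / ell) :=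
    i1.mono_set (by rw [uIcc_of_le h44, uIcc_of_le (by positivity)]; exact Icc_subset_Icc_left h40)
  have j1 : IntervalIntegrable (fun v => f (v / ell)) volume 0 4 := by
    have := i1.comp_mul_left (c := ell⁻¹)
    simpa [div_eq_inv_mul, hl.ne'] using this
  have j2 : IntervalIntegrable (fun v => f (v / ell')) volume 0 4 := by
    have := i2.comp_mul_left (c := ell'⁻¹)
    simpa [div_eq_inv_mul, hl'.ne'] using this
  have e0 : ∫ v in (0 : ℝ)..4, |f (v / ell) - f (v / ell')| = ∫ v in (0 : ℝ)..4, (f (v / ell) - f (v / ell')) := by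
    refine intervalIntegral.integral_congr (fun v hv => ?_)
    rw [uIcc_of_le (by norm_num)] at hv
    have a1 : v / ell' ≤ v / ell := div_le_div_of_nonneg_left hv.1 hl hll
    have a2 : v / ell ≤ 4 / ell := div_le_div_of_nonneg_right hv.2 hl.le
    have a3 : 0 ≤ v / ell' := div_nonneg hv.1 hl'.le
    exact abs_of_nonneg (sub_nonneg.2 (hf ⟨a3, a1.trans a2⟩ ⟨a3.trans a1, a2⟩ a1))
  rw [e0, intervalIntegral.integral_sub j1 j2, intervalIntegral.integral_comp_div _ hl.ne',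
    intervalIntegral.integral_comp_div _ hl'.ne', zero_div, zero_div, smul_eq_mul, smul_eq_mul,
    ← intervalIntegral.integral_add_adjacent_intervals i2 i3]
  have b1 : ∫ w in (4 / ell')..(4 / ell), f w ≤ Bf * (4 / ell - 4 / ell') := by
    have := intervalIntegral.integral_mono_on h44 i3 (intervalIntegrable_const (c := Bf))
      (fun w hw => hfB w ⟨h40.trans hw.1, hw.2⟩)
    rw [intervalIntegral.integral_const, smul_eq_mul] at this
    linarith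
  have b2 : 0 ≤ ∫ w in (0 : ℝ)..(4 / ell'), f w :=
    intervalIntegral.integral_nonneg h40 (fun w hw => hf0 w ⟨hw.1, hw.2.trans h44⟩)
  have b3 : ell * (Bf * (4 / ell - 4 / ell')) = 4 * Bf * ((ell' - ell) / ell') := by field_simp
  have b4 : (ell' - ell) / ell' ≤ ell' - ell := div_le_self (by linarith) (by linarith)
  have b5 : ell * ∫ w in (4 / ell')..(4 / ell), f w ≤ ell * (Bf * (4 / ell - 4 / ell')) :=
    mul_le_mul_of_nonneg_left b1 hl.le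
  have b6 : 4 * Bf * ((ell' - ell) / ell') ≤ 4 * Bf * (ell' - ell) := mul_le_mul_of_nonneg_left b4 (by positivity)
  have b7 : 0 ≤ (ell' - ell) * ∫ w in (0 : ℝ)..(4 / ell'), f w := mul_nonneg (by linarith) b2
  nlinarith

theorem lkk_K_diff_alg {ell ell' X X' : ℝ} (h1 : 1 ≤ ell) (h1' : 1 ≤ ell') (hX' : 0 ≤ X') :
    |(ell' ^ 2)⁻¹ * X' - (ell ^ 2)⁻¹ * X| ≤ 2 * |ell' - ell| * X' + |X' - X| := by
  have hl : 0 < ell := by linarith
  have hl' : 0 < ell' := by linarith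
  have e1 : (ell' ^ 2)⁻¹ * X' - (ell ^ 2)⁻¹ * X = ((ell' ^ 2)⁻¹ - (ell ^ 2)⁻¹) * X' + (ell ^ 2)⁻¹ * (X' - X) := by ring
  have e2 : (ell' ^ 2)⁻¹ - (ell ^ 2)⁻¹ = (ell - ell') * ((ell + ell') / (ell ^ 2 * ell' ^ 2)) := by
    field_simp; ring
  have b1 : (ell + ell') / (ell ^ 2 * ell' ^ 2) ≤ 2 := by
    rw [div_le_iff₀ (by positivity)]
    have a1 : 1 ≤ ell * ell' ^ 2 := by nlinarith [mul_pos hl hl', sq_nonneg ell']
    have a2 : 1 ≤ ell ^ 2 * ell' := by nlinarith [mul_pos hl hl', sq_nonneg ell]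
    nlinarith
  have b0 : 0 ≤ (ell + ell') / (ell ^ 2 * ell' ^ 2) := by positivity
  have b2 : (ell ^ 2)⁻¹ ≤ 1 := inv_le_one_of_one_le₀ (by nlinarith)
  have b3 : 0 ≤ (ell ^ 2)⁻¹ := by positivity
  rw [e1]
  refine (abs_add_le _ _).trans (add_le_add ?_ ?_)
  · rw [abs_mul, abs_of_nonneg hX', e2, abs_mul, abs_of_nonneg b0, abs_sub_comm]
    refine mul_le_mul_of_nonneg_right ?_ hX'
    rw [mul_comm 2]
    exact mul_le_mul_of_nonneg_left b1 (abs_nonneg _)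
  · rw [abs_mul, abs_of_nonneg b3]
    exact mul_le_of_le_one_left (abs_nonneg _) b2

/-- the inverse of the smoothed profile does not see the terminal mass -/
theorem lkk_sm_inv_congr (A0 P : ℝ → ℝ) (lam ξs pT om M : ℝ) {J J' : ℝ} (w : ℝ) (hw : w ≤ J) (hw' : w ≤ J') :
    llInv (lkkSm A0 P lam ξs pT om M J') w = llInv (lkkSm A0 P lam ξs pT om M J) w := by
  refine lpq_inv_congr w (fun η _ => ?_)
  unfold lkkSm
  by_cases c : M ≤ η
  · rw [if_pos c, if_pos c]; exact ⟨fun _ => hw, fun _ => hw'⟩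
  · rw [if_neg c, if_neg c]

section smT

variable {A0 P : ℝ → ℝ} {ξs pT ca Ca ξ1 z0 LP lam om M J : ℝ}
  (hb : LkkBase A0 ξs pT ca Ca ξ1) (hP : LkkCut P z0 LP) (hz : z0 ≤ ξ1) (hl0 : 0 ≤ lam) (hl : lam * LP ≤ ca / 2)
  (ho : 0 < om) (hM : ξs < M) (hJ : 1 + om * M ≤ J)

include hb hP hz hl0 hl ho hM hJ

theorem lkk_sm_lo_clo (ξ ξ' : ℝ) (h0 : 0 ≤ ξ) (h1 : ξ ≤ ξ') (h2 : ξ' ≤ M) :
    om * (ξ' - ξ) ≤ lkkSm A0 P lam ξs pT om M J ξ' - lkkSm A0 P lam ξs pT om M J ξ := by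
  rcases lt_or_eq_of_le h2 with c | c
  · exact lkk_sm_lo_glob hb hP hz hl0 hl ho hM hJ ξ ξ' h0 h1 c
  · subst c
    rcases lt_or_eq_of_le h1 with d | d
    · have a1 := lkk_br_le_one hb hP hz hl0 hl ho ξ h0
      unfold lkkSm
      rw [if_pos le_rfl, if_neg (not_le.2 d)]
      nlinarith
    · subst d; simp

theorem lkk_sm_inv_lip_glob (w w' : ℝ) (hww : w ≤ w') (hw' : w' ≤ J) :
    om * (llInv (lkkSm A0 P lam ξs pT om M J) w' - llInv (lkkSm A0 P lam ξs pT om M J) w) ≤ w' - w := by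
  have hA := lkk_sm_prof hb hP hz hl0 hl ho hM hJ
  exact lpq_inv_lip hA om M (lkk_sm_lo_clo hb hP hz hl0 hl ho hM hJ) hA.tau w w' hww (by rw [hA.top M le_rfl]; exact hw')

theorem lkk_sm_level : ca / 2 * ξ1 ≤ lkkSm A0 P lam ξs pT om M J ξ1 := by
  have a1 := lkk_sm_lo hb hP hz hl0 hl ho hM hJ 0 ξ1 le_rfl hb.x10.le le_rfl
  rw [lkk_sm_zero hb hP hz hl0 hl ho hM hJ] at a1
  linarith

theorem lkk_sm_inv_lip0 (w w' : ℝ) (hww : w ≤ w') (hw' : w' ≤ ca / 2 * ξ1) :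
    ca / 2 * (llInv (lkkSm A0 P lam ξs pT om M J) w' - llInv (lkkSm A0 P lam ξs pT om M J) w) ≤ w' - w := by
  have hA := lkk_sm_prof hb hP hz hl0 hl ho hM hJ
  exact lpq_inv_lip hA (ca / 2) ξ1 (lkk_sm_lo hb hP hz hl0 hl ho hM hJ) hb.x10.le w w' hww
    (hw'.trans (lkk_sm_level hb hP hz hl0 hl ho hM hJ))

theorem lkk_sm_inv_le0 (w : ℝ) (hw0 : 0 ≤ w) (hw : w ≤ ca / 2 * ξ1) :
    ca / 2 * llInv (lkkSm A0 P lam ξs pT om M J) w ≤ w := by
  have a1 := lkk_sm_inv_lip0 hb hP hz hl0 hl ho hM hJ 0 w hw0 hw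
  rw [lpq_inv_zero 0 (lkk_sm_zero hb hP hz hl0 hl ho hM hJ).ge] at a1
  linarith

end smT

section smX

variable {A0 P : ℝ → ℝ} {ξs pT ca Ca ξ1 z0 LP lam om M ell ell' : ℝ}
  (hb : LkkBase A0 ξs pT ca Ca ξ1) (hP : LkkCut P z0 LP) (hz : z0 ≤ ξ1) (hl0 : 0 ≤ lam) (hl : lam * LP ≤ ca / 2)
  (ho : 0 < om) (hM : ξs < M) (h1 : 1 ≤ ell) (h1' : 1 ≤ ell') (hJ : 1 + om * M ≤ 4 / ell) (hJ' : 1 + om * M ≤ 4 / ell')

include hb hP hz hl0 hl ho hM h1 h1' hJ hJ'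

/-- the two normalised times read on ONE inverse -/
theorem lkk_sm_xi_red (hll : ell ≤ ell') (v : ℝ) (hv0 : 0 ≤ v) (hv : v ≤ 4) :
    |llInv (lkkSm A0 P lam ξs pT om M (4 / ell')) (v / ell') - llInv (lkkSm A0 P lam ξs pT om M (4 / ell)) (v / ell)|
      = llInv (lkkSm A0 P lam ξs pT om M (4 / ell)) (v / ell) - llInv (lkkSm A0 P lam ξs pT om M (4 / ell)) (v / ell') := by
  have hel : 0 < ell := by linarith
  have hel' : 0 < ell' := by linarith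
  have a1 : v / ell' ≤ v / ell := div_le_div_of_nonneg_left hv0 hel hll
  have a2 : v / ell ≤ 4 / ell := div_le_div_of_nonneg_right hv hel.le
  have a3 : v / ell' ≤ 4 / ell' := div_le_div_of_nonneg_right hv hel'.le
  rw [lkk_sm_inv_congr A0 P lam ξs pT om M (v / ell') (a1.trans a2) a3, abs_sub_comm]
  exact abs_of_nonneg (sub_nonneg.2 (lpq_inv_mono (lkk_sm_prof hb hP hz hl0 hl ho hM hJ) _ _ a1 a2))

theorem lkk_w_diff (hll : ell ≤ ell') (v : ℝ) (hv0 : 0 ≤ v) : v / ell - v / ell' ≤ v * (ell' - ell) := by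
  have hel : 0 < ell := by linarith
  have hel' : 0 < ell' := by linarith
  have e : v / ell - v / ell' = v * (ell' - ell) / (ell * ell') := by field_simp
  rw [e]
  exact div_le_self (mul_nonneg hv0 (by linarith)) (by nlinarith)

/-- pointwise, all masses: the inverse density `1/ω` -/
theorem lkk_sm_xi_pt (v : ℝ) (hv0 : 0 ≤ v) (hv : v ≤ 4) :
    om * |llInv (lkkSm A0 P lam ξs pT om M (4 / ell')) (v / ell') - llInv (lkkSm A0 P lam ξs pT om M (4 / ell)) (v / ell)|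
      ≤ 4 * |ell' - ell| := by
  wlog hll : ell ≤ ell' generalizing ell ell'
  · have := this h1' h1 hJ' hJ (le_of_not_ge hll)
    rwa [abs_sub_comm, abs_sub_comm ell ell'] at this
  have hel : 0 < ell := by linarith
  rw [lkk_sm_xi_red hb hP hz hl0 hl ho hM h1 h1' hJ hJ' hll v hv0 hv, abs_of_nonneg (by linarith : 0 ≤ ell' - ell)]
  have a1 := lkk_sm_inv_lip_glob hb hP hz hl0 hl ho hM hJ (v / ell') (v / ell)
    (div_le_div_of_nonneg_left hv0 hel hll) (div_le_div_of_nonneg_right hv hel.le)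
  have a2 := lkk_w_diff hb hP hz hl0 hl ho hM h1 h1' hJ hJ' hll v hv0
  nlinarith

/-- small masses -/
theorem lkk_sm_xi_0 (v : ℝ) (hv0 : 0 ≤ v) (hv : v ≤ ca / 2 * ξ1) (hv4 : v ≤ 4) :
    ca / 2 * |llInv (lkkSm A0 P lam ξs pT om M (4 / ell')) (v / ell') - llInv (lkkSm A0 P lam ξs pT om M (4 / ell)) (v / ell)|
      ≤ v * |ell' - ell| := by
  wlog hll : ell ≤ ell' generalizing ell ell'
  · have := this h1' h1 hJ' hJ (le_of_not_ge hll)
    rwa [abs_sub_comm, abs_sub_comm ell ell'] at this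
  have hel : 0 < ell := by linarith
  rw [lkk_sm_xi_red hb hP hz hl0 hl ho hM h1 h1' hJ hJ' hll v hv0 hv4, abs_of_nonneg (by linarith : 0 ≤ ell' - ell)]
  have a1 := lkk_sm_inv_lip0 hb hP hz hl0 hl ho hM hJ (v / ell') (v / ell)
    (div_le_div_of_nonneg_left hv0 hel hll) ((div_le_self hv0 h1).trans hv)
  have a2 := lkk_w_diff hb hP hz hl0 hl ho hM h1 h1' hJ hJ' hll v hv0
  linarith

/-- integrated over all masses: NO inverse power of `ω` -/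
theorem lkk_sm_xi_l1 :
    ∫ v in (0 : ℝ)..4, |llInv (lkkSm A0 P lam ξs pT om M (4 / ell')) (v / ell')
        - llInv (lkkSm A0 P lam ξs pT om M (4 / ell)) (v / ell)| ≤ 4 * M * |ell' - ell| := by
  wlog hll : ell ≤ ell' generalizing ell ell'
  · have := this h1' h1 hJ' hJ (le_of_not_ge hll)
    rw [abs_sub_comm ell ell'] at this
    refine le_trans (le_of_eq ?_) this
    exact intervalIntegral.integral_congr (fun v _ => abs_sub_comm _ _)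
  have hel : 0 < ell := by linarith
  have hA := lkk_sm_prof hb hP hz hl0 hl ho hM hJ
  rw [abs_of_nonneg (by linarith : 0 ≤ ell' - ell)]
  have e : ∫ v in (0 : ℝ)..4, |llInv (lkkSm A0 P lam ξs pT om M (4 / ell')) (v / ell')
        - llInv (lkkSm A0 P lam ξs pT om M (4 / ell)) (v / ell)|
      = ∫ v in (0 : ℝ)..4, |llInv (lkkSm A0 P lam ξs pT om M (4 / ell)) (v / ell)
        - llInv (lkkSm A0 P lam ξs pT om M (4 / ell)) (v / ell')| := by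
    refine intervalIntegral.integral_congr (fun v hv => ?_)
    rw [uIcc_of_le (by norm_num)] at hv
    have a1 : v / ell' ≤ v / ell := div_le_div_of_nonneg_left hv.1 hel hll
    have a2 : v / ell ≤ 4 / ell := div_le_div_of_nonneg_right hv.2 hel.le
    rw [lkk_sm_xi_red hb hP hz hl0 hl ho hM h1 h1' hJ hJ' hll v hv.1 hv.2]
    exact (abs_of_nonneg (sub_nonneg.2 (lpq_inv_mono hA _ _ a1 a2))).symm
  rw [e]
  exact lkk_mono_shift h1 hll ((lpq_inv_monoOn hA).mono fun w hw => hw.2) (fun w _ => lpq_inv_nonneg _ _)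
    (fun w hw => lpq_inv_le_tau hA w hw.2)

end smX

end Claimed.Agent.R286
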