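import Claimed.Agent.R286.LL.PathsPkD
import Claimed.Agent.R286.LL.PathsKk

/-!
# Row 286 (S0533), LL Section 3: (P2) NEAR THE ORIGIN ON THE DIRECT PATHS      (owner helper143; prefix `lrd_`, types `LlPt.RefD`, `LlRefD`)
TEX[LL:paths:lift] (03-paths.tex l.113-117, l.146-165)

What LL Section 7 (nodes N11, N12, N18a; scalar tie `bi_tie`) uses of the DIRECT reference and `LlPt.Ref` / `LlSec3` do not contain.   All of it needs that `A_λ = A_0 + λ P` is a mass profile, i.e. the threshold on `z_0`.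
* `A_mono A_zero A_top dist` : `A_λ` is a mass profile and it is THE distribution function of the normalised clock `w ↦ ℓ² K(ℓ w)`  (⟹ `skWorld.Gam Fr.K = p.GamN` as FUNCTIONS on `[0,∞)`);
* `g1_lip`  : `Γ'' = O(λ t)` near `0`, in increment form   (`Γ'' = -2 λ P E χ³ + O(ξ ρ_1)`, l.146-165: `LppOk.curve`, `lpp_F_M3`, `lpp_F_N3`);
* `K_diff K_der` : `K` is differentiable near `0` and `ℓ³ K' = 1/A_λ'(ξ) → T/κ_T`   (⟹ `β_0 = q⁻¹` is `C¹` near `0`, `β_0' → κ_T`).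
EXIT `lrd_main` : `∃ zb > 0, ∀ F, F.Ok → F.T = T → F.z0 ≤ zb → ∃ C v1, 0 < v1 ∧ LlRefD 𝔹 F C v1`   (the form of the hypothesis `hP` of `ll3_asm`).
-/

set_option autoImplicit false
set_option linter.unusedSectionVars false

namespace Claimed.Agent.R286

open MeasureTheory Set Filter Topology

/-! ## 0. the statement -/

/- `structure LlPt.RefD`, `def LlRefD` live in `LL/PathsDefs.lean` since 15 Oct 05:50Z (field `refd` of `LlSec3`). -/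

/-! ## 1. a profile is the distribution function of its generalised inverse -/

theorem lrd_dist {A : ℝ → ℝ} {τ : ℝ} (hA : LpqProf A τ 1) (ξ : ℝ) (hξ : 0 ≤ ξ) :
    (volume {w : ℝ | w ∈ Ioo (0 : ℝ) 1 ∧ llInv A w ≤ ξ}).toReal = A ξ := by
  have hm := hA.mem_Icc ξ hξ
  have e : {w : ℝ | w ∈ Ioo (0 : ℝ) 1 ∧ llInv A w ≤ ξ} = Ioo 0 1 ∩ Iic (A ξ) := by
    ext w
    simp only [mem_ofPred_eq, mem_inter_iff, mem_Iic]
    constructor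
    · rintro ⟨h1, h2⟩; exact ⟨h1, (lpq_galois hA w ξ h1.2.le hξ).1 h2⟩
    · rintro ⟨h1, h2⟩; exact ⟨h1, (lpq_galois hA w ξ h1.2.le hξ).2 h2⟩
  rw [e]
  rcases eq_or_lt_of_le hm.2 with h1 | h1
  · have e2 : Ioo (0 : ℝ) 1 ∩ Iic (A ξ) = Ioo 0 1 := by
      rw [h1]; exact inter_eq_left.2 fun w hw => hw.2.le
    rw [e2, Real.volume_Ioo, h1]; simp
  · have e2 : Ioo (0 : ℝ) 1 ∩ Iic (A ξ) = Ioc 0 (A ξ) := by
      ext w
      simp only [mem_inter_iff, mem_Ioo, mem_Iic, mem_Ioc]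
      constructor
      · rintro ⟨⟨a, _⟩, b⟩; exact ⟨a, b⟩
      · rintro ⟨a, b⟩; exact ⟨⟨a, lt_of_le_of_lt b h1⟩, b⟩
    rw [e2, Real.volume_Ioc, ENNReal.toReal_ofReal (by linarith [hm.1])]; ring

/-- a mass profile with terminal mass one is admissible for the package -/
theorem lrd_adm {A : ℝ → ℝ} {τ : ℝ} (hA : LpqProf A τ 1) : LppAdm A 1 where
  j1 := le_rfl
  j4 := by norm_num
  mono := hA.mono
  nn := fun ξ h => (hA.mem_Icc ξ h).1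
  le := fun ξ h => (hA.mem_Icc ξ h).2
  top := ⟨τ, hA.top⟩

/-! ## 2. `Γ̂'` is Lipschitz with the constant `O(λ ξ)` near the origin -/

section near

variable {S : LppMod} (hS : LppOk S) {T ξs B : ℝ} {A0 : ℝ → ℝ} (hb : LppBase S T A0 ξs) (hB : LppB S ξs B)
  {CA : ℝ} (hCA0 : 0 ≤ CA) (hCA : ∀ ξ ∈ Icc 0 ξs, A0 ξ ≤ CA * ξ)
  {z0 : ℝ} {P : ℝ → ℝ} (hz : 0 < z0) (hzs : z0 ≤ ξs) (hP : LppCut z0 P)
  {lam om dl j : ℝ} {A : ℝ → ℝ} (hl : 0 ≤ lam) (ho : 0 ≤ om) (hd : 0 ≤ dl) (hN : LppNear S A0 P ξs lam om dl A j)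

include hS hb hB hCA0 hCA hz hzs hP hl ho hd hN

theorem lrd_E1_nonneg : 0 ≤ lppE1 B CA lam om dl z0 := by
  have hB1 := hB.one
  have hE : 0 ≤ lppEb B lam dl z0 := by unfold lppEb; positivity
  have hH : 0 ≤ lppH1 B CA lam om dl z0 := by unfold lppH1; positivity
  unfold lppE1
  positivity

/-- the error integrand, pointwise (the step `hpt` of `lpp_F_err`) -/
theorem lrd_err_pt (r : ℝ) (hr0 : 0 ≤ r) (hrz : r ≤ z0) :
    |(S.N3 A j r - S.N3 A0 1 r) - 2 * A0 r * (S.M3 A j r - S.M3 A0 1 r)| ≤ lppE1 B CA lam om dl z0 * r := by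
  have hB1 := hB.one
  have hE : 0 ≤ lppEb B lam dl z0 := by unfold lppEb; positivity
  have hH : 0 ≤ lppH1 B CA lam om dl z0 := by unfold lppH1; positivity
  have f1 := lpp_F_M3 hS hb hB hCA0 hCA hz hzs hP hl ho hd hN r hr0 hrz
  have f2 := lpp_F_N3 hS hb hB hCA0 hCA hz hzs hP hl ho hd hN r hr0 hrz
  have a0 : 0 ≤ A0 r := hb.adm.nn r hr0
  have a1 : A0 r ≤ CA * r := hCA r ⟨hr0, hrz.trans hzs⟩
  have r3a : r ^ 3 ≤ r * z0 ^ 2 := by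
    have : r ^ 2 ≤ z0 ^ 2 := pow_le_pow_left₀ hr0 hrz 2
    have := mul_le_mul_of_nonneg_left this hr0
    calc r ^ 3 = r * r ^ 2 := by ring
      _ ≤ r * z0 ^ 2 := this
  have r3b : r ^ 3 ≤ z0 ^ 3 := pow_le_pow_left₀ hr0 hrz 3
  have c1 : 3 * B ^ 4 * lppH1 B CA lam om dl z0 * r ^ 3 ≤ 3 * B ^ 4 * lppH1 B CA lam om dl z0 * (r * z0 ^ 2) :=
    mul_le_mul_of_nonneg_left r3a (by positivity)
  have c2 : 3 * B ^ 4 * lppH1 B CA lam om dl z0 * r ^ 3 ≤ 3 * B ^ 4 * lppH1 B CA lam om dl z0 * z0 ^ 3 :=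
    mul_le_mul_of_nonneg_left r3b (by positivity)
  have c3 : |2 * A0 r * (S.M3 A j r - S.M3 A0 1 r)|
      ≤ 2 * (CA * r) * (3 * B ^ 2 * lppEb B lam dl z0 + 3 * B ^ 4 * lppH1 B CA lam om dl z0 * z0 ^ 3) := by
    rw [abs_mul, abs_of_nonneg (by positivity : (0 : ℝ) ≤ 2 * A0 r)]
    exact mul_le_mul (by linarith) (f1.trans (by linarith)) (abs_nonneg _) (by positivity)
  refine (abs_sub _ _).trans ?_
  unfold lppE1
  have e : (2 * B ^ 2 * lppEb B lam dl z0 + 3 * B ^ 4 * lppH1 B CA lam om dl z0 * z0 ^ 2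
      + 2 * CA * (3 * B ^ 2 * lppEb B lam dl z0 + 3 * B ^ 4 * lppH1 B CA lam om dl z0 * z0 ^ 3)) * r
      = 2 * B ^ 2 * lppEb B lam dl z0 * r + 3 * B ^ 4 * lppH1 B CA lam om dl z0 * (r * z0 ^ 2)
        + 2 * (CA * r) * (3 * B ^ 2 * lppEb B lam dl z0 + 3 * B ^ 4 * lppH1 B CA lam om dl z0 * z0 ^ 3) := by ring
  rw [e]
  linarith

theorem lrd_M3_abs (r : ℝ) (hr : 0 ≤ r) : |S.M3 A j r| ≤ B ^ 3 := by
  have hb3 : ∀ z, |S.vk 2 A j r z ^ 3| ≤ B ^ 3 := fun z => by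
    rw [abs_pow]
    exact pow_le_pow_left₀ (abs_nonneg _) (hB.bd 2 (by norm_num) (by norm_num) A j hN.adm r hr z) 3
  exact lpp_ex_abs_le_const hS hN.adm hr (LppCls.of_bdd ((lpp_vk_cont hS hN.adm hr 2).pow 3) hb3) hb3

/-- **`|Γ̂'(ξ') - Γ̂'(ξ)| ≤ (E₁ + 2 (λ + ω) B³) ξ' (ξ' - ξ)`** on `[0,z_0]` -/
theorem lrd_M2_lip (hzs' : z0 < ξs) (ξ ξ' : ℝ) (h0 : 0 ≤ ξ) (h1 : ξ ≤ ξ') (h2 : ξ' ≤ z0) :
    |S.M2 A j ξ' - S.M2 A j ξ| ≤ (lppE1 B CA lam om dl z0 + 2 * (lam + om) * B ^ 3) * ξ' * (ξ' - ξ) := by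
  have hB1 := hB.one
  have hE1 := lrd_E1_nonneg hS hb hB hCA0 hCA hz hzs hP hl ho hd hN
  have c1 := hS.curve A j hN.adm ξ ξ' h0 h1
  have c2 := hS.curve A0 1 hb.adm ξ ξ' h0 h1
  rw [lpp_base_M2 hS hb ξ' ⟨h0.trans h1, h2.trans hzs⟩, lpp_base_M2 hS hb ξ ⟨h0, (h1.trans h2).trans hzs⟩, sub_self] at c2
  have i1 := lpp_aux_curv_int hS hN.adm ξ ξ' h0 (h0.trans h1)
  have i2 := lpp_aux_curv_int hS hb.adm ξ ξ' h0 (h0.trans h1)
  have e : S.M2 A j ξ' - S.M2 A j ξ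
      = ∫ r in ξ..ξ', ((S.N3 A j r - 2 * A r * S.M3 A j r) - (S.N3 A0 1 r - 2 * A0 r * S.M3 A0 1 r)) := by
    rw [intervalIntegral.integral_sub i1 i2, ← c1, ← c2, sub_zero]
  rw [e]
  have hbd := intervalIntegral.norm_integral_le_of_norm_le_const (a := ξ) (b := ξ')
    (C := (lppE1 B CA lam om dl z0 + 2 * (lam + om) * B ^ 3) * ξ')
    (f := fun r => (S.N3 A j r - 2 * A r * S.M3 A j r) - (S.N3 A0 1 r - 2 * A0 r * S.M3 A0 1 r)) (fun r hr => by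
      rw [uIoc_of_le h1] at hr
      have hr0 : 0 ≤ r := h0.trans hr.1.le
      have hrz : r ≤ z0 := hr.2.trans h2
      have p0 := hP.nn r hr0
      rw [hN.eq r ⟨hr0, lt_of_le_of_lt hrz hzs'⟩, Real.norm_eq_abs]
      have e1 : S.N3 A j r - 2 * (A0 r + lam * P r + om * r) * S.M3 A j r - (S.N3 A0 1 r - 2 * A0 r * S.M3 A0 1 r)
          = ((S.N3 A j r - S.N3 A0 1 r) - 2 * A0 r * (S.M3 A j r - S.M3 A0 1 r)) - 2 * (lam * P r + om * r) * S.M3 A j r := by ring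
      rw [e1]
      have b1 := lrd_err_pt hS hb hB hCA0 hCA hz hzs hP hl ho hd hN r hr0 hrz
      have q0 : 0 ≤ lam * P r + om * r := add_nonneg (mul_nonneg hl p0.1) (mul_nonneg ho hr0)
      have q2 : lam * P r + om * r ≤ (lam + om) * r := by have := mul_le_mul_of_nonneg_left p0.2 hl; linarith
      have b2 : |2 * (lam * P r + om * r) * S.M3 A j r| ≤ 2 * ((lam + om) * r) * B ^ 3 := by
        rw [abs_mul, abs_of_nonneg (by positivity : (0 : ℝ) ≤ 2 * (lam * P r + om * r))]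
        exact mul_le_mul (by linarith) (lrd_M3_abs hS hb hB hCA0 hCA hz hzs hP hl ho hd hN r hr0) (abs_nonneg _)
          (by positivity)
      have b3 : (lppE1 B CA lam om dl z0 + 2 * (lam + om) * B ^ 3) * r ≤ (lppE1 B CA lam om dl z0 + 2 * (lam + om) * B ^ 3) * ξ' :=
        mul_le_mul_of_nonneg_left hr.2 (by positivity)
      refine (abs_sub _ _).trans ?_
      nlinarith)
  rw [Real.norm_eq_abs, abs_of_nonneg (by linarith : 0 ≤ ξ' - ξ)] at hbd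
  exact hbd

end near

/-- `E₁` of the direct model is linear in the strength -/
theorem lrd_E1_dir (B CA lam z0 : ℝ) :
    lppE1 B CA lam 0 0 z0 = lam * lppE1 B CA 1 0 0 z0 := by
  unfold lppE1 lppH1 lppEb
  ring

/-! ## 3. the density of the base profile -/

theorem lrd_base (𝔹 : LlBase) (T : ℝ) (hb : LlBaseProfile 𝔹 T) :
    ∃ (a1 : ℝ → ℝ) (L : ℝ), 0 ≤ L ∧ a1 0 = 𝔹.kapT T / T ∧ (∀ ξ ∈ Ioo 0 (𝔹.xiS T), HasDerivAt (𝔹.A0 T) (a1 ξ) ξ) ∧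
      ∀ ξ ∈ Icc 0 (𝔹.xiS T), |a1 ξ - a1 0| ≤ L * ξ := by
  obtain ⟨a, ha0, _, ha1, hder⟩ := hb.tower
  have hxs := hb.xi_pos
  have hc2 : ContinuousOn (a 2) (Icc 0 (𝔹.xiS T)) := fun ξ hξ => (hder 2 ξ hξ).continuousWithinAt
  obtain ⟨B, hB⟩ := isCompact_Icc.exists_bound_of_continuousOn hc2
  refine ⟨a 1, |B|, abs_nonneg _, ha1, fun ξ hξ => ?_, fun ξ hξ => ?_⟩
  · have h1 : HasDerivAt (a 0) (a 1 ξ) ξ := (hder 0 ξ ⟨hξ.1.le, hξ.2.le⟩).hasDerivAt (Icc_mem_nhds hξ.1 hξ.2)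
    refine h1.congr_of_eventuallyEq ?_
    filter_upwards [Ioo_mem_nhds hξ.1 hξ.2] with y hy
    exact ha0 y ⟨hy.1.le, hy.2⟩
  · have := Convex.norm_image_sub_le_of_norm_hasDerivWithin_le (f := a 1) (f' := a 2) (C := |B|)
      (s := Icc 0 (𝔹.xiS T)) (x := 0) (y := ξ) (fun y hy => hder 1 y hy)
      (fun y hy => (hB y hy).trans (le_abs_self _)) (convex_Icc _ _) ⟨le_rfl, hxs.le⟩ hξ
    rwa [Real.norm_eq_abs, Real.norm_eq_abs, sub_zero, abs_of_nonneg hξ.1] at this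

/-! ## 4. the derivative of the generalised inverse -/

section inv

variable {A : ℝ → ℝ} {τ J cl Ch ξ1 : ℝ} (hA : LpqProf A τ J) (hA0 : A 0 = 0) (hcl : 0 < cl) (h1 : 0 ≤ ξ1)
  (lo : ∀ ξ ξ', 0 ≤ ξ → ξ ≤ ξ' → ξ' ≤ ξ1 → cl * (ξ' - ξ) ≤ A ξ' - A ξ)
  (hi : ∀ ξ ξ', 0 ≤ ξ → ξ ≤ ξ' → ξ' ≤ ξ1 → A ξ' - A ξ ≤ Ch * (ξ' - ξ))

include hA hA0 hcl h1 lo hi

theorem lrd_inv_mem (w : ℝ) (hw0 : 0 < w) (hw : w < A ξ1) : llInv A w ∈ Ioo 0 ξ1 ∧ A (llInv A w) = w ∧ cl * llInv A w ≤ w := by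
  have e := lpq_at_inv_eq hA Ch ξ1 hi h1 w (by rw [hA0]; exact hw0.le) hw.le
  have hle : llInv A w ≤ ξ1 := lpq_inv_le A w ξ1 h1 hw.le
  refine ⟨⟨?_, ?_⟩, e, ?_⟩
  · rcases eq_or_lt_of_le (lpq_inv_nonneg A w) with h | h
    · rw [← h, hA0] at e; linarith
    · exact h
  · rcases eq_or_lt_of_le hle with h | h
    · rw [h] at e; linarith
    · exact h
  · have := lo 0 (llInv A w) le_rfl (lpq_inv_nonneg A w) hle
    rw [e, hA0] at this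
    linarith

theorem lrd_inv_deriv (w : ℝ) (hw0 : 0 < w) (hw : w < A ξ1) {a' : ℝ} (hd : HasDerivAt A a' (llInv A w)) :
    cl ≤ a' ∧ HasDerivAt (llInv A) a'⁻¹ w := by
  obtain ⟨hm, -, -⟩ := lrd_inv_mem hA hA0 hcl h1 lo hi w hw0 hw
  have hcla : cl ≤ a' := by
    have hs : Tendsto (slope A (llInv A w)) (𝓝[>] (llInv A w)) (𝓝 a') :=
      (hasDerivWithinAt_iff_tendsto_slope' (by simp)).1 hd.hasDerivWithinAt
    refine ge_of_tendsto hs ?_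
    filter_upwards [Ioo_mem_nhdsGT hm.2] with y hy
    rw [slope_def_field, le_div_iff₀ (by linarith [hy.1])]
    exact lo _ y hm.1.le hy.1.le hy.2.le
  refine ⟨hcla, ?_⟩
  have hLip : LipschitzOnWith (Real.toNNReal (1 / cl)) (llInv A) (Iic (A ξ1)) := by
    refine LipschitzOnWith.of_dist_le_mul fun x hx y hy => ?_
    rw [Real.dist_eq, Real.dist_eq, Real.coe_toNNReal _ (by positivity)]
    wlog hxy : x ≤ y generalizing x y
    · rw [abs_sub_comm, abs_sub_comm x y]; exact this y hy x hx (le_of_not_ge hxy)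
    have a := lpq_inv_lip hA cl ξ1 lo h1 x y hxy hy
    have m := lpq_inv_mono hA x y hxy (le_trans hy (hA.mem_Icc ξ1 h1).2)
    rw [abs_sub_comm, abs_of_nonneg (by linarith), abs_sub_comm, abs_of_nonneg (by linarith)]
    rw [one_div, inv_mul_eq_div, le_div_iff₀ hcl]; linarith
  have hcont : ContinuousAt (llInv A) w := hLip.continuousOn.continuousAt (Iic_mem_nhds hw)
  have hfg : ∀ᶠ y in 𝓝 w, A (llInv A y) = y := by
    filter_upwards [Ioo_mem_nhds hw0 hw] with y hy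
    exact lpq_at_inv_eq hA Ch ξ1 hi h1 y (by rw [hA0]; exact hy.1.le) hy.2.le
  exact HasDerivAt.of_local_left_inverse hcont hd (ne_of_gt (lt_of_lt_of_le hcl hcla)) hfg

end inv

/-! ## 5. one point -/

/-- the constants of the exit -/
noncomputable def lrdC1 (B CA z0 : ℝ) : ℝ := 2 * (lppE1 B CA 1 0 0 z0 + 2 * B ^ 3)
noncomputable def lrdC2 (ca L κ0 : ℝ) : ℝ := (2 * L / ca + 1) * (2 / (ca * κ0))
noncomputable def lrdV1 (ca z0 : ℝ) : ℝ := min (z0 / 2) (ca * z0 / 4)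

theorem lrd_point {S : LppMod} (hS : LppOk S) {𝔹 : LlBase} (hlk : LppLink 𝔹 S) {F : LlFix} {p : LlPt} {ca Ca ξ1 LP B CA L : ℝ}
    {a1 : ℝ → ℝ} (hF : F.Ok) (hbL : LppBase S F.T (𝔹.A0 F.T) (𝔹.xiS F.T)) (hB : LppB S (𝔹.xiS F.T) B) (hCA0 : 0 ≤ CA)
    (hCA : ∀ ξ ∈ Icc 0 (𝔹.xiS F.T), 𝔹.A0 F.T ξ ≤ CA * ξ)
    (hb : LkkBase (𝔹.A0 F.T) (𝔹.xiS F.T) (𝔹.pTop F.T) ca Ca ξ1) (hP : LkkCut F.P F.z0 LP) (hz : F.z0 ≤ ξ1)
    (hL : 0 ≤ L) (ha0 : a1 0 = 𝔹.kapT F.T / F.T) (hkap : 0 < 𝔹.kapT F.T)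
    (hder : ∀ ξ ∈ Ioo 0 (𝔹.xiS F.T), HasDerivAt (𝔹.A0 F.T) (a1 ξ) ξ) (hlip : ∀ ξ ∈ Icc 0 (𝔹.xiS F.T), |a1 ξ - a1 0| ≤ L * ξ)
    (hp : p.Ok F) (hsm : p.sm = false) (hl : p.lam * LP ≤ ca / 2) :
    p.RefD F 𝔹 (lrdC1 B CA F.z0 + lrdC2 ca L (a1 0)) (lrdV1 ca F.z0) := by
  have hl0 := (lkk_lam_pos hp).le
  have hell1 := hp.ell1
  have hell : 0 < p.ell := by linarith
  have hz0 := hF.z00
  have hca := hb.ca0
  have hT0 : 0 < F.T := by linarith [hF.T1]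
  have hκ0 : 0 < a1 0 := by rw [ha0]; exact div_pos hkap hT0
  have hB1 := hB.one
  have eA : p.Aprof F 𝔹 = lkkDir (𝔹.A0 F.T) F.P p.lam := by unfold LlPt.Aprof; rw [hsm]; rfl
  have ej : p.j = 1 := by unfold LlPt.j; rw [hsm]; simp
  have hprof := lkk_dir_prof hb hP hz hl0 hl
  have hA0 := lkk_dir_zero hb hP hz hl0 hl
  have hzs' : F.z0 < 𝔹.xiS F.T := lt_of_le_of_lt hz hb.x1s
  have hC1 : 0 ≤ lrdC1 B CA F.z0 := by
    unfold lrdC1 lppE1 lppH1 lppEb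
    positivity
  have hC2 : 0 ≤ lrdC2 ca L (a1 0) := by
    unfold lrdC2
    positivity
  have eK : ∀ w, p.ell ^ 2 * p.K F 𝔹 (p.ell * w) = llInv (lkkDir (𝔹.A0 F.T) F.P p.lam) w := by
    intro w
    unfold LlPt.K LlPt.xi
    rw [← mul_assoc, mul_inv_cancel₀ (pow_ne_zero 2 hell.ne'), one_mul, mul_div_cancel_left₀ _ hell.ne', eA]
  -- densities on `[0, z0/2]`
  have h12 : (0 : ℝ) ≤ F.z0 / 2 := by linarith
  have lo : ∀ ξ ξ', 0 ≤ ξ → ξ ≤ ξ' → ξ' ≤ F.z0 / 2 →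
      ca / 2 * (ξ' - ξ) ≤ lkkDir (𝔹.A0 F.T) F.P p.lam ξ' - lkkDir (𝔹.A0 F.T) F.P p.lam ξ := fun ξ ξ' h0 h1 h2 =>
    lkk_dir_lo hb hP hz hl0 hl ξ ξ' h0 h1 (by linarith)
  have hi : ∀ ξ ξ', 0 ≤ ξ → ξ ≤ ξ' → ξ' ≤ F.z0 / 2 →
      lkkDir (𝔹.A0 F.T) F.P p.lam ξ' - lkkDir (𝔹.A0 F.T) F.P p.lam ξ ≤ (Ca + ca / 2) * (ξ' - ξ) := fun ξ ξ' h0 h1 h2 =>
    lkk_dir_hi hb hP hz hl0 hl ξ ξ' h0 h1 (by linarith)
  have hlev : ca * F.z0 / 4 ≤ lkkDir (𝔹.A0 F.T) F.P p.lam (F.z0 / 2) := by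
    have := lo 0 (F.z0 / 2) le_rfl h12 le_rfl
    rw [hA0] at this
    linarith
  -- the derivative of `K`
  have hKd : ∀ v ∈ Ioo 0 (lrdV1 ca F.z0), ∃ a' : ℝ, ca / 2 ≤ a' ∧ |a' - a1 0| ≤ L * (2 * v / ca) + p.lam ∧
      HasDerivAt (p.K F 𝔹) ((p.ell ^ 2)⁻¹ * (a'⁻¹ * p.ell⁻¹)) v := by
    intro v hv
    have hw0 : 0 < v / p.ell := div_pos hv.1 hell
    have hwv : v / p.ell ≤ v := div_le_self hv.1.le hell1
    have hw : v / p.ell < lkkDir (𝔹.A0 F.T) F.P p.lam (F.z0 / 2) :=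
      lt_of_lt_of_le (lt_of_le_of_lt hwv (lt_of_lt_of_le hv.2 (min_le_right _ _))) hlev
    obtain ⟨hm, -, hx⟩ := lrd_inv_mem hprof hA0 (by linarith : 0 < ca / 2) h12 lo hi _ hw0 hw
    set ξ := llInv (lkkDir (𝔹.A0 F.T) F.P p.lam) (v / p.ell) with hξ
    have hξs : ξ ∈ Ioo 0 (𝔹.xiS F.T) := ⟨hm.1, by linarith [hm.2]⟩
    have hPd : HasDerivAt F.P 1 ξ := by
      refine (hasDerivAt_id ξ).congr_of_eventuallyEq ?_
      filter_upwards [Ioo_mem_nhds hm.1 hm.2] with y hy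
      exact hF.P_lin y ⟨hy.1.le, hy.2.le⟩
    have hAd : HasDerivAt (lkkDir (𝔹.A0 F.T) F.P p.lam) (a1 ξ + p.lam * 1) ξ := (hder ξ hξs).add (hPd.const_mul p.lam)
    obtain ⟨g1, g2⟩ := lrd_inv_deriv hprof hA0 (by linarith : 0 < ca / 2) h12 lo hi _ hw0 hw hAd
    refine ⟨a1 ξ + p.lam * 1, g1, ?_, ?_⟩
    · have b1 := hlip ξ ⟨hξs.1.le, hξs.2.le⟩
      have b2 : ξ ≤ 2 * v / ca := by
        rw [le_div_iff₀ hca]
        nlinarith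
      have b3 : L * ξ ≤ L * (2 * v / ca) := mul_le_mul_of_nonneg_left b2 hL
      have e : a1 ξ + p.lam * 1 - a1 0 = (a1 ξ - a1 0) + p.lam := by ring
      rw [e]
      refine (abs_add_le _ _).trans ?_
      rw [abs_of_nonneg hl0]
      linarith
    · have hdiv : HasDerivAt (fun y : ℝ => y / p.ell) (p.ell⁻¹) v := by
        simpa [div_eq_mul_inv] using (hasDerivAt_id v).mul_const (p.ell⁻¹)
      have hcomp := (g2.comp v hdiv).const_mul ((p.ell ^ 2)⁻¹)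
      have eKf : p.K F 𝔹 = fun y => (p.ell ^ 2)⁻¹ * (llInv (lkkDir (𝔹.A0 F.T) F.P p.lam) ∘ fun y : ℝ => y / p.ell) y := by
        funext y
        unfold LlPt.K LlPt.xi
        rw [eA]
        rfl
      rw [eKf]
      exact hcomp
  refine ⟨?_, ?_, ?_, ?_, ?_, ?_, ?_⟩
  · rw [eA]; exact hprof.mono
  · rw [eA]; exact hA0
  · rw [eA]; exact hprof.top
  · intro ξ hξ
    simp_rw [eK]
    rw [eA]
    exact lrd_dist hprof ξ hξ
  · intro t t' h0 h1 h2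
    have hl2 := lkk_ell6 hp
    have e1 : ∀ s, p.Gam1 F 𝔹 s = p.ell ^ 2 * S.M2 (lkkDir (𝔹.A0 F.T) F.P p.lam) 1 (p.ell ^ 2 * s) := by
      intro s
      unfold LlPt.Gam1 LlPt.Gam1N
      rw [hlk.G1, eA, ej]
    have hsq : p.ell ^ 2 ≤ 2 := by
      have h3 := lkk_ell3 hp
      exact (pow_le_pow_right₀ hell1 (by norm_num)).trans h3
    have hsq0 : 0 ≤ p.ell ^ 2 := sq_nonneg _
    have hN := lpp_near_self S (𝔹.A0 F.T) F.P (𝔹.xiS F.T) p.lam (lrd_adm hprof)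
    have ht' : p.ell ^ 2 * t' ≤ F.z0 := by
      have : t' ≤ F.z0 / 2 := h2.trans (min_le_left _ _)
      nlinarith [h0.trans h1]
    have key := lrd_M2_lip hS hbL hB hCA0 hCA hz0 hzs'.le hF.lppCut hl0 le_rfl le_rfl hN hzs' (p.ell ^ 2 * t) (p.ell ^ 2 * t')
      (mul_nonneg hsq0 h0) (mul_le_mul_of_nonneg_left h1 hsq0) ht'
    rw [lrd_E1_dir] at key
    rw [e1, e1, ← mul_sub, abs_mul, abs_of_nonneg hsq0]
    have hD : 0 ≤ lppE1 B CA 1 0 0 F.z0 + 2 * B ^ 3 := by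
      unfold lrdC1 at hC1; linarith
    have hq : 0 ≤ p.lam * t' * (t' - t) := mul_nonneg (mul_nonneg hl0 (h0.trans h1)) (by linarith)
    calc p.ell ^ 2 * |S.M2 (lkkDir (𝔹.A0 F.T) F.P p.lam) 1 (p.ell ^ 2 * t') - S.M2 (lkkDir (𝔹.A0 F.T) F.P p.lam) 1 (p.ell ^ 2 * t)|
        ≤ p.ell ^ 2 * ((p.lam * lppE1 B CA 1 0 0 F.z0 + 2 * (p.lam + 0) * B ^ 3) * (p.ell ^ 2 * t') * (p.ell ^ 2 * t' - p.ell ^ 2 * t)) :=
          mul_le_mul_of_nonneg_left key hsq0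
      _ = p.ell ^ 6 * ((lppE1 B CA 1 0 0 F.z0 + 2 * B ^ 3) * (p.lam * t' * (t' - t))) := by ring
      _ ≤ 2 * ((lppE1 B CA 1 0 0 F.z0 + 2 * B ^ 3) * (p.lam * t' * (t' - t))) :=
          mul_le_mul_of_nonneg_right hl2 (mul_nonneg hD hq)
      _ = lrdC1 B CA F.z0 * (p.lam * t' * (t' - t)) := by unfold lrdC1; ring
      _ ≤ (lrdC1 B CA F.z0 + lrdC2 ca L (a1 0)) * (p.lam * t' * (t' - t)) :=
          mul_le_mul_of_nonneg_right (by linarith) hq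
      _ = _ := by ring
  · intro v hv
    obtain ⟨a', -, -, h⟩ := hKd v hv
    exact h.differentiableAt
  · intro v hv
    obtain ⟨a', g1, g2, h⟩ := hKd v hv
    rw [h.deriv]
    have ha' : 0 < a' := by linarith
    have e1 : p.ell ^ 3 * ((p.ell ^ 2)⁻¹ * (a'⁻¹ * p.ell⁻¹)) = a'⁻¹ := by
      field_simp
    have e2 : F.T / 𝔹.kapT F.T = (a1 0)⁻¹ := by
      rw [ha0, inv_div]
    rw [e1, e2]
    have e3 : a'⁻¹ - (a1 0)⁻¹ = (a1 0 - a') / (a' * a1 0) := by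
      field_simp
    rw [e3, abs_div, abs_of_pos (mul_pos ha' hκ0), abs_sub_comm]
    have b1 : ca / 2 * a1 0 ≤ a' * a1 0 := mul_le_mul_of_nonneg_right g1 hκ0.le
    have b0 : 0 < ca / 2 * a1 0 := by positivity
    have hv0 := hv.1.le
    have b2 : L * (2 * v / ca) + p.lam ≤ (2 * L / ca + 1) * (v + p.lam) := by
      have e : (2 * L / ca + 1) * (v + p.lam) = L * (2 * v / ca) + p.lam + (v + 2 * L / ca * p.lam) := by ring
      rw [e]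
      have : 0 ≤ v + 2 * L / ca * p.lam := by positivity
      linarith
    calc |a' - a1 0| / (a' * a1 0) ≤ ((2 * L / ca + 1) * (v + p.lam)) / (ca / 2 * a1 0) :=
          div_le_div₀ (by positivity) (g2.trans b2) b0 b1
      _ = lrdC2 ca L (a1 0) * (v + p.lam) := by
          unfold lrdC2
          field_simp
      _ ≤ (lrdC1 B CA F.z0 + lrdC2 ca L (a1 0)) * (v + p.lam) :=
          mul_le_mul_of_nonneg_right (by linarith) (by positivity)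

/-! ## 6. the exit -/

/-- **EXIT.**   `zb` depends on `𝔹, T` only. -/
theorem lrd_main {S : LppMod} (hS : LppOk S) (𝔹 : LlBase) (hlk : LppLink 𝔹 S) (T : ℝ) (hbp : LlBaseProfile 𝔹 T)
    (hbL : LppBase S T (𝔹.A0 T) (𝔹.xiS T)) :
    ∃ zb : ℝ, 0 < zb ∧ ∀ F : LlFix, F.Ok → F.T = T → F.z0 ≤ zb → ∃ C v1 : ℝ, 0 < v1 ∧ LlRefD 𝔹 F C v1 := by
  obtain ⟨ca, Ca, ξ1, hB⟩ := lkk_base 𝔹 T hbp
  obtain ⟨a1, L, hL, ha0, hder, hlip⟩ := lrd_base 𝔹 T hbp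
  obtain ⟨B, hBB⟩ := lpp_B_exists hS (𝔹.xiS T)
  obtain ⟨CA, hCA⟩ := hbL.lin
  refine ⟨ξ1, hB.x10, fun F hF hT hz => ?_⟩
  subst hT
  obtain ⟨LP, hP⟩ := lkk_cut F hF
  have hca := hB.ca0
  have hz0 := hF.z00
  refine ⟨lrdC1 B |CA| F.z0 + lrdC2 ca L (a1 0), lrdV1 ca F.z0, lt_min (by positivity) (by positivity), ?_⟩
  obtain ⟨N1, hN1⟩ := lkk_lam_small hF (ε := ca / 2 / (LP + 1)) (by have := hP.LP0; positivity)
  refine ⟨N1, fun p hp hN hsm => ?_⟩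
  refine lrd_point hS hlk hF hbL hBB (abs_nonneg _) (fun ξ hξ => (hCA ξ hξ).trans
    (mul_le_mul_of_nonneg_right (le_abs_self _) hξ.1)) hB hP hz hL ha0 hbp.kap_pos hder hlip hp hsm ?_
  have a1' := hN1 p hp hN
  have hLP := hP.LP0
  have a2 : p.lam * (LP + 1) ≤ ca / 2 := by rwa [le_div_iff₀ (by linarith)] at a1'
  have := lkk_lam_pos hp
  nlinarith

end Claimed.Agent.R286
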