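import Claimed.Agent.R286.LL04.Contract
import Claimed.Agent.R286.LL04.Bare
import Claimed.Agent.R286.Defs.LLParEx

/-!
# Row 286 (S0533), LL CHAIN = layer 2 of the Hub, LL side: TYPED INTERFACES BETWEEN THE LL UNITS + GLUE      (owner helper224 = deputy of helper207 for the LL chain; prefix `llc_`, `Llc`)

Board of the chain (who owes which exit to whom, status): `git show origin/helper224:notes/R286/LLCHAIN_224.md`.

PROTOCOL for every LL Exit (binding, 224 for 207)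
 (1) WORLD: stated at the concrete base `llBase` of `LL/PathsBase.lean` (272).   Inner theorems may stay abstract in `𝔹 : LlBase`; glue theorems here are abstract in `𝔹`.
 (2) CUT-OFFS: ONE record `F0 : LlFix`, delivered by LL Sec. 3 (`LlSec3Exit`), valid for ALL exponents in `LlExpOk`.   Nobody else chooses cut-offs.
 (3) EXPONENTS `(s_*, η, p_*)` are chosen by the BODY (LL Sec. 10, node FIN of 60): `LlcIncExit`.   Between the units of the body: a saving which the paper fixes BEFORE an exponent is an `∃` OUTSIDE the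
     corresponding `∀` (`c_G` before `s_*`; `c` of (C2) and `δ_*` before `p_*`; `C_H` after the size degrees and before `a_i`, `p_*`).
-/

set_option autoImplicit false

namespace Claimed.Agent.R286

open MeasureTheory Set

/-- the record `F0` with the exponents `(s_*, η, p_*)` -/
def LlFix.wExp (F0 : LlFix) (sS eta pS : ℝ) : LlFix := { F0 with sS := sS, eta := eta, pS := pS }

/-- (246, 15 Oct 06:30Z, cure of F1)  **smallness of the cut-offs `z_0`, `v_b`** against the thresholds which depend on `T` only, in a form free of representatives: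
`8 v_b ≤ p_top`, `4 z_0 ≤ ξ_*`, and the base profile has a density `≥ cA > 0` on `[0, 2 z_0]`.      PRODUCER: `llc_small` (from `LlBaseProfile.tower` and `z_0, v_b ≤ ε` of `LlSec3Exit`).   CONSUMER: unit W (`skw_l03_fix`, W/InstL03.lean). -/
structure LlcSmall (𝔹 : LlBase) (F : LlFix) : Prop where
  vb8 : 8 * F.vb ≤ 𝔹.pTop F.T
  z0s : 4 * F.z0 ≤ 𝔹.xiS F.T
  z0d : ∃ cA : ℝ, 0 < cA ∧ ∀ ξ ξ' : ℝ, 0 ≤ ξ → ξ ≤ ξ' → ξ' ≤ 2 * F.z0 → cA * (ξ' - ξ) ≤ 𝔹.A0 F.T ξ' - 𝔹.A0 F.T ξ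

/-- what LL Sec. 3 delivers to the top layer for ONE choice of the fixed data -/
structure LlcTop3 (𝔹 : LlBase) (F : LlFix) : Prop where
  sec3 : LlSec3 𝔹 F
  clk : Ll04Clk 𝔹 F
  endp : Ll04End 𝔹 F
  small : LlcSmall 𝔹 F

/-- the P-list holds around `F0` for all exponents of the explicit ranges -/
def LlcP (𝔹 : LlBase) (F0 : LlFix) : Prop := ∀ sS eta pS : ℝ, LlExpOk sS eta pS → LlcTop3 𝔹 (F0.wExp sS eta pS)

/-- **EXIT FORM of LL Sec. 3** (owner 272 / 253):   base profile + cut-offs `F0` + the P-list + (CLK) + (END) for ALL exponents in `LlExpOk`.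
TEX[LL:paths:base-profile] TEX[LL:paths:lift] TEX[LL:paths:parameter-regularity] TEX[LL:paths:switch] -/
def LlcSec3Exit (𝔹 : LlBase) (T : ℝ) : Prop := LlBaseProfile 𝔹 T ∧ ∃ F0 : LlFix, F0.T = T ∧ LlcP 𝔹 F0

/-- **EXIT FORM of the body LL 05-10** (owner 60, chief 75):   for EVERY record of cut-offs with the P-list there are exponents with LL Prop. 4.1.      TEX[LL:prop:increment] -/
def LlcIncExit (𝔹 : LlBase) (T : ℝ) : Prop :=
  ∀ F0 : LlFix, F0.T = T → LlBaseProfile 𝔹 T → LlcP 𝔹 F0 → ∃ sS eta pS : ℝ, LlExpOk sS eta pS ∧ Ll04Inc 𝔹 (F0.wExp sS eta pS)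

/-- **EXIT FORM of the adapter LL 03 → LL 04** (owner 258 + 245, files `LL04/Clk*.lean`; exit `Exit/LlClk.lean`):   (CLK) and (END) of `LL04/Defs` follow from the P-list, for EVERY record `F` with exponents in `LlExpOk`.
RULE (224): every further deliverable `X` of LL 03 to a later section is typed like this: `∀ F, F.T = T → LlExpOk F.sS F.eta F.pS → LlBaseProfile 𝔹 T → LlSec3 𝔹 F → X 𝔹 F` (the paper: "Sections 4-10 use only the P-list and the explicit formulas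
of the clocks").   If a fact is missing, 272 ADDS A FIELD to `LlSec3` (harmless for all consumers).   So nobody but `exit_plist` ever chooses the cut-offs, and all deliverables speak about the same `F0`. -/
def LlcClkExit (𝔹 : LlBase) (T : ℝ) : Prop :=
  ∀ F : LlFix, F.T = T → LlExpOk F.sS F.eta F.pS → LlBaseProfile 𝔹 T → LlSec3 𝔹 F → Ll04Clk 𝔹 F ∧ Ll04End 𝔹 F

theorem llc_eqns_cite : True := by
  have := @LlFix.wExp.eq_1
  have := @LlcP.eq_1
  have := @LlcSec3Exit.eq_1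
  have := @LlcIncExit.eq_1
  have := @LlcClkExit.eq_1
  trivial

/-- **GLUE (proved)**: layer 2 of the Hub, LL side: five exits `⟹ SkIncr β` -/
theorem llc_incr (𝔹 : LlBase) (β : ℝ) (h3 : LlcSec3Exit 𝔹 (β ^ 2)) (hInc : LlcIncExit 𝔹 (β ^ 2))
    (hA1 : Ll04A1 𝔹) (hNb : Ll04Nb 𝔹) (hBare : Ll04Bare 𝔹 β) : SkIncr β := by
  obtain ⟨hprof, F0, hT, hP⟩ := h3
  obtain ⟨sS, eta, pS, hE, hI⟩ := hInc F0 hT hprof hP
  have h := hP sS eta pS hE
  exact ll04_incr 𝔹 (F0.wExp sS eta pS) β h.sec3.ok hT (by have := hE.p_hi; show pS ≤ 12; linarith) hI h.sec3.p11 h.clk h.endp hA1 hNb hBare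

/-- the threshold of `LlcSmall`: it depends on the base profile only -/
theorem llc_small (𝔹 : LlBase) (T : ℝ) (hb : LlBaseProfile 𝔹 T) :
    ∃ ε : ℝ, 0 < ε ∧ ∀ F : LlFix, F.T = T → F.z0 ≤ ε → F.vb ≤ ε → LlcSmall 𝔹 F := by
  obtain ⟨a, ha0, -, ha1, hder⟩ := hb.tower
  have hL := hb.xi_pos
  set L : ℝ := 𝔹.xiS T with hLdef
  have hT : 0 < T := lt_of_lt_of_le hL hb.xi_le
  have hpos : 0 < a 1 0 := by rw [ha1]; exact div_pos hb.kap_pos hT
  have hc1 : ContinuousWithinAt (a 1) (Icc 0 L) 0 := (hder 1 0 ⟨le_rfl, hL.le⟩).continuousWithinAt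
  have hev : ∀ᶠ ξ in nhdsWithin 0 (Icc 0 L), a 1 0 / 2 < a 1 ξ := hc1.eventually (Ioi_mem_nhds (by linarith))
  rw [eventually_nhdsWithin_iff, Metric.eventually_nhds_iff] at hev
  obtain ⟨δ, hδ, H⟩ := hev
  have hp0 := hb.pTop_mem.1
  refine ⟨min (min (δ / 4) (L / 4)) (𝔹.pTop T / 8), lt_min (lt_min (by linarith) (by linarith)) (by linarith), fun F hFT hz hv => ?_⟩
  subst hFT
  have hz1 : F.z0 ≤ δ / 4 := hz.trans ((min_le_left _ _).trans (min_le_left _ _))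
  have hz2 : F.z0 ≤ L / 4 := hz.trans ((min_le_left _ _).trans (min_le_right _ _))
  have hv1 : F.vb ≤ 𝔹.pTop F.T / 8 := hv.trans (min_le_right _ _)
  refine ⟨by linarith, by linarith, a 1 0 / 2, by linarith, fun ξ ξ' h0 h1 h2 => ?_⟩
  have hξ'L : ξ' < L := by linarith
  have hsub : Icc ξ ξ' ⊆ Icc 0 L := Icc_subset_Icc h0 hξ'L.le
  rw [ha0 ξ ⟨h0, h1.trans_lt hξ'L⟩, ha0 ξ' ⟨h0.trans h1, hξ'L⟩]
  refine (convex_Icc ξ ξ').mul_sub_le_image_sub_of_le_deriv (f := a 0) ?_ ?_ ?_ ξ ⟨le_rfl, h1⟩ ξ' ⟨h1, le_rfl⟩ h1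
  · exact fun y hy => ((hder 0 y (hsub hy)).continuousWithinAt).mono hsub
  · intro y hy
    rw [interior_Icc] at hy
    exact ((hder 0 y (hsub ⟨hy.1.le, hy.2.le⟩)).hasDerivAt (Icc_mem_nhds (by linarith [hy.1]) (by linarith [hy.2]))).differentiableAt.differentiableWithinAt
  · intro y hy
    rw [interior_Icc] at hy
    have hyL : y ∈ Icc 0 L := hsub ⟨hy.1.le, hy.2.le⟩
    rw [((hder 0 y hyL).hasDerivAt (Icc_mem_nhds (by linarith [hy.1]) (by linarith [hy.2]))).deriv]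
    exact (H (y := y) (by rw [Real.dist_eq, sub_zero, abs_of_nonneg hyL.1]; linarith [hy.2]) hyL).le

/-- **GLUE (proved)**: `exit_plist` + `exit_llclk` give the exit form of LL Sec. 3 used by the top layer.   The cut-offs are taken below the LIST of thresholds `ε` (one entry so far: `llc_small`) -/
theorem llc_sec3 (𝔹 : LlBase) (T : ℝ) (h3 : LlSec3Exit 𝔹 T) (hC : LlcClkExit 𝔹 T) : LlcSec3Exit 𝔹 T := by
  obtain ⟨hprof, h3⟩ := h3
  obtain ⟨ε1, hε1, hS⟩ := llc_small 𝔹 T hprof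
  obtain ⟨F0, hT, hz, hv, hP⟩ := h3 ε1 hε1
  refine ⟨hprof, F0, hT, fun sS eta pS hE => ?_⟩
  have h := hP sS eta pS hE
  have hc := hC (F0.wExp sS eta pS) hT hE hprof h
  exact ⟨h, hc.1, hc.2, hS (F0.wExp sS eta pS) hT hz hv⟩

/-- **GLUE (proved)**: the proof term of `exit_incr` at the concrete base: THREE open exits (`exit_plist` 272, `exit_llclk` 258, `exit_inc` 60);   (NB) = `ll04_inst_nb` (70, proved from `exit_clk_lim_pr`),   (A1-Lip) = `ll04_inst_a1` (⟸ `exit_clk_pr_lip`, 42),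
(BARE) = `ll04_bare_pf` (245, proved). -/
theorem llc_incr_base (β : ℝ) (hβ : 1 < β) (h3 : LlSec3Exit llBase (β ^ 2)) (hC : LlcClkExit llBase (β ^ 2)) (hInc : LlcIncExit llBase (β ^ 2))
    (hNb : Ll04Nb llBase) : SkIncr β :=
  llc_incr llBase β (llc_sec3 llBase _ h3 hC) hInc ll04_inst_a1 hNb (exit_bare β (by linarith))

/-! ## Stage A / B of the parameters: the saving of (G1) and the legal prefix of the exits of LL 07-10 -/

/-- the scalar trial gap of (G1): `F_* - f_m(b, h_*)`, `F_* = f_spin(K) + ¼ ∫ b q²` (unmasked, unseeded field) -/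
noncomputable def LlPt.gapG (p : LlPt) (F : LlFix) (𝔹 : LlBase) (m : ℕ) : ℝ :=
  𝔹.fspin p.a (p.K F 𝔹) + 1 / 4 * (∫ v in (0 : ℝ)..p.a, p.b F 𝔹 v * p.q F 𝔹 v ^ 2) - 𝔹.f m p.a (p.b F 𝔹) (p.hS F 𝔹)

/-- **(G1)** for one choice of the fixed data (`= Ll06G1` of `LL06/Contract.lean`, unfolded: `Iff.rfl`).      TEX[LL:global:trial-gap] -/
def LlcG1 (𝔹 : LlBase) (F : LlFix) (cG : ℝ) : Prop :=
  LlUnif F fun p => p.sm = false → ∀ m : ℕ, p.N ≤ 2 * m → m ≤ 3 * p.N → 0 ≤ p.gapG F 𝔹 m ∧ p.gapG F 𝔹 m ≤ p.x ^ (4 + cG)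

/-- exit form of (G1) (`= Ll06G1Exit`): the saving `c_G` and the threshold `s0 < 1/2` BEFORE the exponents -/
def LlcG1Exit (𝔹 : LlBase) (T : ℝ) : Prop :=
  ∀ F0 : LlFix, F0.T = T → LlBaseProfile 𝔹 T → LlcP 𝔹 F0 →
    ∃ cG s0 : ℝ, 0 < cG ∧ s0 < 1 / 2 ∧ ∀ sS eta pS : ℝ, LlExpOk sS eta pS → s0 ≤ sS → LlcG1 𝔹 (F0.wExp sS eta pS) cG

/-- **the stage `pB` is legal for `F0`**: (G1) holds with the saving `pB.cG` at the exponents `(pB.sStar, pB.eta, p_*)`, all `p_* ∈ (0,1]`.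
LEGAL PREFIX of every exit of LL 07-10 (ruling M2 of 224):   `∀ F0, F0.T = T → LlBaseProfile 𝔹 T → LlcP 𝔹 F0 → ∀ pB : LLParB, LlcStB 𝔹 F0 pB → ..`.
(`∀ pB : LLParB` alone is too strong: `pB.cG` is a free field.) -/
def LlcStB (𝔹 : LlBase) (F0 : LlFix) (pB : LLParB) : Prop :=
  ∀ pS : ℝ, 0 < pS → pS ≤ 1 → LlcG1 𝔹 (F0.wExp pB.sStar pB.eta pS) pB.cG

theorem llc_g_eqns_cite : True := by
  have := @LlPt.gapG.eq_1
  have := @LlcG1.eq_1
  have := @LlcG1Exit.eq_1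
  have := @LlcStB.eq_1
  trivial

theorem llc_x_pos {p : LlPt} {F : LlFix} (hp : p.Ok F) : 0 < p.x := by
  have h2 : (0 : ℝ) < p.N := by
    have := hp.N2
    exact_mod_cast (by omega : 0 < p.N)
  exact Real.rpow_pos_of_pos h2 _

theorem llc_x_le_one {p : LlPt} {F : LlFix} (hp : p.Ok F) : p.x ≤ 1 := by
  have h2 : (1 : ℝ) ≤ p.N := by
    have := hp.N2
    exact_mod_cast (by omega : 1 ≤ p.N)
  exact Real.rpow_le_one_of_one_le_of_nonpos h2 (by norm_num)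

/-- the exponents of a stage B are in the ranges of LL Sec. 3 -/
theorem llc_expOk (pB : LLParB) {pS : ℝ} (h0 : 0 < pS) (h1 : pS ≤ 1) : LlExpOk pB.sStar pB.eta pS where
  s_lo := by have := pB.tau_le; unfold LLParB.sStar; linarith
  s_hi := by have := pB.tau_pos; unfold LLParB.sStar; linarith
  e_lo := pB.eta_pos
  e_hi := by have := pB.tau_le; have := pB.eta_le; linarith
  p_lo := h0
  p_hi := h1

/-- a smaller saving is weaker -/
theorem llc_g1_mono {𝔹 : LlBase} {F : LlFix} {c c' : ℝ} (h : LlcG1 𝔹 F c) (hc : c' ≤ c) : LlcG1 𝔹 F c' := by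
  obtain ⟨N0, h⟩ := h
  refine ⟨N0, fun p hp hN hsm m h1 h2 => ⟨(h p hp hN hsm m h1 h2).1, (h p hp hN hsm m h1 h2).2.trans ?_⟩⟩
  exact Real.rpow_le_rpow_of_exponent_ge (llc_x_pos hp) (llc_x_le_one hp) (by linarith)

/-- **GLUE (proved)**: (G1) gives legal stages B, below ARBITRARY thresholds (signature of `llparB_exists`, 242) -/
theorem llc_stB_ex {𝔹 : LlBase} {T : ℝ} (hG : LlcG1Exit 𝔹 T) {F0 : LlFix} (hT : F0.T = T) (hprof : LlBaseProfile 𝔹 T) (hP : LlcP 𝔹 F0)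
    (f1 : ℝ) (f2 : ℝ → ℝ) (f3 : ℝ → ℝ → ℝ) (f4 : ℝ → ℝ → ℝ → ℝ) (f5 : ℝ → ℝ → ℝ → ℝ → ℝ) (f6 : ℝ → ℝ → ℝ → ℝ → ℝ → ℝ)
    (h1 : 0 < f1) (h2 : ∀ a, 0 < f2 a) (h3 : ∀ a b, 0 < f3 a b) (h4 : ∀ a b c, 0 < f4 a b c) (h5 : ∀ a b c d, 0 < f5 a b c d)
    (h6 : ∀ a b c d e, 0 < f6 a b c d e) :
    ∃ pB : LLParB, LlcStB 𝔹 F0 pB ∧ pB.tau ≤ f1 ∧ pB.eta ≤ f2 pB.tau ∧ pB.tau0 ≤ f3 pB.tau pB.eta ∧
      pB.bs ≤ f4 pB.tau pB.eta pB.tau0 ∧ pB.bl ≤ f5 pB.tau pB.eta pB.tau0 pB.bs ∧ pB.he ≤ f6 pB.tau pB.eta pB.tau0 pB.bs pB.bl := by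
  obtain ⟨cG, s0, hcG, hs0, h⟩ := hG F0 hT hprof hP
  obtain ⟨pA, hpA⟩ := llparA_exists cG hcG
  obtain ⟨pB, e, g1, g2, g3, g4, g5, g6⟩ := llparB_exists pA (min f1 (1 / 2 - s0)) f2 f3 f4 f5 f6 (lt_min h1 (by linarith)) h2 h3 h4 h5 h6
  refine ⟨pB, fun pS hp0 hp1 => ?_, g1.trans (min_le_left _ _), g2, g3, g4, g5, g6⟩
  have hs : s0 ≤ pB.sStar := by
    have := g1.trans (min_le_right _ _)
    unfold LLParB.sStar
    linarith
  have hc : pB.cG ≤ cG := by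
    have : pB.cG = pA.cG := by rw [← e]
    linarith
  exact llc_g1_mono (h _ _ _ (llc_expOk pB hp0 hp1) hs) hc

end Claimed.Agent.R286
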