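import Claimed.Agent.R286.Sc.Step
import Claimed.Agent.R286.LL.PathsDefs

/-!
# Row 286 (S0533), LL Section 3: THE SCALAR API ON GENERAL MONOTONE PROFILES      (HEAD helper272; ADV helper46; prefix `Lsc`, `lsc_`)

What LL 03 (Lemmas paths:lift, paths:parameter-regularity, Prop. paths:switch) consumes of the scalar Parisi model.      SUPPLIER: BOX-C (chief helper183; general profiles = helper197 `Sc/Gen`,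
tau-free bounds = helper36 `Sc/Tau`, design = note B03 of helper95).      Classes `ScE, ScB, ScBd, ScT, ScGU`, operators `scStep, scTr` are those of `R286/Sc`.

* variance time `ξ ≥ 0`, unit diffusion; profile `A` nondecreasing on `[0,∞)`, `A = j` from `Ξ` on (`LscProf j Ξ A`); terminal mass `j`;
* `M.V A j ξ z` continuation, PDE `V_ξ = -(V_zz + A V_z²)/2`, NORMALISATION `V = j⁻¹ log cosh (j z) - j ξ/2` for `ξ ≥ Ξ` (no horizon in the notation);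
* `M.P A j s t φ z = E[φ(Z_t) | Z_s = z]` planted diffusion, generator `L_r = ∂_zz/2 + A(r) V_z(r,·) ∂_z`;
* `M.Dyn A j s t φ G` : ABSTRACT predicate "`φ` is a Dynkin test function on `[s,t]` and `(∂_r + L_r) φ = G`".      The supplier chooses its meaning (derivative off a countable set, or limit of step
  test functions); the users only use the RULES below (`dyn_*`) and THE formula `dynkin`.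
Everything else of LL 03 (two sided comparison, Duhamel for two profiles, `L¹`-Lipschitz bounds for all `z`-derivatives, moment curves, exponential decay) is DERIVED from this list in `LL/PathsPert*.lean`.
-/

set_option autoImplicit false

namespace Claimed.Agent.R286

open MeasureTheory Set

/-- admissible mass profile: nondecreasing and nonnegative on `[0,∞)`, equal to the terminal mass `j` from `Ξ` on -/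
structure LscProf (j Ξ : ℝ) (A : ℝ → ℝ) : Prop where
  mono : MonotoneOn A (Ici 0)
  nonneg : 0 ≤ A 0
  top : ∀ ξ, Ξ ≤ ξ → A ξ = j
  Xi0 : 0 ≤ Ξ

/-- the data of the scalar model -/
structure LscMod where
  V : (ℝ → ℝ) → ℝ → ℝ → ℝ → ℝ
  P : (ℝ → ℝ) → ℝ → ℝ → ℝ → (ℝ → ℝ) → ℝ → ℝ
  Dyn : (ℝ → ℝ) → ℝ → ℝ → ℝ → (ℝ → ℝ → ℝ) → (ℝ → ℝ → ℝ) → Prop

namespace LscMod

variable (M : LscMod)

/-- `∂_z^k V(ξ,·)`      (`u = D 1`, `χ = D 2`) -/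
noncomputable def D (k : ℕ) (A : ℝ → ℝ) (j ξ : ℝ) : ℝ → ℝ := deriv^[k] (M.V A j ξ)

/-- `E φ(Z_ξ)`, `Z_0 = 0` -/
def E (A : ℝ → ℝ) (j ξ : ℝ) (φ : ℝ → ℝ) : ℝ := M.P A j 0 ξ φ 0

/-- `Γ(ξ) = E u²` -/
noncomputable def Gam (A : ℝ → ℝ) (j ξ : ℝ) : ℝ := M.E A j ξ fun y => M.D 1 A j ξ y ^ 2

/-- `Γ'(ξ) = E χ²` -/
noncomputable def Gam1 (A : ℝ → ℝ) (j ξ : ℝ) : ℝ := M.E A j ξ fun y => M.D 2 A j ξ y ^ 2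

/-- the drift `A(r) u(r,y)` -/
noncomputable def dr (A : ℝ → ℝ) (j r y : ℝ) : ℝ := A r * M.D 1 A j r y

/-- **THE LIST.** -/
structure Ok : Prop where
  -- ### the continuation
  V_top : ∀ {A : ℝ → ℝ} {j Ξ : ℝ}, 0 < j → LscProf j Ξ A → ∀ ξ, Ξ ≤ ξ → ∀ z, M.V A j ξ z = j⁻¹ * Real.log (Real.cosh (j * z)) - j * ξ / 2
  V_T : ∀ {A : ℝ → ℝ} {j Ξ : ℝ}, 0 < j → LscProf j Ξ A → ∀ (R : ℝ) (n : ℕ), ScT (Icc 0 R) n fun ξ => M.V A j ξ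
  V_even : ∀ {A : ℝ → ℝ} {j Ξ : ℝ}, 0 < j → LscProf j Ξ A → ∀ ξ, 0 ≤ ξ → ∀ z, M.V A j ξ (-z) = M.V A j ξ z
  /-- tau-free bounds (B03 S3.7) -/
  V_bd : ∀ (J : ℝ) (k : ℕ), 1 ≤ k → ∃ C : ℝ, ∀ (A : ℝ → ℝ) (j Ξ : ℝ), 1 ≤ j → j ≤ J → LscProf j Ξ A → ∀ ξ, 0 ≤ ξ → ∀ z, |M.D k A j ξ z| ≤ C
  u_le : ∀ {A : ℝ → ℝ} {j Ξ : ℝ}, 0 < j → LscProf j Ξ A → ∀ ξ, 0 ≤ ξ → ∀ z, |M.D 1 A j ξ z| ≤ 1
  /-- `A (1 - u²) ≤ χ ≤ j (1 - u²)` (B03 S3.1, S3.6) -/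
  chi_lo : ∀ {A : ℝ → ℝ} {j Ξ : ℝ}, 0 < j → LscProf j Ξ A → ∀ ξ, 0 ≤ ξ → ∀ z, A ξ * (1 - M.D 1 A j ξ z ^ 2) ≤ M.D 2 A j ξ z
  chi_hi : ∀ {A : ℝ → ℝ} {j Ξ : ℝ}, 0 < j → LscProf j Ξ A → ∀ ξ, 0 ≤ ξ → ∀ z, M.D 2 A j ξ z ≤ j * (1 - M.D 1 A j ξ z ^ 2)
  chi_pos : ∀ {A : ℝ → ℝ} {j Ξ : ℝ}, 0 < j → LscProf j Ξ A → ∀ ξ, 0 ≤ ξ → ∀ z, 0 < M.D 2 A j ξ z
  /-- Cole-Hopf on a stretch of constant mass -/
  V_step : ∀ {A : ℝ → ℝ} {j Ξ : ℝ}, 0 < j → LscProf j Ξ A → ∀ {s t m : ℝ}, 0 ≤ s → s ≤ t → (∀ r ∈ Ico s t, A r = m) → M.V A j s = scStep m (t - s) (M.V A j t)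
  P_step : ∀ {A : ℝ → ℝ} {j Ξ : ℝ}, 0 < j → LscProf j Ξ A → ∀ {s t m : ℝ}, 0 ≤ s → s ≤ t → (∀ r ∈ Ico s t, A r = m) → ∀ φ, ScE 0 φ →
    M.P A j s t φ = scTr m (t - s) (M.V A j t) φ
  -- ### the transition operators (`0 ≤ s ≤ t`, tests of the exponential class)
  P_self : ∀ (A : ℝ → ℝ) (j s : ℝ) (φ : ℝ → ℝ), M.P A j s s φ = φ
  P_const : ∀ {A : ℝ → ℝ} {j Ξ : ℝ}, 0 < j → LscProf j Ξ A → ∀ {s t : ℝ}, 0 ≤ s → s ≤ t → ∀ c z : ℝ, M.P A j s t (fun _ => c) z = c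
  P_add : ∀ {A : ℝ → ℝ} {j Ξ : ℝ}, 0 < j → LscProf j Ξ A → ∀ {s t : ℝ}, 0 ≤ s → s ≤ t → ∀ {φ ψ : ℝ → ℝ}, ScE 0 φ → ScE 0 ψ → ∀ z,
    M.P A j s t (fun y => φ y + ψ y) z = M.P A j s t φ z + M.P A j s t ψ z
  P_smul : ∀ {A : ℝ → ℝ} {j Ξ : ℝ}, 0 < j → LscProf j Ξ A → ∀ {s t : ℝ}, 0 ≤ s → s ≤ t → ∀ (c : ℝ) {φ : ℝ → ℝ}, ScE 0 φ → ∀ z,
    M.P A j s t (fun y => c * φ y) z = c * M.P A j s t φ z
  P_mono : ∀ {A : ℝ → ℝ} {j Ξ : ℝ}, 0 < j → LscProf j Ξ A → ∀ {s t : ℝ}, 0 ≤ s → s ≤ t → ∀ {φ ψ : ℝ → ℝ}, ScE 0 φ → ScE 0 ψ → (∀ y, φ y ≤ ψ y) → ∀ z,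
    M.P A j s t φ z ≤ M.P A j s t ψ z
  P_even : ∀ {A : ℝ → ℝ} {j Ξ : ℝ}, 0 < j → LscProf j Ξ A → ∀ {s t : ℝ}, 0 ≤ s → s ≤ t → ∀ {φ : ℝ → ℝ}, ScE 0 φ → (∀ y, φ (-y) = φ y) → ∀ z,
    M.P A j s t φ (-z) = M.P A j s t φ z
  P_odd : ∀ {A : ℝ → ℝ} {j Ξ : ℝ}, 0 < j → LscProf j Ξ A → ∀ {s t : ℝ}, 0 ≤ s → s ≤ t → ∀ {φ : ℝ → ℝ}, ScE 0 φ → (∀ y, φ (-y) = - φ y) → ∀ z,
    M.P A j s t φ (-z) = - M.P A j s t φ z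
  /-- Chapman-Kolmogorov -/
  P_comp : ∀ {A : ℝ → ℝ} {j Ξ : ℝ}, 0 < j → LscProf j Ξ A → ∀ {s r t : ℝ}, 0 ≤ s → s ≤ r → r ≤ t → ∀ {φ : ℝ → ℝ}, ScE 0 φ →
    M.P A j s r (M.P A j r t φ) = M.P A j s t φ
  /-- backward regularity: joint continuity for tests of the exponential class; `n` derivatives for BOUNDED tests with `n + 1` bounded derivatives
  (retyped 04:00Z by the supplier helper95: the kernel of a general profile is a limit of step kernels, one derivative is lost in the limit) -/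
  P_T0 : ∀ {A : ℝ → ℝ} {j Ξ : ℝ}, 0 < j → LscProf j Ξ A → ∀ {t : ℝ}, 0 ≤ t → ∀ {φ : ℝ → ℝ}, ScE 0 φ → ScT (Icc 0 t) 0 fun r => M.P A j r t φ
  P_T : ∀ {A : ℝ → ℝ} {j Ξ : ℝ}, 0 < j → LscProf j Ξ A → ∀ {t : ℝ}, 0 ≤ t → ∀ {n : ℕ} {φ : ℝ → ℝ}, ScBd (n + 1) φ → ScT (Icc 0 t) n fun r => M.P A j r t φ
  /-- forward continuity -/
  P_fwd : ∀ {A : ℝ → ℝ} {j Ξ : ℝ}, 0 < j → LscProf j Ξ A → ∀ {s t : ℝ}, 0 ≤ s → s ≤ t → ∀ {ψ : ℝ → ℝ → ℝ}, ScT (Icc s t) 0 ψ → ∀ z,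
    ContinuousOn (fun r => M.P A j s r (ψ r) z) (Icc s t)
  /-- tau-free gradient bounds (B03 S3.5, S3.7), LINEAR in the test -/
  P_grad : ∀ (J : ℝ) (i : ℕ), ∃ C : ℝ, ∀ (A : ℝ → ℝ) (j Ξ : ℝ), 1 ≤ j → j ≤ J → LscProf j Ξ A → ∀ s t : ℝ, 0 ≤ s → s ≤ t → ∀ (φ : ℝ → ℝ) (K : ℝ), ScBd i φ →
    (∀ k ≤ i, ∀ y, |deriv^[k] φ y| ≤ K) → ∀ z, |deriv^[i] (M.P A j s t φ) z| ≤ C * K
  -- ### Dynkin
  dynkin : ∀ {A : ℝ → ℝ} {j Ξ : ℝ}, 0 < j → LscProf j Ξ A → ∀ {s t : ℝ}, 0 ≤ s → s ≤ t → ∀ {φ G : ℝ → ℝ → ℝ}, M.Dyn A j s t φ G → ∀ z,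
    IntervalIntegrable (fun r => M.P A j s r (G r) z) volume s t ∧ M.P A j s t (φ t) z - φ s z = ∫ r in s..t, M.P A j s r (G r) z
  dyn_reg : ∀ {A : ℝ → ℝ} {j s t : ℝ} {φ G : ℝ → ℝ → ℝ}, M.Dyn A j s t φ G → ScT (Icc s t) 2 φ
  dyn_gen : ∀ {A : ℝ → ℝ} {j s t : ℝ} {φ G : ℝ → ℝ → ℝ}, M.Dyn A j s t φ G → (∀ r ∈ Icc s t, ScE 0 (G r)) ∧ ScGU (Icc s t) G
  dyn_sub : ∀ {A : ℝ → ℝ} {j s t s' t' : ℝ} {φ G : ℝ → ℝ → ℝ}, M.Dyn A j s t φ G → s ≤ s' → s' ≤ t' → t' ≤ t → M.Dyn A j s' t' φ G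
  dyn_congr : ∀ {A : ℝ → ℝ} {j s t : ℝ} {φ G φ' G' : ℝ → ℝ → ℝ}, M.Dyn A j s t φ G → (∀ r ∈ Icc s t, φ' r = φ r) → (∀ r ∈ Icc s t, G' r = G r) → M.Dyn A j s t φ' G'
  /-- rules of B03 S2.5 -/
  dyn_V0 : ∀ {A : ℝ → ℝ} {j Ξ : ℝ}, 0 < j → LscProf j Ξ A → ∀ {s t : ℝ}, 0 ≤ s → s ≤ t →
    M.Dyn A j s t (fun r => M.V A j r) fun r y => A r * M.D 1 A j r y ^ 2 / 2
  dyn_V1 : ∀ {A : ℝ → ℝ} {j Ξ : ℝ}, 0 < j → LscProf j Ξ A → ∀ {s t : ℝ}, 0 ≤ s → s ≤ t → M.Dyn A j s t (fun r => M.D 1 A j r) fun _ _ => 0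
  dyn_V2 : ∀ {A : ℝ → ℝ} {j Ξ : ℝ}, 0 < j → LscProf j Ξ A → ∀ {s t : ℝ}, 0 ≤ s → s ≤ t →
    M.Dyn A j s t (fun r => M.D 2 A j r) fun r y => - (A r * M.D 2 A j r y ^ 2)
  dyn_V3 : ∀ {A : ℝ → ℝ} {j Ξ : ℝ}, 0 < j → LscProf j Ξ A → ∀ {s t : ℝ}, 0 ≤ s → s ≤ t →
    M.Dyn A j s t (fun r => M.D 3 A j r) fun r y => - (3 * A r * M.D 2 A j r y * M.D 3 A j r y)
  dyn_V4 : ∀ {A : ℝ → ℝ} {j Ξ : ℝ}, 0 < j → LscProf j Ξ A → ∀ {s t : ℝ}, 0 ≤ s → s ≤ t →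
    M.Dyn A j s t (fun r => M.D 4 A j r) fun r y => - (A r * (4 * M.D 2 A j r y * M.D 4 A j r y + 3 * M.D 3 A j r y ^ 2))
  /-- backward transition of a smooth test -/
  dyn_P : ∀ {A : ℝ → ℝ} {j Ξ : ℝ}, 0 < j → LscProf j Ξ A → ∀ {s t : ℝ}, 0 ≤ s → s ≤ t → ∀ {g : ℝ → ℝ}, ScBd 3 g →
    M.Dyn A j s t (fun r => M.P A j r t g) fun _ _ => 0
  /-- a function of the space variable alone -/
  dyn_space : ∀ {A : ℝ → ℝ} {j Ξ : ℝ}, 0 < j → LscProf j Ξ A → ∀ {s t : ℝ}, 0 ≤ s → s ≤ t → ∀ {g : ℝ → ℝ}, ScE 2 g →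
    M.Dyn A j s t (fun _ => g) fun r y => deriv (deriv g) y / 2 + M.dr A j r y * deriv g y
  dyn_add : ∀ {A : ℝ → ℝ} {j s t : ℝ} {φ G ψ H : ℝ → ℝ → ℝ}, M.Dyn A j s t φ G → M.Dyn A j s t ψ H →
    M.Dyn A j s t (fun r y => φ r y + ψ r y) fun r y => G r y + H r y
  dyn_smul : ∀ {A : ℝ → ℝ} {j s t : ℝ} {φ G : ℝ → ℝ → ℝ} (c : ℝ), M.Dyn A j s t φ G → M.Dyn A j s t (fun r y => c * φ r y) fun r y => c * G r y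
  dyn_mul : ∀ {A : ℝ → ℝ} {j s t : ℝ} {φ G ψ H : ℝ → ℝ → ℝ}, M.Dyn A j s t φ G → M.Dyn A j s t ψ H →
    M.Dyn A j s t (fun r y => φ r y * ψ r y) fun r y => φ r y * H r y + ψ r y * G r y + deriv (φ r) y * deriv (ψ r) y
  /-- a smooth function of a BOUNDED test -/
  dyn_comp : ∀ {A : ℝ → ℝ} {j s t : ℝ} {φ G : ℝ → ℝ → ℝ} {f : ℝ → ℝ}, M.Dyn A j s t φ G → (∃ C : ℝ, ∀ r ∈ Icc s t, ∀ y, |φ r y| ≤ C) → ContDiff ℝ (⊤ : ℕ∞) f →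
    M.Dyn A j s t (fun r y => f (φ r y)) fun r y => deriv f (φ r y) * G r y + deriv (deriv f) (φ r y) * deriv (φ r) y ^ 2 / 2
  /-- **change of model**: a test function of the model `(A',j')` is a test function of the model `(A,j)` -/
  dyn_model : ∀ {A A' : ℝ → ℝ} {j j' Ξ Ξ' : ℝ}, 0 < j → 0 < j' → LscProf j Ξ A → LscProf j' Ξ' A' → ∀ {s t : ℝ} {φ G : ℝ → ℝ → ℝ}, 0 ≤ s → M.Dyn A' j' s t φ G →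
    M.Dyn A j s t φ fun r y => G r y + (M.dr A j r y - M.dr A' j' r y) * deriv (φ r) y
  -- ### the annealed inequality (LL 03 l.75-100; forward log-concavity), terminal mass `1`
  ann : ∀ {A : ℝ → ℝ} {Ξ : ℝ}, LscProf 1 Ξ A → ∀ d, 0 ≤ d → M.Gam1 A 1 (Ξ + d) ≤ Real.exp (-d / 2) * M.Gam1 A 1 Ξ

end LscMod

/-- distribution function (in variance time) of a one-site clock `K` on `(0,a)` -/
noncomputable def llDist (a : ℝ) (K : ℝ → ℝ) (ξ : ℝ) : ℝ := (volume {v : ℝ | v ∈ Ioo 0 a ∧ K v ≤ ξ}).toReal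

/-- the scalar fields of an `LlBase` are those of the model `M`; one-site pressure = `V(0,0)` (B03 S8) -/
structure LlBase.ScLink (𝔹 : LlBase) (M : LscMod) : Prop where
  V : 𝔹.scV = M.V
  G : 𝔹.scG = M.Gam
  G1 : 𝔹.scG1 = M.Gam1
  fspin : ∀ (a R : ℝ) (K : ℝ → ℝ), 1 ≤ a → MonotoneOn K (Ioo 0 a) → (∀ v ∈ Ioo 0 a, 0 ≤ K v ∧ K v ≤ R) → 𝔹.fspin a K = M.V (llDist a K) a 0 0

theorem lsc_eqns_cite : True := by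
  have := @LscMod.D.eq_1
  have := @LscMod.E.eq_1
  have := @LscMod.Gam.eq_1
  have := @LscMod.Gam1.eq_1
  have := @LscMod.dr.eq_1
  have := @llDist.eq_1
  trivial

end Claimed.Agent.R286
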