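import Claimed.Agent.R286.LL.PathsDefs
import Claimed.Agent.R286.Sc.Step

/-!
# Row 286 (S0533), LL Section 3, PERTURBATION KIT, file 1: THE ABSTRACT SCALAR PACKAGE
(architect helper121; head of LL 03 helper272, co-head helper253; prefix `lpp_`, `Lpp`)

`LppMod` = data of the one-site scalar model in NORMALISED VARIANCE TIME `ξ`, for a mass profile `A` with terminal mass `j`
(annealed extension: `A = j` from some time on):   `V A j ξ z` = continuation, `Ex A j ξ g = E g(Z_ξ)` (planted field, `Z_0 = 0`) = an abstract POSITIVE LINEAR FUNCTIONAL on the class `LppCls` (no measure: asked by 46, 277).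
`LppOk S` = THE CLOSED STATEMENTS THAT LL 03 (Lemmas paths:lift, paths:parameter-regularity) USES OF THE SCALAR TOOLKIT (BOX-C, units C2, C2', C10).
BOX-C has to build ONE term `S` with `LppOk S`.   Every field is NON-asymptotic; the constants depend on nothing but the displayed quantifiers
(in particular NOT on the horizon of the profile: tau-free bounds S3.5-S3.7 of `origin/helper95:notes/R286/B03_helper95.md`).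

Paper proofs of the fields (notation of 95's note):
* `bd`     S3.7.      `hess`  S3.6 (HESS): `w = j - A(t+) u² - ∫ P[u²] dA`, `u(t)² ≤ P[u(r)²] ≤ 1`.      `curve`, `gam`, `M3c`, `N3c`  S5.1, S5.2.      `mom2`  S3.4 (`m' ≤ 1 + 2 j² m`).
* `dlip`   (NEW, "K2")  `V^{A'} - V^A = (1/2) ∫_0^1 dθ ∫_ξ^∞ (A' - A)(r) P^θ_{ξ,r}[u_θ(r)²] dr` (S7.1 integrated along the segment, which stays monotone) and `sup |∂_z^k P_{ξ,r} g| ≤ B_k(R)`, `r ≤ R` (Gronwall);  only for profiles that COINCIDE AFTER `R` (277).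
* `guerra` S4.2, modulo a constant, horizon free.
* `llip`   (NEW, "K3")  Duhamel `E' g - E g = ∫_0^ξ E'_r[(A'u' - A u)(r) ∂_z P_{r,ξ} g] dr` (S4.4); `g` even ⇒ `∂_z P g` odd, `|∂_z P g (z)| ≤ sup|∂_z² P g| |z| ≤ C G |z|` (S3.7);
            `|A'u' - Au| ≤ (4 |A' - A| + A D)|z|`;  `E'_r z² ≤ C r`.
* `ann`    LL 03 l.75-92 (Prekopa; 253's L3.1 (iv)).      `dec`  253's S9: `(∂_t + L) sqrt(1 - u²) = - w² / (2 (1 - u²)^{3/2}) ≤ - (A²/2) sqrt(1 - u²)`.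
* `term`   253's S8 (values, modulo constants, change by `C e^{-s/8}`) + sup-norm contraction of the earlier Cole-Hopf steps + Landau-Kolmogorov (`lpk_landau`).
-/

set_option autoImplicit false

namespace Claimed.Agent.R286

open MeasureTheory Set

/-- admissible normalised mass profile with terminal mass `j` -/
structure LppAdm (A : ℝ → ℝ) (j : ℝ) : Prop where
  j1 : 1 ≤ j
  j4 : j ≤ 4
  mono : MonotoneOn A (Ici 0)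
  nn : ∀ ξ, 0 ≤ ξ → 0 ≤ A ξ
  le : ∀ ξ, 0 ≤ ξ → A ξ ≤ j
  top : ∃ τ : ℝ, ∀ ξ, τ ≤ ξ → A ξ = j

/-- data of the scalar model -/
structure LppMod where
  V : (ℝ → ℝ) → ℝ → ℝ → ℝ → ℝ
  Ex : (ℝ → ℝ) → ℝ → ℝ → (ℝ → ℝ) → ℝ

/-- the test class of the expectation functionals: continuous, at most quadratic growth -/
def LppCls (g : ℝ → ℝ) : Prop := Continuous g ∧ ∃ C : ℝ, ∀ z, |g z| ≤ C * (1 + z ^ 2)

namespace LppMod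

variable (S : LppMod)

/-- `∂_z^k V(ξ,z)` -/
noncomputable def vk (k : ℕ) (A : ℝ → ℝ) (j ξ z : ℝ) : ℝ := iteratedDeriv k (S.V A j ξ) z

/-- `Γ(ξ) = E V_z²` -/
noncomputable def Gam (A : ℝ → ℝ) (j ξ : ℝ) : ℝ := S.Ex A j ξ (fun z => S.vk 1 A j ξ z ^ 2)
/-- `Γ'(ξ) = E V_zz²` -/
noncomputable def M2 (A : ℝ → ℝ) (j ξ : ℝ) : ℝ := S.Ex A j ξ (fun z => S.vk 2 A j ξ z ^ 2)
/-- `E V_zz³` -/
noncomputable def M3 (A : ℝ → ℝ) (j ξ : ℝ) : ℝ := S.Ex A j ξ (fun z => S.vk 2 A j ξ z ^ 3)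
/-- `E V_zzz²` -/
noncomputable def N3 (A : ℝ → ℝ) (j ξ : ℝ) : ℝ := S.Ex A j ξ (fun z => S.vk 3 A j ξ z ^ 2)

end LppMod

/-- the profile `A` below the time `M`, the terminal mass `j` from `M` on -/
noncomputable def lppCap (A : ℝ → ℝ) (M j : ℝ) : ℝ → ℝ := fun ξ => if ξ < M then A ξ else j

/-- even test function with two derivatives bounded by `G`   (`c3`, added by 277 04:30Z: a third bounded derivative, NO quantitative control: the rule `dyn_P` of `LscMod.Ok` asks `ScBd 3`) -/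
structure LppTest (g : ℝ → ℝ) (G : ℝ) : Prop where
  sm : ContDiff ℝ 2 g
  c3 : ScBd 3 g
  even : ∀ z, g (-z) = g z
  b0 : ∀ z, |g z| ≤ G
  b1 : ∀ z, |deriv g z| ≤ G
  b2 : ∀ z, |iteratedDeriv 2 g z| ≤ G

/-- THE PACKAGE -/
structure LppOk (S : LppMod) : Prop where
  ex_add : ∀ A j, LppAdm A j → ∀ ξ, 0 ≤ ξ → ∀ f g, LppCls f → LppCls g →
    S.Ex A j ξ (fun z => f z + g z) = S.Ex A j ξ f + S.Ex A j ξ g
  ex_smul : ∀ A j, LppAdm A j → ∀ ξ, 0 ≤ ξ → ∀ (c : ℝ) f, LppCls f → S.Ex A j ξ (fun z => c * f z) = c * S.Ex A j ξ f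
  ex_mono : ∀ A j, LppAdm A j → ∀ ξ, 0 ≤ ξ → ∀ f g, LppCls f → LppCls g → (∀ z, f z ≤ g z) → S.Ex A j ξ f ≤ S.Ex A j ξ g
  ex_one : ∀ A j, LppAdm A j → ∀ ξ, 0 ≤ ξ → S.Ex A j ξ (fun _ => 1) = 1
  ex_zero : ∀ A j, LppAdm A j → ∀ g, LppCls g → S.Ex A j 0 g = g 0
  mom2 : ∀ R : ℝ, ∃ C : ℝ, ∀ A j, LppAdm A j → ∀ ξ ∈ Icc 0 R, S.Ex A j ξ (fun z => z ^ 2) ≤ C * ξ
  smooth : ∀ A j, LppAdm A j → ∀ ξ, 0 ≤ ξ → ∀ n : ℕ, ContDiff ℝ n (S.V A j ξ)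
  even : ∀ A j, LppAdm A j → ∀ ξ, 0 ≤ ξ → ∀ z, S.V A j ξ (-z) = S.V A j ξ z
  bd : ∀ k : ℕ, 1 ≤ k → ∃ C : ℝ, ∀ A j, LppAdm A j → ∀ ξ, 0 ≤ ξ → ∀ z, |S.vk k A j ξ z| ≤ C
  hess : ∀ A j, LppAdm A j → ∀ ξ, 0 ≤ ξ → ∀ z, 0 < S.vk 2 A j ξ z ∧
    A ξ * (1 - S.vk 1 A j ξ z ^ 2) ≤ S.vk 2 A j ξ z ∧ S.vk 2 A j ξ z ≤ j * (1 - S.vk 1 A j ξ z ^ 2)
  M3c : ∀ A j, LppAdm A j → ContinuousOn (S.M3 A j) (Ici 0)
  N3c : ∀ A j, LppAdm A j → ContinuousOn (S.N3 A j) (Ici 0)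
  curve : ∀ A j, LppAdm A j → ∀ ξ ξ', 0 ≤ ξ → ξ ≤ ξ' →
    S.M2 A j ξ' - S.M2 A j ξ = ∫ r in ξ..ξ', (S.N3 A j r - 2 * A r * S.M3 A j r)
  gam : ∀ A j, LppAdm A j → ∀ ξ, 0 ≤ ξ → S.Gam A j ξ = ∫ r in (0 : ℝ)..ξ, S.M2 A j r
  /-- K2 (orders `k ≤ 4` only, 277 04:30Z: `LppB` uses no more, `LscMod.Ok` has the rules `dyn_V1 .. dyn_V4`): the `z`-derivatives are Lipschitz in the profile for the `L¹` norm of the FUTURE, no loss; profiles that coincide after `R` -/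
  dlip : ∀ k : ℕ, 1 ≤ k → k ≤ 4 → ∀ R : ℝ, ∃ C : ℝ, ∀ A A' j, LppAdm A j → LppAdm A' j → (∀ ξ, R ≤ ξ → A' ξ = A ξ) → ∀ ξ, 0 ≤ ξ → ∀ z,
    |S.vk k A' j ξ z - S.vk k A j ξ z| ≤ C * ∫ r in Ioi ξ, |A' r - A r|
  /-- Guerra's bound, modulo a constant, no horizon -/
  guerra : ∀ A A' j, LppAdm A j → LppAdm A' j → ∀ ξ, 0 ≤ ξ → ∃ c : ℝ, ∀ z,
    |S.V A' j ξ z - S.V A j ξ z - c| ≤ (1 / 2) * ∫ r in Ioi ξ, |A' r - A r|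
  /-- K3: the law at time `ξ` tested on EVEN functions: Duhamel with the parity gain `E z² ≤ C r` -/
  llip : ∀ R : ℝ, ∃ C : ℝ, ∀ A j A' j', LppAdm A j → LppAdm A' j' → ∀ ξ ∈ Icc 0 R, ∀ (g : ℝ → ℝ) (G : ℝ), LppTest g G →
    ∀ D H : ℝ → ℝ, (∀ r ∈ Ico 0 ξ, ∀ z, |S.vk 2 A' j' r z - S.vk 2 A j r z| ≤ D r) →
      (∀ r ∈ Ico 0 ξ, (|A' r - A r| + A r * D r) * r ≤ H r) → IntervalIntegrable H volume 0 ξ →
      |S.Ex A' j' ξ g - S.Ex A j ξ g| ≤ C * G * ∫ r in (0 : ℝ)..ξ, H r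
  /-- K5: annealed inequality -/
  ann : ∀ A, LppAdm A 1 → ∀ s, 0 ≤ s → (∀ ξ, s ≤ ξ → A ξ = 1) → ∀ d, 0 ≤ d →
    S.M2 A 1 (s + d) ≤ Real.exp (-d / 2) * S.M2 A 1 s
  /-- K6: decay of `E sqrt(1 - m²)` while the mass is bounded below -/
  dec : ∀ A j, LppAdm A j → ∀ s t a0, 0 ≤ s → s ≤ t → 0 ≤ a0 → (∀ r ∈ Icc s t, a0 ≤ A r) →
    S.Ex A j t (fun z => Real.sqrt (1 - S.vk 1 A j t z ^ 2)) ≤ Real.exp (-(a0 ^ 2 * (t - s) / 2))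
  /-- K8: replacing the terminal mass `1` by `j` at the time `M` is exponentially invisible before `s0` -/
  term : ∀ k : ℕ, 1 ≤ k → ∃ C c : ℝ, 0 < c ∧ ∀ A, LppAdm A 1 → ∀ s0 M j, 0 ≤ s0 → s0 ≤ M → 1 ≤ j → j ≤ 4 →
    (∀ ξ, s0 ≤ ξ → A ξ = 1) → ∀ ξ ∈ Icc 0 s0, ∀ z,
      |S.vk k (lppCap A M j) j ξ z - S.vk k A 1 ξ z| ≤ C * Real.exp (-c * (M - s0))

/-- what is used of the base profile (Lemma paths:base-profile) -/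
structure LppBase (S : LppMod) (T : ℝ) (A0 : ℝ → ℝ) (ξs : ℝ) : Prop where
  T1 : 1 < T
  xs : 0 < ξs
  adm : LppAdm A0 1
  top : ∀ ξ, ξs ≤ ξ → A0 ξ = 1
  self : ∀ ξ ∈ Icc 0 ξs, S.Gam A0 1 ξ = ξ / T
  lin : ∃ CA : ℝ, ∀ ξ ∈ Icc 0 ξs, A0 ξ ≤ CA * ξ
  dens : ∃ c ξ1 : ℝ, 0 < c ∧ 0 < ξ1 ∧ ∀ ξ ξ', 0 ≤ ξ → ξ ≤ ξ' → ξ' ≤ ξ1 → c * (ξ' - ξ) ≤ A0 ξ' - A0 ξ

/-- the cut-off `P` of 03 l.113 -/
structure LppCut (z0 : ℝ) (P : ℝ → ℝ) : Prop where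
  sm : ContDiff ℝ (⊤ : ℕ∞) P
  nn : ∀ ξ, 0 ≤ ξ → 0 ≤ P ξ ∧ P ξ ≤ ξ
  lin : ∀ ξ ∈ Icc 0 (z0 / 2), P ξ = ξ
  zero : ∀ ξ, z0 ≤ ξ → P ξ = 0

/-- link of the numbers-only interface `LlBase` with a mid-level package (instance: `llPk_link` of `LL/PathsDer.lean`) -/
structure LppLink (𝔹 : LlBase) (S : LppMod) : Prop where
  V : 𝔹.scV = S.V
  G : 𝔹.scG = S.Gam
  G1 : 𝔹.scG1 = S.M2

theorem LlFix.Ok.lppCut {F : LlFix} (h : F.Ok) : LppCut F.z0 F.P := ⟨h.P_sm, h.P_nn, h.P_lin, h.P_zero⟩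

end Claimed.Agent.R286
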