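import Claimed.Agent.R286.Sc.Pert
import Claimed.Agent.R286.LL.PathsSc
import Claimed.Agent.R286.LL.PathsPk

/-!
# Row 286 (S0533), LL Section 3, DER (`LscMod.Ok ⟹ LppOk`), file A: PERTURBATION BOUNDS ON THE ABSTRACT MODEL      (owner helper277; head helper272; prefix `lsd_`)

Port of `Sc/Pert.lean` (step profiles) to the rules of `LscMod.Ok` (`LL/PathsSc.lean`): general monotone profiles, two models `(A, j)`, `(A', j')`.
* `lsd_duhamel`  : `|P_{s,t} φ_t - φ_s| ≤ ∫_s^t g` if `|(∂ + L) φ| ≤ g`.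
* `lsd_dlip` (K2): window `[s, b]`, orders `1 ≤ k ≤ 4`:  `sup_z |∂^k V' - ∂^k V|(s) ≤ 2 (ε + 8 B² ∫_s^b |A' - A|) e^{30 a B (b - s)}`.
* `lsd_local`    : the derivatives at the time `ξ` depend on the profile after `ξ` only;   `lsd_dlip_win` : the field `dlip` (windowed) of `LppOk`.
* `lsd_mom2`     : `E Z_t² ≤ 2 t e^{4 a B t}`.
* `lsd_llip` (K3): Duhamel on EVEN tests with the parity gain.
TEX[LL:paths:lift] (l.141).
-/

set_option autoImplicit false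

namespace Claimed.Agent.R286

open MeasureTheory Filter Topology Set

namespace LscMod

variable {M : LscMod}

/-! ## 0. regularity, elementary facts -/

theorem lsd_iter_E {f : ℝ → ℝ} (h : ∀ n, ScE n f) (k : ℕ) : ∀ n, ScE n (deriv^[k] f) := by
  induction k generalizing f with
  | zero => exact h
  | succ k ih =>
    intro n
    rw [Function.iterate_succ_apply]
    exact ih (fun n => (h (n + 1)).deriv) n

section one

variable (hM : M.Ok) {A : ℝ → ℝ} {j Ξ : ℝ} (hj : 0 < j) (hA : LscProf j Ξ A)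

include hM hj hA

theorem lsd_V_E {ξ : ℝ} (hξ : 0 ≤ ξ) (n : ℕ) : ScE n (M.V A j ξ) := (hM.V_T hj hA ξ n).scE ⟨hξ, le_rfl⟩

theorem lsd_D_E {ξ : ℝ} (hξ : 0 ≤ ξ) (k n : ℕ) : ScE n (M.D k A j ξ) := lsd_iter_E (lsd_V_E hM hj hA hξ) k n

omit hM hj hA in
theorem lsd_D_succ (k : ℕ) (A : ℝ → ℝ) (j ξ : ℝ) : deriv (M.D k A j ξ) = M.D (k + 1) A j ξ :=
  (Function.iterate_succ_apply' deriv k (M.V A j ξ)).symm

theorem lsd_D_hasDerivAt {ξ : ℝ} (hξ : 0 ≤ ξ) (k : ℕ) (z : ℝ) : HasDerivAt (M.D k A j ξ) (M.D (k + 1) A j ξ z) z := by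
  rw [← lsd_D_succ]
  exact ((lsd_D_E hM hj hA hξ k 1).differentiable z).hasDerivAt

theorem lsd_u_zero {ξ : ℝ} (hξ : 0 ≤ ξ) : M.D 1 A j ξ 0 = 0 := scq_even_deriv_zero (hM.V_even hj hA ξ hξ)

theorem lsd_u_le {ξ B : ℝ} (hξ : 0 ≤ ξ) (hB : ∀ z, |M.D 2 A j ξ z| ≤ B) (y : ℝ) : |M.D 1 A j ξ y| ≤ B * |y| :=
  scq_lin_of_zero (fun x => lsd_D_hasDerivAt hM hj hA hξ 1 x) (lsd_u_zero hM hj hA hξ) hB y

omit hM hj in
theorem lsd_A_mem {r : ℝ} (hr : 0 ≤ r) : 0 ≤ A r ∧ A r ≤ j := by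
  refine ⟨hA.nonneg.trans (hA.mono (mem_Ici.2 le_rfl) (mem_Ici.2 hr) hr), ?_⟩
  rw [← hA.top (max r Ξ) (le_max_right _ _)]
  exact hA.mono (mem_Ici.2 hr) (mem_Ici.2 (hr.trans (le_max_left _ _))) (le_max_left _ _)

omit hM hj in
theorem lsd_A_ii {s t : ℝ} (hs : 0 ≤ s) (ht : 0 ≤ t) : IntervalIntegrable A volume s t :=
  (hA.mono.mono (fun _ hx => mem_Ici.2 ((le_min hs ht).trans hx.1))).intervalIntegrable

theorem lsd_P_abs_le {s t : ℝ} (h0 : 0 ≤ s) (hst : s ≤ t) {φ : ℝ → ℝ} (hφ : ScE 0 φ) {C : ℝ} (h : ∀ y, |φ y| ≤ C) (z : ℝ) :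
    |M.P A j s t φ z| ≤ C := by
  rw [abs_le]
  constructor
  · have := hM.P_mono hj hA h0 hst (ScE.const 0 (-C)) hφ (fun y => (abs_le.1 (h y)).1) z
    rwa [hM.P_const hj hA h0 hst] at this
  · have := hM.P_mono hj hA h0 hst hφ (ScE.const 0 C) (fun y => (abs_le.1 (h y)).2) z
    rwa [hM.P_const hj hA h0 hst] at this

/-- Duhamel bound -/
theorem lsd_duhamel {s t : ℝ} (h0 : 0 ≤ s) (hst : s ≤ t) {φ G : ℝ → ℝ → ℝ} (hd : M.Dyn A j s t φ G) {g : ℝ → ℝ}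
    (hg : IntervalIntegrable g volume s t) (hG : ∀ r ∈ Icc s t, ∀ y, |G r y| ≤ g r) (z : ℝ) :
    |M.P A j s t (φ t) z - φ s z| ≤ ∫ r in s..t, g r := by
  obtain ⟨_, hf⟩ := hM.dynkin hj hA h0 hst hd z
  rw [hf, ← Real.norm_eq_abs]
  refine intervalIntegral.norm_integral_le_of_norm_le hst (Eventually.of_forall fun r hr => ?_) hg
  have hr' : r ∈ Icc s t := ⟨hr.1.le, hr.2⟩
  rw [Real.norm_eq_abs]
  exact lsd_P_abs_le hM hj hA h0 hr'.1 ((hM.dyn_gen hd).1 r hr') (hG r hr') z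

end one

/-! ## 1. K2 -/

/-- `(∂ + L) ∂^k V = - A Q_k`, `k = 1..4` -/
noncomputable def lsdQ (M : LscMod) (k : ℕ) (A : ℝ → ℝ) (j r y : ℝ) : ℝ :=
  match k with
  | 2 => M.D 2 A j r y ^ 2
  | 3 => 3 * (M.D 2 A j r y * M.D 3 A j r y)
  | 4 => 4 * (M.D 2 A j r y * M.D 4 A j r y) + 3 * (M.D 3 A j r y * M.D 3 A j r y)
  | _ => 0

theorem lsd_dyn_V (hM : M.Ok) {A : ℝ → ℝ} {j Ξ : ℝ} (hj : 0 < j) (hA : LscProf j Ξ A) {s t : ℝ} (h0 : 0 ≤ s) (hst : s ≤ t)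
    {k : ℕ} (hk1 : 1 ≤ k) (hk4 : k ≤ 4) : M.Dyn A j s t (fun r => M.D k A j r) fun r y => -(A r * lsdQ M k A j r y) := by
  interval_cases k
  · exact hM.dyn_congr (hM.dyn_V1 hj hA h0 hst) (fun _ _ => rfl) (fun r _ => by funext y; simp [lsdQ])
  · exact hM.dyn_congr (hM.dyn_V2 hj hA h0 hst) (fun _ _ => rfl) (fun r _ => by funext y; simp [lsdQ])
  · exact hM.dyn_congr (hM.dyn_V3 hj hA h0 hst) (fun _ _ => rfl) (fun r _ => by funext y; simp only [lsdQ]; ring)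
  · exact hM.dyn_congr (hM.dyn_V4 hj hA h0 hst) (fun _ _ => rfl) (fun r _ => by funext y; simp only [lsdQ]; ring)

theorem lsd_prod_le {x y x' y' B μ : ℝ} (hx : |x| ≤ B) (hx' : |x'| ≤ B) (hy' : |y'| ≤ B) (dx : |x' - x| ≤ μ) (dy : |y' - y| ≤ μ) :
    |x' * y'| ≤ B ^ 2 ∧ |x' * y' - x * y| ≤ 2 * B * μ := by
  have hB : 0 ≤ B := (abs_nonneg _).trans hx
  have hμ : 0 ≤ μ := (abs_nonneg _).trans dx
  constructor
  · rw [abs_mul, sq]; exact mul_le_mul hx' hy' (abs_nonneg _) hB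
  · have e : x' * y' - x * y = (x' - x) * y' + x * (y' - y) := by ring
    rw [e]
    calc |(x' - x) * y' + x * (y' - y)| ≤ |x' - x| * |y'| + |x| * |y' - y| := by
          rw [← abs_mul, ← abs_mul]; exact abs_add_le _ _
      _ ≤ μ * B + B * μ := add_le_add (mul_le_mul dx hy' (abs_nonneg _) hμ) (mul_le_mul hx dy (abs_nonneg _) hB)
      _ = 2 * B * μ := by ring

theorem lsd_Q_le {A A' : ℝ → ℝ} {j j' r B μ : ℝ} (hB : ∀ k, 1 ≤ k → k ≤ 5 → ∀ z, |M.D k A j r z| ≤ B)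
    (hB' : ∀ k, 1 ≤ k → k ≤ 5 → ∀ z, |M.D k A' j' r z| ≤ B)
    (hμ : ∀ k, 1 ≤ k → k ≤ 4 → ∀ z, |M.D k A' j' r z - M.D k A j r z| ≤ μ) {k : ℕ} (hk1 : 1 ≤ k) (hk4 : k ≤ 4) (y : ℝ) :
    |lsdQ M k A' j' r y| ≤ 7 * B ^ 2 ∧ |lsdQ M k A' j' r y - lsdQ M k A j r y| ≤ 14 * B * μ := by
  have hB0 : 0 ≤ B := (abs_nonneg _).trans (hB 1 le_rfl (by norm_num) 0)
  have hμ0 : 0 ≤ μ := (abs_nonneg _).trans (hμ 1 le_rfl (by norm_num) 0)
  have p : ∀ a b : ℕ, 1 ≤ a → a ≤ 4 → 1 ≤ b → b ≤ 4 →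
      |M.D a A' j' r y * M.D b A' j' r y| ≤ B ^ 2 ∧
      |M.D a A' j' r y * M.D b A' j' r y - M.D a A j r y * M.D b A j r y| ≤ 2 * B * μ := fun a b h1 h2 h3 h4 =>
    lsd_prod_le (hB a h1 (by omega) y) (hB' a h1 (by omega) y) (hB' b h3 (by omega) y) (hμ a h1 h2 y) (hμ b h3 h4 y)
  have hBB : 0 ≤ B ^ 2 := sq_nonneg _
  have hBμ : 0 ≤ B * μ := mul_nonneg hB0 hμ0
  interval_cases k
  · simp only [lsdQ, abs_zero, sub_self]
    exact ⟨by positivity, by positivity⟩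
  · obtain ⟨h1, h2⟩ := p 2 2 (by norm_num) (by norm_num) (by norm_num) (by norm_num)
    simp only [lsdQ, sq] at h1 h2 ⊢
    exact ⟨by nlinarith, by nlinarith⟩
  · obtain ⟨h1, h2⟩ := p 2 3 (by norm_num) (by norm_num) (by norm_num) (by norm_num)
    simp only [lsdQ]
    rw [abs_le] at h1 h2
    constructor
    · rw [abs_le]; constructor <;> nlinarith [h1.1, h1.2]
    · rw [abs_le]; constructor <;> nlinarith [h2.1, h2.2]
  · obtain ⟨h1, h2⟩ := p 2 4 (by norm_num) (by norm_num) (by norm_num) (by norm_num)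
    obtain ⟨h3, h4⟩ := p 3 3 (by norm_num) (by norm_num) (by norm_num) (by norm_num)
    simp only [lsdQ]
    rw [abs_le] at h1 h2 h3 h4
    constructor
    · rw [abs_le]; constructor <;> nlinarith [h1.1, h1.2, h3.1, h3.2]
    · rw [abs_le]; constructor <;> nlinarith [h2.1, h2.2, h4.1, h4.2]

section two

variable (hM : M.Ok) {A A' : ℝ → ℝ} {j j' Ξ Ξ' : ℝ} (hj : 0 < j) (hj' : 0 < j') (hA : LscProf j Ξ A) (hA' : LscProf j' Ξ' A')

/-- the generator of `(A', j')` applied to `δ_k = ∂^k V' - ∂^k V` -/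
noncomputable def lsdG (M : LscMod) (k : ℕ) (A A' : ℝ → ℝ) (j j' r y : ℝ) : ℝ :=
  -(A' r * lsdQ M k A' j' r y) + (-1) * (-(A r * lsdQ M k A j r y) + (M.dr A' j' r y - M.dr A j r y) * deriv (M.D k A j r) y)

include hM hj hj' hA hA'

theorem lsd_dyn_diff {s t : ℝ} (h0 : 0 ≤ s) (hst : s ≤ t) {k : ℕ} (hk1 : 1 ≤ k) (hk4 : k ≤ 4) :
    M.Dyn A' j' s t (fun r y => M.D k A' j' r y - M.D k A j r y) (lsdG M k A A' j j') :=
  hM.dyn_congr (hM.dyn_add (lsd_dyn_V hM hj' hA' h0 hst hk1 hk4)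
    (hM.dyn_smul (-1) (hM.dyn_model hj' hj hA' hA h0 (lsd_dyn_V hM hj hA h0 hst hk1 hk4))))
    (fun r _ => by funext y; ring) (fun r _ => rfl)

omit hM hj hj' hA hA' in
theorem lsd_G_le {a B μ r : ℝ} (hα : 0 ≤ A r ∧ A r ≤ a) (hB : ∀ k, 1 ≤ k → k ≤ 5 → ∀ z, |M.D k A j r z| ≤ B)
    (hB' : ∀ k, 1 ≤ k → k ≤ 5 → ∀ z, |M.D k A' j' r z| ≤ B)
    (hμ : ∀ k, 1 ≤ k → k ≤ 4 → ∀ z, |M.D k A' j' r z - M.D k A j r z| ≤ μ) {k : ℕ} (hk1 : 1 ≤ k) (hk4 : k ≤ 4) (y : ℝ) :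
    |lsdG M k A A' j j' r y| ≤ 8 * B ^ 2 * |A' r - A r| + 15 * a * B * μ := by
  have hB0 : 0 ≤ B := (abs_nonneg _).trans (hB 1 le_rfl (by norm_num) 0)
  have hμ0 : 0 ≤ μ := (abs_nonneg _).trans (hμ 1 le_rfl (by norm_num) 0)
  have ha0 : 0 ≤ a := hα.1.trans hα.2
  obtain ⟨q1, q2⟩ := lsd_Q_le hB hB' hμ hk1 hk4 y
  have e : lsdG M k A A' j j' r y = -((A' r - A r) * lsdQ M k A' j' r y) - A r * (lsdQ M k A' j' r y - lsdQ M k A j r y)
      - (A' r - A r) * (M.D 1 A' j' r y * M.D (k + 1) A j r y)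
      - A r * ((M.D 1 A' j' r y - M.D 1 A j r y) * M.D (k + 1) A j r y) := by
    unfold lsdG LscMod.dr
    rw [lsd_D_succ]
    ring
  have b1 : |(A' r - A r) * lsdQ M k A' j' r y| ≤ |A' r - A r| * (7 * B ^ 2) := by
    rw [abs_mul]; exact mul_le_mul_of_nonneg_left q1 (abs_nonneg _)
  have b2 : |A r * (lsdQ M k A' j' r y - lsdQ M k A j r y)| ≤ a * (14 * B * μ) := by
    rw [abs_mul, abs_of_nonneg hα.1]
    exact mul_le_mul hα.2 q2 (abs_nonneg _) ha0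
  have b3 : |(A' r - A r) * (M.D 1 A' j' r y * M.D (k + 1) A j r y)| ≤ |A' r - A r| * (B * B) := by
    rw [abs_mul, abs_mul]
    exact mul_le_mul_of_nonneg_left (mul_le_mul (hB' 1 le_rfl (by norm_num) y) (hB _ (by omega) (by omega) y)
      (abs_nonneg _) hB0) (abs_nonneg _)
  have b4 : |A r * ((M.D 1 A' j' r y - M.D 1 A j r y) * M.D (k + 1) A j r y)| ≤ a * (μ * B) := by
    rw [abs_mul, abs_mul, abs_of_nonneg hα.1]
    exact mul_le_mul hα.2 (mul_le_mul (hμ 1 le_rfl (by norm_num) y) (hB _ (by omega) (by omega) y) (abs_nonneg _) hμ0)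
      (by positivity) ha0
  rw [e]
  have t1 : ∀ p q u v : ℝ, |-p - q - u - v| ≤ |p| + |q| + |u| + |v| := by
    intro p q u v
    refine (abs_sub _ _).trans (add_le_add ((abs_sub _ _).trans (add_le_add ((abs_sub _ _).trans ?_) le_rfl)) le_rfl)
    rw [abs_neg]
  refine (t1 _ _ _ _).trans ?_
  nlinarith [b1, b2, b3, b4]

/-- **K2**: windowed, linear, two models -/
theorem lsd_dlip {a B ε b : ℝ} (ha : j ≤ a)
    (hB : ∀ k, 1 ≤ k → k ≤ 5 → ∀ r ∈ Icc 0 b, ∀ z, |M.D k A j r z| ≤ B)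
    (hB' : ∀ k, 1 ≤ k → k ≤ 5 → ∀ r ∈ Icc 0 b, ∀ z, |M.D k A' j' r z| ≤ B)
    (hε : ∀ k, 1 ≤ k → k ≤ 4 → ∀ z, |M.D k A' j' b z - M.D k A j b z| ≤ ε) :
    ∀ s ∈ Icc 0 b, ∀ k, 1 ≤ k → k ≤ 4 → ∀ z, |M.D k A' j' s z - M.D k A j s z| ≤
      2 * (ε + 8 * B ^ 2 * ∫ r in s..b, |A' r - A r|) * Real.exp (2 * (15 * a * B) * (b - s)) := by
  intro s0 hs0 k hk1 hk4 z
  have ha0 : 0 ≤ a := hj.le.trans ha
  have hB0 : 0 ≤ B := (abs_nonneg _).trans (hB 1 le_rfl (by norm_num) s0 hs0 0)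
  have hε0 : 0 ≤ ε := (abs_nonneg _).trans (hε 1 le_rfl (by norm_num) 0)
  set Ac : ℝ := 8 * B ^ 2 with hAc
  set κ : ℝ := 15 * a * B with hκ
  have hA0 : 0 ≤ Ac := by positivity
  have hκ0 : 0 ≤ κ := by positivity
  set σ : ℝ → ℝ := fun r => |A' r - A r| with hσ
  have hσi : ∀ u v : ℝ, 0 ≤ u → 0 ≤ v → IntervalIntegrable σ volume u v := fun u v hu hv =>
    ((lsd_A_ii hA' hu hv).sub (lsd_A_ii hA hu hv)).abs
  have hσ0 : ∀ r, 0 ≤ σ r := fun r => abs_nonneg _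
  set m : ℝ → ℝ := fun r => ⨆ p : Fin 4 × ℝ, |M.D (p.1.1 + 1) A' j' r p.2 - M.D (p.1.1 + 1) A j r p.2| with hm
  have hbd : ∀ r ∈ Icc 0 b, ∀ p : Fin 4 × ℝ, |M.D (p.1.1 + 1) A' j' r p.2 - M.D (p.1.1 + 1) A j r p.2| ≤ B + B := by
    intro r hr p
    have hp := p.1.2
    exact (abs_sub _ _).trans (add_le_add (hB' _ (by omega) (by omega) r hr _) (hB _ (by omega) (by omega) r hr _))
  have hbdd : ∀ r ∈ Icc 0 b, BddAbove (range fun p : Fin 4 × ℝ =>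
      |M.D (p.1.1 + 1) A' j' r p.2 - M.D (p.1.1 + 1) A j r p.2|) := by
    intro r hr
    refine ⟨B + B, ?_⟩
    rintro _ ⟨p, rfl⟩
    exact hbd r hr p
  have hle : ∀ r ∈ Icc 0 b, ∀ i, 1 ≤ i → i ≤ 4 → ∀ y, |M.D i A' j' r y - M.D i A j r y| ≤ m r := by
    intro r hr i hi1 hi4 y
    have := le_ciSup (hbdd r hr) ((⟨i - 1, by omega⟩ : Fin 4), y)
    simp only at this
    rwa [Nat.sub_add_cancel hi1] at this
  have hm0 : ∀ r, 0 ≤ m r := fun r => Real.iSup_nonneg fun p => abs_nonneg _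
  have hI0 : 0 ≤ ∫ r in s0..b, σ r := intervalIntegral.integral_nonneg hs0.2 fun r _ => hσ0 r
  have key := sck_gronwall_back (a := s0) (b := b) (c0 := ε + Ac * ∫ r in s0..b, σ r) (κ := κ) (ρ := 0) (B := B + B) (m := m)
    hκ0 le_rfl (by positivity)
    (fun t ht => Real.iSup_le (hbd t ⟨hs0.1.trans ht.1, ht.2⟩) (by positivity))
    (by
      intro t ht μ hμc hμ
      have ht0 : 0 ≤ t := hs0.1.trans ht.1
      have hb0 : 0 ≤ b := ht0.trans ht.2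
      have hμ0 : ∀ r ∈ Icc t b, 0 ≤ μ r := fun r hr => (hm0 r).trans (hμ r hr)
      have hμi : IntervalIntegrable (fun r => κ * μ r) volume t b := (hμc.const_mul κ |>.intervalIntegrable t b)
      have hJ0 : 0 ≤ ∫ r in t..b, κ * μ r :=
        intervalIntegral.integral_nonneg ht.2 fun r hr => mul_nonneg hκ0 (hμ0 r hr)
      have hsplit : ∫ r in t..b, σ r ≤ ∫ r in s0..b, σ r := by
        rw [← intervalIntegral.integral_add_adjacent_intervals (hσi s0 t hs0.1 ht0) (hσi t b ht0 hb0)]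
        have : 0 ≤ ∫ r in s0..t, σ r := intervalIntegral.integral_nonneg ht.1 fun r _ => hσ0 r
        linarith
      simp only [add_zero]
      refine Real.iSup_le (fun p => ?_) (by positivity)
      obtain ⟨i, y⟩ := p
      have hi := i.2
      have hdy := lsd_dyn_diff hM hj hj' hA hA' ht0 ht.2 (k := i.1 + 1) (by omega) (by omega)
      have hg : IntervalIntegrable (fun r => Ac * σ r + κ * μ r) volume t b := ((hσi t b ht0 hb0).const_mul Ac).add hμi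
      have hG : ∀ r ∈ Icc t b, ∀ y, |lsdG M (i.1 + 1) A A' j j' r y| ≤ Ac * σ r + κ * μ r := by
        intro r hr y
        have hr' : r ∈ Icc 0 b := ⟨ht0.trans hr.1, hr.2⟩
        have hα := lsd_A_mem hA hr'.1
        exact lsd_G_le ⟨hα.1, hα.2.trans ha⟩ (fun k h1 h2 z => hB k h1 h2 r hr' z) (fun k h1 h2 z => hB' k h1 h2 r hr' z)
          (fun k h1 h2 z => (hle r hr' k h1 h2 z).trans (hμ r hr)) (by omega) (by omega) y
      have hdu := lsd_duhamel hM hj' hA' ht0 ht.2 hdy hg hG y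
      have hE : ScE 0 (fun y => M.D (i.1 + 1) A' j' b y - M.D (i.1 + 1) A j b y) :=
        (lsd_D_E hM hj' hA' hb0 (i.1 + 1) 0).sub (lsd_D_E hM hj hA hb0 (i.1 + 1) 0)
      have hP := lsd_P_abs_le hM hj' hA' ht0 ht.2 hE (fun y => hε (i.1 + 1) (by omega) (by omega) y) y
      have hint : ∫ r in t..b, (Ac * σ r + κ * μ r) = Ac * (∫ r in t..b, σ r) + ∫ r in t..b, κ * μ r := by
        rw [intervalIntegral.integral_add ((hσi t b ht0 hb0).const_mul Ac) hμi, intervalIntegral.integral_const_mul]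
      rw [hint] at hdu
      have h3 : Ac * (∫ r in t..b, σ r) ≤ Ac * ∫ r in s0..b, σ r := mul_le_mul_of_nonneg_left hsplit hA0
      have h4 := abs_sub_abs_le_abs_sub (M.D (i.1 + 1) A' j' t y - M.D (i.1 + 1) A j t y)
        (M.P A' j' t b (fun y => M.D (i.1 + 1) A' j' b y - M.D (i.1 + 1) A j b y) y)
      rw [abs_sub_comm (M.D (i.1 + 1) A' j' t y - M.D (i.1 + 1) A j t y)] at h4
      simp only at hdu ⊢
      linarith)
    s0 ⟨le_rfl, hs0.2⟩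
  simp only [zero_mul, add_zero] at key
  exact (hle s0 hs0 k hk1 hk4 z).trans key

end two

/-- one constant for the orders `1..5` (tau-free) -/
theorem lsd_bd5 (hM : M.Ok) (J : ℝ) : ∃ B : ℝ, 0 ≤ B ∧ ∀ (A : ℝ → ℝ) (j Ξ : ℝ), 1 ≤ j → j ≤ J → LscProf j Ξ A →
    ∀ k, 1 ≤ k → k ≤ 5 → ∀ ξ, 0 ≤ ξ → ∀ z, |M.D k A j ξ z| ≤ B := by
  have h : ∀ k : ℕ, ∃ C : ℝ, 1 ≤ k → ∀ (A : ℝ → ℝ) (j Ξ : ℝ), 1 ≤ j → j ≤ J → LscProf j Ξ A → ∀ ξ, 0 ≤ ξ → ∀ z,
      |M.D k A j ξ z| ≤ C := by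
    intro k
    by_cases hk : 1 ≤ k
    · obtain ⟨C, hC⟩ := hM.V_bd J k hk
      exact ⟨C, fun _ => hC⟩
    · exact ⟨0, fun h => absurd h hk⟩
  choose C hC using h
  refine ⟨∑ k ∈ Finset.range 6, |C k|, Finset.sum_nonneg fun _ _ => abs_nonneg _, ?_⟩
  intro A j Ξ h1 hJ hA k hk1 hk5 ξ hξ z
  refine (hC k hk1 A j Ξ h1 hJ hA ξ hξ z).trans ((le_abs_self _).trans ?_)
  exact Finset.single_le_sum (f := fun k => |C k|) (fun _ _ => abs_nonneg _) (Finset.mem_range.2 (by omega))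

/-- the derivatives at the time `s` depend on the profile after `s` only (same terminal mass) -/
theorem lsd_local (hM : M.Ok) {A A' : ℝ → ℝ} {j Ξ Ξ' : ℝ} (h1 : 1 ≤ j) (hA : LscProf j Ξ A) (hA' : LscProf j Ξ' A')
    {s : ℝ} (hs0 : 0 ≤ s) (hAA : ∀ ξ, s ≤ ξ → A' ξ = A ξ) : ∀ k, 1 ≤ k → k ≤ 4 → ∀ z, M.D k A' j s z = M.D k A j s z := by
  intro k hk1 hk4 z
  have hj : 0 < j := zero_lt_one.trans_le h1
  set b : ℝ := max s (max Ξ Ξ') with hb
  have hsb : s ≤ b := le_max_left _ _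
  have hΞb : Ξ ≤ b := (le_max_left _ _).trans (le_max_right _ _)
  have hΞb' : Ξ' ≤ b := (le_max_right _ _).trans (le_max_right _ _)
  obtain ⟨B, _, hB⟩ := lsd_bd5 hM j
  have hV : M.V A' j b = M.V A j b := by
    funext z
    rw [hM.V_top hj hA' b hΞb', hM.V_top hj hA b hΞb]
  have key := lsd_dlip hM hj hj hA hA' (a := j) (B := B) (ε := 0) (b := b) le_rfl
    (fun k h1' h5 r hr z => hB A j Ξ h1 le_rfl hA k h1' h5 r hr.1 z)
    (fun k h1' h5 r hr z => hB A' j Ξ' h1 le_rfl hA' k h1' h5 r hr.1 z)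
    (fun k _ _ z => by
      have : M.D k A' j b = M.D k A j b := by unfold LscMod.D; rw [hV]
      rw [this]; simp) s ⟨hs0, hsb⟩ k hk1 hk4 z
  have hz : ∫ r in s..b, |A' r - A r| = 0 := by
    have : ∀ r ∈ Set.uIcc s b, |A' r - A r| = 0 := by
      intro r hr
      rw [Set.uIcc_of_le hsb] at hr
      rw [hAA r hr.1]; simp
    rw [intervalIntegral.integral_congr this]; simp
  rw [hz] at key
  simp only [mul_zero, add_zero, zero_mul] at key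
  have := abs_nonpos_iff.1 key
  linarith

/-- **the field `dlip`** (orders `1..4`): profiles which coincide after `R` -/
theorem lsd_dlip_win (hM : M.Ok) (J R : ℝ) : ∃ C : ℝ, 0 ≤ C ∧ ∀ (A A' : ℝ → ℝ) (j Ξ Ξ' : ℝ), 1 ≤ j → j ≤ J → LscProf j Ξ A →
    LscProf j Ξ' A' → (∀ ξ, R ≤ ξ → A' ξ = A ξ) → ∀ ξ, 0 ≤ ξ → ∀ k, 1 ≤ k → k ≤ 4 → ∀ z,
      |M.D k A' j ξ z - M.D k A j ξ z| ≤ C * ∫ r in Ioi ξ, |A' r - A r| := by
  obtain ⟨B, hB0, hB⟩ := lsd_bd5 hM J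
  refine ⟨2 * (8 * B ^ 2) * Real.exp (2 * (15 * |J| * B) * |R|), by positivity, ?_⟩
  intro A A' j Ξ Ξ' h1 hJ hA hA' hAA ξ hξ k hk1 hk4 z
  have hj : 0 < j := zero_lt_one.trans_le h1
  have hI0 : 0 ≤ ∫ r in Ioi ξ, |A' r - A r| := integral_nonneg fun _ => abs_nonneg _
  rcases le_total R ξ with hRξ | hξR
  · rw [lsd_local hM h1 hA hA' hξ (fun x hx => hAA x (hRξ.trans hx)) k hk1 hk4 z]
    simp only [sub_self, abs_zero]
    positivity
  · have hR0 : 0 ≤ R := hξ.trans hξR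
    have key := lsd_dlip hM hj hj hA hA' (a := |J|) (B := B) (ε := 0) (b := R) (hJ.trans (le_abs_self _))
      (fun k h1' h5 r hr z => hB A j Ξ h1 hJ hA k h1' h5 r hr.1 z)
      (fun k h1' h5 r hr z => hB A' j Ξ' h1 hJ hA' k h1' h5 r hr.1 z)
      (fun k h1' h4 z => by rw [lsd_local hM h1 hA hA' hR0 hAA k h1' h4 z]; simp) ξ ⟨hξ, hξR⟩ k hk1 hk4 z
    have hint : ∫ r in ξ..R, |A' r - A r| = ∫ r in Ioi ξ, |A' r - A r| := by
      rw [intervalIntegral.integral_of_le hξR]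
      refine (setIntegral_eq_of_subset_of_forall_sdiff_eq_zero measurableSet_Ioi (fun x hx => hx.1) ?_).symm
      intro x hx
      have hx' : R ≤ x := by
        by_contra hc
        push Not at hc
        exact hx.2 ⟨hx.1, hc.le⟩
      rw [hAA x hx']; simp
    rw [hint, zero_add] at key
    refine key.trans ?_
    have hexp : Real.exp (2 * (15 * |J| * B) * (R - ξ)) ≤ Real.exp (2 * (15 * |J| * B) * |R|) := by
      apply Real.exp_le_exp.2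
      apply mul_le_mul_of_nonneg_left _ (by positivity)
      rw [abs_of_nonneg hR0]; linarith
    calc 2 * (8 * B ^ 2 * ∫ r in Ioi ξ, |A' r - A r|) * Real.exp (2 * (15 * |J| * B) * (R - ξ))
        = (2 * (8 * B ^ 2) * ∫ r in Ioi ξ, |A' r - A r|) * Real.exp (2 * (15 * |J| * B) * (R - ξ)) := by ring
      _ ≤ (2 * (8 * B ^ 2) * ∫ r in Ioi ξ, |A' r - A r|) * Real.exp (2 * (15 * |J| * B) * |R|) :=
          mul_le_mul_of_nonneg_left hexp (by positivity)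
      _ = _ := by ring

/-! ## 2. the second moment -/

/-- `E Z_t² ≤ 2 t e^{4 a B t}` -/
theorem lsd_mom2 (hM : M.Ok) {A : ℝ → ℝ} {j Ξ : ℝ} (hj : 0 < j) (hA : LscProf j Ξ A) {a B b : ℝ} (ha : j ≤ a)
    (hB : ∀ r ∈ Icc 0 b, ∀ z, |M.D 2 A j r z| ≤ B) :
    ∀ t ∈ Icc 0 b, M.E A j t (fun y => y ^ 2) ≤ 2 * t * Real.exp (4 * a * B * t) := by
  intro t0 ht0
  have ha0 : 0 ≤ a := hj.le.trans ha
  have hB0 : 0 ≤ B := (abs_nonneg _).trans (hB t0 ht0 0)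
  set n : ℝ → ℝ := fun t => M.E A j t (fun y => y ^ 2) with hn
  have hcont : ContinuousOn n (Icc 0 t0) := hM.P_fwd hj hA le_rfl ht0.1 ((scq_sq_E 0).scT (Icc 0 t0)) 0
  obtain ⟨Bd, hBd⟩ := isCompact_Icc.exists_bound_of_continuousOn hcont
  have d1 : deriv (fun y : ℝ => y ^ 2) = fun y => 2 * y := by
    funext y; simp
  have d2 : deriv (deriv (fun y : ℝ => y ^ 2)) = fun _ => 2 := by
    rw [d1]; funext y
    simp
  have key := sck_gronwall_fwd (a := 0) (b := t0) (c0 := 0) (κ := 2 * a * B) (ρ := 1) (B := Bd) (m := n)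
    (by positivity) zero_le_one le_rfl (fun t ht => (le_abs_self _).trans (by simpa using hBd t ht))
    (by
      intro t ht μ hμc hμ
      have hdy := hM.dyn_space hj hA (s := 0) (t := t) le_rfl ht.1 (scq_sq_E 2)
      obtain ⟨hint, hfor⟩ := hM.dynkin hj hA le_rfl ht.1 hdy 0
      have hle : ∀ r ∈ Icc 0 t, M.P A j 0 r (fun y => deriv (deriv (fun y : ℝ => y ^ 2)) y / 2
          + M.dr A j r y * deriv (fun y : ℝ => y ^ 2) y) 0 ≤ 2 * a * B * μ r + 1 := by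
        intro r hr
        have hr' : r ∈ Icc 0 b := ⟨hr.1, hr.2.trans (ht.2.trans ht0.2)⟩
        have hα := lsd_A_mem hA hr.1
        have hE1 : ScE 0 (fun y => deriv (deriv (fun y : ℝ => y ^ 2)) y / 2
            + M.dr A j r y * deriv (fun y : ℝ => y ^ 2) y) := (hM.dyn_gen hdy).1 r hr
        have hE2 : ScE 0 (fun y : ℝ => 1 + 2 * a * B * y ^ 2) := (ScE.const 0 1).add ((scq_sq_E 0).const_mul _)
        have h1 := hM.P_mono hj hA le_rfl hr.1 hE1 hE2 (fun y => by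
          rw [d2, d1]
          have hu := lsd_u_le hM hj hA hr.1 (hB r hr') y
          have h2 : M.D 1 A j r y * y ≤ B * y ^ 2 := by
            calc M.D 1 A j r y * y ≤ |M.D 1 A j r y * y| := le_abs_self _
              _ = |M.D 1 A j r y| * |y| := abs_mul _ _
              _ ≤ B * |y| * |y| := mul_le_mul_of_nonneg_right hu (abs_nonneg _)
              _ = B * y ^ 2 := by rw [mul_assoc, abs_mul_abs_self, sq]
          have h3 : A r * (M.D 1 A j r y * y) ≤ a * (B * y ^ 2) := by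
            have h4 : A r * (M.D 1 A j r y * y) ≤ A r * (B * y ^ 2) := mul_le_mul_of_nonneg_left h2 hα.1
            have h5 : A r * (B * y ^ 2) ≤ a * (B * y ^ 2) := mul_le_mul_of_nonneg_right (hα.2.trans ha) (by positivity)
            linarith
          simp only [LscMod.dr]
          nlinarith) 0
        rw [hM.P_add hj hA le_rfl hr.1 (ScE.const 0 1) ((scq_sq_E 0).const_mul _), hM.P_const hj hA le_rfl hr.1,
          hM.P_smul hj hA le_rfl hr.1 _ (scq_sq_E 0)] at h1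
        have h6 : n r ≤ μ r := hμ r hr
        have h7 : 2 * a * B * n r ≤ 2 * a * B * μ r := mul_le_mul_of_nonneg_left h6 (by positivity)
        simp only [hn, LscMod.E] at h7
        linarith
      have hgi : IntervalIntegrable (fun r => 2 * a * B * μ r + 1) volume 0 t :=
        ((hμc.const_mul _).add continuous_const).intervalIntegrable 0 t
      have := intervalIntegral.integral_mono_on ht.1 hint hgi hle
      simp only [hn, LscMod.E, zero_add]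
      simp only [ne_eq, OfNat.ofNat_ne_zero, not_false_eq_true, zero_pow, sub_zero] at hfor
      linarith)
    t0 ⟨ht0.1, le_rfl⟩
  simp only [zero_add, one_mul, sub_zero] at key
  refine key.trans (le_of_eq ?_)
  congr 2
  ring

/-! ## 3. K3 -/

/-- exact Duhamel identity for the transition operators of two models -/
theorem lsd_duhamel_P (hM : M.Ok) {A A' : ℝ → ℝ} {j j' Ξ Ξ' : ℝ} (hj : 0 < j) (hj' : 0 < j') (hA : LscProf j Ξ A)
    (hA' : LscProf j' Ξ' A') {ψ : ℝ → ℝ} (hψ : ScBd 3 ψ) {s t : ℝ} (h0 : 0 ≤ s) (hst : s ≤ t) (z : ℝ) :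
    M.P A j s t ψ z - M.P A' j' s t ψ z =
      ∫ r in s..t, M.P A j s r (fun y => 0 + (M.dr A j r y - M.dr A' j' r y) * deriv (M.P A' j' r t ψ) y) z := by
  have h1 := hM.dyn_model hj hj' hA hA' h0 (hM.dyn_P hj' hA' h0 hst hψ)
  have h2 := (hM.dynkin hj hA h0 hst h1 z).2
  simp only [hM.P_self] at h2
  exact h2

/-- **K3**.   `Γ` = bound of `∂_z² P'_{r,t} ψ`, `D r` = distance of the two Hessians at the time `r`, `B` = bound of the Hessian of `(A, j)`. -/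
theorem lsd_llip (hM : M.Ok) {A A' : ℝ → ℝ} {j j' Ξ Ξ' : ℝ} (hj : 0 < j) (hj' : 0 < j') (hA : LscProf j Ξ A)
    (hA' : LscProf j' Ξ' A') {ψ : ℝ → ℝ} (hψ : ScBd 3 ψ) (hψe : ∀ z, ψ (-z) = ψ z) {a B Γ t : ℝ} (ha : j ≤ a) (h0 : 0 ≤ t)
    (hB : ∀ r ∈ Icc 0 t, ∀ z, |M.D 2 A j r z| ≤ B)
    (hΓ : ∀ r ∈ Icc 0 t, ∀ y, |deriv (deriv (M.P A' j' r t ψ)) y| ≤ Γ)
    {D H : ℝ → ℝ} (hD : ∀ r ∈ Ioo 0 t, ∀ y, |M.D 2 A j r y - M.D 2 A' j' r y| ≤ D r)
    (hH : ∀ r ∈ Ioo 0 t, (B * |A r - A' r| + A' r * D r) * r ≤ H r)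
    (hHi : IntervalIntegrable H volume 0 t) :
    |M.E A j t ψ - M.E A' j' t ψ| ≤ 2 * Γ * Real.exp (4 * a * B * t) * ∫ r in (0 : ℝ)..t, H r := by
  have ha0 : 0 ≤ a := hj.le.trans ha
  have hB0 : 0 ≤ B := (abs_nonneg _).trans (hB t ⟨h0, le_rfl⟩ 0)
  have hΓ0 : 0 ≤ Γ := (abs_nonneg _).trans (hΓ t ⟨h0, le_rfl⟩ 0)
  unfold LscMod.E
  rw [lsd_duhamel_P hM hj hj' hA hA' hψ le_rfl h0 0]
  have hdy := hM.dyn_model hj hj' hA hA' le_rfl (hM.dyn_P hj' hA' le_rfl h0 hψ)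
  have hb : ∀ r ∈ Ioo 0 t, ‖M.P A j 0 r (fun y => 0 + (M.dr A j r y - M.dr A' j' r y) * deriv (M.P A' j' r t ψ) y) 0‖
      ≤ 2 * Γ * Real.exp (4 * a * B * t) * H r := by
    intro r hr
    have hr' : r ∈ Icc 0 t := ⟨hr.1.le, hr.2.le⟩
    set c : ℝ := B * |A r - A' r| + A' r * D r with hc
    have hα' := lsd_A_mem hA' hr'.1
    have hD0 : 0 ≤ D r := (abs_nonneg _).trans (hD r hr 0)
    have hc0 : 0 ≤ c := add_nonneg (mul_nonneg hB0 (abs_nonneg _)) (mul_nonneg hα'.1 hD0)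
    have hPE : ScE 2 (M.P A' j' r t ψ) := (hM.P_T hj' hA' h0 hψ).scE hr'
    have h1 : ∀ y, |M.dr A j r y - M.dr A' j' r y| ≤ c * |y| := by
      intro y
      have e : M.dr A j r y - M.dr A' j' r y
          = (A r - A' r) * M.D 1 A j r y + A' r * (M.D 1 A j r y - M.D 1 A' j' r y) := by
        unfold LscMod.dr; ring
      have u1 := lsd_u_le hM hj hA hr'.1 (hB r hr') y
      have u2 : |M.D 1 A j r y - M.D 1 A' j' r y| ≤ D r * |y| := by
        refine scq_lin_of_zero (f := fun y => M.D 1 A j r y - M.D 1 A' j' r y)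
          (fun x => (lsd_D_hasDerivAt hM hj hA hr'.1 1 x).sub (lsd_D_hasDerivAt hM hj' hA' hr'.1 1 x)) ?_ (hD r hr) y
        rw [lsd_u_zero hM hj hA hr'.1, lsd_u_zero hM hj' hA' hr'.1, sub_zero]
      rw [e]
      refine (abs_add_le _ _).trans ?_
      rw [abs_mul, abs_mul, abs_of_nonneg hα'.1]
      have q1 : |A r - A' r| * |M.D 1 A j r y| ≤ |A r - A' r| * (B * |y|) := mul_le_mul_of_nonneg_left u1 (abs_nonneg _)
      have q2 : A' r * |M.D 1 A j r y - M.D 1 A' j' r y| ≤ A' r * (D r * |y|) := mul_le_mul_of_nonneg_left u2 hα'.1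
      rw [hc]
      nlinarith
    have h2 : ∀ y, |deriv (M.P A' j' r t ψ) y| ≤ Γ * |y| := by
      intro y
      refine scq_lin_of_zero (f := deriv (M.P A' j' r t ψ)) (f' := deriv (deriv (M.P A' j' r t ψ)))
        (fun x => (hPE.deriv.differentiable x).hasDerivAt) ?_ (hΓ r hr') y
      exact scq_even_deriv_zero (fun y => hM.P_even hj' hA' hr'.1 hr'.2 (hψ.scE.mono (by norm_num)) hψe y)
    have hΦE : ScE 0 (fun y => 0 + (M.dr A j r y - M.dr A' j' r y) * deriv (M.P A' j' r t ψ) y) := (hM.dyn_gen hdy).1 r hr'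
    have hΦ : ∀ y, |0 + (M.dr A j r y - M.dr A' j' r y) * deriv (M.P A' j' r t ψ) y| ≤ c * Γ * y ^ 2 := by
      intro y
      rw [zero_add, abs_mul]
      calc _ ≤ (c * |y|) * (Γ * |y|) := mul_le_mul (h1 y) (h2 y) (abs_nonneg _) (by positivity)
        _ = c * Γ * (|y| * |y|) := by ring
        _ = c * Γ * y ^ 2 := by rw [abs_mul_abs_self, sq]
    have hME : ScE 0 (fun y : ℝ => c * Γ * y ^ 2) := (scq_sq_E 0).const_mul _
    have hME' : ScE 0 (fun y : ℝ => (-(c * Γ)) * y ^ 2) := (scq_sq_E 0).const_mul _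
    have up := hM.P_mono hj hA le_rfl hr'.1 hΦE hME (fun y => (le_abs_self _).trans (hΦ y)) 0
    have lo := hM.P_mono hj hA le_rfl hr'.1 hME' hΦE (fun y => by
      have := hΦ y; rw [abs_le] at this; linarith [this.1]) 0
    rw [hM.P_smul hj hA le_rfl hr'.1 _ (scq_sq_E 0)] at lo up
    have hmom := lsd_mom2 hM hj hA ha hB r hr'
    unfold LscMod.E at hmom
    have hexp : Real.exp (4 * a * B * r) ≤ Real.exp (4 * a * B * t) :=
      Real.exp_le_exp.2 (mul_le_mul_of_nonneg_left hr.2.le (by positivity))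
    have hmom' : M.P A j 0 r (fun y => y ^ 2) 0 ≤ 2 * r * Real.exp (4 * a * B * t) :=
      hmom.trans (mul_le_mul_of_nonneg_left hexp (by linarith [hr.1]))
    rw [Real.norm_eq_abs, abs_le]
    have hcΓ : 0 ≤ c * Γ := by positivity
    have hfin : c * Γ * M.P A j 0 r (fun y => y ^ 2) 0 ≤ 2 * Γ * Real.exp (4 * a * B * t) * H r := by
      calc c * Γ * M.P A j 0 r (fun y => y ^ 2) 0 ≤ c * Γ * (2 * r * Real.exp (4 * a * B * t)) :=
            mul_le_mul_of_nonneg_left hmom' hcΓ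
        _ = 2 * Γ * Real.exp (4 * a * B * t) * (c * r) := by ring
        _ ≤ _ := mul_le_mul_of_nonneg_left (hH r hr) (by positivity)
    constructor
    · linarith
    · linarith
  have hae : ∀ᵐ r ∂volume, r ∈ Ioc 0 t → ‖M.P A j 0 r (fun y => 0 + (M.dr A j r y - M.dr A' j' r y)
      * deriv (M.P A' j' r t ψ) y) 0‖ ≤ 2 * Γ * Real.exp (4 * a * B * t) * H r := by
    have hne : ∀ᵐ r ∂(volume : Measure ℝ), r ≠ t := by
      simp [ae_iff, measure_singleton]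
    filter_upwards [hne] with r hr hr'
    exact hb r ⟨hr'.1, lt_of_le_of_ne hr'.2 hr⟩
  have h1 := intervalIntegral.norm_integral_le_of_norm_le h0 hae (hHi.const_mul _)
  rw [Real.norm_eq_abs, intervalIntegral.integral_const_mul] at h1
  exact h1

/-! ## 4. the fields `mom2`, `dlip`, `llip` of `LppOk` -/

theorem lsd_prof {A : ℝ → ℝ} {j : ℝ} (h : LppAdm A j) : 0 < j ∧ ∃ Ξ : ℝ, LscProf j Ξ A := by
  obtain ⟨τ, hτ⟩ := h.top
  exact ⟨by linarith [h.j1], max τ 0, h.mono, h.nn 0 le_rfl, fun ξ hξ => hτ ξ ((le_max_left _ _).trans hξ), le_max_right _ _⟩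

/-- field `mom2` -/
theorem lsd_f_mom2 (hM : M.Ok) (R : ℝ) : ∃ C : ℝ, ∀ A j, LppAdm A j → ∀ ξ ∈ Icc 0 R, M.E A j ξ (fun z => z ^ 2) ≤ C * ξ := by
  obtain ⟨B, hB0, hB⟩ := lsd_bd5 hM 4
  refine ⟨2 * Real.exp (4 * 4 * B * |R|), fun A j hA ξ hξ => ?_⟩
  obtain ⟨hj, Ξ, hp⟩ := lsd_prof hA
  have h1 := lsd_mom2 hM hj hp (a := 4) (B := B) (b := ξ) hA.j4
    (fun r hr z => hB A j Ξ hA.j1 hA.j4 hp 2 (by norm_num) (by norm_num) r hr.1 z) ξ ⟨hξ.1, le_rfl⟩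
  refine h1.trans ?_
  have h2 : Real.exp (4 * 4 * B * ξ) ≤ Real.exp (4 * 4 * B * |R|) :=
    Real.exp_le_exp.2 (mul_le_mul_of_nonneg_left (hξ.2.trans (le_abs_self R)) (by positivity))
  nlinarith [hξ.1, Real.exp_pos (4 * 4 * B * ξ)]

/-- field `dlip` -/
theorem lsd_f_dlip (hM : M.Ok) (k : ℕ) (hk : 1 ≤ k) (hk4 : k ≤ 4) (R : ℝ) : ∃ C : ℝ, ∀ A A' j, LppAdm A j → LppAdm A' j →
    (∀ ξ, R ≤ ξ → A' ξ = A ξ) → ∀ ξ, 0 ≤ ξ → ∀ z, |M.D k A' j ξ z - M.D k A j ξ z| ≤ C * ∫ r in Ioi ξ, |A' r - A r| := by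
  obtain ⟨C, _, hC⟩ := lsd_dlip_win hM 4 R
  refine ⟨C, fun A A' j hA hA' hR ξ hξ z => ?_⟩
  obtain ⟨_, Ξ, hp⟩ := lsd_prof hA
  obtain ⟨_, Ξ', hp'⟩ := lsd_prof hA'
  exact hC A A' j Ξ Ξ' hA.j1 hA.j4 hp hp' hR ξ hξ k hk hk4 z

/-- field `llip` -/
theorem lsd_f_llip (hM : M.Ok) (R : ℝ) : ∃ C : ℝ, ∀ A j A' j', LppAdm A j → LppAdm A' j' → ∀ ξ ∈ Icc 0 R, ∀ (g : ℝ → ℝ) (G : ℝ),
    LppTest g G → ∀ D H : ℝ → ℝ, (∀ r ∈ Ico 0 ξ, ∀ z, |M.D 2 A' j' r z - M.D 2 A j r z| ≤ D r) →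
      (∀ r ∈ Ico 0 ξ, (|A' r - A r| + A r * D r) * r ≤ H r) → IntervalIntegrable H volume 0 ξ →
      |M.E A' j' ξ g - M.E A j ξ g| ≤ C * G * ∫ r in (0 : ℝ)..ξ, H r := by
  obtain ⟨B, hB0, hB⟩ := lsd_bd5 hM 4
  obtain ⟨Cg, hCg⟩ := hM.P_grad 4 2
  refine ⟨2 * |Cg| * Real.exp (4 * 4 * B * |R|) * (B + 1), fun A j A' j' hA hA' ξ hξ g G hg D H hD hH hHi => ?_⟩
  obtain ⟨hj, Ξ, hp⟩ := lsd_prof hA
  obtain ⟨hj', Ξ', hp'⟩ := lsd_prof hA'
  have hG0 : 0 ≤ G := (abs_nonneg _).trans (hg.b0 0)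
  have hH0 : ∀ r ∈ Ioo 0 ξ, 0 ≤ H r := by
    intro r hr
    have hD0 : 0 ≤ D r := (abs_nonneg _).trans (hD r ⟨hr.1.le, hr.2⟩ 0)
    refine le_trans ?_ (hH r ⟨hr.1.le, hr.2⟩)
    have := hA.nn r hr.1.le
    have := abs_nonneg (A' r - A r)
    have := hr.1.le
    positivity
  have hI0 : 0 ≤ ∫ r in (0 : ℝ)..ξ, H r := by
    rw [intervalIntegral.integral_of_le hξ.1, integral_Ioc_eq_integral_Ioo]
    exact setIntegral_nonneg measurableSet_Ioo hH0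
  have key := lsd_llip hM hj' hj hp' hp hg.c3 hg.even (a := 4) (B := B) (Γ := |Cg| * G) (t := ξ) hA'.j4 hξ.1
    (fun r hr z => hB A' j' Ξ' hA'.j1 hA'.j4 hp' 2 (by norm_num) (by norm_num) r hr.1 z)
    (fun r hr y => by
      have h1 := hCg A j Ξ hA.j1 hA.j4 hp r ξ hr.1 hr.2 g G hg.c3.of_succ (fun k hk y => by
        interval_cases k
        · exact hg.b0 y
        · exact hg.b1 y
        · have := hg.b2 y
          rwa [iteratedDeriv_eq_iterate] at this) y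
      exact h1.trans (mul_le_mul_of_nonneg_right (le_abs_self _) hG0))
    (D := D) (H := fun r => (B + 1) * H r) (fun r hr y => hD r ⟨hr.1.le, hr.2⟩ y)
    (fun r hr => by
      have hD0 : 0 ≤ D r := (abs_nonneg _).trans (hD r ⟨hr.1.le, hr.2⟩ 0)
      have h1 := hH r ⟨hr.1.le, hr.2⟩
      have h2 := hA.nn r hr.1.le
      have h3 := abs_nonneg (A' r - A r)
      have h4 : 0 ≤ A r * D r * r := mul_nonneg (mul_nonneg h2 hD0) hr.1.le
      have h5 : 0 ≤ |A' r - A r| * r := mul_nonneg h3 hr.1.le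
      calc (B * |A' r - A r| + A r * D r) * r = B * (|A' r - A r| * r) + A r * D r * r := by ring
        _ ≤ (B + 1) * ((|A' r - A r| + A r * D r) * r) := by nlinarith
        _ ≤ (B + 1) * H r := mul_le_mul_of_nonneg_left h1 (by linarith))
    (hHi.const_mul _)
  refine key.trans ?_
  rw [intervalIntegral.integral_const_mul]
  have h2 : Real.exp (4 * 4 * B * ξ) ≤ Real.exp (4 * 4 * B * |R|) :=
    Real.exp_le_exp.2 (mul_le_mul_of_nonneg_left (hξ.2.trans (le_abs_self R)) (by positivity))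
  calc 2 * (|Cg| * G) * Real.exp (4 * 4 * B * ξ) * ((B + 1) * ∫ r in (0 : ℝ)..ξ, H r)
      = Real.exp (4 * 4 * B * ξ) * (2 * |Cg| * G * (B + 1) * ∫ r in (0 : ℝ)..ξ, H r) := by ring
    _ ≤ Real.exp (4 * 4 * B * |R|) * (2 * |Cg| * G * (B + 1) * ∫ r in (0 : ℝ)..ξ, H r) :=
        mul_le_mul_of_nonneg_right h2 (by positivity)
    _ = _ := by ring

end LscMod

end Claimed.Agent.R286
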