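import Claimed.Agent.R286.LL.PathsClkE
import Claimed.Agent.R286.LL.PathsKk

/-!
# Row 286 (S0533), LL Section 3, block CLK (head helper253), file E2: TERMINAL MASS, PROFILES, **EXIT `lce_main` OF BLOCK CLK**      (owner helper253; prefix `lce_`; ALL PROVED)

* §9   left continuity of `K, q, b, h_*, h` at the terminal mass `v = a` (ask of LL 07): `lce_inv_leftcont`, `lce_K_end`, ..., `lce_h_end`
* §10  the mass profiles are admissible (`LpqProf`; K-kit of helper267): `lce_prof_point`, `lce_unif_prof`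
* §11  `lce_LlAdmEnd`;   `LceAll 𝔹 F` = everything block CLK proves for one record `F`;   **`lce_main`** : `LlBaseProfile 𝔹 T` + `LlRefExit 𝔹 T` ⇒ `∃ z0 vb c1 cb U0, ∀` exponents in `LlExpOk`, `LceAll 𝔹 (llFixMk T sS eta pS z0 vb c1 cb U0)`
TEX[LL:paths:parameter-regularity] (running text l.369-512: (P3)-(P9), admissibility)
-/

set_option autoImplicit false

namespace Claimed.Agent.R286

open MeasureTheory Set Filter Topology

/-! ## 9. left continuity at the terminal mass -/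

/-- the generalised inverse of a nondecreasing profile is left continuous -/
theorem lce_inv_leftcont {A : ℝ → ℝ} (hA : MonotoneOn A (Ici 0)) {w0 : ℝ} (hne : ∃ ξ, 0 ≤ ξ ∧ w0 ≤ A ξ) :
    Tendsto (llInv A) (𝓝[<] w0) (𝓝 (llInv A w0)) := by
  rw [Metric.tendsto_nhdsWithin_nhds]
  intro ε hε
  obtain ⟨ξt, ht0, htw⟩ := hne
  have hnn : ∀ w, 0 ≤ llInv A w := fun w => Real.sInf_nonneg fun _ h => h.1
  have hup : ∀ w, w ≤ w0 → llInv A w ≤ llInv A w0 := fun w hw => lce_inv_mono hw ⟨ξt, ht0, htw⟩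
  rcases lt_or_ge (llInv A w0 - ε / 2) 0 with hneg | hpos
  · refine ⟨1, one_pos, fun w hw _ => ?_⟩
    rw [Real.dist_eq, abs_lt]
    have h1 := hup w (le_of_lt hw)
    have h2 := hnn w
    constructor <;> linarith
  · -- `ξ' = ξ0 - ε/2 ≥ 0` is not in the set of `w0`
    have hlt : A (llInv A w0 - ε / 2) < w0 := by
      by_contra hcon
      have : llInv A w0 ≤ llInv A w0 - ε / 2 := csInf_le ⟨0, fun _ h => h.1⟩ ⟨hpos, not_lt.1 hcon⟩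
      linarith
    refine ⟨w0 - A (llInv A w0 - ε / 2), by linarith, fun w hw hd => ?_⟩
    have hw' : w < w0 := hw
    rw [Real.dist_eq, abs_lt] at hd
    have hwA : A (llInv A w0 - ε / 2) < w := by linarith [hd.1]
    have hlow : llInv A w0 - ε / 2 ≤ llInv A w := by
      refine le_csInf ⟨ξt, ht0, le_trans hw'.le htw⟩ ?_
      intro ξ hξ
      by_contra hcon
      have := hA hξ.1 hpos (not_le.1 hcon).le
      linarith [hξ.2]
    rw [Real.dist_eq, abs_lt]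
    have h1 := hup w hw'.le
    constructor <;> linarith

section endpt

variable {𝔹 : LlBase} {F : LlFix} {p : LlPt}

/-- `K` is left continuous at the terminal mass -/
theorem lce_K_end (hF : F.Ok) (hB : LlBaseProfile 𝔹 F.T) (hp : p.Ok F) (hA : MonotoneOn (p.Aprof F 𝔹) (Ici 0)) :
    Tendsto (p.K F 𝔹) (𝓝[<] p.a) (𝓝 (p.K F 𝔹 p.a)) := by
  have hell : 0 < p.ell := by linarith [hp.ell1]
  have h1 := lce_inv_leftcont hA (lce_prof_top hF hB hp)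
  have h2 : Tendsto (fun v : ℝ => v / p.ell) (𝓝[<] p.a) (𝓝[<] (p.a / p.ell)) := by
    refine tendsto_nhdsWithin_of_tendsto_nhds_of_eventually_within _ ?_ ?_
    · exact ((continuous_id.div_const p.ell).tendsto p.a).mono_left nhdsWithin_le_nhds
    · filter_upwards [self_mem_nhdsWithin] with v hv
      exact div_lt_div_of_pos_right hv hell
  exact (h1.comp h2).const_mul _

/-- `Γ` is `1/c`-Lipschitz -/
theorem lce_Gam_lip {κ : LckC} (h : (p.lck F 𝔹).Ok κ) (t t' : ℝ) (ht : 0 ≤ t) (htt : t ≤ t') :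
    p.Gam F 𝔹 t' - p.Gam F 𝔹 t ≤ 1 / κ.c * (t' - t) := by
  have e : p.Gam F 𝔹 t' - p.Gam F 𝔹 t = ∫ s in t..t', p.Gam1 F 𝔹 s := h.gam_ftc t t' ht htt
  have hI := intervalIntegral.integral_mono_on (μ := volume) htt (lck_gp_ii h t t' ht (le_trans ht htt))
    (by simp : IntervalIntegrable (fun _ : ℝ => 1 / κ.c) volume t t') (fun s hs => lck_gp_le' h s (le_trans ht hs.1))
  rw [intervalIntegral.integral_const, smul_eq_mul] at hI
  rw [e]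
  have : (∫ s in t..t', p.Gam1 F 𝔹 s) ≤ (t' - t) * (1 / κ.c) := hI
  linarith

/-- `q` is left continuous at the terminal mass -/
theorem lce_q_end {κ : LckC} {c C v0 : ℝ} (hF : F.Ok) (hB : LlBaseProfile 𝔹 F.T) (hp : p.Ok F) (hR : p.Ref F 𝔹 c C v0) (h : (p.lck F 𝔹).Ok κ)
    (hK : Tendsto (p.K F 𝔹) (𝓝[<] p.a) (𝓝 (p.K F 𝔹 p.a))) : Tendsto (p.q F 𝔹) (𝓝[<] p.a) (𝓝 (p.q F 𝔹 p.a)) := by
  have ha0 : 0 < p.a := by linarith [(lce_a_mem hp).1]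
  have hlow : Tendsto (fun v => p.q F 𝔹 p.a - 1 / κ.c * (p.K F 𝔹 p.a - p.K F 𝔹 v)) (𝓝[<] p.a) (𝓝 (p.q F 𝔹 p.a)) := by
    have := (tendsto_const_nhds (x := p.q F 𝔹 p.a)).sub (((tendsto_const_nhds (x := p.K F 𝔹 p.a)).sub hK).const_mul (1 / κ.c))
    simpa using this
  refine tendsto_of_tendsto_of_tendsto_of_le_of_le' hlow tendsto_const_nhds ?_ ?_
  · filter_upwards [Ioo_mem_nhdsLT ha0] with v hv
    have hKm := lce_K_mono hF hB hp ⟨hv.1.le, hv.2.le⟩ ⟨ha0.le, le_rfl⟩ hv.2.le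
    have := lce_Gam_lip h (p.K F 𝔹 v) (p.K F 𝔹 p.a) (lce_K_nonneg v) hKm
    show p.q F 𝔹 p.a - 1 / κ.c * (p.K F 𝔹 p.a - p.K F 𝔹 v) ≤ p.q F 𝔹 v
    unfold LlPt.q
    linarith
  · filter_upwards [Ioo_mem_nhdsLT ha0] with v hv
    exact lce_q_mono hF hB hp hR ⟨hv.1.le, hv.2.le⟩ ⟨ha0.le, le_rfl⟩ hv.2.le

/-- `b` is constant near the terminal mass -/
theorem lce_b_top {κ : LckC} (h : (p.lck F 𝔹).Ok κ) (hs : (p.lck F 𝔹).Small κ) (w : ℝ) (hw0 : 0 ≤ w) (hwa : w ≤ p.a) (hwb : 2 * κ.vb ≤ w) :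
    p.b F 𝔹 w = p.b F 𝔹 p.a := by
  obtain ⟨b1, b2⟩ := lck_b_incr h hs w p.a hw0 hwa
  have eG : (p.lck F 𝔹).G p.a - (p.lck F 𝔹).G w = 0 := by
    rw [h.G_const p.a (le_trans hwb hwa), h.G_const w hwb, sub_self]
  rw [eG, mul_zero] at b1 b2
  have : (p.lck F 𝔹).b p.a - (p.lck F 𝔹).b w = 0 := le_antisymm b2 b1
  have : p.b F 𝔹 p.a - p.b F 𝔹 w = 0 := this
  linarith

theorem lce_b_end {κ : LckC} (h : (p.lck F 𝔹).Ok κ) (hs : (p.lck F 𝔹).Small κ) : Tendsto (p.b F 𝔹) (𝓝[<] p.a) (𝓝 (p.b F 𝔹 p.a)) := by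
  have hvb1 : 2 * κ.vb < p.a := by
    have h1 : 1 ≤ p.a := h.a1
    linarith [h.vb1, h.v01]
  refine tendsto_const_nhds.congr' ?_
  filter_upwards [Ioo_mem_nhdsLT hvb1] with v hv
  exact (lce_b_top h hs v (by linarith [hv.1, h.vb0]) hv.2.le hv.1.le).symm

theorem lce_hS_end (hb : Tendsto (p.b F 𝔹) (𝓝[<] p.a) (𝓝 (p.b F 𝔹 p.a))) (hK : Tendsto (p.K F 𝔹) (𝓝[<] p.a) (𝓝 (p.K F 𝔹 p.a)))
    (hq : Tendsto (p.q F 𝔹) (𝓝[<] p.a) (𝓝 (p.q F 𝔹 p.a))) : Tendsto (p.hS F 𝔹) (𝓝[<] p.a) (𝓝 (p.hS F 𝔹 p.a)) :=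
  hK.sub (hb.mul hq)

/-- the plateau profile is continuous at `w = 1` -/
theorem lce_HePl_cont {E1 : ℝ} (H : LccBase F 𝔹 p E1) : ContinuousAt (p.HePl F 𝔹) 1 := by
  have hP := lcc_dPl_pos H
  have hM := lcc_dMi_pos H
  unfold LlPt.HePl
  refine continuousAt_const.mul (ContinuousAt.sub ?_ ?_)
  · refine ContinuousAt.rpow_const (by fun_prop) (Or.inl ?_)
    have : (1 : ℝ) - 1 + p.dPl F = p.dPl F := by ring
    rw [this]; exact hP.ne'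
  · refine ContinuousAt.rpow_const (by fun_prop) (Or.inl ?_)
    have := H.pT1
    have : 0 < 1 - 𝔹.pTop F.T + p.dMi F 𝔹 := by linarith
    exact this.ne'

/-- `h` is left continuous at the terminal mass -/
theorem lce_h_end {E1 : ℝ} (hp : p.Ok F) (hE : p.chiE = 0 ∨ (p.sm = false ∧ LccBase F 𝔹 p E1)) (hpT1 : 𝔹.pTop F.T < 1)
    (hS : Tendsto (p.hS F 𝔹) (𝓝[<] p.a) (𝓝 (p.hS F 𝔹 p.a))) : Tendsto (p.h F 𝔹) (𝓝[<] p.a) (𝓝 (p.h F 𝔹 p.a)) := by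
  have hx := lce_x_pos hp.N2
  have hx1 := lce_x_lt_one hp.N2
  have hell : 0 < p.ell := by linarith [hp.ell1]
  obtain ⟨ha1, _⟩ := lce_a_mem hp
  have hxa : p.x < p.a := by linarith
  have hlo : Tendsto (p.Hlo F) (𝓝[<] p.a) (𝓝 (p.Hlo F p.a)) := by
    have : ContinuousAt (p.Hlo F) p.a := by
      unfold LlPt.Hlo
      refine continuousAt_const.mul (ContinuousAt.log (by fun_prop) ?_)
      have : 0 < min p.a p.ell / p.x := div_pos (lt_min (by linarith) hell) hx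
      exact this.ne'
    exact this.tendsto.mono_left nhdsWithin_le_nhds
  have hlin : Tendsto (p.Hlin F) (𝓝[<] p.a) (𝓝 (p.Hlin F p.a)) := by
    have : ContinuousAt (p.Hlin F) p.a := by
      unfold LlPt.Hlin
      fun_prop
    exact this.tendsto.mono_left nhdsWithin_le_nhds
  have hHe : Tendsto (fun v => p.chiE * p.He F 𝔹 v) (𝓝[<] p.a) (𝓝 (p.chiE * p.He F 𝔹 p.a)) := by
    rcases hE with h0 | ⟨hsm, H⟩
    · simp only [h0, zero_mul]; exact tendsto_const_nhds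
    · refine Tendsto.const_mul _ ?_
      have ea : p.a = p.ell := lce_a_direct hsm
      have e1 : p.a / p.ell = 1 := by rw [ea, div_self hell.ne']
      have hc : ContinuousAt (fun v => p.HePl F 𝔹 (v / p.ell)) p.a := by
        have h1 : ContinuousAt (fun v : ℝ => v / p.ell) p.a := by fun_prop
        have h2 : ContinuousAt (p.HePl F 𝔹) (p.a / p.ell) := by rw [e1]; exact lce_HePl_cont H
        exact ContinuousAt.comp (f := fun v : ℝ => v / p.ell) (g := p.HePl F 𝔹) h2 h1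
      have hval : p.He F 𝔹 p.a = p.HePl F 𝔹 (p.a / p.ell) := lcc_He_pl p.a (by rw [e1]; exact hpT1.le)
      rw [hval]
      refine (hc.tendsto.mono_left nhdsWithin_le_nhds).congr' ?_
      have hlt : p.ell * 𝔹.pTop F.T < p.a := by rw [ea]; nlinarith
      filter_upwards [Ioo_mem_nhdsLT hlt] with v hv
      exact (lcc_He_pl v (by rw [le_div_iff₀ hell, mul_comm]; exact hv.1.le)).symm
  have hsum := ((hS.add hlo).add (hlin.const_mul p.chiL)).add hHe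
  have hval : p.h F 𝔹 p.a = p.hS F 𝔹 p.a + p.Hlo F p.a + p.chiL * p.Hlin F p.a + p.chiE * p.He F 𝔹 p.a := by
    unfold LlPt.h; rw [if_neg (not_lt.2 hxa.le)]
  rw [hval]
  refine hsum.congr' ?_
  filter_upwards [Ioo_mem_nhdsLT hxa] with v hv
  unfold LlPt.h; rw [if_neg (not_lt.2 hv.1.le)]

end endpt

/-! ## 10. the mass profiles are admissible (K-kit of helper267) -/

section prof

variable {𝔹 : LlBase} {F : LlFix}

/-- the profile in use and the direct profile, at one point -/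
theorem lce_prof_point {p : LlPt} {ca Ca ξ1 LP : ℝ}
    (hb : LkkBase (𝔹.A0 F.T) (𝔹.xiS F.T) (𝔹.pTop F.T) ca Ca ξ1) (hP : LkkCut F.P F.z0 LP) (hz : F.z0 ≤ ξ1)
    (hp : p.Ok F) (hl : p.lam * LP ≤ ca / 2) (hM : 𝔹.xiS F.T < p.M) :
    LpqProf (p.Aprof F 𝔹) (if p.sm then p.M else 𝔹.xiS F.T) (p.a / p.ell) ∧ LpqProf (p.Adir F 𝔹) (𝔹.xiS F.T) 1 ∧
      ∀ ξ, 0 ≤ ξ → ξ < 𝔹.xiS F.T → p.Adir F 𝔹 ξ ≤ 𝔹.pTop F.T := by
  have hl0 := (lkk_lam_pos hp).le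
  have hell : 0 < p.ell := by linarith [hp.ell1]
  have ho := lkk_om_pos hp.N2
  have hJ : 1 + p.om * p.M ≤ 4 / p.ell := by
    rw [le_div_iff₀ hell]
    have h1 := lkk_omM hp.N2
    have h2 := lkk_ell_le_two hp
    have h3 : 0 ≤ p.om * p.M := mul_nonneg ho.le (lkk_M_nonneg hp.N2)
    nlinarith
  have hdir : LpqProf (p.Adir F 𝔹) (𝔹.xiS F.T) 1 := lkk_dir_prof hb hP hz hl0 hl
  refine ⟨?_, hdir, fun ξ h0 h1 => (lkk_dir_lt_top hb hP hz hl0 hl ξ h0 h1).le⟩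
  cases hsm : p.sm with
  | false =>
    have eA : p.Aprof F 𝔹 = p.Adir F 𝔹 := by unfold LlPt.Aprof; rw [hsm]; rfl
    have ea : p.a / p.ell = 1 := by rw [lce_a_direct hsm, div_self hell.ne']
    rw [eA, ea]
    simpa using hdir
  | true =>
    have eA : p.Aprof F 𝔹 = lkkSm (𝔹.A0 F.T) F.P p.lam (𝔹.xiS F.T) (𝔹.pTop F.T) p.om p.M (4 / p.ell) := by
      unfold LlPt.Aprof; rw [hsm]; rfl
    have ea : p.a = 4 := by simp [LlPt.a, hsm]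
    rw [eA, ea]
    simpa using lkk_sm_prof hb hP hz hl0 hl ho hM hJ

/-- uniformly -/
theorem lce_unif_prof {ca Ca ξ1 : ℝ} (hF : F.Ok) (hb : LkkBase (𝔹.A0 F.T) (𝔹.xiS F.T) (𝔹.pTop F.T) ca Ca ξ1) (hz : F.z0 ≤ ξ1) :
    LlUnif F fun p => LpqProf (p.Aprof F 𝔹) (if p.sm then p.M else 𝔹.xiS F.T) (p.a / p.ell) ∧ LpqProf (p.Adir F 𝔹) (𝔹.xiS F.T) 1 ∧
      ∀ ξ, 0 ≤ ξ → ξ < 𝔹.xiS F.T → p.Adir F 𝔹 ξ ≤ 𝔹.pTop F.T := by
  have hca := hb.ca0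
  obtain ⟨LP, hP⟩ := lkk_cut F hF
  obtain ⟨N1, hN1⟩ := lkk_lam_small hF (ε := ca / 2 / (LP + 1)) (by have := hP.LP0; positivity)
  obtain ⟨N2, hN2⟩ := lkk_M_large (𝔹.xiS F.T)
  refine ⟨max N1 N2, fun p hp hN => ?_⟩
  refine lce_prof_point hb hP hz hp ?_ (hN2 p hp.N2 ((le_max_right _ _).trans hN))
  have a1 := hN1 p hp ((le_max_left _ _).trans hN)
  have hLP := hP.LP0
  have a2 : p.lam * (LP + 1) ≤ ca / 2 := by rwa [le_div_iff₀ (by linarith)] at a1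
  have := lkk_lam_pos hp
  nlinarith

end prof

/-! ## 11. EXIT of block CLK -/

section exitclk

variable {𝔹 : LlBase} {F : LlFix} {c C v0 CG CD cG : ℝ}

/-- **no jump at the terminal mass** -/
theorem lce_LlAdmEnd {ca Ca ξ1 : ℝ} (h : LceFix 𝔹 F c C v0 CG CD cG) (hE : LceEdge 𝔹 F)
    (hb : LkkBase (𝔹.A0 F.T) (𝔹.xiS F.T) (𝔹.pTop F.T) ca Ca ξ1) (hz : F.z0 ≤ ξ1) : LlAdmEnd 𝔹 F := by
  refine ((lce_unif_all h hE).and (lce_unif_prof h.ok hb hz)).mono ?_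
  rintro p hp ⟨⟨hR, hok, hs, _, hH, _⟩, hprof, _, _⟩
  have hK := lce_K_end h.ok hE.base hp hprof.mono
  have hq := lce_q_end h.ok hE.base hp hR hok hK
  have hbe := lce_b_end hok hs
  have hS := lce_hS_end hbe hK hq
  have hEd : p.chiE = 0 ∨ (p.sm = false ∧ LccBase F 𝔹 p (lceE1 (𝔹.xiS F.T))) := by
    cases hsm : p.sm
    · exact Or.inr ⟨rfl, hH⟩
    · exact Or.inl (hp.sm_fin hsm).2
  exact ⟨hbe, lce_h_end hp hEd hE.base.pTop_mem.2 hS, hS, hK, hq⟩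

end exitclk

/-- everything block CLK proves for one choice of the fixed data (with the scalar half re-exported for the same `F`) -/
structure LceAll (𝔹 : LlBase) (F : LlFix) : Prop where
  ok : F.Ok
  edge : LceEdge 𝔹 F
  fix : ∃ c C v0 CG CD cG : ℝ, LceFix 𝔹 F c C v0 CG CD cG
  prof : ∃ ca Ca ξ1 : ℝ, LkkBase (𝔹.A0 F.T) (𝔹.xiS F.T) (𝔹.pTop F.T) ca Ca ξ1 ∧ F.z0 ≤ ξ1
  ref : ∃ c C v0 : ℝ, 0 < c ∧ 0 < v0 ∧ LlRef 𝔹 F c C v0
  regL : ∃ C ξ0 : ℝ, 0 < ξ0 ∧ LlRegL 𝔹 F C ξ0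
  regT : ∃ v0 ξ0 : ℝ, 0 < v0 ∧ 0 < ξ0 ∧ ∀ R0 : ℕ, ∃ c C : ℝ, 0 < c ∧ LlRegT 𝔹 F c C v0 ξ0 R0
  adm : LlAdm 𝔹 F
  admEnd : LlAdmEnd 𝔹 F
  p4 : LlP4 𝔹 F
  p5 : LlP5 𝔹 F
  p8 : LlP8 𝔹 F
  p9 : LlP9 𝔹 F

/-- **EXIT of block CLK**: from the base profile and the scalar half (`LlRefExit`), the cut-offs `z0, v_b, c_1, c_b, U_0` can be fixed (depending on `T` only) so that
(P3)-(P9) and admissibility hold for ALL exponents in the explicit ranges.      `{llFixMk T s e p .. with sS, eta, pS} = llFixMk T sS eta pS ..` by `rfl`. -/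
theorem lce_main (𝔹 : LlBase) (T : ℝ) (hT : 1 < T) (hB : LlBaseProfile 𝔹 T) (hR : LlRefExit 𝔹 T) (zM : ℝ) (hzM : 0 < zM) :
    ∃ z0 vb c1 cb U0 : ℝ, 0 < z0 ∧ z0 ≤ zM ∧ 0 < vb ∧ vb ≤ zM ∧ 4 * vb ≤ 1 ∧ 0 < c1 ∧ 0 < cb ∧ 0 < U0 ∧
      ∀ sS eta pS : ℝ, LlExpOk sS eta pS → LceAll 𝔹 (llFixMk T sS eta pS z0 vb c1 cb U0) := by
  have hxS := hB.xi_pos
  obtain ⟨ca, Ca, ξ1, hkk⟩ := lkk_base 𝔹 T hB
  obtain ⟨zb0, hzb0, hex0⟩ := lce_exists 𝔹 T hT hxS hR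
  obtain ⟨zb, hzbd⟩ : ∃ zb, zb = min zb0 zM := ⟨_, rfl⟩
  have hzb : 0 < zb := hzbd ▸ lt_min hzb0 hzM
  have hex := fun z0 (h0 : 0 < z0) (h1 : z0 ≤ zb) => hex0 z0 h0 (h1.trans (hzbd ▸ min_le_left _ _))
  have hz0 : 0 < min zb (min (𝔹.xiS T / 2) ξ1) := lt_min hzb (lt_min (by linarith) hkk.x10)
  obtain ⟨c, C, v0, ξ0, vb, c1, cb, CG, CD, cG, hξ0, hvb, hvbM, hc1, hcb, hex⟩ := hex _ hz0 (min_le_left _ _) zM hzM
  have hE1 : 0 < lceE1 (𝔹.xiS T) := lt_min one_pos (by linarith)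
  have hg : 0 < 𝔹.pTop T - 𝔹.A0 T (𝔹.xiS T - lceE1 (𝔹.xiS T)) := by linarith [hB.lt_top (𝔹.xiS T - lceE1 (𝔹.xiS T)) (by linarith)]
  have hU0 : 0 < min 1 (lceE1 (𝔹.xiS T) ^ 2 * (𝔹.pTop T - 𝔹.A0 T (𝔹.xiS T - lceE1 (𝔹.xiS T)))) := lt_min one_pos (by positivity)
  have hvb4 : 4 * vb ≤ 1 := by
    obtain ⟨hfix, -, -⟩ := hex _ hU0 (1 / 4) (1 / 8) 1 ⟨le_rfl, by norm_num, by norm_num, le_rfl, by norm_num, le_rfl⟩
    have h1 : 2 * vb ≤ v0 := hfix.vb.trans (min_le_left _ _)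
    linarith [hfix.v01]
  refine ⟨_, vb, c1, cb, _, hz0, (min_le_left _ _).trans (hzbd ▸ min_le_right _ _), hvb, hvbM, hvb4, hc1, hcb, hU0, fun sS eta pS hX => ?_⟩
  obtain ⟨hfix, hregL, hregT⟩ := hex _ hU0 sS eta pS hX
  have hedge : LceEdge 𝔹 (llFixMk T sS eta pS (min zb (min (𝔹.xiS T / 2) ξ1)) vb c1 cb
      (min 1 (lceE1 (𝔹.xiS T) ^ 2 * (𝔹.pTop T - 𝔹.A0 T (𝔹.xiS T - lceE1 (𝔹.xiS T)))))) :=
    { base := hB
      z0 := by
        show min zb (min (𝔹.xiS T / 2) ξ1) < 𝔹.xiS T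
        exact lt_of_le_of_lt (le_trans (min_le_right _ _) (min_le_left _ _)) (by linarith)
      U0 := by
        show (min 1 (lceE1 (𝔹.xiS T) ^ 2 * (𝔹.pTop T - 𝔹.A0 T (𝔹.xiS T - lceE1 (𝔹.xiS T))))) ^ 4 ≤
          lceE1 (𝔹.xiS T) ^ 2 * (𝔹.pTop T - 𝔹.A0 T (𝔹.xiS T - lceE1 (𝔹.xiS T)))
        exact le_trans (pow_le_of_le_one hU0.le (min_le_left _ _) (by norm_num)) (min_le_right _ _) }
  have hz1 : min zb (min (𝔹.xiS T / 2) ξ1) ≤ ξ1 := le_trans (min_le_right _ _) (min_le_right _ _)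
  exact
  { ok := hfix.ok
    edge := hedge
    fix := ⟨c, C, v0, CG, CD, cG, hfix⟩
    prof := ⟨ca, Ca, ξ1, hkk, hz1⟩
    ref := ⟨c, C, v0, hfix.c0, hfix.v00, hfix.ref⟩
    regL := ⟨C, ξ0, hξ0, hregL⟩
    regT := ⟨v0, ξ0, hfix.v00, hξ0, hregT⟩
    adm := lce_LlAdm hfix hedge
    admEnd := lce_LlAdmEnd hfix hedge hkk hz1
    p4 := lce_LlP4 hfix
    p5 := lce_LlP5 hfix
    p8 := lce_LlP8 hfix hedge hX.s_lo hX.e_hi
    p9 := lce_LlP9 hfix hedge hX.p_hi }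

end Claimed.Agent.R286
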