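import Claimed.Agent.R286.LL.PathsSwB

/-!
# Row 286 (S0533), LL Section 3, block SW = Prop. 3.4 (paths:switch), file C: ASYMPTOTICS, ADAPTER, EXIT `lsw_P11 : LlP11 𝔹 F`      (architect + owner helper281; prefix `lsw_`)

TEX[LL:paths:switch]
IMPORTED CONTRACTS (closed statements on `𝔹 : LlBase`, `F : LlFix`):
* `LlDirProf 𝔹 F`   the direct profile `A_λ = A_0 + λ P` is an admissible mass profile with a strict top plateau  (Lemma paths:base-profile + l.113-117);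
* `LlSmCmp 𝔹 F`     the smoothing paragraph of the proof of Lemma paths:lift (l.157-161): `O_ε(ω^{1-ε})` comparison of the responses at a common scalar time and of `b_∘`; `1 - Γ̂(M) = O(e^{-cM})`;
* `LlAdm`, `LlRef` (PathsDefs v2; block CLK, Lemma paths:lift);   `LlLipL1`, `LlHardJump` (file B).
(`LlGamBasic` = the normalised response is nondecreasing, `1/c`-Lipschitz, with values in `[0,1]`: PROVED here from `LlRef`.)
The saving is `c = 1/8`:   `ω^{1-1/42} = x^{5+1/8}`, `ω M² ≤ C x^{5+1/8}`, `e^{-cM} ≤ x^6`, `(H_lo(ℓ)+H_lin(ℓ))² ≤ C x^{5+1/2}`.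
-/

set_option autoImplicit false

namespace Claimed.Agent.R286

open MeasureTheory Set Filter Topology

/-! ### 0. contracts on the scalar layer -/

/- `def LlDirProf` lives in `LL/PathsDefs.lean` since 15 Oct 05:50Z (field `dirProf` of `LlSec3`). -/

def LlGamBasic (𝔹 : LlBase) (F : LlFix) (L : ℝ) : Prop :=
  LlUnif F fun p => MonotoneOn (p.GamN F 𝔹) (Ici 0) ∧ (∀ ξ, 0 ≤ ξ → p.GamN F 𝔹 ξ ∈ Icc (0 : ℝ) 1) ∧
    ∀ ξ, 0 ≤ ξ → ∀ ξ', 0 ≤ ξ' → |p.GamN F 𝔹 ξ - p.GamN F 𝔹 ξ'| ≤ L * |ξ - ξ'|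

def LlSmCmp (𝔹 : LlBase) (F : LlFix) : Prop :=
  ∃ c : ℝ, 0 < c ∧ ∀ ε > (0 : ℝ), ∃ C : ℝ, LlUnif F fun p => p.sm = true →
    (∀ ξ ∈ Icc 0 (𝔹.xiS F.T), |p.toDir.GamN F 𝔹 ξ - p.GamN F 𝔹 ξ| ≤ C * p.om ^ (1 - ε)) ∧
    |1 - p.GamN F 𝔹 p.M| ≤ C * Real.exp (-c * p.M) ∧
    |p.toDir.b0 F 𝔹 - p.b0 F 𝔹| ≤ C * p.om ^ (1 - ε)

/-- the constant of the pointwise bound -/
noncomputable def lswC (cb Cb C0 L : ℝ) : ℝ :=
  20 + 20 * Cb + 4 * Cb * L + (C0 / (2 * cb)) * (8 + 8 * Cb + Cb * L) + C0 ^ 2 / cb ^ 2 + 1 / cb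

theorem lsw_defsC_eqns_cite : True := by
  have := @LlDirProf.eq_1; have := @LlGamBasic.eq_1; have := @LlSmCmp.eq_1; have := @lswC.eq_1
  trivial

/-! ### 1. the pointwise bound with ONE error size `Y` -/

/-- **pointwise form of Prop. 3.4.**   HINT: `lsw_psi`, `lsw_fRest`, `lsw_trial` with `dK = Y`, `dq = 8 Y + L Y`, `db = 4 Y`, `dh = 4 (2 Cb + 1) Y + (1 + Cb L) Y` (`lsw_K_L1`, … of file A); everything is linear in `Y` with nonnegative coefficients. -/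
theorem lsw_point {p : LlPt} {F : LlFix} {𝔹 : LlBase} {cb Cb C0 E1 E2 E3 L Y : ℝ} (ok : LswOk p F 𝔹)
    (ck : LswClk p F 𝔹 cb Cb C0) (hG : LswGam p F 𝔹 E1 E2 E3 L) (hJ : LlHardJump 𝔹) (hL : LlLipL1 𝔹)
    (hEK : p.ell * (p.om * p.M ^ 2 + p.om) ≤ Y) (hE1 : E1 ≤ Y) (hE2 : E2 ≤ Y) (hE3 : E3 ≤ Y)
    (heJ : p.eJ F 𝔹 ≤ Y) (heJK : p.eJK F 𝔹 ≤ Y) (hH : (p.Hlo F p.ell + p.chiL * p.Hlin F p.ell) ^ 2 ≤ Y)
    (m : ℕ) (hm : 0 < m) (s : ℝ) (hs : s ∈ Ioo 0 p.x) :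
    |p.psi F 𝔹 m s - p.toDir.psi F 𝔹 m s| ≤ lswC cb Cb C0 L * Y ∧
    |p.fRest F 𝔹 m - p.toDir.fRest F 𝔹 m - p.kapSw F| ≤ lswC cb Cb C0 L * Y ∧
    |p.trialGap F 𝔹 m - p.toDir.trialGap F 𝔹 m| ≤ lswC cb Cb C0 L * Y := by
  have hY : 0 ≤ Y := (sq_nonneg _).trans hH
  have hcb : 0 < cb := ck.cb0
  have hbP := lsw_bP_mem ok ck
  have hCb : 0 ≤ Cb := (hcb.le.trans hbP.1).trans hbP.2
  have hC0 : 0 ≤ C0 := (abs_nonneg _).trans ck.KhP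
  have hL0 : 0 ≤ L := hG.L0
  have hdK : ∫ v in Ioo (0 : ℝ) 4, |p.KH F 𝔹 v - p.K F 𝔹 v| ≤ Y := (lsw_K_L1 ok).trans hEK
  have hdq : ∫ v in Ioo (0 : ℝ) 4, |p.qH F 𝔹 v - p.q F 𝔹 v| ≤ 8 * Y + L * Y := by
    refine (lsw_q_L1 ok hG).trans ?_
    have := mul_le_mul_of_nonneg_left hEK hL0
    linarith
  have hdb : ∫ v in Ioo (0 : ℝ) 4, |p.bH F 𝔹 v - p.b F 𝔹 v| ≤ 4 * Y := by
    refine (lsw_b_L1 ok hG).trans ?_
    linarith
  have hdh : ∫ v in Ioo (0 : ℝ) 4, |p.hH F 𝔹 v - p.h F 𝔹 v| ≤ 4 * (2 * Cb + 1) * Y + (1 + Cb * L) * Y := by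
    refine (lsw_h_L1 ok hG hCb (fun v hv => ?_) (fun v hv => ?_)).trans ?_
    · have := lsw_bH_mem ok ck v hv
      rw [abs_of_nonneg (hcb.le.trans this.1)]; exact this.2
    · rw [abs_of_nonneg (ck.qs.nonneg v hv)]; exact ck.qs1 v hv
    · have h1 := mul_le_mul_of_nonneg_left hEK (by positivity : 0 ≤ 1 + Cb * L)
      have h2 := mul_le_mul_of_nonneg_left (add_le_add hE1 hE2) hCb
      nlinarith
  have t1 := lsw_psi ok ck hJ hL m hm s hs hdb hdh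
  have t2 := lsw_fRest ok ck hJ hL m hm hdb hdh hdq
  have t3 := lsw_trial ok ck hJ hL m hm hdK hdb hdh
  set A : ℝ := C0 / (2 * cb) with hA
  have hA0 : 0 ≤ A := by positivity
  set B : ℝ := C0 ^ 2 / (4 * cb ^ 2) with hB
  have hB0 : 0 ≤ B := by positivity
  set D : ℝ := 1 / cb with hD
  have hD0 : 0 ≤ D := by positivity
  have hC : lswC cb Cb C0 L = 20 + 20 * Cb + 4 * Cb * L + A * (8 + 8 * Cb + Cb * L) + 4 * B + D := by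
    rw [lswC, hA, hB, hD]; field_simp
  have hCL : 0 ≤ Cb * L := mul_nonneg hCb hL0
  have hlast : (4 - p.ell) * ((p.Hlo F p.ell + p.chiL * p.Hlin F p.ell) ^ 2 / (4 * p.bP F 𝔹)) ≤ D * Y := by
    have h1 : (p.Hlo F p.ell + p.chiL * p.Hlin F p.ell) ^ 2 / (4 * p.bP F 𝔹) ≤ Y / (4 * cb) :=
      div_le_div₀ hY hH (by positivity) (by linarith [hbP.1])
    have h2 : 0 ≤ Y / (4 * cb) := by positivity
    have h3 : (4 - p.ell) ≤ 4 := by linarith [ok.ell1]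
    have h4 : 0 ≤ 4 - p.ell := by linarith [ok.ell2]
    calc _ ≤ (4 - p.ell) * (Y / (4 * cb)) := mul_le_mul_of_nonneg_left h1 h4
      _ ≤ 4 * (Y / (4 * cb)) := mul_le_mul_of_nonneg_right h3 h2
      _ = D * Y := by rw [hD]; field_simp
  have hAY : 0 ≤ A * Y := mul_nonneg hA0 hY
  have hBY : 0 ≤ B * Y := mul_nonneg hB0 hY
  have hDY : 0 ≤ D * Y := mul_nonneg hD0 hY
  have hCbY : 0 ≤ Cb * Y := mul_nonneg hCb hY
  have hCLY : 0 ≤ Cb * L * Y := mul_nonneg hCL hY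
  have hACbY : 0 ≤ A * (Cb * Y) := mul_nonneg hA0 hCbY
  have hACLY : 0 ≤ A * (Cb * L * Y) := mul_nonneg hA0 hCLY
  rw [hC]
  refine ⟨t1.trans ?_, t2.trans ?_, t3.trans ?_⟩
  · linarith
  · linarith
  · linarith

/-! ### 2. numbers: real-variable lemmas -/

/-- HINT: `y ≤ (k/δ) e^{δ y / k}` with `y = log (1/x)`; `C = (k/δ)^k` -/
theorem lsw_num_log (k : ℕ) (δ : ℝ) (hδ : 0 < δ) :
    ∃ C : ℝ, 0 ≤ C ∧ ∀ x ∈ Ioo (0 : ℝ) 1, Real.log (1 / x) ^ k ≤ C * x ^ (-δ) := by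
  rcases Nat.eq_zero_or_pos k with rfl | hk
  · refine ⟨1, zero_le_one, fun x hx => ?_⟩
    rw [pow_zero, one_mul]
    exact Real.one_le_rpow_of_pos_of_le_one_of_nonpos hx.1 hx.2.le (by linarith)
  · have hk' : (0 : ℝ) < k := by exact_mod_cast hk
    set ε : ℝ := δ / k with hε
    have hε0 : 0 < ε := div_pos hδ hk'
    refine ⟨(1 / ε) ^ k, by positivity, fun x hx => ?_⟩
    have hx1 : (1 : ℝ) ≤ 1 / x := by rw [le_div_iff₀ hx.1]; linarith [hx.2]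
    have h0 : 0 ≤ Real.log (1 / x) := Real.log_nonneg hx1
    have h1 : Real.log (1 / x) ≤ (1 / x) ^ ε / ε := Real.log_le_rpow_div (by positivity) hε0
    calc Real.log (1 / x) ^ k ≤ ((1 / x) ^ ε / ε) ^ k := pow_le_pow_left₀ h0 h1 k
      _ = (1 / ε) ^ k * ((1 / x) ^ ε) ^ k := by rw [div_eq_mul_inv, mul_pow, mul_comm, one_div ε]
      _ = (1 / ε) ^ k * x ^ (-δ) := by
        congr 1
        rw [← Real.rpow_natCast, ← Real.rpow_mul (by positivity), one_div, Real.inv_rpow hx.1.le,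
          ← Real.rpow_neg hx.1.le, hε]
        congr 1
        field_simp

/-- HINT: `y = log (1/x)`, `c y³ ≥ K y` as soon as `y² ≥ K / c` -/
theorem lsw_num_exp (c K : ℝ) (hc : 0 < c) :
    ∃ x0 : ℝ, 0 < x0 ∧ x0 ≤ 1 ∧ ∀ x ∈ Ioo 0 x0, Real.exp (-c * Real.log (1 / x) ^ 3) ≤ x ^ K := by
  set R : ℝ := Real.sqrt (|K| / c) with hR
  have hR0 : 0 ≤ R := Real.sqrt_nonneg _
  refine ⟨Real.exp (-R), Real.exp_pos _, by rw [← Real.exp_zero]; exact Real.exp_le_exp.2 (by linarith), fun x hx => ?_⟩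
  have hy : R < Real.log (1 / x) := by
    rw [one_div, Real.log_inv]
    have := (Real.log_lt_iff_lt_exp hx.1).2 hx.2
    linarith
  set y := Real.log (1 / x) with hyd
  have hlog : Real.log x = -y := by rw [hyd, one_div, Real.log_inv]; ring
  rw [Real.rpow_def_of_pos hx.1, hlog]
  apply Real.exp_le_exp.2
  have hy0 : 0 < y := lt_of_le_of_lt hR0 hy
  have h2 : |K| / c ≤ y ^ 2 := by
    have : R ^ 2 = |K| / c := Real.sq_sqrt (by positivity)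
    rw [← this]
    exact pow_le_pow_left₀ hR0 hy.le 2
  have h3 : K ≤ c * y ^ 2 := by
    have := (div_le_iff₀ hc).1 h2
    linarith [le_abs_self K]
  nlinarith [mul_le_mul_of_nonneg_right h3 hy0.le]

theorem lsw_x_pos (p : LlPt) (hN : 1 ≤ p.N) : 0 < p.x := by
  unfold LlPt.x
  exact Real.rpow_pos_of_pos (by exact_mod_cast hN) _

/-- `x = N^{-1/6} → 0` -/
theorem lsw_x_small (δ : ℝ) (hδ : 0 < δ) : ∃ N0 : ℕ, 1 ≤ N0 ∧ ∀ p : LlPt, N0 ≤ p.N → p.x < δ := by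
  have h1 : Tendsto (fun n : ℕ => (n : ℝ) ^ (-(1 / 6) : ℝ)) atTop (𝓝 0) :=
    (tendsto_rpow_neg_atTop (by norm_num : (0 : ℝ) < 1 / 6)).comp tendsto_natCast_atTop_atTop
  obtain ⟨N0, hN0⟩ := eventually_atTop.1 (h1.eventually (gt_mem_nhds hδ))
  exact ⟨max N0 1, le_max_right _ _, fun p hp => hN0 p.N ((le_max_left _ _).trans hp)⟩

/-- `M = log³(1/x) → ∞` -/
theorem lsw_M_large (R : ℝ) : ∃ N0 : ℕ, 1 ≤ N0 ∧ ∀ p : LlPt, N0 ≤ p.N → R ≤ p.M := by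
  have h1 : Tendsto (fun n : ℕ => (n : ℝ) ^ (1 / 6 : ℝ)) atTop atTop :=
    (tendsto_rpow_atTop (by norm_num : (0 : ℝ) < 1 / 6)).comp tendsto_natCast_atTop_atTop
  have h2 : Tendsto (fun n : ℕ => Real.log ((n : ℝ) ^ (1 / 6 : ℝ)) ^ 3) atTop atTop :=
    (tendsto_pow_atTop (by norm_num : (3 : ℕ) ≠ 0)).comp (Real.tendsto_log_atTop.comp h1)
  obtain ⟨N0, hN0⟩ := eventually_atTop.1 (h2.eventually (eventually_ge_atTop R))
  refine ⟨max N0 1, le_max_right _ _, fun p hp => ?_⟩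
  have := hN0 p.N ((le_max_left _ _).trans hp)
  unfold LlPt.M LlPt.x
  rw [Real.rpow_neg (Nat.cast_nonneg _), one_div, inv_inv]
  simpa using this

/-- `ω^{1-1/42} = x^{5+1/8}` -/
theorem lsw_om_pow (p : LlPt) (hx : 0 < p.x) : p.om ^ (1 - 1 / 42 : ℝ) = p.x ^ (5 + 1 / 8 : ℝ) := by
  unfold LlPt.om
  rw [← Real.rpow_mul hx.le]
  norm_num

/-- `x < 1` from `N ≥ 2` -/
theorem lsw_x_lt_one (p : LlPt) (hN : 2 ≤ p.N) : p.x < 1 := by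
  unfold LlPt.x
  exact Real.rpow_lt_one_of_one_lt_of_neg (by exact_mod_cast hN) (by norm_num)

/-- monotonicity of the powers of a number of `(0,1]` -/
theorem lsw_x_rpow_le {x : ℝ} (h0 : 0 < x) (h1 : x ≤ 1) {a b : ℝ} (hab : a ≤ b) : x ^ b ≤ x ^ a :=
  Real.rpow_le_rpow_of_exponent_ge h0 h1 hab

/-- `ω M² + ω ≤ C x^{5+1/8}` and `ω M ≤ 1`.   HINT: `lsw_num_log 6 (1/8)`, `lsw_num_log 3 1` -/
theorem lsw_omM : ∃ (C : ℝ) (N0 : ℕ), 0 ≤ C ∧ 1 ≤ N0 ∧ ∀ p : LlPt, N0 ≤ p.N →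
    p.om * p.M ^ 2 + p.om ≤ C * p.x ^ (5 + 1 / 8 : ℝ) ∧ p.om * p.M ≤ 1 ∧ p.om ≤ 1 := by
  obtain ⟨C6, hC6, h6⟩ := lsw_num_log 6 (1 / 8) (by norm_num)
  obtain ⟨C3, hC3, h3⟩ := lsw_num_log 3 1 (by norm_num)
  obtain ⟨N1, hN1, hx1⟩ := lsw_x_small (1 / (C3 + 1)) (by positivity)
  refine ⟨C6 + 1, max N1 2, by positivity, le_max_of_le_right (by norm_num), fun p hp => ?_⟩
  have hN2 : 2 ≤ p.N := (le_max_right _ _).trans hp
  have hx0 : 0 < p.x := lsw_x_pos p (by omega)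
  have hxl : p.x < 1 := lsw_x_lt_one p hN2
  have hxs : p.x < 1 / (C3 + 1) := hx1 p ((le_max_left _ _).trans hp)
  have hom : p.om = p.x ^ (5 + 1 / 4 : ℝ) := rfl
  have hM2 : p.M ^ 2 = Real.log (1 / p.x) ^ 6 := by unfold LlPt.M; ring
  have hom0 : 0 < p.om := by rw [hom]; exact Real.rpow_pos_of_pos hx0 _
  refine ⟨?_, ?_, ?_⟩
  · have a1 : p.om * p.M ^ 2 ≤ C6 * p.x ^ (5 + 1 / 8 : ℝ) := by
      rw [hM2]
      calc p.om * Real.log (1 / p.x) ^ 6 ≤ p.om * (C6 * p.x ^ (-(1 / 8) : ℝ)) :=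
            mul_le_mul_of_nonneg_left (h6 p.x ⟨hx0, hxl⟩) hom0.le
        _ = C6 * (p.x ^ (5 + 1 / 4 : ℝ) * p.x ^ (-(1 / 8) : ℝ)) := by rw [hom]; ring
        _ = C6 * p.x ^ (5 + 1 / 8 : ℝ) := by rw [← Real.rpow_add hx0]; norm_num
    have a2 : p.om ≤ p.x ^ (5 + 1 / 8 : ℝ) := by
      rw [hom]; exact lsw_x_rpow_le hx0 hxl.le (by norm_num)
    linarith
  · have e : p.M = Real.log (1 / p.x) ^ 3 := rfl
    rw [e]
    calc p.om * Real.log (1 / p.x) ^ 3 ≤ p.om * (C3 * p.x ^ (-1 : ℝ)) :=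
          mul_le_mul_of_nonneg_left (h3 p.x ⟨hx0, hxl⟩) hom0.le
      _ = C3 * (p.x ^ (5 + 1 / 4 : ℝ) * p.x ^ (-1 : ℝ)) := by rw [hom]; ring
      _ = C3 * p.x ^ (4 + 1 / 4 : ℝ) := by rw [← Real.rpow_add hx0]; norm_num
      _ ≤ C3 * p.x ^ (1 : ℝ) := mul_le_mul_of_nonneg_left (lsw_x_rpow_le hx0 hxl.le (by norm_num)) hC3
      _ = C3 * p.x := by rw [Real.rpow_one]
      _ ≤ (C3 + 1) * p.x := by nlinarith
      _ ≤ 1 := by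
        have := (lt_div_iff₀ (by positivity : (0 : ℝ) < C3 + 1)).1 hxs
        linarith
  · rw [hom]; exact Real.rpow_le_one hx0.le hxl.le (by norm_num)

/-- `e^{-c (M - R)} ≤ x^{5+1/8}` and `≤ 1/2` for `N` large -/
theorem lsw_expM (c R : ℝ) (hc : 0 < c) : ∃ N0 : ℕ, 1 ≤ N0 ∧ ∀ p : LlPt, N0 ≤ p.N →
    Real.exp (-c * (p.M - R)) ≤ p.x ^ (5 + 1 / 8 : ℝ) ∧ Real.exp (-c * (p.M - R)) ≤ 1 / 2 := by
  obtain ⟨x0, hx0, hx01, hE⟩ := lsw_num_exp (c / 2) (5 + 1 / 8) (by positivity)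
  obtain ⟨N1, hN1, h1⟩ := lsw_x_small (min x0 (1 / 2)) (lt_min hx0 (by norm_num))
  obtain ⟨N2, hN2, h2⟩ := lsw_M_large (2 * R)
  refine ⟨max N1 N2, le_max_of_le_left hN1, fun p hp => ?_⟩
  have hxs := h1 p ((le_max_left _ _).trans hp)
  have hMR := h2 p ((le_max_right _ _).trans hp)
  have hxp : 0 < p.x := lsw_x_pos p (hN1.trans ((le_max_left _ _).trans hp))
  have hx1 : p.x < x0 := lt_of_lt_of_le hxs (min_le_left _ _)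
  have hx2 : p.x < 1 / 2 := lt_of_lt_of_le hxs (min_le_right _ _)
  have key : Real.exp (-c * (p.M - R)) ≤ p.x ^ (5 + 1 / 8 : ℝ) := by
    refine le_trans (Real.exp_le_exp.2 ?_) (hE p.x ⟨hxp, hx1⟩)
    have e : p.M = Real.log (1 / p.x) ^ 3 := rfl
    rw [← e]
    nlinarith
  refine ⟨key, key.trans ?_⟩
  calc p.x ^ (5 + 1 / 8 : ℝ) ≤ p.x ^ (1 : ℝ) := lsw_x_rpow_le hxp (by linarith) (by norm_num)
    _ = p.x := Real.rpow_one _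
    _ ≤ 1 / 2 := hx2.le

/-- `λ_1 U³ ≤ x³` (`λ ≤ 1`, `1 + η - 3 s_*/2 > 0`) -/
theorem lsw_lamU (F : LlFix) (hF : F.Ok) (p : LlPt) (hp : p.Ok F) : 0 ≤ p.lam1 F * p.U F ^ 3 ∧ p.lam1 F * p.U F ^ 3 ≤ p.x ^ 3 := by
  have hx0 : 0 < p.x := lsw_x_pos p (by have := hp.N2; omega)
  have hx1 : p.x < 1 := lsw_x_lt_one p hp.N2
  have hl0 : 0 < p.lam := lt_of_lt_of_le (Real.rpow_pos_of_pos hx0 _) hp.lam_lo
  have hl1 : p.lam ≤ 1 := hp.lam_hi.trans (Real.rpow_le_one hx0.le hx1.le hF.pS0.le)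
  have hU0 : 0 ≤ p.U F := le_min zero_le_one (mul_nonneg hx0.le (Real.rpow_nonneg hl0.le _))
  have hU1 : p.U F ≤ p.x * p.lam ^ (-(F.sS / 2)) := min_le_right _ _
  have hlam1 : 0 ≤ p.lam1 F := Real.rpow_nonneg hl0.le _
  refine ⟨mul_nonneg hlam1 (pow_nonneg hU0 3), ?_⟩
  calc p.lam1 F * p.U F ^ 3 ≤ p.lam1 F * (p.x * p.lam ^ (-(F.sS / 2))) ^ 3 :=
        mul_le_mul_of_nonneg_left (pow_le_pow_left₀ hU0 hU1 3) hlam1
    _ = p.x ^ 3 * (p.lam ^ (1 + F.eta) * (p.lam ^ (-(F.sS / 2))) ^ 3) := by unfold LlPt.lam1; ring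
    _ = p.x ^ 3 * p.lam ^ (1 + F.eta + -(F.sS / 2) * 3) := by
        rw [← Real.rpow_natCast (p.lam ^ (-(F.sS / 2))) 3, ← Real.rpow_mul hl0.le, ← Real.rpow_add hl0]
        norm_num
    _ ≤ p.x ^ 3 * 1 := by
        refine mul_le_mul_of_nonneg_left (Real.rpow_le_one hl0.le hl1 ?_) (by positivity)
        have := hF.sS1; have := hF.eta0
        linarith
    _ = p.x ^ 3 := mul_one _

/-- the added field terms at the end of the direct interval -/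
theorem lsw_H_small (F : LlFix) (hF : F.Ok) : ∃ (C : ℝ) (N0 : ℕ), 0 ≤ C ∧ 1 ≤ N0 ∧ ∀ p : LlPt, p.Ok F → N0 ≤ p.N →
    (∀ v, p.x ≤ v → 0 ≤ p.Hlo F v ∧ p.Hlo F v ≤ 1) ∧ (∀ v, 0 ≤ p.Hlin F v ∧ p.Hlin F v ≤ 1) ∧
    (p.Hlo F p.ell + p.chiL * p.Hlin F p.ell) ^ 2 ≤ C * p.x ^ (5 + 1 / 8 : ℝ) := by
  obtain ⟨C1, hC1, h1⟩ := lsw_num_log 1 (7 / 16) (by norm_num)
  obtain ⟨N1, hN1, hx1⟩ := lsw_x_small (1 / (C1 + 3)) (by positivity)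
  refine ⟨(C1 + 3) ^ 2, max N1 2, by positivity, le_max_of_le_right (by norm_num), fun p hp hN => ?_⟩
  have hx0 : 0 < p.x := lsw_x_pos p (by have := hp.N2; omega)
  have hxl : p.x < 1 := lsw_x_lt_one p hp.N2
  have hxs : p.x < 1 / (C1 + 3) := hx1 p ((le_max_left _ _).trans hN)
  have hxs' : (C1 + 3) * p.x ≤ 1 := by
    have := (lt_div_iff₀ (by positivity : (0 : ℝ) < C1 + 3)).1 hxs
    linarith
  have hl2 : p.ell ≤ 2 := by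
    refine hp.ell2.trans ?_
    calc (2 : ℝ) ^ (1 / 6 : ℝ) ≤ (2 : ℝ) ^ (1 : ℝ) := Real.rpow_le_rpow_of_exponent_le (by norm_num) (by norm_num)
      _ = 2 := Real.rpow_one _
  have hl1 : 1 ≤ p.ell := hp.ell1
  obtain ⟨hU0, hU1⟩ := lsw_lamU F hF p hp
  set y := Real.log (1 / p.x) with hy
  have hy0 : 0 ≤ y := Real.log_nonneg (by rw [le_div_iff₀ hx0]; linarith)
  set w : ℝ := p.x ^ (-(7 / 16) : ℝ) with hw
  have hw1 : 1 ≤ w := Real.one_le_rpow_of_pos_of_le_one_of_nonpos hx0 hxl.le (by norm_num)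
  have hyw : y ≤ C1 * w := by
    have := h1 p.x ⟨hx0, hxl⟩
    rwa [pow_one] at this
  have hlog2 : Real.log 2 ≤ 1 := by
    have := Real.log_two_lt_d9; linarith
  -- the logarithm
  have hlg : ∀ v, p.x ≤ v → 0 ≤ Real.log (min v p.ell / p.x) ∧ Real.log (min v p.ell / p.x) ≤ 1 + y := by
    intro v hv
    have hm0 : p.x ≤ min v p.ell := le_min hv (by linarith)
    have hm2 : min v p.ell ≤ 2 := (min_le_right _ _).trans hl2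
    refine ⟨Real.log_nonneg (by rw [le_div_iff₀ hx0]; linarith), ?_⟩
    have e : min v p.ell / p.x = min v p.ell * (1 / p.x) := by ring
    rw [e, Real.log_mul (by linarith) (by positivity)]
    have : Real.log (min v p.ell) ≤ Real.log 2 := Real.log_le_log (by linarith) hm2
    linarith
  have hx3 : 0 ≤ p.x ^ 3 := by positivity
  -- `x^3 (3 + y) ≤ (C1 + 3) x^3 w`
  have hyw3 : 3 + y ≤ (C1 + 3) * w := by nlinarith
  have hxw : p.x ^ 3 * w ≤ p.x := by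
    have e : p.x ^ 3 * w = p.x ^ (3 + -(7 / 16) : ℝ) := by
      rw [Real.rpow_add hx0, hw]; norm_num
    rw [e]
    calc p.x ^ (3 + -(7 / 16) : ℝ) ≤ p.x ^ (1 : ℝ) := lsw_x_rpow_le hx0 hxl.le (by norm_num)
      _ = p.x := Real.rpow_one _
  have hbig : p.x ^ 3 * (3 + y) ≤ 1 := by
    calc p.x ^ 3 * (3 + y) ≤ p.x ^ 3 * ((C1 + 3) * w) := mul_le_mul_of_nonneg_left hyw3 hx3
      _ = (C1 + 3) * (p.x ^ 3 * w) := by ring
      _ ≤ (C1 + 3) * p.x := mul_le_mul_of_nonneg_left hxw (by positivity)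
      _ ≤ 1 := hxs'
  have hHlo : ∀ v, p.x ≤ v → 0 ≤ p.Hlo F v ∧ p.Hlo F v ≤ p.x ^ 3 * (1 + y) := by
    intro v hv
    obtain ⟨g0, g1⟩ := hlg v hv
    unfold LlPt.Hlo
    refine ⟨mul_nonneg hU0 g0, ?_⟩
    calc p.lam1 F * p.U F ^ 3 * Real.log (min v p.ell / p.x) ≤ p.x ^ 3 * Real.log (min v p.ell / p.x) :=
          mul_le_mul_of_nonneg_right hU1 g0
      _ ≤ p.x ^ 3 * (1 + y) := mul_le_mul_of_nonneg_left g1 hx3
  have hHlin : ∀ v, 0 ≤ p.Hlin F v ∧ p.Hlin F v ≤ p.x ^ 3 * 2 := by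
    intro v
    unfold LlPt.Hlin
    refine ⟨mul_nonneg hx3 (le_max_left _ _), mul_le_mul_of_nonneg_left (max_le (by norm_num) ?_) hx3⟩
    have := min_le_right v p.ell
    have := hF.vb0
    linarith
  refine ⟨fun v hv => ⟨(hHlo v hv).1, (hHlo v hv).2.trans ?_⟩, fun v => ⟨(hHlin v).1, (hHlin v).2.trans ?_⟩, ?_⟩
  · nlinarith
  · nlinarith
  · have a1 := hHlo p.ell (by linarith)
    have a2 := hHlin p.ell
    have a3 : 0 ≤ p.chiL * p.Hlin F p.ell := mul_nonneg hp.chiL.1 a2.1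
    have a4 : p.chiL * p.Hlin F p.ell ≤ p.x ^ 3 * 2 := by
      calc p.chiL * p.Hlin F p.ell ≤ 1 * p.Hlin F p.ell := mul_le_mul_of_nonneg_right hp.chiL.2 a2.1
        _ ≤ p.x ^ 3 * 2 := by rw [one_mul]; exact a2.2
    have a5 : p.Hlo F p.ell + p.chiL * p.Hlin F p.ell ≤ (C1 + 3) * (p.x ^ 3 * w) := by
      calc p.Hlo F p.ell + p.chiL * p.Hlin F p.ell ≤ p.x ^ 3 * (3 + y) := by linarith [a1.2]
        _ ≤ p.x ^ 3 * ((C1 + 3) * w) := mul_le_mul_of_nonneg_left hyw3 hx3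
        _ = _ := by ring
    calc (p.Hlo F p.ell + p.chiL * p.Hlin F p.ell) ^ 2 ≤ ((C1 + 3) * (p.x ^ 3 * w)) ^ 2 :=
          pow_le_pow_left₀ (add_nonneg a1.1 a3) a5 2
      _ = (C1 + 3) ^ 2 * (p.x ^ 3 * w) ^ 2 := by ring
      _ = (C1 + 3) ^ 2 * p.x ^ (5 + 1 / 8 : ℝ) := by
        congr 1
        have e : p.x ^ 3 * w = p.x ^ (3 + -(7 / 16) : ℝ) := by
          rw [Real.rpow_add hx0, hw]; norm_num
        rw [e, ← Real.rpow_natCast, ← Real.rpow_mul hx0.le]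
        norm_num

/-! ### 3. the pointwise hypotheses hold for `N` large -/

/-- increments of the physical response under (P2) -/
theorem lsw_gam_incr {p : LlPt} {F : LlFix} {𝔹 : LlBase} {c C v0 : ℝ} (hc : 0 < c) (hlam : 0 ≤ p.lam)
    (R : p.Ref F 𝔹 c C v0) (t t' : ℝ) (h0 : 0 ≤ t) (h : t ≤ t') :
    0 ≤ p.Gam F 𝔹 t' - p.Gam F 𝔹 t ∧ p.Gam F 𝔹 t' - p.Gam F 𝔹 t ≤ 1 / c * (t' - t) := by
  have hb0 : 0 < p.b0 F 𝔹 := lt_of_lt_of_le hc R.b0_lo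
  have hg : ∀ s, 0 ≤ s → 0 < p.Gam1 F 𝔹 s ∧ p.Gam1 F 𝔹 s ≤ 1 / c := by
    intro s hs
    refine ⟨R.g1_pos s hs, ?_⟩
    have h1 := R.gap_lo s hs
    have h2 : 0 ≤ c * p.lam * min (s ^ 2) 1 :=
      mul_nonneg (mul_nonneg hc.le hlam) (le_min (sq_nonneg _) zero_le_one)
    have h3 : p.b0 F 𝔹 * p.Gam1 F 𝔹 s ≤ 1 := by
      have : p.gap F 𝔹 s = 1 - p.b0 F 𝔹 * p.Gam1 F 𝔹 s := rfl
      linarith
    rw [le_div_iff₀ hc]
    have h4 : p.Gam1 F 𝔹 s * c ≤ p.Gam1 F 𝔹 s * p.b0 F 𝔹 :=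
      mul_le_mul_of_nonneg_left R.b0_lo (R.g1_pos s hs).le
    linarith
  rw [R.gam_ftc t t' h0 h]
  refine ⟨intervalIntegral.integral_nonneg h fun u hu => (hg u (h0.trans hu.1)).1.le, ?_⟩
  have := intervalIntegral.norm_integral_le_of_norm_le_const (a := t) (b := t') (f := p.Gam1 F 𝔹) (C := 1 / c)
    (fun u hu => by
      rw [uIoc_of_le h] at hu
      have := hg u (h0.trans hu.1.le)
      rw [Real.norm_eq_abs, abs_of_pos this.1]; exact this.2)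
  rw [abs_of_nonneg (sub_nonneg.2 h)] at this
  exact (le_abs_self _).trans this

/-- HINT: `Γ̂(ξ) = Γ(ξ/ℓ²)`; `Ref.gam_ftc`, `Ref.g1_pos` (monotone), `Ref.gam_zero`, `Ref.gam_le` (range);   `Ref.gap_lo ≥ 0` gives `Γ' ≤ 1/b_∘ ≤ 1/c` (Lipschitz; `ℓ ≥ 1`). -/
theorem lsw_gamBasic (𝔹 : LlBase) (F : LlFix) {c C v0 : ℝ} (hc : 0 < c) (href : LlRef 𝔹 F c C v0) :
    LlGamBasic 𝔹 F (1 / c) := by
  obtain ⟨N0, H⟩ := href
  refine ⟨N0, fun p hp hN => ?_⟩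
  have R := H p hp hN
  have hx0 : 0 < p.x := lsw_x_pos p (by have := hp.N2; omega)
  have hlam : 0 ≤ p.lam := (Real.rpow_nonneg hx0.le _).trans hp.lam_lo
  have hl : 0 < p.ell := by linarith [hp.ell1]
  have hl2 : 1 ≤ p.ell ^ 2 := by nlinarith [hp.ell1]
  have e : ∀ ξ, p.GamN F 𝔹 ξ = p.Gam F 𝔹 (ξ / p.ell ^ 2) := by
    intro ξ
    unfold LlPt.Gam
    congr 1
    field_simp
  have hd : ∀ ξ, 0 ≤ ξ → 0 ≤ ξ / p.ell ^ 2 := fun ξ h => div_nonneg h (by positivity)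
  have key : ∀ ξ ξ', 0 ≤ ξ → ξ ≤ ξ' → 0 ≤ p.GamN F 𝔹 ξ' - p.GamN F 𝔹 ξ ∧
      p.GamN F 𝔹 ξ' - p.GamN F 𝔹 ξ ≤ 1 / c * (ξ' - ξ) := by
    intro ξ ξ' h0 h
    have h1 := lsw_gam_incr hc hlam R (ξ / p.ell ^ 2) (ξ' / p.ell ^ 2) (hd ξ h0)
      (div_le_div_of_nonneg_right h (by positivity))
    rw [e, e]
    refine ⟨h1.1, h1.2.trans ?_⟩
    refine mul_le_mul_of_nonneg_left ?_ (by positivity)
    rw [← sub_div]
    exact div_le_self (by linarith) hl2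
  refine ⟨fun ξ hξ ξ' _ h => by linarith [(key ξ ξ' hξ h).1], fun ξ hξ => ⟨?_, ?_⟩, fun ξ hξ ξ' hξ' => ?_⟩
  · have h1 := (key 0 ξ le_rfl hξ).1
    have h2 : p.GamN F 𝔹 0 = 0 := by rw [e, zero_div]; exact R.gam_zero
    linarith
  · rw [e]; exact R.gam_le _ (hd ξ hξ)
  · rcases le_total ξ ξ' with h | h
    · have := key ξ ξ' hξ h
      rw [abs_sub_comm, abs_of_nonneg this.1, abs_sub_comm, abs_of_nonneg (sub_nonneg.2 h)]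
      exact this.2
    · have := key ξ' ξ hξ' h
      rw [abs_of_nonneg this.1, abs_of_nonneg (sub_nonneg.2 h)]
      exact this.2

theorem lsw_toDir_ok {F : LlFix} {p : LlPt} (hp : p.Ok F) : p.toDir.Ok F := by
  exact { N2 := hp.N2, ell1 := hp.ell1, ell2 := hp.ell2, lam_lo := hp.lam_lo, lam_hi := hp.lam_hi, g0 := hp.g0, gu := hp.gu,
          chiL := hp.chiL, chiE := hp.chiE, sm_fin := fun h => by simp [LlPt.toDir] at h }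

theorem lsw_ell_le_two {F : LlFix} {p : LlPt} (hp : p.Ok F) : p.ell ≤ 2 := by
  refine hp.ell2.trans ?_
  calc (2 : ℝ) ^ (1 / 6 : ℝ) ≤ (2 : ℝ) ^ (1 : ℝ) := Real.rpow_le_rpow_of_exponent_le (by norm_num) (by norm_num)
    _ = 2 := Real.rpow_one _

theorem lsw_ok_large (𝔹 : LlBase) (F : LlFix) (hF : F.Ok) (hvb : 4 * F.vb ≤ 1) (hprof : LlDirProf 𝔹 F) :
    LlUnif F fun p => p.sm = true → LswOk p F 𝔹 := by
  obtain ⟨hpT, N1, H1⟩ := hprof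
  obtain ⟨N2, -, H2⟩ := lsw_x_small (F.vb / 8) (by have := hF.vb0; positivity)
  obtain ⟨C3, N3, -, -, H3⟩ := lsw_omM
  obtain ⟨N4, -, H4⟩ := lsw_M_large (𝔹.xiS F.T + 1)
  refine ⟨max (max N1 N2) (max N3 N4), fun p hp hN hsm => ?_⟩
  have hN1 : N1 ≤ p.N := ((le_max_left _ _).trans (le_max_left _ _)).trans hN
  have hN2 : N2 ≤ p.N := ((le_max_right _ _).trans (le_max_left _ _)).trans hN
  have hN3 : N3 ≤ p.N := ((le_max_left _ _).trans (le_max_right _ _)).trans hN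
  have hN4 : N4 ≤ p.N := ((le_max_right _ _).trans (le_max_right _ _)).trans hN
  have hx0 : 0 < p.x := lsw_x_pos p (by have := hp.N2; omega)
  have hom0 : 0 < p.om := Real.rpow_pos_of_pos hx0 _
  obtain ⟨-, h31, h32⟩ := H3 p hN3
  have hM := H4 p hN4
  have hl2 := lsw_ell_le_two hp
  have hl : 0 < p.ell := by linarith [hp.ell1]
  exact
    { fok := hF, sm := hsm, chiE := (hp.sm_fin hsm).2, ell1 := hp.ell1, ell2 := hl2, x0 := hx0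
      xvb := by have := H2 p hN2; linarith
      vb1 := hvb, om0 := hom0
      hM := by linarith
      cap := by
        rw [le_div_iff₀ hl]
        have h5 : 0 ≤ 1 + p.om * p.M := by
          have : 0 ≤ p.M := by
            have := (H1 p hp hN1).1.tau
            linarith
          positivity
        calc (1 + p.om * p.M) * p.ell ≤ 2 * 2 := mul_le_mul (by linarith) hl2 hl.le (by norm_num)
          _ = 4 := by norm_num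
      prof := (H1 p hp hN1).1, below := (H1 p hp hN1).2, pT0 := hpT.1.le, pT1 := hpT.2 }

/-- `ℓ² (K_post - K_T) = M - ξ_*` -/
theorem lsw_DK {p : LlPt} {F : LlFix} {𝔹 : LlBase} (ok : LswOk p F 𝔹) :
    p.ell ^ 2 * (p.KP - p.KT F 𝔹) = p.M - 𝔹.xiS F.T := by
  have hl : 0 < p.ell := by linarith [ok.ell1]
  have e2 := lsw_xi_dir_top ok p.ell (by rw [div_self hl.ne']; exact ok.pT1) le_rfl
  have e3 : p.KT F 𝔹 = (p.ell ^ 2)⁻¹ * 𝔹.xiS F.T := by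
    rw [← e2]; rfl
  rw [e3, LlPt.KP]
  field_simp

/-- `ℓ² (h_post - h_T) = M - ξ_* - ℓ² b_post (1 - q(ℓ))` -/
theorem lsw_Dh {p : LlPt} {F : LlFix} {𝔹 : LlBase} (ok : LswOk p F 𝔹) :
    p.ell ^ 2 * (p.hP F 𝔹 - p.hT F 𝔹)
      = p.M - 𝔹.xiS F.T - p.ell ^ 2 * (p.bP F 𝔹 * (1 - p.toDir.GamN F 𝔹 (𝔹.xiS F.T))) := by
  have hl : 0 < p.ell := by linarith [ok.ell1]
  have hx : ¬ p.ell < p.x := by
    have := ok.ell1; have := ok.xvb; have := ok.vb1; have := ok.x0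
    intro h; linarith
  have e2 := lsw_xi_dir_top ok p.ell (by rw [div_self hl.ne']; exact ok.pT1) le_rfl
  have e4 : p.toDir.q F 𝔹 p.ell = p.toDir.GamN F 𝔹 (𝔹.xiS F.T) := by
    rw [lsw_q_eq p.toDir F 𝔹 (show p.toDir.ell ≠ 0 from hl.ne'), e2]
  have e5 : p.hT F 𝔹 = p.KT F 𝔹 - p.bP F 𝔹 * p.toDir.q F 𝔹 p.ell + p.Hlo F p.ell + p.chiL * p.Hlin F p.ell := by
    have : p.hT F 𝔹 = if p.ell < p.x then 0 else p.toDir.hS F 𝔹 p.ell + p.Hlo F p.ell + p.chiL * p.Hlin F p.ell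
        + p.chiE * p.toDir.He F 𝔹 p.ell := rfl
    rw [this, if_neg hx, ok.chiE]
    simp only [LlPt.hS, LlPt.KT, LlPt.bP]; ring
  have e6 := lsw_DK ok
  rw [e5, e4, LlPt.hP]
  linear_combination e6

/-- `K - h = b q - H_lo - χ_lin H_lin` above the mask, `= K` below -/
theorem lsw_Kh (p : LlPt) (F : LlFix) (𝔹 : LlBase) (hE : p.chiE = 0) (v : ℝ) :
    p.K F 𝔹 v - p.h F 𝔹 v
      = if v < p.x then p.K F 𝔹 v else p.b F 𝔹 v * p.q F 𝔹 v - p.Hlo F v - p.chiL * p.Hlin F v := by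
  unfold LlPt.h LlPt.hS
  by_cases h : v < p.x
  · simp only [h, if_true, sub_zero]
  · simp only [h, if_false, hE]; ring

/-- lower bound of the two jumps -/
theorem lsw_jump_ge {p : LlPt} {F : LlFix} {𝔹 : LlBase} {Cb : ℝ} (ok : LswOk p F 𝔹) (hb0 : 0 ≤ p.bP F 𝔹) (hb1 : p.bP F 𝔹 ≤ Cb)
    (hg : p.toDir.GamN F 𝔹 (𝔹.xiS F.T) ∈ Icc (0 : ℝ) 1) :
    p.M - (𝔹.xiS F.T + 4 * Cb) ≤ p.ell ^ 2 * (p.hP F 𝔹 - p.hT F 𝔹) ∧
    p.M - (𝔹.xiS F.T + 4 * Cb) ≤ p.ell ^ 2 * (p.KP - p.KT F 𝔹) := by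
  rw [lsw_Dh ok, lsw_DK ok]
  have hl4 : p.ell ^ 2 ≤ 4 := by nlinarith [ok.ell1, ok.ell2]
  have h1 : p.bP F 𝔹 * (1 - p.toDir.GamN F 𝔹 (𝔹.xiS F.T)) ≤ Cb := by
    calc p.bP F 𝔹 * (1 - p.toDir.GamN F 𝔹 (𝔹.xiS F.T)) ≤ p.bP F 𝔹 * 1 :=
          mul_le_mul_of_nonneg_left (by linarith [hg.1]) hb0
      _ ≤ Cb := by linarith
  have h0 : 0 ≤ p.bP F 𝔹 * (1 - p.toDir.GamN F 𝔹 (𝔹.xiS F.T)) := mul_nonneg hb0 (by linarith [hg.2])
  have h2 : p.ell ^ 2 * (p.bP F 𝔹 * (1 - p.toDir.GamN F 𝔹 (𝔹.xiS F.T))) ≤ 4 * Cb :=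
    mul_le_mul hl4 h1 h0 (by norm_num)
  constructor <;> linarith [hb0.trans hb1]

/-- the response along a clock is a clock -/
theorem lsw_q_clock {p : LlPt} {F : LlFix} {𝔹 : LlBase} {τ : ℝ} (hl : 0 < p.ell) (hA : LpqProf (p.Aprof F 𝔹) τ (p.a / p.ell))
    (hmono : MonotoneOn (p.GamN F 𝔹) (Ici 0)) (hrg : ∀ ξ, 0 ≤ ξ → p.GamN F 𝔹 ξ ∈ Icc (0 : ℝ) 1) :
    IsClock p.a (p.q F 𝔹) ∧ IsClock p.a (p.K F 𝔹) ∧ ∀ v ∈ Ioo 0 p.a, p.q F 𝔹 v ≤ 1 := by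
  have hx0 : ∀ v, 0 ≤ p.xi F 𝔹 v := fun v => lpq_inv_nonneg _ _
  have hxm : ∀ v ∈ Ioo 0 p.a, ∀ w ∈ Ioo 0 p.a, v ≤ w → p.xi F 𝔹 v ≤ p.xi F 𝔹 w := fun v _ w hw h =>
    lpq_inv_mono hA _ _ (div_le_div_of_nonneg_right h hl.le) (div_le_div_of_nonneg_right hw.2.le hl.le)
  have hxt : ∀ v ∈ Ioo 0 p.a, p.xi F 𝔹 v ≤ τ := fun v hv =>
    lpq_inv_le_tau hA _ (div_le_div_of_nonneg_right hv.2.le hl.le)
  have hq : ∀ v, p.q F 𝔹 v = p.GamN F 𝔹 (p.xi F 𝔹 v) := lsw_q_eq p F 𝔹 hl.ne'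
  have hi : 0 ≤ (p.ell ^ 2)⁻¹ := by positivity
  refine ⟨⟨fun v hv w hw h => ?_, fun v _ => ?_, 1, fun v _ => ?_⟩, ⟨fun v hv w hw h => ?_, fun v _ => ?_, (p.ell ^ 2)⁻¹ * τ, fun v hv => ?_⟩,
    fun v _ => ?_⟩
  · rw [hq, hq]; exact hmono (hx0 v) (hx0 w) (hxm v hv w hw h)
  · rw [hq]; exact (hrg _ (hx0 v)).1
  · rw [hq]; exact (hrg _ (hx0 v)).2
  · exact mul_le_mul_of_nonneg_left (hxm v hv w hw h) hi
  · exact mul_nonneg hi (hx0 v)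
  · exact mul_le_mul_of_nonneg_left (hxt v hv) hi
  · rw [hq]; exact (hrg _ (hx0 v)).2

/-- the clock facts of ONE system (smoothed or direct) from (P2) and admissibility -/
theorem lsw_clk_half {r : LlPt} {F : LlFix} {𝔹 : LlBase} {c C v0 c' C' : ℝ} (hr : r.Ok F) (hE : r.chiE = 0)
    (R : r.Ref F 𝔹 c C v0) (hc : 0 < c) (hc' : 0 < c')
    (mb : MonotoneOn (r.b F 𝔹) (Icc 0 r.a)) (mh : MonotoneOn (r.h F 𝔹) (Icc 0 r.a))
    (mK : MonotoneOn (r.K F 𝔹) (Icc 0 r.a)) (mq : MonotoneOn (r.q F 𝔹) (Icc 0 r.a))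
    (hb : ∀ v ∈ Icc 0 r.a, c' ≤ r.b F 𝔹 v ∧ r.b F 𝔹 v ≤ C' ∧ 0 ≤ r.h F 𝔹 v ∧ 0 ≤ r.hS F 𝔹 v ∧ 0 ≤ r.K F 𝔹 v)
    (hxv : r.x ≤ v0) (hH1 : ∀ v, r.x ≤ v → 0 ≤ r.Hlo F v ∧ r.Hlo F v ≤ 1) (hH2 : ∀ v, 0 ≤ r.Hlin F v ∧ r.Hlin F v ≤ 1) :
    IsClock r.a (r.b F 𝔹) ∧ IsClock r.a (r.h F 𝔹) ∧ IsClock r.a (r.K F 𝔹) ∧ IsClock r.a (r.q F 𝔹) ∧
    (∀ v ∈ Ioo 0 r.a, r.q F 𝔹 v ≤ 1) ∧ (∀ v ∈ Ioo 0 r.a, |r.K F 𝔹 v - r.h F 𝔹 v| ≤ |C| * v0 + C' + 2) := by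
  have hs : Ioo 0 r.a ⊆ Icc 0 r.a := Ioo_subset_Icc_self
  have htop : ∀ v ∈ Ioo 0 r.a, r.a ∈ Icc 0 r.a := fun v hv => ⟨(hv.1.trans hv.2).le, le_rfl⟩
  have hq0 : ∀ v ∈ Ioo 0 r.a, 0 ≤ r.q F 𝔹 v := fun v hv => (mul_nonneg hc.le hv.1.le).trans (R.q_lo v hv)
  have hq1 : ∀ v ∈ Ioo 0 r.a, r.q F 𝔹 v ≤ 1 := fun v hv => R.gam_le _ (hb v (hs hv)).2.2.2.2
  refine ⟨⟨mb.mono hs, fun v hv => hc'.le.trans (hb v (hs hv)).1, C', fun v hv => (hb v (hs hv)).2.1⟩,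
    ⟨mh.mono hs, fun v hv => (hb v (hs hv)).2.2.1, r.h F 𝔹 r.a, fun v hv => mh (hs hv) (htop v hv) hv.2.le⟩,
    ⟨mK.mono hs, fun v hv => (hb v (hs hv)).2.2.2.2, r.K F 𝔹 r.a, fun v hv => mK (hs hv) (htop v hv) hv.2.le⟩,
    ⟨mq.mono hs, hq0, 1, hq1⟩, hq1, fun v hv => ?_⟩
  have hC' : 0 ≤ C' := hc'.le.trans ((hb v (hs hv)).1.trans (hb v (hs hv)).2.1)
  rw [lsw_Kh r F 𝔹 hE v]
  by_cases hx : v < r.x
  · rw [if_pos hx, abs_of_nonneg (hb v (hs hv)).2.2.2.2]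
    have hv0 : v ≤ v0 := hx.le.trans hxv
    have h1 := R.K_hi0 v hv.1 hv0
    have h2 : C * v ≤ |C| * v0 :=
      (mul_le_mul_of_nonneg_right (le_abs_self C) hv.1.le).trans (mul_le_mul_of_nonneg_left hv0 (abs_nonneg _))
    linarith
  · rw [if_neg hx]
    obtain ⟨a1, a2⟩ := hH1 v (not_lt.1 hx)
    obtain ⟨a3, a4⟩ := hH2 v
    have b0 : 0 ≤ r.b F 𝔹 v := hc'.le.trans (hb v (hs hv)).1
    have a5 : 0 ≤ r.b F 𝔹 v * r.q F 𝔹 v := mul_nonneg b0 (hq0 v hv)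
    have a6 : r.b F 𝔹 v * r.q F 𝔹 v ≤ C' * 1 := mul_le_mul (hb v (hs hv)).2.1 (hq1 v hv) (hq0 v hv) hC'
    have a7 : 0 ≤ r.chiL * r.Hlin F v := mul_nonneg hr.chiL.1 a3
    have a8 : r.chiL * r.Hlin F v ≤ 1 * 1 := mul_le_mul hr.chiL.2 a4 a3 zero_le_one
    have a9 : 0 ≤ |C| * v0 := mul_nonneg (abs_nonneg _) ((lsw_x_pos r (by have := hr.N2; omega)).le.trans hxv)
    rw [abs_le]
    constructor <;> linarith

theorem lsw_clk_large (𝔹 : LlBase) (F : LlFix) (hF : F.Ok) (hvb : 4 * F.vb ≤ 1) (hprof : LlDirProf 𝔹 F)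
    {c C v0 : ℝ} (hc : 0 < c) (hv0 : 0 < v0) (href : LlRef 𝔹 F c C v0) (hadm : LlAdm 𝔹 F) :
    ∃ cb Cb C0 : ℝ, 0 < cb ∧ 0 ≤ Cb ∧ 0 ≤ C0 ∧ LlUnif F fun p => p.sm = true → LswClk p F 𝔹 cb Cb C0 := by
  obtain ⟨c', C', hc', Na, Ha⟩ := hadm
  obtain ⟨Ng, Hg⟩ := lsw_gamBasic 𝔹 F hc href
  obtain ⟨Nr, Hr⟩ := href
  obtain ⟨No, Ho⟩ := lsw_ok_large 𝔹 F hF hvb hprof
  obtain ⟨Nx, -, Hx⟩ := lsw_x_small v0 hv0
  obtain ⟨CH, NH, -, -, HH⟩ := lsw_H_small F hF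
  obtain ⟨Ne, -, He⟩ := lsw_expM (1 / 2) (𝔹.xiS F.T + 4 * |C'|) (by norm_num)
  obtain ⟨NM, -, HM⟩ := lsw_M_large (𝔹.xiS F.T + 4 * |C'|)
  refine ⟨c', |C'|, |C| * v0 + |C'| + 2, hc', abs_nonneg _, by positivity,
    max (max (max Na Ng) (max Nr No)) (max (max Nx NH) (max Ne NM)), fun p hp hN hsm => ?_⟩
  have hNa : Na ≤ p.N := (((le_max_left _ _).trans (le_max_left _ _)).trans (le_max_left _ _)).trans hN
  have hNg : Ng ≤ p.N := (((le_max_right _ _).trans (le_max_left _ _)).trans (le_max_left _ _)).trans hN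
  have hNr : Nr ≤ p.N := (((le_max_left _ _).trans (le_max_right _ _)).trans (le_max_left _ _)).trans hN
  have hNo : No ≤ p.N := (((le_max_right _ _).trans (le_max_right _ _)).trans (le_max_left _ _)).trans hN
  have hNx : Nx ≤ p.N := (((le_max_left _ _).trans (le_max_left _ _)).trans (le_max_right _ _)).trans hN
  have hNH : NH ≤ p.N := (((le_max_right _ _).trans (le_max_left _ _)).trans (le_max_right _ _)).trans hN
  have hNe : Ne ≤ p.N := (((le_max_left _ _).trans (le_max_right _ _)).trans (le_max_right _ _)).trans hN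
  have hNM : NM ≤ p.N := (((le_max_right _ _).trans (le_max_right _ _)).trans (le_max_right _ _)).trans hN
  have hd : p.toDir.Ok F := lsw_toDir_ok hp
  have ok : LswOk p F 𝔹 := Ho p hp hNo hsm
  have hl : 0 < p.ell := by linarith [ok.ell1]
  obtain ⟨mb, mh, -, mK, mq, hb, -, -⟩ := Ha p hp hNa
  obtain ⟨mbd, mhd, -, mKd, mqd, hbd, -, -⟩ := Ha p.toDir hd hNa
  have hbA : ∀ v ∈ Icc 0 p.a, c' ≤ p.b F 𝔹 v ∧ p.b F 𝔹 v ≤ |C'| ∧ 0 ≤ p.h F 𝔹 v ∧ 0 ≤ p.hS F 𝔹 v ∧ 0 ≤ p.K F 𝔹 v :=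
    fun v hv => ⟨(hb v hv).1, (hb v hv).2.1.trans (le_abs_self _), (hb v hv).2.2⟩
  have hbdA : ∀ v ∈ Icc 0 p.toDir.a, c' ≤ p.toDir.b F 𝔹 v ∧ p.toDir.b F 𝔹 v ≤ |C'| ∧ 0 ≤ p.toDir.h F 𝔹 v ∧
      0 ≤ p.toDir.hS F 𝔹 v ∧ 0 ≤ p.toDir.K F 𝔹 v :=
    fun v hv => ⟨(hbd v hv).1, (hbd v hv).2.1.trans (le_abs_self _), (hbd v hv).2.2⟩
  obtain ⟨hH1, hH2, -⟩ := HH p hp hNH
  obtain ⟨hH1d, hH2d, -⟩ := HH p.toDir hd hNH
  have S := lsw_clk_half hp ok.chiE (Hr p hp hNr) hc hc' mb mh mK mq hbA (Hx p hNx).le hH1 hH2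
  have D := lsw_clk_half hd ok.chiE (Hr p.toDir hd hNr) hc hc' mbd mhd mKd mqd hbdA (Hx p.toDir hNx).le hH1d hH2d
  rw [lsw_sm_a p hsm] at S
  rw [lsw_dir_a p] at D
  obtain ⟨S1, S2, S3, S4, S5, S6⟩ := S
  obtain ⟨D1, D2, D3, D4, D5, D6⟩ := D
  have hbP : c' ≤ p.bP F 𝔹 ∧ p.bP F 𝔹 ≤ |C'| := by
    have := hbdA p.ell (by rw [lsw_dir_a p]; exact ⟨hl.le, le_rfl⟩)
    exact ⟨this.1, this.2.1⟩
  have hg : p.toDir.GamN F 𝔹 (𝔹.xiS F.T) ∈ Icc (0 : ℝ) 1 := (Hg p.toDir hd hNg).2.1 _ ok.prof.tau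
  obtain ⟨j1, j2⟩ := lsw_jump_ge ok (hc'.le.trans hbP.1) hbP.2 hg
  have hM := HM p hNM
  have hE := (He p hNe).2
  have hl2 : 0 < p.ell ^ 2 := by positivity
  have tool : ∀ D : ℝ, p.M - (𝔹.xiS F.T + 4 * |C'|) ≤ D → Real.exp (-(D / 2)) ≤ 1 / 2 := fun D hD =>
    (Real.exp_le_exp.2 (by linarith)).trans hE
  exact
    { bs := S1, hs := S2, Ks := S3, qs := S4, bd := D1, hd := D2, Kd := D3, qd := D4, qs1 := S5, qd1 := D5, cb0 := hc'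
      bs_lo := fun v hv => (hbA v (by rw [lsw_sm_a p hsm]; exact Ioo_subset_Icc_self hv)).1
      bs_hi := fun v hv => (hbA v (by rw [lsw_sm_a p hsm]; exact Ioo_subset_Icc_self hv)).2.1
      bd_lo := fun v hv => (hbdA v (by rw [lsw_dir_a p]; exact Ioo_subset_Icc_self hv)).1
      bd_hi := fun v hv => (hbdA v (by rw [lsw_dir_a p]; exact Ioo_subset_Icc_self hv)).2.1
      hTP := by
        have : 0 ≤ p.ell ^ 2 * (p.hP F 𝔹 - p.hT F 𝔹) := by linarith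
        have := nonneg_of_mul_nonneg_right this hl2
        linarith
      KTP := by
        have : 0 ≤ p.ell ^ 2 * (p.KP - p.KT F 𝔹) := by linarith
        have := nonneg_of_mul_nonneg_right this hl2
        linarith
      hexp := tool _ j1
      Kexp := tool _ j2
      Khs := S6, Khd := D6
      KhP := by
        have e : p.KP - p.hP F 𝔹 = p.bP F 𝔹 - p.Hlo F p.ell - p.chiL * p.Hlin F p.ell := by
          simp only [LlPt.hP]; ring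
        have hxl : p.x ≤ p.ell := by
          have := ok.ell1; have := ok.xvb; have := ok.vb1; have := ok.x0
          linarith
        obtain ⟨a1, a2⟩ := hH1 p.ell hxl
        obtain ⟨a3, a4⟩ := hH2 p.ell
        have a7 : 0 ≤ p.chiL * p.Hlin F p.ell := mul_nonneg hp.chiL.1 a3
        have a8 : p.chiL * p.Hlin F p.ell ≤ 1 * 1 := mul_le_mul hp.chiL.2 a4 a3 zero_le_one
        have a9 : 0 ≤ |C| * v0 := by positivity
        rw [e, abs_le]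
        constructor <;> linarith [hbP.1, hbP.2] }

/-- the two hard-jump errors -/
theorem lsw_eJ_large (𝔹 : LlBase) (F : LlFix) (Cb : ℝ) :
    ∃ N0 : ℕ, ∀ p : LlPt, N0 ≤ p.N → LswOk p F 𝔹 → 0 ≤ p.bP F 𝔹 → p.bP F 𝔹 ≤ Cb →
      p.toDir.GamN F 𝔹 (𝔹.xiS F.T) ∈ Icc (0 : ℝ) 1 →
      p.eJ F 𝔹 ≤ 2 * p.x ^ (5 + 1 / 8 : ℝ) ∧ p.eJK F 𝔹 ≤ 2 * p.x ^ (5 + 1 / 8 : ℝ) := by
  obtain ⟨N0, -, H⟩ := lsw_expM (1 / 2) (𝔹.xiS F.T + 4 * Cb) (by norm_num)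
  refine ⟨N0, fun p hN ok hb0 hb1 hg => ?_⟩
  obtain ⟨j1, j2⟩ := lsw_jump_ge ok hb0 hb1 hg
  have hE := (H p hN).1
  have hl : 0 < p.ell := by linarith [ok.ell1]
  have h2l : 2 / p.ell ≤ 2 := by rw [div_le_iff₀ hl]; linarith [ok.ell1]
  have h2l0 : 0 ≤ 2 / p.ell := by positivity
  have tool : ∀ D : ℝ, p.M - (𝔹.xiS F.T + 4 * Cb) ≤ D → 2 / p.ell * Real.exp (-(D / 2)) ≤ 2 * p.x ^ (5 + 1 / 8 : ℝ) := by
    intro D hD
    have h1 : Real.exp (-(D / 2)) ≤ p.x ^ (5 + 1 / 8 : ℝ) :=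
      (Real.exp_le_exp.2 (by linarith)).trans hE
    exact mul_le_mul h2l h1 (Real.exp_pos _).le (by norm_num)
  exact ⟨tool _ j1, tool _ j2⟩

/-! ### 4. EXIT -/

/-- uniform form: ONE constant, all smoothed points with `N` large -/
theorem lsw_unif (𝔹 : LlBase) (F : LlFix) (hF : F.Ok) (hvb : 4 * F.vb ≤ 1) (hprof : LlDirProf 𝔹 F)
    {c C v0 : ℝ} (hc : 0 < c) (hv0 : 0 < v0) (href : LlRef 𝔹 F c C v0) (hcmp : LlSmCmp 𝔹 F) (hadm : LlAdm 𝔹 F)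
    (hL : LlLipL1 𝔹) (hJ : LlHardJump 𝔹) :
    ∃ C : ℝ, LlUnif F fun p => p.sm = true → ∀ m : ℕ, 0 < m → ∀ s ∈ Ioo 0 p.x,
      |p.psi F 𝔹 m s - p.toDir.psi F 𝔹 m s| ≤ C * p.x ^ (5 + 1 / 8 : ℝ) ∧
      |p.fRest F 𝔹 m - p.toDir.fRest F 𝔹 m - p.kapSw F| ≤ C * p.x ^ (5 + 1 / 8 : ℝ) ∧
      |p.trialGap F 𝔹 m - p.toDir.trialGap F 𝔹 m| ≤ C * p.x ^ (5 + 1 / 8 : ℝ) := by
  obtain ⟨cb, Cb, C0, hcb, hCb, hC0, Nk, Hk⟩ := lsw_clk_large 𝔹 F hF hvb hprof hc hv0 href hadm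
  obtain ⟨Ng, Hg⟩ := lsw_gamBasic 𝔹 F hc href
  obtain ⟨No, Ho⟩ := lsw_ok_large 𝔹 F hF hvb hprof
  obtain ⟨cc, hcc, Hc⟩ := hcmp
  obtain ⟨Cc, Nc, Hc⟩ := Hc (1 / 42) (by norm_num)
  obtain ⟨Cm, Nm, hCm, -, Hm⟩ := lsw_omM
  obtain ⟨CH, NH, hCH, -, HH⟩ := lsw_H_small F hF
  obtain ⟨Ne, -, He⟩ := lsw_expM cc 0 hcc
  obtain ⟨NJ, HJ⟩ := lsw_eJ_large 𝔹 F Cb
  refine ⟨lswC cb Cb C0 (1 / c) * (2 * Cm + |Cc| + 2 + CH),
    max (max (max Nk Ng) (max No Nc)) (max (max Nm NH) (max Ne NJ)), fun p hp hN hsm m hm s hs => ?_⟩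
  have hNk : Nk ≤ p.N := (((le_max_left _ _).trans (le_max_left _ _)).trans (le_max_left _ _)).trans hN
  have hNg : Ng ≤ p.N := (((le_max_right _ _).trans (le_max_left _ _)).trans (le_max_left _ _)).trans hN
  have hNo : No ≤ p.N := (((le_max_left _ _).trans (le_max_right _ _)).trans (le_max_left _ _)).trans hN
  have hNc : Nc ≤ p.N := (((le_max_right _ _).trans (le_max_right _ _)).trans (le_max_left _ _)).trans hN
  have hNm : Nm ≤ p.N := (((le_max_left _ _).trans (le_max_left _ _)).trans (le_max_right _ _)).trans hN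
  have hNH : NH ≤ p.N := (((le_max_right _ _).trans (le_max_left _ _)).trans (le_max_right _ _)).trans hN
  have hNe : Ne ≤ p.N := (((le_max_left _ _).trans (le_max_right _ _)).trans (le_max_right _ _)).trans hN
  have hNJ : NJ ≤ p.N := (((le_max_right _ _).trans (le_max_right _ _)).trans (le_max_right _ _)).trans hN
  have hd : p.toDir.Ok F := lsw_toDir_ok hp
  have ok : LswOk p F 𝔹 := Ho p hp hNo hsm
  have ck : LswClk p F 𝔹 cb Cb C0 := Hk p hp hNk hsm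
  set X : ℝ := p.x ^ (5 + 1 / 8 : ℝ) with hX
  have hX0 : 0 ≤ X := Real.rpow_nonneg ok.x0.le _
  obtain ⟨c1, c2, c3⟩ := Hc p hp hNc hsm
  rw [lsw_om_pow p ok.x0] at c1 c3
  have hCcX : Cc * X ≤ |Cc| * X := mul_le_mul_of_nonneg_right (le_abs_self _) hX0
  have hE2 : Cc * Real.exp (-cc * p.M) ≤ |Cc| * X := by
    have h1 : Real.exp (-cc * p.M) ≤ X := by
      have := (He p hNe).1
      rwa [sub_zero] at this
    calc Cc * Real.exp (-cc * p.M) ≤ |Cc| * Real.exp (-cc * p.M) :=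
          mul_le_mul_of_nonneg_right (le_abs_self _) (Real.exp_pos _).le
      _ ≤ |Cc| * X := mul_le_mul_of_nonneg_left h1 (abs_nonneg _)
  have hG : LswGam p F 𝔹 (Cc * X) (Cc * Real.exp (-cc * p.M)) (Cc * X) (1 / c) :=
    { cmp := c1, top := c2
      lip := fun ξ hξ ξ' hξ' => (Hg p hp hNg).2.2 ξ hξ.1 ξ' hξ'.1
      b0 := c3, L0 := by positivity }
  have hbP := lsw_bP_mem ok ck
  have hg : p.toDir.GamN F 𝔹 (𝔹.xiS F.T) ∈ Icc (0 : ℝ) 1 := (Hg p.toDir hd hNg).2.1 _ ok.prof.tau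
  obtain ⟨e1, e2⟩ := HJ p hNJ ok (hcb.le.trans hbP.1) hbP.2 hg
  obtain ⟨m1, -, -⟩ := Hm p hNm
  obtain ⟨-, -, h3⟩ := HH p hp hNH
  have hCmX : 0 ≤ Cm * X := mul_nonneg hCm hX0
  have hCHX : 0 ≤ CH * X := mul_nonneg hCH hX0
  have hAX : 0 ≤ |Cc| * X := mul_nonneg (abs_nonneg _) hX0
  have hEK : p.ell * (p.om * p.M ^ 2 + p.om) ≤ (2 * Cm + |Cc| + 2 + CH) * X := by
    have h0 : 0 ≤ p.om * p.M ^ 2 + p.om := by
      have := ok.om0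
      positivity
    calc p.ell * (p.om * p.M ^ 2 + p.om) ≤ 2 * (Cm * X) := mul_le_mul ok.ell2 m1 h0 (by norm_num)
      _ ≤ _ := by linarith
  have := lsw_point (Y := (2 * Cm + |Cc| + 2 + CH) * X) ok ck hG hJ hL hEK (by linarith) (by linarith) (by linarith)
    (by linarith) (by linarith) (h3.trans (by rw [← hX]; linarith)) m hm s hs
  simpa only [mul_assoc] using this

/-- **Prop. 3.4 (paths:switch)**   TEX[LL:paths:switch] -/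
theorem lsw_P11 (𝔹 : LlBase) (F : LlFix) (hF : F.Ok) (hvb : 4 * F.vb ≤ 1) (hprof : LlDirProf 𝔹 F)
    {c C v0 : ℝ} (hc : 0 < c) (hv0 : 0 < v0) (href : LlRef 𝔹 F c C v0) (hcmp : LlSmCmp 𝔹 F) (hadm : LlAdm 𝔹 F)
    (hL : LlLipL1 𝔹) (hJ : LlHardJump 𝔹) : LlP11 𝔹 F := by
  obtain ⟨C, N0, H⟩ := lsw_unif 𝔹 F hF hvb hprof hc hv0 href hcmp hadm hL hJ
  refine ⟨C, N0, fun p hp hN hsm _ => ⟨p.kapSw F, fun g0 hg0 gu hgu m hm1 _ s hs => ?_⟩⟩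
  have hps : ({ p with gam0 := g0, gu := gu } : LlPt).Ok F :=
    { N2 := hp.N2, ell1 := hp.ell1, ell2 := hp.ell2, lam_lo := hp.lam_lo, lam_hi := hp.lam_hi, g0 := hg0, gu := hgu,
      chiL := hp.chiL, chiE := hp.chiE, sm_fin := hp.sm_fin }
  have hm : 0 < m := by have := hp.N2; omega
  exact H { p with gam0 := g0, gu := gu } hps hN hsm m hm s hs

/-! ### 5. the contract `LlDirProf` PROVED from Lemma paths:base-profile (helper281) -/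

/-- positive density of the base profile near zero -/
theorem lsw_dens (𝔹 : LlBase) (T : ℝ) (hb : LlBaseProfile 𝔹 T) :
    ∃ zb c : ℝ, 0 < zb ∧ zb < 𝔹.xiS T ∧ 0 < c ∧
      ∀ ξ ξ', 0 ≤ ξ → ξ ≤ ξ' → ξ' ≤ zb → c * (ξ' - ξ) ≤ 𝔹.A0 T ξ' - 𝔹.A0 T ξ := by
  obtain ⟨a, ha0, -, ha1, hder⟩ := hb.tower
  have hxs := hb.xi_pos
  have hT : 0 < T := lt_of_lt_of_le hxs hb.xi_le
  have hpos : 0 < a 1 0 := by rw [ha1]; exact div_pos hb.kap_pos hT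
  have hc1 : ContinuousWithinAt (a 1) (Icc 0 (𝔹.xiS T)) 0 := (hder 1 0 ⟨le_rfl, hxs.le⟩).continuousWithinAt
  have hev : ∀ᶠ ξ in 𝓝[Icc 0 (𝔹.xiS T)] 0, a 1 0 / 2 < a 1 ξ := hc1.eventually (Ioi_mem_nhds (by linarith))
  rw [eventually_nhdsWithin_iff, Metric.eventually_nhds_iff] at hev
  obtain ⟨δ, hδ, H⟩ := hev
  set zb : ℝ := min (δ / 2) (𝔹.xiS T / 2) with hzb
  have hzb0 : 0 < zb := lt_min (by linarith) (by linarith)
  have hzb1 : zb < 𝔹.xiS T := lt_of_le_of_lt (min_le_right _ _) (by linarith)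
  have hzb2 : zb < δ := lt_of_le_of_lt (min_le_left _ _) (by linarith)
  refine ⟨zb, a 1 0 / 2, hzb0, hzb1, by linarith, ?_⟩
  have hsub : Icc 0 zb ⊆ Icc 0 (𝔹.xiS T) := Icc_subset_Icc le_rfl hzb1.le
  have hmono : MonotoneOn (fun ξ => a 0 ξ - a 1 0 / 2 * ξ) (Icc 0 zb) := by
    apply monotoneOn_of_hasDerivWithinAt_nonneg (convex_Icc 0 zb) (f' := fun ξ => a 1 ξ - a 1 0 / 2)
    · intro ξ hξ
      exact (((hder 0 ξ (hsub hξ)).continuousWithinAt).mono hsub).sub (by fun_prop)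
    · intro ξ hξ
      have hξ' : ξ ∈ Icc 0 zb := interior_subset hξ
      have h1 := (hder 0 ξ (hsub hξ')).mono (interior_subset.trans hsub)
      have h2 : HasDerivWithinAt (fun ξ : ℝ => a 1 0 / 2 * ξ) (a 1 0 / 2) (interior (Icc 0 zb)) ξ := by
        simpa using ((hasDerivAt_id ξ).const_mul (a 1 0 / 2)).hasDerivWithinAt
      exact h1.sub h2
    · intro ξ hξ
      have hξ' : ξ ∈ Icc 0 zb := interior_subset hξ
      have := H (y := ξ) (by rw [Real.dist_eq, sub_zero, abs_of_nonneg hξ'.1]; linarith [hξ'.2]) (hsub hξ')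
      linarith
  intro ξ ξ' h0 h1 h2
  have := hmono ⟨h0, h1.trans h2⟩ ⟨h0.trans h1, h2⟩ h1
  rw [ha0 ξ ⟨h0, lt_of_le_of_lt (h1.trans h2) hzb1⟩, ha0 ξ' ⟨h0.trans h1, lt_of_le_of_lt h2 hzb1⟩]
  simp only at this
  linarith

/-- the base profile is right continuous on `[0,∞)` -/
theorem lsw_A0_rc (𝔹 : LlBase) (T : ℝ) (hb : LlBaseProfile 𝔹 T) (ξ : ℝ) (hξ : 0 ≤ ξ) :
    ContinuousWithinAt (𝔹.A0 T) (Ici ξ) ξ := by
  obtain ⟨a, ha0, -, -, hder⟩ := hb.tower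
  by_cases h : ξ < 𝔹.xiS T
  · have h1 : ContinuousWithinAt (a 0) (Ico ξ (𝔹.xiS T)) ξ :=
      ((hder 0 ξ ⟨hξ, h.le⟩).continuousWithinAt).mono fun y hy => ⟨hξ.trans hy.1, hy.2.le⟩
    have h2 : ContinuousWithinAt (𝔹.A0 T) (Ico ξ (𝔹.xiS T)) ξ :=
      h1.congr (fun y hy => ha0 y ⟨hξ.trans hy.1, hy.2⟩) (ha0 ξ ⟨hξ, h⟩)
    unfold ContinuousWithinAt at h2 ⊢
    rwa [nhdsWithin_Ico_eq_nhdsGE h] at h2
  · push Not at h
    exact (continuousWithinAt_const (b := (1 : ℝ))).congr (fun y hy => hb.top y (h.trans hy)) (hb.top ξ h)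

/-- the cut-off `P` is Lipschitz on `[0,z_0]` -/
theorem lsw_P_lip (F : LlFix) (hF : F.Ok) :
    ∃ LP : ℝ, 0 ≤ LP ∧ ∀ ξ ∈ Icc 0 F.z0, ∀ ξ' ∈ Icc 0 F.z0, |F.P ξ' - F.P ξ| ≤ LP * |ξ' - ξ| := by
  have hd : Continuous (deriv F.P) := hF.P_sm.continuous_deriv (by simp)
  obtain ⟨C, hC⟩ := (isCompact_Icc (a := (0 : ℝ)) (b := F.z0)).exists_bound_of_continuousOn hd.continuousOn
  refine ⟨max C 0, le_max_right _ _, fun ξ hξ ξ' hξ' => ?_⟩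
  have := Convex.norm_image_sub_le_of_norm_deriv_le (f := F.P) (C := max C 0) (s := Icc 0 F.z0)
    (fun x _ => (hF.P_sm.differentiable (by simp)).differentiableAt) (fun x hx => (hC x hx).trans (le_max_left _ _))
    (convex_Icc _ _) hξ hξ'
  simpa [Real.norm_eq_abs] using this

/-- **`LlDirProf` from Lemma paths:base-profile** (03 l.113-117): for `z_0` small and `N` large, `A_λ = A_0 + λ P` is a mass profile with the strict top plateau. -/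
theorem lsw_dirProf (𝔹 : LlBase) (T : ℝ) (hb : LlBaseProfile 𝔹 T) :
    ∃ zb : ℝ, 0 < zb ∧ ∀ F : LlFix, F.Ok → F.T = T → F.z0 ≤ zb → LlDirProf 𝔹 F := by
  obtain ⟨zb, c, hzb0, hzb1, hc, hdens⟩ := lsw_dens 𝔹 T hb
  refine ⟨zb, hzb0, fun F hF hT hz => ?_⟩
  subst hT
  obtain ⟨LP, hLP0, hLP⟩ := lsw_P_lip F hF
  refine ⟨hb.pTop_mem, ?_⟩
  set δ : ℝ := (c / (LP + 1)) ^ (1 / F.pS) with hδ
  have hq : 0 < c / (LP + 1) := div_pos hc (by linarith)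
  have hδ0 : 0 < δ := Real.rpow_pos_of_pos hq _
  obtain ⟨N0, hN01, hN0⟩ := lsw_x_small δ hδ0
  refine ⟨N0, fun p hp hN => ?_⟩
  have hx0 : 0 < p.x := lsw_x_pos p (hN01.trans hN)
  have hl0 : 0 < p.lam := lt_of_lt_of_le (Real.rpow_pos_of_pos hx0 _) hp.lam_lo
  have hl1 : p.lam * LP ≤ c := by
    have h1 : p.x ^ F.pS ≤ δ ^ F.pS := Real.rpow_le_rpow hx0.le (hN0 p hN).le hF.pS0.le
    have h2 : δ ^ F.pS = c / (LP + 1) := by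
      rw [hδ, ← Real.rpow_mul hq.le, one_div, inv_mul_cancel₀ hF.pS0.ne', Real.rpow_one]
    have h3 : p.lam ≤ c / (LP + 1) := hp.lam_hi.trans (h1.trans h2.le)
    calc p.lam * LP ≤ c / (LP + 1) * LP := mul_le_mul_of_nonneg_right h3 hLP0
      _ ≤ c / (LP + 1) * (LP + 1) := mul_le_mul_of_nonneg_left (by linarith) hq.le
      _ = c := by field_simp
  have hz0 := hF.z00
  -- monotone below `z0`
  have hm1 : ∀ ξ ξ', 0 ≤ ξ → ξ ≤ ξ' → ξ' ≤ F.z0 → p.Adir F 𝔹 ξ ≤ p.Adir F 𝔹 ξ' := by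
    intro ξ ξ' h0 h1 h2
    have e1 := hdens ξ ξ' h0 h1 (h2.trans hz)
    have e2 := hLP ξ ⟨h0, h1.trans h2⟩ ξ' ⟨h0.trans h1, h2⟩
    rw [abs_of_nonneg (sub_nonneg.2 h1)] at e2
    have e3 : -(LP * (ξ' - ξ)) ≤ F.P ξ' - F.P ξ := (abs_le.1 e2).1
    have e4 : p.lam * (-(LP * (ξ' - ξ))) ≤ p.lam * (F.P ξ' - F.P ξ) := mul_le_mul_of_nonneg_left e3 hl0.le
    have e5 : p.lam * LP * (ξ' - ξ) ≤ c * (ξ' - ξ) := mul_le_mul_of_nonneg_right hl1 (sub_nonneg.2 h1)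
    unfold LlPt.Adir
    nlinarith
  have hAz : ∀ ξ, F.z0 ≤ ξ → p.Adir F 𝔹 ξ = 𝔹.A0 F.T ξ := by
    intro ξ h
    unfold LlPt.Adir
    rw [hF.P_zero ξ h, mul_zero, add_zero]
  have hmono : MonotoneOn (p.Adir F 𝔹) (Ici 0) := by
    intro ξ h0 ξ' _ h1
    have h0' : 0 ≤ ξ := h0
    rcases le_total ξ' F.z0 with h2 | h2
    · exact hm1 ξ ξ' h0' h1 h2
    · rcases le_total ξ F.z0 with h3 | h3
      · calc p.Adir F 𝔹 ξ ≤ p.Adir F 𝔹 F.z0 := hm1 ξ F.z0 h0' h3 le_rfl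
          _ = 𝔹.A0 F.T F.z0 := hAz _ le_rfl
          _ ≤ 𝔹.A0 F.T ξ' := hb.mono h2
          _ = p.Adir F 𝔹 ξ' := (hAz _ h2).symm
      · rw [hAz _ h3, hAz _ h2]; exact hb.mono h1
  refine ⟨⟨hmono, ?_, ?_, ?_, hb.xi_pos.le⟩, ?_⟩
  · intro ξ hξ
    exact (lsw_A0_rc 𝔹 F.T hb ξ hξ).add
      (continuousWithinAt_const.mul (hF.P_sm.continuous.continuousWithinAt))
  · have h1 := hb.zero 0 le_rfl
    have h2 := hF.P_nn 0 le_rfl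
    unfold LlPt.Adir
    rw [h1, zero_add]
    exact mul_nonneg hl0.le h2.1
  · intro ξ hξ
    rw [hAz ξ ((hz.trans hzb1.le).trans hξ)]
    exact hb.top ξ hξ
  · intro ξ h0 h1
    rcases le_total ξ F.z0 with h3 | h3
    · calc p.Adir F 𝔹 ξ ≤ p.Adir F 𝔹 F.z0 := hm1 ξ F.z0 h0 h3 le_rfl
        _ = 𝔹.A0 F.T F.z0 := hAz _ le_rfl
        _ ≤ 𝔹.pTop F.T := (hb.lt_top _ (lt_of_le_of_lt hz hzb1)).le
    · rw [hAz _ h3]; exact (hb.lt_top _ h1).le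

end Claimed.Agent.R286
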