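import Mathlib

/-!
# Row 286 (S0533), LL Section 3 (paths): VOCABULARY-FREE KIT      (owner helper283; head of LL 03: helper272, co-head helper253; prefix `lpk_`)

Mathlib only.   Contents:
1. one-dimensional Gaussian facts: `lpk_mgf`, tilting `lpk_pdf_tilt`, half-line Laplace transforms `lpk_half`, `lpk_half_neg` (`E[1_{z>0} e^{tz}] = e^{t²/2} Φ(t)`), tail `lpk_phi_tail`, `lpk_log_phi : -2 e^{-t²/2} ≤ log Φ(t)`.
2. THE ORTHANT BOUND of LL Prop. 3.4 (paths:switch) on `Measure.pi (gaussianReal 0 1)`: `lpk_orth_upper`, `lpk_orth_lower`, logarithmic form `lpk_orth_log`, one stage of the hard field jump `lpk_hard_jump`.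
3. S3 of `L03_helper253.md`: Landau-Kolmogorov on the line: `lpk_lk_two` (`k = 2`), log-convex sequences `lpk_lc_interp`, `lpk_landau` (power form), `lpk_landau_rpow`, `lpk_landau_eps` (loss of an arbitrarily small power).
-/

set_option autoImplicit false

namespace Claimed.Agent.R286

open MeasureTheory ProbabilityTheory Real Set
open scoped NNReal

noncomputable section

/-- the sign of a Boolean spin -/
def lpkSg (b : Bool) : ℝ := if b then 1 else -1

/-- the standard Gaussian distribution function -/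
def lpkPhi (t : ℝ) : ℝ := (gaussianReal 0 1).real (Iic t)

theorem lpk_eqns_cite : True := by
  have := @lpkSg.eq_1; have := @lpkPhi.eq_1
  trivial

theorem lpk_sg_sq (b : Bool) : lpkSg b ^ 2 = 1 := by
  cases b <;> simp [lpkSg]

theorem lpk_sg_cases (b : Bool) : lpkSg b = 1 ∨ lpkSg b = -1 := by
  cases b <;> simp [lpkSg]

/-- Gaussian Laplace transform -/
theorem lpk_mgf (t : ℝ) : ∫ z, exp (t * z) ∂(gaussianReal 0 1) = exp (t ^ 2 / 2) := by
  have h := congrFun (mgf_id_gaussianReal (μ := 0) (v := 1)) t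
  simp only [mgf, id] at h
  rw [h]
  congr 1
  simp

theorem lpk_int_exp (t : ℝ) : Integrable (fun z => exp (t * z)) (gaussianReal 0 1) :=
  integrable_exp_mul_gaussianReal t

/-- exponential tilting of the density -/
theorem lpk_pdf_tilt (t z : ℝ) : gaussianPDFReal 0 1 z * exp (t * z) = exp (t ^ 2 / 2) * gaussianPDFReal t 1 z := by
  simp only [gaussianPDFReal, NNReal.coe_one, mul_one, sub_zero]
  rw [mul_assoc, ← exp_add, mul_left_comm, ← exp_add]
  congr 2
  ring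

/-- the half-line Laplace transform: `E[1_{z > 0} e^{t z}] = e^{t^2/2} Φ(t)` -/
theorem lpk_half (t : ℝ) : ∫ z in Ioi (0 : ℝ), exp (t * z) ∂(gaussianReal 0 1) = exp (t ^ 2 / 2) * lpkPhi t := by
  have h1 : (1 : ℝ≥0) ≠ 0 := one_ne_zero
  -- left side through the density
  have e1 : ∫ z in Ioi (0 : ℝ), exp (t * z) ∂(gaussianReal 0 1) = ∫ z in Ioi (0 : ℝ), gaussianPDFReal 0 1 z * exp (t * z) := by
    rw [← integral_indicator measurableSet_Ioi, integral_gaussianReal_eq_integral_smul h1, ← integral_indicator measurableSet_Ioi]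
    refine integral_congr_ae (Filter.Eventually.of_forall fun z => ?_)
    by_cases hz : z ∈ Ioi (0 : ℝ)
    · simp [indicator_of_mem hz]
    · simp [indicator_of_notMem hz]
  rw [e1]
  simp_rw [lpk_pdf_tilt]
  rw [integral_const_mul]
  congr 1
  -- `gaussianReal t 1 (Ioi 0) = Φ(t)`
  have e2 : ∫ z in Ioi (0 : ℝ), gaussianPDFReal t 1 z = (gaussianReal t 1).real (Ioi 0) := by
    rw [measureReal_def, gaussianReal_apply_eq_integral t h1, ENNReal.toReal_ofReal]
    exact setIntegral_nonneg measurableSet_Ioi fun z _ => gaussianPDFReal_nonneg _ _ _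
  rw [e2]
  have e3 : gaussianReal t 1 = (gaussianReal 0 1).map (fun z => t - z) := by
    rw [gaussianReal_map_const_sub]
    simp
  rw [e3, lpkPhi, measureReal_def, measureReal_def, Measure.map_apply (by fun_prop) measurableSet_Ioi]
  congr 1
  have : (fun z : ℝ => t - z) ⁻¹' Ioi 0 = Iio t := by
    ext z; simp
  rw [this]
  have := nullSingletonClass_gaussianReal (μ := 0) h1
  exact (Iio_ae_eq_Iic (μ := gaussianReal 0 1)).measure_eq

/-- the other half line -/
theorem lpk_half_neg (t : ℝ) : ∫ z in Iio (0 : ℝ), exp (-t * z) ∂(gaussianReal 0 1) = exp (t ^ 2 / 2) * lpkPhi t := by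
  rw [← lpk_half t]
  have e : gaussianReal 0 1 = (gaussianReal 0 1).map (fun z => -z) := by
    rw [gaussianReal_map_neg]; simp
  conv_lhs => rw [e]
  rw [setIntegral_map measurableSet_Iio (by fun_prop) (by fun_prop)]
  have : (fun z : ℝ => -z) ⁻¹' Iio 0 = Ioi 0 := by
    ext z; simp
  rw [this]
  refine integral_congr_ae (Filter.Eventually.of_forall fun z => ?_)
  simp

theorem lpk_phi_le_one (t : ℝ) : lpkPhi t ≤ 1 := by
  unfold lpkPhi
  exact measureReal_le_one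

theorem lpk_phi_nonneg (t : ℝ) : 0 ≤ lpkPhi t := measureReal_nonneg

/-- Gaussian tail -/
theorem lpk_phi_tail (t : ℝ) (ht : 0 ≤ t) : 1 - exp (-(t ^ 2 / 2)) ≤ lpkPhi t := by
  have h := measure_ge_le_exp_mul_mgf (μ := gaussianReal 0 1) (X := id) t ht (by simpa using lpk_int_exp t)
  have hm : mgf id (gaussianReal 0 1) t = exp (t ^ 2 / 2) := by
    rw [mgf]; simpa using lpk_mgf t
  rw [hm, ← exp_add] at h
  have hc : (gaussianReal 0 1).real (Iic t) + (gaussianReal 0 1).real (Iic t)ᶜ = 1 := by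
    rw [measureReal_add_measureReal_compl measurableSet_Iic]
    simp
  have hsub : (gaussianReal 0 1).real (Iic t)ᶜ ≤ (gaussianReal 0 1).real {ω | t ≤ id ω} := by
    refine measureReal_mono (fun z hz => ?_) (measure_ne_top _ _)
    simp only [mem_compl_iff, mem_Iic, not_le] at hz
    exact hz.le
  have he : -t * t + t ^ 2 / 2 = -(t ^ 2 / 2) := by ring
  rw [he] at h
  unfold lpkPhi
  linarith

theorem lpk_phi_pos (t : ℝ) : 0 < lpkPhi t := by
  have h := lpk_half t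
  by_contra hn
  have h0 : lpkPhi t = 0 := le_antisymm (not_lt.1 hn) (lpk_phi_nonneg t)
  rw [h0, mul_zero] at h
  have hpos : 0 < ∫ z in Ioi (0 : ℝ), exp (t * z) ∂(gaussianReal 0 1) := by
    rw [setIntegral_pos_iff_support_of_nonneg_ae (Filter.Eventually.of_forall fun z => (exp_pos _).le) (lpk_int_exp t).integrableOn]
    have : Function.support (fun z => exp (t * z)) = univ := by
      ext z; simp [(exp_pos _).ne']
    rw [this, univ_inter, gaussianReal_apply 0 one_ne_zero]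
    rw [setLIntegral_pos_iff (measurable_gaussianPDF 0 1), support_gaussianPDF one_ne_zero, univ_inter]
    simp
  linarith

/-- `log Φ(t) ≥ - 2 e^{-t^2/2}` as soon as `e^{-t^2/2} ≤ 1/2` -/
theorem lpk_log_phi (t : ℝ) (ht : 0 ≤ t) (h2 : exp (-(t ^ 2 / 2)) ≤ 1 / 2) : -(2 * exp (-(t ^ 2 / 2))) ≤ log (lpkPhi t) := by
  obtain ⟨e, he⟩ : ∃ e, e = exp (-(t ^ 2 / 2)) := ⟨_, rfl⟩
  rw [← he] at h2 ⊢
  have e0 : 0 < e := he ▸ exp_pos _
  have h1 : 1 - e ≤ lpkPhi t := he ▸ lpk_phi_tail t ht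
  have h3 : log (1 - e) ≤ log (lpkPhi t) := log_le_log (by linarith) h1
  have h4 : 1 - (1 - e)⁻¹ ≤ log (1 - e) := one_sub_inv_le_log_of_pos (by linarith)
  have h5 : (1 - e)⁻¹ ≤ 1 + 2 * e := by
    rw [inv_le_iff_one_le_mul₀ (by linarith)]
    nlinarith
  linarith

/-! ## the orthant bound -/

/-- subadditivity of `t ↦ t^p`, `0 < p ≤ 1`, on finite sums -/
theorem lpk_sum_rpow {α : Type*} (s : Finset α) (x : α → ℝ) (hx : ∀ a ∈ s, 0 ≤ x a) (p : ℝ) (hp0 : 0 < p) (hp1 : p ≤ 1) :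
    (∑ a ∈ s, x a) ^ p ≤ ∑ a ∈ s, x a ^ p := by
  classical
  induction s using Finset.induction_on with
  | empty => simp [zero_rpow hp0.ne']
  | insert a s ha ih =>
    rw [Finset.sum_insert ha, Finset.sum_insert ha]
    have h1 : 0 ≤ x a := hx a (Finset.mem_insert_self _ _)
    have h2 : 0 ≤ ∑ b ∈ s, x b := Finset.sum_nonneg fun b hb => hx b (Finset.mem_insert_of_mem hb)
    refine (Real.rpow_add_le_add_rpow h1 h2 hp0.le hp1).trans ?_
    have := ih fun b hb => hx b (Finset.mem_insert_of_mem hb)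
    linarith

variable {ι : Type} [Fintype ι]

/-- the standard Gaussian law on `ι → ℝ` -/
abbrev lpkGa (ι : Type) [Fintype ι] : Measure (ι → ℝ) := Measure.pi fun _ : ι => gaussianReal 0 1

/-- `z · σ` -/
def lpkDot (z : ι → ℝ) (σ : ι → Bool) : ℝ := ∑ i, z i * lpkSg (σ i)

/-- the open orthant of `σ` -/
def lpkOrt (σ : ι → Bool) (z : ι → ℝ) : Prop := ∀ i, 0 < z i * lpkSg (σ i)

theorem lpk_dot_cont (σ : ι → Bool) : Continuous fun z : ι → ℝ => lpkDot z σ := by
  unfold lpkDot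
  fun_prop

theorem lpk_exp_dot (t : ℝ) (z : ι → ℝ) (σ : ι → Bool) : exp (t * lpkDot z σ) = ∏ i, exp (t * lpkSg (σ i) * z i) := by
  rw [← exp_sum, lpkDot, Finset.mul_sum]
  congr 1
  exact Finset.sum_congr rfl fun i _ => by ring

theorem lpk_int_dot (t : ℝ) (σ : ι → Bool) : Integrable (fun z : ι → ℝ => exp (t * lpkDot z σ)) (lpkGa ι) := by
  simp_rw [lpk_exp_dot]
  exact Integrable.fintype_prod (f := fun i z => exp (t * lpkSg (σ i) * z)) fun i => lpk_int_exp _

/-- Laplace transform of `z · σ` -/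
theorem lpk_mgf_dot (t : ℝ) (σ : ι → Bool) : ∫ z, exp (t * lpkDot z σ) ∂(lpkGa ι) = exp (Fintype.card ι * (t ^ 2 / 2)) := by
  simp_rw [lpk_exp_dot]
  rw [integral_fintype_prod_eq_prod (fun i z => exp (t * lpkSg (σ i) * z))]
  simp_rw [lpk_mgf, mul_pow, lpk_sg_sq, mul_one]
  rw [Finset.prod_const, ← exp_nat_mul, Finset.card_univ]

/-- the one-site factor of the orthant integral -/
def lpkFac (t : ℝ) (b : Bool) (z : ℝ) : ℝ := if 0 < z * lpkSg b then exp (t * (z * lpkSg b)) else 0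

theorem lpk_sg_false : lpkSg false = -1 := by simp [lpkSg]
theorem lpk_sg_true : lpkSg true = 1 := by simp [lpkSg]

theorem lpk_fac_int (t : ℝ) (b : Bool) : ∫ z, lpkFac t b z ∂(gaussianReal 0 1) = exp (t ^ 2 / 2) * lpkPhi t := by
  cases b
  · rw [← lpk_half_neg t, ← integral_indicator measurableSet_Iio]
    refine integral_congr_ae (Filter.Eventually.of_forall fun z => ?_)
    by_cases hz : z < 0
    · have : z ∈ Iio (0 : ℝ) := hz
      simp only [lpkFac, lpk_sg_false, indicator_of_mem this]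
      rw [if_pos (by linarith)]
      congr 1
      ring
    · have : z ∉ Iio (0 : ℝ) := hz
      simp only [lpkFac, lpk_sg_false, indicator_of_notMem this]
      rw [if_neg (by linarith)]
  · rw [← lpk_half t, ← integral_indicator measurableSet_Ioi]
    refine integral_congr_ae (Filter.Eventually.of_forall fun z => ?_)
    by_cases hz : 0 < z
    · have : z ∈ Ioi (0 : ℝ) := hz
      simp only [lpkFac, lpk_sg_true, indicator_of_mem this, mul_one]
      rw [if_pos hz]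
    · have : z ∉ Ioi (0 : ℝ) := hz
      simp only [lpkFac, lpk_sg_true, indicator_of_notMem this, mul_one]
      rw [if_neg hz]

theorem lpk_fac_integrable (t : ℝ) (b : Bool) : Integrable (lpkFac t b) (gaussianReal 0 1) := by
  have hm : Measurable (lpkFac t b) := by
    unfold lpkFac
    refine Measurable.ite ?_ (by fun_prop) measurable_const
    exact measurableSet_lt measurable_const (by fun_prop)
  refine Integrable.mono' (lpk_int_exp (t * lpkSg b)) hm.aestronglyMeasurable (Filter.Eventually.of_forall fun z => ?_)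
  unfold lpkFac
  split_ifs
  · rw [norm_of_nonneg (exp_pos _).le]
    apply le_of_eq
    congr 1
    ring
  · simp [(exp_pos _).le]

open Classical in
theorem lpk_fac_prod (t : ℝ) (σ : ι → Bool) (z : ι → ℝ) :
    ∏ i, lpkFac t (σ i) (z i) = if lpkOrt σ z then exp (t * lpkDot z σ) else 0 := by
  by_cases h : lpkOrt σ z
  · rw [if_pos h, lpkDot, Finset.mul_sum, exp_sum]
    exact Finset.prod_congr rfl fun i _ => by rw [lpkFac, if_pos (h i)]
  · rw [if_neg h]
    unfold lpkOrt at h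
    push Not at h
    obtain ⟨i, hi⟩ := h
    exact Finset.prod_eq_zero (Finset.mem_univ i) (by rw [lpkFac, if_neg (not_lt.2 hi)])

open Classical in
/-- the orthant integral -/
theorem lpk_ort_int (t : ℝ) (σ : ι → Bool) :
    ∫ z, (if lpkOrt σ z then exp (t * lpkDot z σ) else 0) ∂(lpkGa ι) = (exp (t ^ 2 / 2) * lpkPhi t) ^ Fintype.card ι := by
  simp_rw [← lpk_fac_prod]
  rw [integral_fintype_prod_eq_prod (fun i z => lpkFac t (σ i) z)]
  simp_rw [lpk_fac_int]
  rw [Finset.prod_const, Finset.card_univ]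

open Classical in
theorem lpk_ort_integrable (t : ℝ) (σ : ι → Bool) :
    Integrable (fun z => if lpkOrt σ z then exp (t * lpkDot z σ) else 0) (lpkGa ι) := by
  simp_rw [← lpk_fac_prod]
  exact Integrable.fintype_prod (f := fun i z => lpkFac t (σ i) z) fun i => lpk_fac_integrable _ _

omit [Fintype ι] in
/-- the orthants are disjoint -/
theorem lpk_ort_uniq (σ τ : ι → Bool) (z : ι → ℝ) (h1 : lpkOrt σ z) (h2 : lpkOrt τ z) : σ = τ := by
  funext i
  have a := h1 i
  have b := h2 i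
  by_contra hne
  have : lpkSg (τ i) = -lpkSg (σ i) := by
    cases hs : σ i <;> cases ht : τ i <;> simp_all [lpkSg]
  rw [this] at b
  linarith

variable [DecidableEq ι]

/-- the partition function with weights `w` in the Gaussian field `c z` -/
def lpkZ (w : (ι → Bool) → ℝ) (c : ℝ) (z : ι → ℝ) : ℝ := ∑ σ, w σ * exp (c * lpkDot z σ)

theorem lpk_Z_nonneg (w : (ι → Bool) → ℝ) (hw : ∀ σ, 0 ≤ w σ) (c : ℝ) (z : ι → ℝ) : 0 ≤ lpkZ w c z :=
  Finset.sum_nonneg fun σ _ => mul_nonneg (hw σ) (exp_pos _).le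

omit [DecidableEq ι] in
theorem lpk_term_rpow (w : (ι → Bool) → ℝ) (hw : ∀ σ, 0 ≤ w σ) (c p : ℝ) (z : ι → ℝ) (σ : ι → Bool) :
    (w σ * exp (c * lpkDot z σ)) ^ p = w σ ^ p * exp (p * c * lpkDot z σ) := by
  rw [mul_rpow (hw σ) (exp_pos _).le, ← exp_mul]
  congr 2
  ring

theorem lpk_Z_rpow_le (w : (ι → Bool) → ℝ) (hw : ∀ σ, 0 ≤ w σ) (c p : ℝ) (hp0 : 0 < p) (hp1 : p ≤ 1) (z : ι → ℝ) :
    lpkZ w c z ^ p ≤ ∑ σ, w σ ^ p * exp (p * c * lpkDot z σ) := by
  unfold lpkZ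
  refine (lpk_sum_rpow _ _ (fun σ _ => mul_nonneg (hw σ) (exp_pos _).le) p hp0 hp1).trans (le_of_eq ?_)
  exact Finset.sum_congr rfl fun σ _ => lpk_term_rpow w hw c p z σ

theorem lpk_Z_rpow_integrable (w : (ι → Bool) → ℝ) (hw : ∀ σ, 0 ≤ w σ) (c p : ℝ) (hp0 : 0 < p) (hp1 : p ≤ 1) :
    Integrable (fun z => lpkZ w c z ^ p) (lpkGa ι) := by
  have hc : Continuous fun z : ι → ℝ => lpkZ w c z ^ p := by
    refine Continuous.rpow_const ?_ fun z => Or.inr hp0.le
    unfold lpkZ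
    exact continuous_finsetSum _ fun σ _ => continuous_const.mul (continuous_exp.comp (continuous_const.mul (lpk_dot_cont σ)))
  refine Integrable.mono' (integrable_finsetSum Finset.univ fun σ _ => (lpk_int_dot (p * c) σ).const_mul (w σ ^ p))
    hc.aestronglyMeasurable (Filter.Eventually.of_forall fun z => ?_)
  rw [norm_of_nonneg (rpow_nonneg (lpk_Z_nonneg w hw c z) p)]
  exact lpk_Z_rpow_le w hw c p hp0 hp1 z

/-- **upper orthant bound** (LL Prop. 3.4): subadditivity -/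
theorem lpk_orth_upper (w : (ι → Bool) → ℝ) (hw : ∀ σ, 0 ≤ w σ) (c p : ℝ) (hp0 : 0 < p) (hp1 : p ≤ 1) :
    ∫ z, lpkZ w c z ^ p ∂(lpkGa ι) ≤ exp (Fintype.card ι * ((p * c) ^ 2 / 2)) * ∑ σ, w σ ^ p := by
  have h1 : ∫ z, lpkZ w c z ^ p ∂(lpkGa ι) ≤ ∫ z, ∑ σ, w σ ^ p * exp (p * c * lpkDot z σ) ∂(lpkGa ι) :=
    integral_mono (lpk_Z_rpow_integrable w hw c p hp0 hp1)
      (integrable_finsetSum Finset.univ fun σ _ => (lpk_int_dot (p * c) σ).const_mul (w σ ^ p)) (lpk_Z_rpow_le w hw c p hp0 hp1)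
  refine h1.trans (le_of_eq ?_)
  rw [integral_finsetSum Finset.univ fun σ _ => (lpk_int_dot (p * c) σ).const_mul (w σ ^ p), Finset.mul_sum]
  refine Finset.sum_congr rfl fun σ _ => ?_
  rw [integral_const_mul, lpk_mgf_dot, mul_comm]

open Classical in
theorem lpk_Z_rpow_ge (w : (ι → Bool) → ℝ) (hw : ∀ σ, 0 ≤ w σ) (c p : ℝ) (hp0 : 0 < p) (z : ι → ℝ) :
    ∑ σ, w σ ^ p * (if lpkOrt σ z then exp (p * c * lpkDot z σ) else 0) ≤ lpkZ w c z ^ p := by
  by_cases h : ∃ τ, lpkOrt τ z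
  · obtain ⟨τ, hτ⟩ := h
    rw [Finset.sum_eq_single τ]
    · rw [if_pos hτ, ← lpk_term_rpow w hw c p z τ]
      refine rpow_le_rpow (mul_nonneg (hw τ) (exp_pos _).le) ?_ hp0.le
      unfold lpkZ
      exact Finset.single_le_sum (f := fun σ => w σ * exp (c * lpkDot z σ)) (fun σ _ => mul_nonneg (hw σ) (exp_pos _).le) (Finset.mem_univ τ)
    · intro σ _ hne
      rw [if_neg fun hσ => hne (lpk_ort_uniq σ τ z hσ hτ), mul_zero]
    · intro hn
      exact absurd (Finset.mem_univ τ) hn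
  · push Not at h
    rw [Finset.sum_eq_zero fun σ _ => by rw [if_neg (h σ), mul_zero]]
    exact rpow_nonneg (lpk_Z_nonneg w hw c z) p

/-- **lower orthant bound** (LL Prop. 3.4): keep the term `σ` on its orthant -/
theorem lpk_orth_lower (w : (ι → Bool) → ℝ) (hw : ∀ σ, 0 ≤ w σ) (c p : ℝ) (hp0 : 0 < p) (hp1 : p ≤ 1) :
    lpkPhi (p * c) ^ Fintype.card ι * (exp (Fintype.card ι * ((p * c) ^ 2 / 2)) * ∑ σ, w σ ^ p) ≤ ∫ z, lpkZ w c z ^ p ∂(lpkGa ι) := by
  classical
  have h1 : ∫ z, ∑ σ, w σ ^ p * (if lpkOrt σ z then exp (p * c * lpkDot z σ) else 0) ∂(lpkGa ι) ≤ ∫ z, lpkZ w c z ^ p ∂(lpkGa ι) :=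
    integral_mono (integrable_finsetSum Finset.univ fun σ _ => (lpk_ort_integrable (p * c) σ).const_mul (w σ ^ p))
      (lpk_Z_rpow_integrable w hw c p hp0 hp1) (lpk_Z_rpow_ge w hw c p hp0)
  refine le_trans (le_of_eq ?_) h1
  rw [integral_finsetSum Finset.univ fun σ _ => (lpk_ort_integrable (p * c) σ).const_mul (w σ ^ p), Finset.mul_sum, Finset.mul_sum]
  refine Finset.sum_congr rfl fun σ _ => ?_
  rw [integral_const_mul, lpk_ort_int, mul_pow (exp _), ← exp_nat_mul]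
  ring

/-- **the hard field jump, logarithmic form** (LL Prop. 3.4): for weights `e^{a H}`, `ℓ = p a`, `c = a √D`:
`0 ≥ log E (Σ e^{a H + c z·σ})^p - log Σ e^{p a H} - m (p c)^2/2 ≥ m log Φ(p c)` -/
theorem lpk_orth_log (H : (ι → Bool) → ℝ) (a c p : ℝ) (hp0 : 0 < p) (hp1 : p ≤ 1) :
    log (∫ z, lpkZ (fun σ => exp (a * H σ)) c z ^ p ∂(lpkGa ι)) ≤ log (∑ σ, exp (p * a * H σ)) + Fintype.card ι * ((p * c) ^ 2 / 2) ∧
    log (∑ σ, exp (p * a * H σ)) + Fintype.card ι * ((p * c) ^ 2 / 2) + Fintype.card ι * log (lpkPhi (p * c))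
      ≤ log (∫ z, lpkZ (fun σ => exp (a * H σ)) c z ^ p ∂(lpkGa ι)) := by
  have hw : ∀ σ : ι → Bool, 0 ≤ exp (a * H σ) := fun σ => (exp_pos _).le
  have hS : ∑ σ : ι → Bool, exp (a * H σ) ^ p = ∑ σ, exp (p * a * H σ) :=
    Finset.sum_congr rfl fun σ _ => by rw [← exp_mul]; congr 1; ring
  have hSpos : 0 < ∑ σ : ι → Bool, exp (p * a * H σ) := Finset.sum_pos (fun σ _ => exp_pos _) Finset.univ_nonempty
  have hu := lpk_orth_upper (fun σ => exp (a * H σ)) hw c p hp0 hp1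
  have hl := lpk_orth_lower (fun σ => exp (a * H σ)) hw c p hp0 hp1
  rw [hS] at hu hl
  have hΦ := lpk_phi_pos (p * c)
  have hlow : 0 < lpkPhi (p * c) ^ Fintype.card ι * (exp (Fintype.card ι * ((p * c) ^ 2 / 2)) * ∑ σ : ι → Bool, exp (p * a * H σ)) := by positivity
  constructor
  · refine (log_le_log (hlow.trans_le hl) hu).trans (le_of_eq ?_)
    rw [log_mul (exp_pos _).ne' hSpos.ne', log_exp]
    ring
  · refine le_trans (le_of_eq ?_) (log_le_log hlow hl)
    rw [log_mul (by positivity) (by positivity), log_mul (exp_pos _).ne' hSpos.ne', log_exp, log_pow]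
    ring

/-- **the hard field jump at the level of one stage** (LL Prop. 3.4, asked by helper272): terminal mass `a` (`= 4`), earlier mass `l ≤ a`, field jump of variance `D`:
`|l⁻¹ log E_z (Σ e^{a H + a √D z·σ})^{l/a} - l⁻¹ log Σ e^{l H} - m l D / 2| ≤ - m l⁻¹ log Φ(l √D)` for ANY family `H_σ` -/
theorem lpk_hard_jump (H : (ι → Bool) → ℝ) (a l D : ℝ) (hl0 : 0 < l) (hla : l ≤ a) (hD : 0 ≤ D) :
    |l⁻¹ * log (∫ z, lpkZ (fun σ => exp (a * H σ)) (a * √D) z ^ (l / a) ∂(lpkGa ι)) - l⁻¹ * log (∑ σ, exp (l * H σ))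
        - Fintype.card ι * l * D / 2| ≤ -(Fintype.card ι * l⁻¹ * log (lpkPhi (l * √D))) := by
  have ha : 0 < a := hl0.trans_le hla
  obtain ⟨h1, h2⟩ := lpk_orth_log H a (a * √D) (l / a) (by positivity) ((div_le_one ha).2 hla)
  have e1 : l / a * a = l := by field_simp
  have e2 : l / a * (a * √D) = l * √D := by field_simp
  have e3 : (l * √D) ^ 2 = l ^ 2 * D := by rw [mul_pow, sq_sqrt hD]
  rw [e1, e2, e3] at h1 h2
  obtain ⟨X, hX⟩ : ∃ X, X = log (∫ z, lpkZ (fun σ => exp (a * H σ)) (a * √D) z ^ (l / a) ∂(lpkGa ι)) := ⟨_, rfl⟩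
  obtain ⟨Y, hY⟩ : ∃ Y, Y = log (∑ σ : ι → Bool, exp (l * H σ)) := ⟨_, rfl⟩
  obtain ⟨L, hL⟩ : ∃ L, L = log (lpkPhi (l * √D)) := ⟨_, rfl⟩
  rw [← hX, ← hY] at h1 h2
  rw [← hL] at h2
  rw [← hX, ← hY, ← hL]
  have hli : 0 < l⁻¹ := inv_pos.2 hl0
  have g1 : l⁻¹ * X - l⁻¹ * Y - Fintype.card ι * l * D / 2 = l⁻¹ * (X - Y - Fintype.card ι * (l ^ 2 * D / 2)) := by
    field_simp
  have g2 : -(Fintype.card ι * l⁻¹ * L) = l⁻¹ * (-(Fintype.card ι * L)) := by ring
  rw [g1, g2, abs_mul, abs_of_pos hli]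
  refine mul_le_mul_of_nonneg_left ?_ hli.le
  rw [abs_le]
  constructor <;> [skip; skip]
  · linarith
  · have hL0 : L ≤ 0 := by
      rw [hL]
      exact log_nonpos (lpk_phi_nonneg _) (lpk_phi_le_one _)
    have : 0 ≤ (Fintype.card ι : ℝ) * (-L) := mul_nonneg (by positivity) (by linarith)
    linarith

theorem lpk_eqns_cite2 : True := by
  have := @lpkDot.eq_1; have := @lpkOrt.eq_1; have := @lpkFac.eq_1; have := @lpkZ.eq_1
  trivial

omit [Fintype ι] [DecidableEq ι]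

/-! ## Landau-Kolmogorov interpolation on the line -/

/-- the case `k = 2`: `|f'|^2 ≤ 8 |f|_∞ |f''|_∞` -/
theorem lpk_lk_two (f f' f'' : ℝ → ℝ) (h1 : ∀ x, HasDerivAt f (f' x) x) (h2 : ∀ x, HasDerivAt f' (f'' x) x) (M0 M2 : ℝ)
    (b0 : ∀ x, |f x| ≤ M0) (b2 : ∀ x, |f'' x| ≤ M2) (x : ℝ) : f' x ^ 2 ≤ 8 * M0 * M2 := by
  have hM0 : 0 ≤ M0 := (abs_nonneg _).trans (b0 x)
  have hM2 : 0 ≤ M2 := (abs_nonneg _).trans (b2 x)
  -- Lipschitz bound for `f'`
  have hlip : ∀ y, |f' y - f' x| ≤ M2 * |y - x| := by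
    intro y
    have := Convex.norm_image_sub_le_of_norm_hasDerivWithin_le (f := f') (f' := f'') (s := univ) (C := M2)
      (fun z _ => (h2 z).hasDerivWithinAt) (fun z _ => by simpa using b2 z) convex_univ (mem_univ x) (mem_univ y)
    simpa using this
  -- Taylor with the crude remainder
  have htay : ∀ h : ℝ, 0 < h → |f (x + h) - f x - h * f' x| ≤ M2 * h * h := by
    intro h hh
    have hd : ∀ s ∈ Icc (0 : ℝ) h, HasDerivWithinAt (fun s => f (x + s) - s * f' x) (f' (x + s) - f' x) (Icc 0 h) s := by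
      intro s _
      have a1 : HasDerivAt (fun s => f (x + s)) (f' (x + s)) s := by
        simpa using (h1 (x + s)).comp_const_add x s
      have a2 : HasDerivAt (fun s : ℝ => s * f' x) (f' x) s := by
        simpa using (hasDerivAt_id s).mul_const (f' x)
      exact (a1.sub a2).hasDerivWithinAt
    have := Convex.norm_image_sub_le_of_norm_hasDerivWithin_le (f := fun s => f (x + s) - s * f' x)
      (f' := fun s => f' (x + s) - f' x) (s := Icc (0 : ℝ) h) (C := M2 * h) hd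
      (fun s hs => by
        rw [Real.norm_eq_abs]
        refine (hlip (x + s)).trans ?_
        have : |x + s - x| = s := by rw [add_sub_cancel_left, abs_of_nonneg hs.1]
        rw [this]
        exact mul_le_mul_of_nonneg_left hs.2 hM2)
      (convex_Icc _ _) (left_mem_Icc.2 hh.le) (right_mem_Icc.2 hh.le)
    simp only [add_zero, zero_mul, sub_zero, Real.norm_eq_abs] at this
    rw [abs_of_pos hh] at this
    have e : f (x + h) - h * f' x - f x = f (x + h) - f x - h * f' x := by ring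
    rwa [e] at this
  -- the quadratic `M2 h^2 - |f' x| h + 2 M0` is nonnegative
  have hq : ∀ h : ℝ, 0 ≤ M2 * (h * h) + (-|f' x|) * h + 2 * M0 := by
    intro h
    rcases le_or_gt h 0 with hh | hh
    · have a1 : 0 ≤ M2 * (h * h) := mul_nonneg hM2 (mul_self_nonneg h)
      have a2 : 0 ≤ (-|f' x|) * h := mul_nonneg_of_nonpos_of_nonpos (by simp) hh
      linarith
    · have t := htay h hh
      have c1 := b0 (x + h)
      have c2 := b0 x
      have c3 : |h * f' x| ≤ |f (x + h) - f x - h * f' x| + |f (x + h)| + |f x| := by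
        have : h * f' x = -(f (x + h) - f x - h * f' x) + f (x + h) - f x := by ring
        calc |h * f' x| = |-(f (x + h) - f x - h * f' x) + f (x + h) - f x| := by rw [← this]
          _ ≤ |-(f (x + h) - f x - h * f' x) + f (x + h)| + |f x| := abs_sub _ _
          _ ≤ |-(f (x + h) - f x - h * f' x)| + |f (x + h)| + |f x| := by gcongr; exact abs_add_le _ _
          _ = _ := by rw [abs_neg]
      rw [abs_mul, abs_of_pos hh] at c3
      nlinarith
  have hdisc := discrim_le_zero hq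
  unfold discrim at hdisc
  have : (-|f' x|) ^ 2 = f' x ^ 2 := by rw [neg_sq, sq_abs]
  rw [this] at hdisc
  linarith

/-- log-convex sequences, first step: `N_r^{r+1} ≤ N_0 N_{r+1}^r` -/
theorem lpk_lc_step (k : ℕ) (N : ℕ → ℝ) (h0 : ∀ i ≤ k, 0 ≤ N i) (hc : ∀ i, i + 2 ≤ k → N (i + 1) ^ 2 ≤ N i * N (i + 2)) :
    ∀ r, r + 1 ≤ k → N r ^ (r + 1) ≤ N 0 * N (r + 1) ^ r := by
  intro r
  induction r with
  | zero => intro _; simp
  | succ r ih =>
    intro hr
    have ih' := ih (by omega)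
    have c := hc r (by omega)
    have n0 := h0 0 (by omega)
    have nr := h0 r (by omega)
    have nr1 := h0 (r + 1) (by omega)
    have nr2 := h0 (r + 2) (by omega)
    rcases nr1.eq_or_lt with hz | hpos
    · rw [← hz, zero_pow (by omega)]
      exact mul_nonneg n0 (pow_nonneg nr2 _)
    · -- `N_{r+1}^{2(r+1)} ≤ N_r^{r+1} N_{r+2}^{r+1} ≤ N_0 N_{r+1}^r N_{r+2}^{r+1}`
      have a1 : (N (r + 1) ^ 2) ^ (r + 1) ≤ (N r * N (r + 2)) ^ (r + 1) := pow_le_pow_left₀ (sq_nonneg _) c _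
      rw [mul_pow] at a1
      have a2 : N r ^ (r + 1) * N (r + 2) ^ (r + 1) ≤ N 0 * N (r + 1) ^ r * N (r + 2) ^ (r + 1) :=
        mul_le_mul_of_nonneg_right ih' (pow_nonneg nr2 _)
      have a3 : N (r + 1) ^ r * N (r + 1) ^ (r + 1 + 1) = (N (r + 1) ^ 2) ^ (r + 1) := by
        rw [← pow_add, ← pow_mul]; congr 1; ring
      have a4 : N (r + 1) ^ r * N (r + 1) ^ (r + 1 + 1) ≤ N (r + 1) ^ r * (N 0 * N (r + 1 + 1) ^ (r + 1)) := by
        rw [a3]
        refine (a1.trans a2).trans (le_of_eq ?_)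
        ring
      exact le_of_mul_le_mul_left a4 (pow_pos hpos r)

/-- log-convex sequences: `N_r^k ≤ N_0^{k-r} N_k^r` -/
theorem lpk_lc_interp (k : ℕ) (N : ℕ → ℝ) (h0 : ∀ i ≤ k, 0 ≤ N i) (hc : ∀ i, i + 2 ≤ k → N (i + 1) ^ 2 ≤ N i * N (i + 2))
    (r : ℕ) (hr : r ≤ k) : N r ^ k ≤ N 0 ^ (k - r) * N k ^ r := by
  have key : ∀ j, r + j ≤ k → N r ^ (r + j) ≤ N 0 ^ j * N (r + j) ^ r := by
    intro j
    induction j with
    | zero => intro _; simp
    | succ j ih =>
      intro hj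
      have ih' := ih (by omega)
      have st := lpk_lc_step k N h0 hc (r + j) (by omega)
      have n0 := h0 0 (by omega)
      have nr := h0 r (by omega)
      have nk := h0 (r + j) (by omega)
      have nk1 := h0 (r + j + 1) (by omega)
      rcases Nat.eq_zero_or_pos (r + j) with hz | hpos
      · have r0 : r = 0 := by omega
        have j0 : j = 0 := by omega
        subst r0; subst j0
        simp
      · -- raise to the power `r + j + 1`
        have b1 : (N r ^ (r + j)) ^ (r + j + 1) ≤ (N 0 ^ j * N (r + j) ^ r) ^ (r + j + 1) :=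
          pow_le_pow_left₀ (pow_nonneg nr _) ih' _
        have b2 : (N (r + j) ^ (r + j + 1)) ^ r ≤ (N 0 * N (r + j + 1) ^ (r + j)) ^ r :=
          pow_le_pow_left₀ (pow_nonneg nk _) st _
        have b3 : (N 0 ^ j * N (r + j) ^ r) ^ (r + j + 1) = (N 0 ^ j) ^ (r + j + 1) * (N (r + j) ^ (r + j + 1)) ^ r := by
          rw [mul_pow, ← pow_mul, ← pow_mul, ← pow_mul]
          congr 2
          ring
        have b4 : (N r ^ (r + (j + 1))) ^ (r + j) ≤ (N 0 ^ (j + 1) * N (r + (j + 1)) ^ r) ^ (r + j) := by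
          calc (N r ^ (r + (j + 1))) ^ (r + j) = (N r ^ (r + j)) ^ (r + j + 1) := by
                rw [← pow_mul, ← pow_mul]; congr 1; ring
            _ ≤ (N 0 ^ j) ^ (r + j + 1) * (N (r + j) ^ (r + j + 1)) ^ r := b3 ▸ b1
            _ ≤ (N 0 ^ j) ^ (r + j + 1) * (N 0 * N (r + j + 1) ^ (r + j)) ^ r :=
                mul_le_mul_of_nonneg_left b2 (pow_nonneg (pow_nonneg n0 _) _)
            _ = (N 0 ^ (j + 1) * N (r + (j + 1)) ^ r) ^ (r + j) := by
                rw [mul_pow, mul_pow, ← pow_mul, ← pow_mul, ← pow_mul, ← pow_mul, ← mul_assoc, ← pow_add, add_assoc r j 1]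
                congr 2
                · ring
                · ring
        exact le_of_pow_le_pow_left₀ hpos.ne' (mul_nonneg (pow_nonneg n0 _) (pow_nonneg (by simpa [add_assoc] using nk1) _)) b4
  have := key (k - r) (by omega)
  have e : r + (k - r) = k := by omega
  rwa [e] at this

/-- **Landau-Kolmogorov**, power form.  All intermediate derivatives are bounded a priori (`hb`). -/
theorem lpk_landau (k : ℕ) (g : ℝ → ℝ) (hg : ContDiff ℝ k g) (hb : ∀ i ≤ k, ∃ C, ∀ x, |iteratedDeriv i g x| ≤ C) (A B : ℝ)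
    (hA : ∀ x, |g x| ≤ A) (hB : ∀ x, |iteratedDeriv k g x| ≤ B) (r : ℕ) (hr : r ≤ k) (x : ℝ) :
    3 ^ (r ^ 2 * k) * |iteratedDeriv r g x| ^ k ≤ 3 ^ (k ^ 2 * r) * (A ^ (k - r) * B ^ r) := by
  obtain ⟨M, hM⟩ : ∃ M : ℕ → ℝ, M = fun i => ⨆ y, |iteratedDeriv i g y| := ⟨_, rfl⟩
  have hbd : ∀ i ≤ k, BddAbove (range fun y => |iteratedDeriv i g y|) := by
    intro i hi
    obtain ⟨C, hC⟩ := hb i hi
    exact ⟨C, by rintro _ ⟨y, rfl⟩; exact hC y⟩
  have hle : ∀ i ≤ k, ∀ y, |iteratedDeriv i g y| ≤ M i := by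
    intro i hi y
    rw [hM]
    exact le_ciSup (hbd i hi) y
  have hM0 : ∀ i ≤ k, 0 ≤ M i := fun i hi => (abs_nonneg _).trans (hle i hi 0)
  have hder : ∀ i, i + 1 ≤ k → ∀ y, HasDerivAt (iteratedDeriv i g) (iteratedDeriv (i + 1) g y) y := by
    intro i hi y
    rw [iteratedDeriv_succ]
    exact ((hg.differentiable_iteratedDeriv i (by exact_mod_cast hi)) y).hasDerivAt
  have hstep : ∀ i, i + 2 ≤ k → M (i + 1) ^ 2 ≤ 8 * M i * M (i + 2) := by
    intro i hi
    have h8 : 0 ≤ 8 * M i * M (i + 2) := by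
      have := hM0 i (by omega); have := hM0 (i + 2) hi; positivity
    have hs : M (i + 1) ≤ √(8 * M i * M (i + 2)) := by
      rw [hM]
      refine ciSup_le fun y => abs_le_sqrt ?_
      have := lpk_lk_two (iteratedDeriv i g) (iteratedDeriv (i + 1) g) (iteratedDeriv (i + 2) g) (hder i (by omega))
        (hder (i + 1) (by omega)) (M i) (M (i + 2)) (hle i (by omega)) (hle (i + 2) hi) y
      rw [hM] at this
      exact this
    calc M (i + 1) ^ 2 ≤ √(8 * M i * M (i + 2)) ^ 2 := pow_le_pow_left₀ (hM0 _ (by omega)) hs 2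
      _ = _ := sq_sqrt h8
  have hint := lpk_lc_interp k (fun i => 3 ^ (i ^ 2) * M i) (fun i hi => mul_nonneg (by positivity) (hM0 i hi))
    (fun i hi => by
      have s := hstep i hi
      have m1 := hM0 i (by omega)
      have m2 := hM0 (i + 2) hi
      have e1 : ((3 : ℝ) ^ ((i + 1) ^ 2) * M (i + 1)) ^ 2 = 3 ^ (2 * i ^ 2 + 4 * i + 2) * M (i + 1) ^ 2 := by
        rw [mul_pow, ← pow_mul]; congr 2; ring
      have e2 : (3 : ℝ) ^ (i ^ 2) * M i * (3 ^ ((i + 2) ^ 2) * M (i + 2)) = 3 ^ (2 * i ^ 2 + 4 * i + 2) * (9 * (M i * M (i + 2))) := by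
        have : (3 : ℝ) ^ (i ^ 2) * 3 ^ ((i + 2) ^ 2) = 3 ^ (2 * i ^ 2 + 4 * i + 2) * 9 := by
          have h9 : (9 : ℝ) = 3 ^ 2 := by norm_num
          rw [h9, ← pow_add, ← pow_add]; congr 1; ring
        calc (3 : ℝ) ^ (i ^ 2) * M i * (3 ^ ((i + 2) ^ 2) * M (i + 2)) = (3 ^ (i ^ 2) * 3 ^ ((i + 2) ^ 2)) * (M i * M (i + 2)) := by ring
          _ = _ := by rw [this]; ring
      show ((3 : ℝ) ^ ((i + 1) ^ 2) * M (i + 1)) ^ 2 ≤ (3 : ℝ) ^ (i ^ 2) * M i * (3 ^ ((i + 2) ^ 2) * M (i + 2))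
      rw [e1, e2]
      refine mul_le_mul_of_nonneg_left ?_ (by positivity)
      have : 0 ≤ M i * M (i + 2) := mul_nonneg m1 m2
      nlinarith) r hr

  have hMA : M 0 ≤ A := by
    rw [hM]
    exact ciSup_le fun y => by simpa using hA y
  have hMB : M k ≤ B := by
    rw [hM]
    exact ciSup_le hB
  have c1 : 3 ^ (r ^ 2 * k) * |iteratedDeriv r g x| ^ k ≤ (3 ^ (r ^ 2) * M r) ^ k := by
    rw [mul_pow, ← pow_mul]
    exact mul_le_mul_of_nonneg_left (pow_le_pow_left₀ (abs_nonneg _) (hle r hr x) k) (by positivity)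
  have c2 : ((3 : ℝ) ^ (0 ^ 2) * M 0) ^ (k - r) * (3 ^ (k ^ 2) * M k) ^ r ≤ 3 ^ (k ^ 2 * r) * (A ^ (k - r) * B ^ r) := by
    have e : ((3 : ℝ) ^ (0 ^ 2) * M 0) ^ (k - r) * (3 ^ (k ^ 2) * M k) ^ r = 3 ^ (k ^ 2 * r) * (M 0 ^ (k - r) * M k ^ r) := by
      rw [mul_pow _ (M k), ← pow_mul]
      simp
      ring
    rw [e]
    refine mul_le_mul_of_nonneg_left ?_ (by positivity)
    exact mul_le_mul (pow_le_pow_left₀ (hM0 0 (by omega)) hMA _) (pow_le_pow_left₀ (hM0 k le_rfl) hMB _)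
      (pow_nonneg (hM0 k le_rfl) _) (pow_nonneg ((hM0 0 (by omega)).trans hMA) _)
  exact c1.trans (hint.trans c2)

/-- **Landau-Kolmogorov**, `|g^{(r)}| ≤ 3^{k r} A^{1 - r/k} B^{r/k}` -/
theorem lpk_landau_rpow (k : ℕ) (hk : 0 < k) (g : ℝ → ℝ) (hg : ContDiff ℝ k g) (hb : ∀ i ≤ k, ∃ C, ∀ x, |iteratedDeriv i g x| ≤ C) (A B : ℝ)
    (hA : ∀ x, |g x| ≤ A) (hB : ∀ x, |iteratedDeriv k g x| ≤ B) (r : ℕ) (hr : r ≤ k) (x : ℝ) :
    |iteratedDeriv r g x| ≤ 3 ^ (k * r) * (A ^ (1 - (r : ℝ) / k) * B ^ ((r : ℝ) / k)) := by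
  have hA0 : 0 ≤ A := (abs_nonneg _).trans (hA x)
  have hB0 : 0 ≤ B := (abs_nonneg _).trans (hB x)
  have h := lpk_landau k g hg hb A B hA hB r hr x
  have h1 : |iteratedDeriv r g x| ^ k ≤ 3 ^ (k ^ 2 * r) * (A ^ (k - r) * B ^ r) := by
    refine le_trans ?_ h
    have : (1 : ℝ) ≤ 3 ^ (r ^ 2 * k) := one_le_pow₀ (by norm_num)
    nlinarith [pow_nonneg (abs_nonneg (iteratedDeriv r g x)) k]
  have hk' : (k : ℝ) ≠ 0 := by positivity
  have h2 : |iteratedDeriv r g x| = (|iteratedDeriv r g x| ^ k) ^ ((k : ℝ)⁻¹) := (pow_rpow_inv_natCast (abs_nonneg _) hk.ne').symm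
  rw [h2]
  refine (rpow_le_rpow (pow_nonneg (abs_nonneg _) _) h1 (by positivity)).trans (le_of_eq ?_)
  rw [mul_rpow (by positivity) (by positivity), mul_rpow (by positivity) (by positivity)]
  congr 1
  · have : (3 : ℝ) ^ (k ^ 2 * r) = (3 ^ (k * r)) ^ k := by rw [← pow_mul]; congr 1; ring
    rw [this, pow_rpow_inv_natCast (by positivity) hk.ne']
  · congr 1
    · rw [← rpow_natCast, ← rpow_mul hA0]
      congr 1
      rw [Nat.cast_sub hr]
      field_simp
    · rw [← rpow_natCast, ← rpow_mul hB0]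
      congr 1

/-- **loss of an arbitrarily small power**: a small function with bounded derivatives has small derivatives -/
theorem lpk_landau_eps (r : ℕ) (η : ℝ) (hη : 0 < η) : ∃ k : ℕ, r ≤ k ∧ 0 < k ∧ ∀ B : ℝ, ∃ C : ℝ, 0 ≤ C ∧ ∀ g : ℝ → ℝ, ContDiff ℝ k g →
    (∀ i ≤ k, ∀ x, |iteratedDeriv i g x| ≤ B) → ∀ A : ℝ, A ≤ 1 → (∀ x, |g x| ≤ A) → ∀ x, |iteratedDeriv r g x| ≤ C * A ^ (1 - η) := by
  obtain ⟨k0, hk0⟩ := exists_nat_gt ((r : ℝ) / η)
  refine ⟨max k0 (r + 1), by omega, by omega, fun B => ?_⟩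
  obtain ⟨k, hk⟩ : ∃ k, k = max k0 (r + 1) := ⟨_, rfl⟩
  rw [← hk]
  have hkr : r ≤ k := by omega
  have hkpos : 0 < k := by omega
  have hkR : (0 : ℝ) < k := by exact_mod_cast hkpos
  have hrk : (r : ℝ) / k ≤ η := by
    rw [div_le_iff₀ hkR]
    have : (k0 : ℝ) ≤ k := by exact_mod_cast (by omega : k0 ≤ k)
    rw [div_lt_iff₀ hη] at hk0
    nlinarith
  refine ⟨3 ^ (k * r) * |B| ^ ((r : ℝ) / k), by positivity, fun g hg hb A hA1 hA x => ?_⟩
  have hA0 : 0 ≤ A := (abs_nonneg _).trans (hA x)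
  have h := lpk_landau_rpow k hkpos g hg (fun i hi => ⟨B, hb i hi⟩) A |B| hA (fun y => (hb k le_rfl y).trans (le_abs_self B)) r hkr x
  refine h.trans ?_
  have e : (3 : ℝ) ^ (k * r) * |B| ^ ((r : ℝ) / k) * A ^ (1 - η) = 3 ^ (k * r) * (A ^ (1 - η) * |B| ^ ((r : ℝ) / k)) := by ring
  rw [e]
  refine mul_le_mul_of_nonneg_left (mul_le_mul_of_nonneg_right ?_ (by positivity)) (by positivity)
  rcases hA0.eq_or_lt with hz | hpos
  · rw [← hz]
    by_cases h1 : 1 - (r : ℝ) / k = 0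
    · -- then `r = k`, impossible as `k ≥ r + 1`
      exfalso
      have : (r : ℝ) = k := by
        field_simp at h1
        linarith
      have : r = k := by exact_mod_cast this
      omega
    · rw [zero_rpow h1]
      exact rpow_nonneg le_rfl _
  · exact rpow_le_rpow_of_exponent_ge hpos hA1 (by linarith)

end

end Claimed.Agent.R286
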