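import Claimed.Agent.R286.Sc.Prof
import Claimed.Agent.R286.LL.PathsKit283

/-!
# Row 286 (S0533), LL Section 3: the ANNEALED INEQUALITY and the TERMINAL MASS, for step profiles      (owner helper283; prefix `lpa_`, `Lpa`)

Vocabulary of the scalar block (`Sc/Prof.lean`, helper95): `scHeat`, `scStep`, `scTr`, `scV F π`, `scP F π φ`.

* `LpaNeg ψ`            the cone DUAL to the even unimodal densities: `ψ` bounded, continuous, even, `∫_0^r ψ ≤ 0` for all `r ≥ 0`.
  It is stable under the heat flow (`LpaNeg.heat`), under multiplication by an even function which decreases on the half line (`LpaNeg.mul`),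
  hence it is transported backwards along a step profile with nondecreasing masses (`lpa_chain`; invariant `φ_j e^{m_{j+1} V_j} ∈ cone`).
  This replaces the log-concavity of `ρ / cosh` (Prekopa), the existence of densities and the weak limits of LL 03 l.75-92.
* `lpa_base`            `P_d f - f ∈ cone` for `f` even, decreasing on the half line.
* `lpa_annealed_gen`, `lpa_annealed`    TEX[LL:paths:base-profile] display l.86-89: `E χ²(s + d) ≤ e^{-a² d/2} E χ²(s)` during an annealed stage (mass `a` = terminal mass).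
* `lpa_low_step`, `lpa_up_step`, `lpa_low_V`, `lpa_up_V`      S4: `α (1 - u²) ≤ χ ≤ j (1 - u²)` (LL 03 l.172).
* `lpa_decay_step`, `lpa_decay_P`, `lpa_decay_chi_sq`      S9, TEX[LL:paths:lift] l.172-186: `E sqrt (1 - u²)` decays like `e^{-μ² t/2}` when the masses are `≥ μ`; ONE-STEP proof by Cameron-Martin (`lpa_heat_tilt`) + Cauchy-Schwarz: no Ito formula.
* `lpa_term_mass`, `lpa_term_mass_abs`  TEX[LL:paths:lift] "Smoothing", l.159: terminal mass `j` instead of `m` after a stage of mass `m`, variance `s`: error `≤ 2 m⁻¹ e^{-m² s/2}` uniformly in `z`.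
-/

set_option autoImplicit false

namespace Claimed.Agent.R286

open MeasureTheory ProbabilityTheory Filter Topology Set

/-- the cone dual to the even unimodal densities: bounded continuous even functions all of whose primitives from `0` are `≤ 0` -/
structure LpaNeg (ψ : ℝ → ℝ) : Prop where
  cont : Continuous ψ
  bdd : ∃ C : ℝ, ∀ z, |ψ z| ≤ C
  even : ∀ z, ψ (-z) = ψ z
  neg : ∀ r : ℝ, 0 ≤ r → ∫ z in (0:ℝ)..r, ψ z ≤ 0

/-- the primitive from `0` -/
noncomputable def lpaPrim (ψ : ℝ → ℝ) (x : ℝ) : ℝ := ∫ z in (0:ℝ)..x, ψ z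

theorem lpa_eqns_cite : True := by
  have := @lpaPrim.eq_1
  trivial

theorem lpa_prim_hasDerivAt {ψ : ℝ → ℝ} (h : Continuous ψ) (x : ℝ) : HasDerivAt (lpaPrim ψ) (ψ x) x :=
  intervalIntegral.integral_hasDerivAt_right (h.intervalIntegrable _ _) (h.stronglyMeasurableAtFilter _ _) h.continuousAt

theorem lpa_prim_zero (ψ : ℝ → ℝ) : lpaPrim ψ 0 = 0 := by simp [lpaPrim]

theorem lpa_prim_odd {ψ : ℝ → ℝ} (he : ∀ z, ψ (-z) = ψ z) (x : ℝ) : lpaPrim ψ (-x) = - lpaPrim ψ x := by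
  unfold lpaPrim
  have h := intervalIntegral.integral_comp_neg (a := 0) (b := x) ψ
  simp only [he, neg_zero] at h
  rw [h, intervalIntegral.integral_symm]

theorem lpa_prim_abs_le {ψ : ℝ → ℝ} {C : ℝ} (hC : ∀ z, |ψ z| ≤ C) (x : ℝ) : |lpaPrim ψ x| ≤ C * |x| := by
  have := intervalIntegral.norm_integral_le_of_norm_le_const (a := 0) (b := x) (f := ψ) (C := C) (fun z _ => hC z)
  simpa [lpaPrim] using this

theorem lpa_E0 {ψ : ℝ → ℝ} (h : Continuous ψ) (hb : ∃ C : ℝ, ∀ z, |ψ z| ≤ C) : ScE 0 ψ := by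
  obtain ⟨C, hC⟩ := hb
  exact ⟨h, ScG.of_bdd hC⟩

theorem lpa_prim_E {ψ : ℝ → ℝ} (h : Continuous ψ) (hb : ∃ C : ℝ, ∀ z, |ψ z| ≤ C) : ScE 1 (lpaPrim ψ) := by
  have hd : deriv (lpaPrim ψ) = ψ := funext fun x => (lpa_prim_hasDerivAt h x).deriv
  have hdiff : Differentiable ℝ (lpaPrim ψ) := fun x => (lpa_prim_hasDerivAt h x).differentiableAt
  obtain ⟨C, hC⟩ := hb
  have hC0 : 0 ≤ C := (abs_nonneg _).trans (hC 0)
  refine ⟨hdiff.continuous, ⟨C, 1, fun z => (lpa_prim_abs_le hC z).trans ?_⟩, hdiff, ?_⟩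
  · refine mul_le_mul_of_nonneg_left ?_ hC0
    rw [one_mul]
    linarith [Real.add_one_le_exp |z|]
  · rw [hd]; exact lpa_E0 h ⟨C, hC⟩

/-- value at the origin -/
theorem LpaNeg.at_zero {ψ : ℝ → ℝ} (h : LpaNeg ψ) : ψ 0 ≤ 0 := by
  by_contra hc
  push Not at hc
  have h1 : ∀ᶠ z in 𝓝 (0:ℝ), 0 < ψ z := h.cont.continuousAt.eventually (lt_mem_nhds hc)
  obtain ⟨δ, hδ, hb⟩ := Metric.eventually_nhds_iff.1 h1
  have h2 : 0 < ∫ z in (0:ℝ)..(δ / 2), ψ z := by
    refine intervalIntegral.intervalIntegral_pos_of_pos_on (h.cont.intervalIntegrable _ _) (fun x hx => hb ?_) (by linarith)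
    rw [Real.dist_eq, sub_zero, abs_of_pos hx.1]
    linarith [hx.2]
  linarith [h.neg (δ / 2) (by linarith)]

theorem LpaNeg.const_mul {ψ : ℝ → ℝ} (h : LpaNeg ψ) {c : ℝ} (hc : 0 ≤ c) : LpaNeg (fun z => c * ψ z) := by
  obtain ⟨C, hC⟩ := h.bdd
  refine ⟨continuous_const.mul h.cont, ⟨c * C, fun z => ?_⟩, fun z => by rw [h.even], fun r hr => ?_⟩
  · rw [abs_mul, abs_of_nonneg hc]; exact mul_le_mul_of_nonneg_left (hC z) hc
  · rw [intervalIntegral.integral_const_mul]
    exact mul_nonpos_of_nonneg_of_nonpos hc (h.neg r hr)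

/-- multiplication by an even function which decreases on the half line -/
theorem LpaNeg.mul {ψ κ κ' : ℝ → ℝ} (h : LpaNeg ψ) (hd : ∀ z, HasDerivAt κ (κ' z) z) (hc : Continuous κ')
    (hneg : ∀ z, 0 ≤ z → κ' z ≤ 0) (hpos : ∀ z, 0 ≤ κ z) (hev : ∀ z, κ (-z) = κ z) : LpaNeg (fun z => κ z * ψ z) := by
  have hκc : Continuous κ := continuous_iff_continuousAt.2 fun z => (hd z).continuousAt
  have hanti : AntitoneOn κ (Ici 0) := by
    refine antitoneOn_of_deriv_nonpos (convex_Ici 0) hκc.continuousOn (fun z _ => (hd z).differentiableAt.differentiableWithinAt) ?_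
    intro z hz
    rw [interior_Ici] at hz
    rw [(hd z).deriv]
    exact hneg z (le_of_lt hz)
  have hle : ∀ z, κ z ≤ κ 0 := by
    intro z
    rcases le_total 0 z with hz | hz
    · exact hanti (mem_Ici.2 le_rfl) (mem_Ici.2 hz) hz
    · rw [← hev z]; exact hanti (mem_Ici.2 le_rfl) (mem_Ici.2 (by linarith)) (by linarith)
  obtain ⟨C, hC⟩ := h.bdd
  have hC0 : 0 ≤ C := (abs_nonneg _).trans (hC 0)
  refine ⟨hκc.mul h.cont, ⟨κ 0 * C, fun z => ?_⟩, fun z => by rw [h.even, hev], fun r hr => ?_⟩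
  · rw [abs_mul, abs_of_nonneg (hpos z)]
    exact mul_le_mul (hle z) (hC z) (abs_nonneg _) (hpos 0)
  · have hip := intervalIntegral.integral_mul_deriv_eq_deriv_mul (a := 0) (b := r) (u := κ) (v := lpaPrim ψ) (u' := κ') (v' := ψ)
      (fun x _ => hd x) (fun x _ => lpa_prim_hasDerivAt h.cont x) (hc.intervalIntegrable _ _) (h.cont.intervalIntegrable _ _)
    rw [hip, lpa_prim_zero, mul_zero, sub_zero]
    have h1 : κ r * lpaPrim ψ r ≤ 0 := mul_nonpos_of_nonneg_of_nonpos (hpos r) (h.neg r hr)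
    have h2 : 0 ≤ ∫ x in (0:ℝ)..r, κ' x * lpaPrim ψ x := by
      refine intervalIntegral.integral_nonneg hr fun x hx => ?_
      exact mul_nonneg_of_nonpos_of_nonpos (hneg x hx.1) (h.neg x hx.1)
    linarith

/-- the heat flow of an odd function which is `≤ 0` on the half line -/
theorem lpa_heat_odd_nonpos {f : ℝ → ℝ} (hf : ScE 0 f) (ho : ∀ z, f (-z) = - f z) (hn : ∀ z, 0 ≤ z → f z ≤ 0) {s : ℝ} (hs : 0 ≤ s)
    {r : ℝ} (hr : 0 ≤ r) : scHeat s f r ≤ 0 := by
  rcases hs.eq_or_lt with rfl | hs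
  · rw [sc_heat_zero]; exact hn r hr
  rcases hr.eq_or_lt with rfl | hr
  · have := sc_heat_odd ho s 0
    rw [neg_zero] at this
    linarith
  rw [sc_heat_odd_kernel hf ho hs r]
  refine setIntegral_nonpos measurableSet_Ioi fun y hy => ?_
  exact mul_nonpos_of_nonpos_of_nonneg (hn y (le_of_lt hy)) (sc_K_pos hs hr hy).le

/-- primitive of the heat flow -/
theorem lpa_prim_heat {ψ : ℝ → ℝ} (h : Continuous ψ) (hb : ∃ C : ℝ, ∀ z, |ψ z| ≤ C) (he : ∀ z, ψ (-z) = ψ z) (s r : ℝ) :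
    ∫ z in (0:ℝ)..r, scHeat s ψ z = scHeat s (lpaPrim ψ) r := by
  have hE := lpa_prim_E h hb
  have hd : deriv (lpaPrim ψ) = ψ := funext fun x => (lpa_prim_hasDerivAt h x).deriv
  have h1 : ∀ z, HasDerivAt (scHeat s (lpaPrim ψ)) (scHeat s ψ z) z := by
    intro z
    have := sc_heat_hasDerivAt hE s z
    rwa [hd] at this
  have hc : Continuous (scHeat s ψ) := sc_heat_continuous (lpa_E0 h hb) s
  rw [intervalIntegral.integral_eq_sub_of_hasDerivAt (fun z _ => h1 z) (hc.intervalIntegrable _ _)]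
  have := sc_heat_odd (lpa_prim_odd he) s 0
  rw [neg_zero] at this
  linarith

/-- the heat flow preserves the cone -/
theorem LpaNeg.heat {ψ : ℝ → ℝ} (h : LpaNeg ψ) {s : ℝ} (hs : 0 ≤ s) : LpaNeg (scHeat s ψ) := by
  obtain ⟨C, hC⟩ := h.bdd
  refine ⟨sc_heat_continuous (lpa_E0 h.cont h.bdd) s, ⟨C, fun z => sc_heat_abs_le hC s z⟩, fun z => sc_heat_even h.even s z, fun r hr => ?_⟩
  rw [lpa_prim_heat h.cont h.bdd h.even]
  exact lpa_heat_odd_nonpos (lpa_prim_E h.cont h.bdd).of_succ (lpa_prim_odd h.even) (fun z hz => h.neg z hz) hs hr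


theorem lpa_even_abs {f : ℝ → ℝ} (he : ∀ z, f (-z) = f z) (x : ℝ) : f |x| = f x := by
  rcases abs_cases x with ⟨h, _⟩ | ⟨h, _⟩ <;> rw [h]
  exact he x

/-- second difference of the primitive of an even function which decreases on the half line -/
theorem lpa_prim_mid {f : ℝ → ℝ} (hc : Continuous f) (he : ∀ z, f (-z) = f z) (ha : AntitoneOn f (Ici 0)) {r : ℝ} (hr : 0 ≤ r) (y : ℝ) :
    lpaPrim f (r + y) + lpaPrim f (r - y) ≤ 2 * lpaPrim f r := by
  have key : ∀ y : ℝ, 0 ≤ y → lpaPrim f (r + y) + lpaPrim f (r - y) ≤ 2 * lpaPrim f r := by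
    intro y hy
    have h1 : lpaPrim f (r + y) - lpaPrim f r = ∫ t in (0:ℝ)..y, f (r + t) := by
      rw [intervalIntegral.integral_comp_add_left, add_zero]
      unfold lpaPrim
      rw [intervalIntegral.integral_interval_sub_left (hc.intervalIntegrable _ _) (hc.intervalIntegrable _ _)]
    have h2 : lpaPrim f r - lpaPrim f (r - y) = ∫ t in (0:ℝ)..y, f (r - t) := by
      rw [intervalIntegral.integral_comp_sub_left, sub_zero]
      unfold lpaPrim
      rw [intervalIntegral.integral_interval_sub_left (hc.intervalIntegrable _ _) (hc.intervalIntegrable _ _)]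
    have h3 : ∫ t in (0:ℝ)..y, f (r + t) ≤ ∫ t in (0:ℝ)..y, f (r - t) := by
      refine intervalIntegral.integral_mono_on hy ((hc.comp (by fun_prop)).intervalIntegrable _ _)
        ((hc.comp (by fun_prop)).intervalIntegrable _ _) fun t ht => ?_
      rw [← lpa_even_abs he (r - t)]
      refine ha (mem_Ici.2 (abs_nonneg _)) (mem_Ici.2 (by linarith [ht.1])) ?_
      rw [abs_le]
      constructor <;> linarith [ht.1]
    linarith
  rcases le_total 0 y with hy | hy
  · exact key y hy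
  · have := key (-y) (by linarith)
    rw [sub_neg_eq_add, ← sub_eq_add_neg] at this
    linarith

/-- the heat flow lowers the primitive -/
theorem lpa_heat_prim_le {f : ℝ → ℝ} (hc : Continuous f) (hb : ∃ C : ℝ, ∀ z, |f z| ≤ C) (he : ∀ z, f (-z) = f z) (ha : AntitoneOn f (Ici 0))
    (d : ℝ) {r : ℝ} (hr : 0 ≤ r) : scHeat d (lpaPrim f) r ≤ lpaPrim f r := by
  have hE : ScE 0 (lpaPrim f) := (lpa_prim_E hc hb).of_succ
  have hi := sc_heat_integrable hE d r
  have h1 : scHeat d (lpaPrim f) r = ∫ g, lpaPrim f (r - Real.sqrt d * g) ∂(gaussianReal 0 1) := by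
    unfold scHeat
    rw [← sc_integral_comp_neg]
    refine integral_congr_ae (Eventually.of_forall fun g => ?_)
    simp only [mul_neg, ← sub_eq_add_neg]
  have hi2 : Integrable (fun g => lpaPrim f (r - Real.sqrt d * g)) (gaussianReal 0 1) := by
    refine ((sc_heat_integrable hE d (-r)).neg).congr (Eventually.of_forall fun g => ?_)
    simp only [Pi.neg_apply]
    rw [← lpa_prim_odd he]
    congr 1
    ring
  have h2 : scHeat d (lpaPrim f) r + scHeat d (lpaPrim f) r ≤ 2 * lpaPrim f r := by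
    nth_rewrite 2 [h1]
    unfold scHeat
    rw [← integral_add hi hi2]
    have : ∫ g, (2 * lpaPrim f r) ∂(gaussianReal 0 1) = 2 * lpaPrim f r := by simp
    rw [← this]
    exact integral_mono (hi.add hi2) (integrable_const _) fun g => lpa_prim_mid hc he ha hr _
  linarith

/-- **base case**: `P_d f - f` belongs to the cone when `f` is even and decreases on the half line -/
theorem lpa_base {f : ℝ → ℝ} (hc : Continuous f) (hb : ∃ C : ℝ, ∀ z, |f z| ≤ C) (he : ∀ z, f (-z) = f z) (ha : AntitoneOn f (Ici 0))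
    (d : ℝ) : LpaNeg (fun z => scHeat d f z - f z) := by
  obtain ⟨C, hC⟩ := hb
  have hhc : Continuous (scHeat d f) := sc_heat_continuous (lpa_E0 hc ⟨C, hC⟩) d
  refine ⟨hhc.sub hc, ⟨C + C, fun z => ?_⟩, fun z => by rw [sc_heat_even he, he], fun r hr => ?_⟩
  · exact (abs_sub _ _).trans (add_le_add (sc_heat_abs_le hC d z) (hC z))
  · rw [intervalIntegral.integral_sub (hhc.intervalIntegrable _ _) (hc.intervalIntegrable _ _), lpa_prim_heat hc ⟨C, hC⟩ he]
    have := lpa_heat_prim_le hc ⟨C, hC⟩ he ha d hr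
    unfold lpaPrim at this ⊢
    linarith


/-! ## the cone along a step profile -/

/-- one Cole-Hopf step: the invariant is `φ e^{m' V} ∈ cone`, `m'` = the NEXT mass -/
theorem LpaNeg.step {F φ : ℝ → ℝ} (hF : ScB 1 F) (hev : ∀ z, F (-z) = F z) (hmono : ∀ z, 0 ≤ z → 0 ≤ deriv F z) {m m' s : ℝ}
    (hmm : m ≤ m') (hs : 0 ≤ s) (h : LpaNeg (fun z => φ z * Real.exp (m' * F z))) :
    LpaNeg (fun z => scTr m s F φ z * Real.exp (m * scStep m s F z)) := by
  have hd : ∀ z, HasDerivAt (fun z => Real.exp (-(m' - m) * F z)) (Real.exp (-(m' - m) * F z) * (-(m' - m) * deriv F z)) z := by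
    intro z
    exact ((hF.1 z).hasDerivAt.const_mul _).exp
  have hFc : Continuous F := hF.1.continuous
  have hFd : Continuous (deriv F) := hF.2.2
  have h1 := h.mul hd (by fun_prop)
    (fun z hz => mul_nonpos_of_nonneg_of_nonpos (Real.exp_pos _).le
      (mul_nonpos_of_nonpos_of_nonneg (by linarith) (hmono z hz)))
    (fun z => (Real.exp_pos _).le) (fun z => by simp only [hev])
  have e : (fun z => Real.exp (-(m' - m) * F z) * (φ z * Real.exp (m' * F z))) = fun z => φ z * Real.exp (m * F z) := by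
    funext z
    rw [mul_left_comm, ← Real.exp_add]
    congr 2
    ring
  rw [e] at h1
  have h2 := h1.heat hs
  have e2 : (fun z => scTr m s F φ z * Real.exp (m * scStep m s F z)) = scHeat s (fun y => φ y * Real.exp (m * F y)) := by
    funext z
    rw [sc_exp_step hF, scTr, div_mul_cancel₀ _ (sc_W_pos hF m s z).ne']
  rw [e2]
  exact h2

theorem lpa_V_B {F : ℝ → ℝ} {n : ℕ} (hF : ScB (n + 1) F) (π : List (ℝ × ℝ)) : ScB (n + 1) (scV F π) := by
  induction π with
  | nil => exact hF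
  | cons p π ih => exact sc_step_B ih p.1 p.2

theorem lpa_V_even {F : ℝ → ℝ} (he : ∀ z, F (-z) = F z) (π : List (ℝ × ℝ)) : ∀ z, scV F π (-z) = scV F π z := by
  induction π with
  | nil => exact he
  | cons p π ih => exact fun z => sc_step_even ih p.1 p.2 z

theorem lpa_V_convex {F : ℝ → ℝ} (hF : ScB 2 F) (h : ∀ z, 0 ≤ deriv (deriv F) z) (π : List (ℝ × ℝ)) (hπ : ∀ p ∈ π, 0 ≤ p.1) :
    ∀ z, 0 ≤ deriv (deriv (scV F π)) z := by
  induction π with
  | nil => exact h
  | cons p π ih =>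
    exact fun z => sc_step_convex (lpa_V_B hF π) (ih fun q hq => hπ q (List.mem_cons_of_mem _ hq)) (hπ p List.mem_cons_self) p.2 z

/-- an even convex function increases on the half line -/
theorem lpa_deriv_nonneg {F : ℝ → ℝ} (hF : ScB 2 F) (he : ∀ z, F (-z) = F z) (hcv : ∀ z, 0 ≤ deriv (deriv F) z) (z : ℝ) (hz : 0 ≤ z) :
    0 ≤ deriv F z := by
  have hm : Monotone (deriv F) := monotone_of_deriv_nonneg hF.2.2.1 hcv
  have h0 : deriv F 0 = 0 := by
    have h1 : deriv (fun x => F (-x)) 0 = - deriv F (-0) := deriv_comp_neg F 0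
    have h2 : (fun x => F (-x)) = F := funext he
    rw [h2, neg_zero] at h1
    linarith
  rw [← h0]
  exact hm hz

/-- the first mass of a profile (`a` for the empty profile) -/
def lpaHd (a : ℝ) : List (ℝ × ℝ) → ℝ
  | [] => a
  | p :: _ => p.1

/-- **the cone is transported backwards along a step profile with nondecreasing masses `≤ a`** -/
theorem lpa_chain {F φ : ℝ → ℝ} {a : ℝ} (hF : ScB 2 F) (he : ∀ z, F (-z) = F z) (hcv : ∀ z, 0 ≤ deriv (deriv F) z)
    (h : LpaNeg (fun z => φ z * Real.exp (a * F z))) (π : List (ℝ × ℝ)) (hadm : ScAdm a π) (hinc : ScInc π) :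
    LpaNeg (fun z => scP F π φ z * Real.exp (lpaHd a π * scV F π z)) := by
  induction π with
  | nil => exact h
  | cons p π ih =>
    have hadm' : ScAdm a π := fun q hq => hadm q (List.mem_cons_of_mem _ hq)
    have hinc' : ScInc π := (List.pairwise_cons.1 hinc).2
    have hle : p.1 ≤ lpaHd a π := by
      cases π with
      | nil => exact (hadm p List.mem_cons_self).2.1
      | cons q π' => exact (List.pairwise_cons.1 hinc).1 q List.mem_cons_self
    have hV := lpa_V_B hF π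
    exact LpaNeg.step hV.of_succ (lpa_V_even he π)
      (lpa_deriv_nonneg hV (lpa_V_even he π) (lpa_V_convex hF hcv π fun q hq => (hadm' q hq).1)) hle
      (hadm p List.mem_cons_self).2.2 (ih hadm' hinc')

/-- the expectation of a test function of the cone (divided by `e^{a F}`) is `≤ 0` -/
theorem lpa_chain_zero {F φ : ℝ → ℝ} {a : ℝ} (hF : ScB 2 F) (he : ∀ z, F (-z) = F z) (hcv : ∀ z, 0 ≤ deriv (deriv F) z)
    (h : LpaNeg (fun z => φ z * Real.exp (a * F z))) (π : List (ℝ × ℝ)) (hadm : ScAdm a π) (hinc : ScInc π) :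
    scP F π φ 0 ≤ 0 := by
  have h1 := (lpa_chain hF he hcv h π hadm hinc).at_zero
  by_contra hc
  push Not at hc
  linarith [mul_pos hc (Real.exp_pos (lpaHd a π * scV F π 0))]

/-! ## linearity of `scP`, concatenation -/

theorem lpa_P_E0 {F φ : ℝ → ℝ} (hF : ScB 1 F) (hφ : ScE 0 φ) (π : List (ℝ × ℝ)) : ScE 0 (scP F π φ) := by
  induction π with
  | nil => exact hφ
  | cons p π ih => exact sc_tr_E_zero (lpa_V_B hF π) ih p.1 p.2

theorem lpa_P_sub {F φ ψ : ℝ → ℝ} (hF : ScB 1 F) (hφ : ScE 0 φ) (hψ : ScE 0 ψ) (π : List (ℝ × ℝ)) :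
    scP F π (fun z => φ z - ψ z) = fun z => scP F π φ z - scP F π ψ z := by
  induction π with
  | nil => rfl
  | cons p π ih =>
    simp only [scP]
    rw [ih]
    exact sc_tr_sub (lpa_V_B hF π) (lpa_P_E0 hF hφ π) (lpa_P_E0 hF hψ π) p.1 p.2

theorem lpa_P_const_mul (F φ : ℝ → ℝ) (c : ℝ) (π : List (ℝ × ℝ)) :
    scP F π (fun z => c * φ z) = fun z => c * scP F π φ z := by
  induction π with
  | nil => rfl
  | cons p π ih =>
    simp only [scP]
    rw [ih]
    exact sc_tr_const_mul p.1 p.2 c _ _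

theorem lpa_V_append (F : ℝ → ℝ) (π ρ : List (ℝ × ℝ)) : scV F (π ++ ρ) = scV (scV F ρ) π := by
  induction π with
  | nil => rfl
  | cons p π ih => simp only [List.cons_append, scV, ih]

theorem lpa_P_append (F φ : ℝ → ℝ) (π ρ : List (ℝ × ℝ)) : scP F (π ++ ρ) φ = scP (scV F ρ) π (scP F ρ φ) := by
  induction π with
  | nil => rfl
  | cons p π ih => simp only [List.cons_append, scP, ih, lpa_V_append]

theorem lpa_eqns_cite2 : True := by
  have := @lpaHd.eq_1
  have := @lpaHd.eq_2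
  trivial


/-! ## the annealed stage -/

/-- the terminal datum `a⁻¹ log cosh (a z) + c` -/
noncomputable def lpaF (a c : ℝ) (z : ℝ) : ℝ := a⁻¹ * Real.log (Real.cosh (a * z)) + c

theorem lpa_F_B (n : ℕ) (a c : ℝ) : ScB n (lpaF a c) := (sc_logcosh_B n a).add (ScB.const n c)

theorem lpa_F_even (a c z : ℝ) : lpaF a c (-z) = lpaF a c z := by
  unfold lpaF
  rw [mul_neg, Real.cosh_neg]

theorem lpa_F_exp {a : ℝ} (ha : a ≠ 0) (c z : ℝ) : Real.exp (a * lpaF a c z) = Real.exp (a * c) * Real.cosh (a * z) := by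
  unfold lpaF
  rw [mul_add, ← mul_assoc, mul_inv_cancel₀ ha, one_mul, Real.exp_add, Real.exp_log (Real.cosh_pos _), mul_comm]

theorem lpa_F_hasDerivAt {a : ℝ} (ha : a ≠ 0) (c z : ℝ) : HasDerivAt (lpaF a c) (Real.tanh (a * z)) z := by
  have h1 : HasDerivAt (fun z : ℝ => a * z) a z := by simpa using (hasDerivAt_id z).const_mul a
  have h2 := (Real.hasDerivAt_cosh (a * z)).comp z h1
  have h3 := ((h2.log (Real.cosh_pos _).ne').const_mul a⁻¹).add_const c
  refine h3.congr_deriv ?_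
  rw [Real.tanh_eq_sinh_div_cosh]
  simp only [Function.comp]
  have := (Real.cosh_pos (a * z)).ne'
  field_simp

theorem lpa_F_deriv2 {a : ℝ} (ha : a ≠ 0) (c z : ℝ) : deriv (deriv (lpaF a c)) z = a * (1 - Real.tanh (a * z) ^ 2) := by
  have e : deriv (lpaF a c) = fun z => Real.tanh (a * z) := funext fun z => (lpa_F_hasDerivAt ha c z).deriv
  rw [e]
  have h1 : HasDerivAt (fun z : ℝ => a * z) a z := by simpa using (hasDerivAt_id z).const_mul a
  have h2 := (sc_hasDerivAt_tanh (a * z)).comp z h1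
  rw [show (fun z => Real.tanh (a * z)) = Real.tanh ∘ fun z => a * z from rfl, h2.deriv]
  ring

theorem lpa_F_convex {a : ℝ} (ha : 0 < a) (c z : ℝ) : 0 ≤ deriv (deriv (lpaF a c)) z := by
  rw [lpa_F_deriv2 ha.ne']
  have h1 : Real.tanh (a * z) ^ 2 ≤ 1 := by
    rw [sq_le_one_iff_abs_le_one]
    exact (Real.abs_tanh_lt_one _).le
  exact mul_nonneg ha.le (by linarith)

theorem lpa_F_step {a : ℝ} (ha : a ≠ 0) (c : ℝ) {s : ℝ} (hs : 0 ≤ s) : scStep a s (lpaF a c) = lpaF a (c + a * s / 2) := by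
  have h1 := sc_step_add_const (sc_logcosh_B 1 a) a s c
  have h2 := sc_step_logcosh ha hs
  unfold lpaF
  rw [h1, h2]
  funext z
  ring

theorem lpa_F_W {a : ℝ} (ha : a ≠ 0) (c : ℝ) {s : ℝ} (hs : 0 ≤ s) (z : ℝ) :
    scW a s (lpaF a c) z = Real.exp (a * c) * (Real.exp (a ^ 2 * s / 2) * Real.cosh (a * z)) := by
  unfold scW
  rw [show (fun y => Real.exp (a * lpaF a c y)) = fun y => Real.exp (a * c) * Real.cosh (a * y) from funext fun y => lpa_F_exp ha c y,
    sc_heat_const_mul]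
  simp only
  rw [sc_heat_cosh hs]

/-- the annealed transition is the `cosh`-transform of the heat flow -/
theorem lpa_F_tr {a : ℝ} (ha : a ≠ 0) (c : ℝ) {s : ℝ} (hs : 0 ≤ s) (f : ℝ → ℝ) :
    scTr a s (lpaF a c) (fun z => f z / Real.cosh (a * z)) = fun z => Real.exp (-(a ^ 2 * s / 2)) * (scHeat s f z / Real.cosh (a * z)) := by
  funext z
  unfold scTr
  rw [lpa_F_W ha c hs]
  have e : (fun y => f y / Real.cosh (a * y) * Real.exp (a * lpaF a c y)) = fun y => Real.exp (a * c) * f y := by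
    funext y
    rw [lpa_F_exp ha]
    have := (Real.cosh_pos (a * y)).ne'
    field_simp
  rw [e, sc_heat_const_mul, Real.exp_neg]
  have h1 := (Real.cosh_pos (a * z)).ne'
  have h2 := (Real.exp_pos (a * c)).ne'
  have h3 := (Real.exp_pos (a ^ 2 * s / 2)).ne'
  field_simp

/-- **the annealed inequality, general test function** (LL Lemma paths:base-profile, 03 l.75-92, without densities and without Prekopa):
after a step profile with nondecreasing masses `≤ a`, during an annealed stage of mass `a`,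
`E[f(Z_{s+d}) / cosh (a Z_{s+d})] ≤ e^{-a² d/2} E[f(Z_s) / cosh (a Z_s)]` for every even bounded continuous `f` which decreases on the half line. -/
theorem lpa_annealed_gen {a : ℝ} (ha : 0 < a) (c : ℝ) {d : ℝ} (hd : 0 ≤ d) (π : List (ℝ × ℝ)) (hadm : ScAdm a π) (hinc : ScInc π)
    {f : ℝ → ℝ} (hc : Continuous f) (hb : ∃ C : ℝ, ∀ z, |f z| ≤ C) (he : ∀ z, f (-z) = f z) (hanti : AntitoneOn f (Ici 0)) :
    scP (lpaF a c) (π ++ [(a, d)]) (fun z => f z / Real.cosh (a * z)) 0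
      ≤ Real.exp (-(a ^ 2 * d / 2)) * scP (lpaF a (c + a * d / 2)) π (fun z => f z / Real.cosh (a * z)) 0 := by
  have hcosh : Continuous fun z : ℝ => Real.cosh (a * z) := by fun_prop
  have hdiv : ∀ {g : ℝ → ℝ}, Continuous g → (∃ C : ℝ, ∀ z, |g z| ≤ C) → ScE 0 (fun z => g z / Real.cosh (a * z)) := by
    intro g hg hgb
    obtain ⟨C, hC⟩ := hgb
    refine lpa_E0 (hg.div hcosh fun z => (Real.cosh_pos _).ne') ⟨C, fun z => ?_⟩
    rw [abs_div, abs_of_pos (Real.cosh_pos _)]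
    exact (div_le_self (abs_nonneg _) (Real.one_le_cosh _)).trans (hC z)
  obtain ⟨C, hC⟩ := hb
  have hE1 := hdiv (sc_heat_continuous (lpa_E0 hc ⟨C, hC⟩) d) ⟨C, fun z => sc_heat_abs_le hC d z⟩
  have hE2 := hdiv hc ⟨C, hC⟩
  rw [lpa_P_append]
  have e1 : scV (lpaF a c) [(a, d)] = lpaF a (c + a * d / 2) := lpa_F_step ha.ne' c hd
  have e2 : scP (lpaF a c) [(a, d)] (fun z => f z / Real.cosh (a * z))
      = fun z => Real.exp (-(a ^ 2 * d / 2)) * (scHeat d f z / Real.cosh (a * z)) := lpa_F_tr ha.ne' c hd f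
  rw [e1, e2, lpa_P_const_mul]
  refine mul_le_mul_of_nonneg_left ?_ (Real.exp_pos _).le
  have hneg : LpaNeg (fun z => (scHeat d f z / Real.cosh (a * z) - f z / Real.cosh (a * z)) * Real.exp (a * lpaF a (c + a * d / 2) z)) := by
    have h0 := (lpa_base hc ⟨C, hC⟩ he hanti d).const_mul (Real.exp_pos (a * (c + a * d / 2))).le
    refine (congrArg LpaNeg (funext fun z => ?_)).mp h0
    rw [lpa_F_exp ha.ne']
    have := (Real.cosh_pos (a * z)).ne'
    field_simp
  have h1 := lpa_chain_zero (lpa_F_B 2 a _) (lpa_F_even a _) (lpa_F_convex ha _) hneg π hadm hinc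
  rw [lpa_P_sub (lpa_F_B 1 a _) hE1 hE2] at h1
  linarith

theorem lpa_sech_anti {a : ℝ} (k : ℕ) : AntitoneOn (fun z : ℝ => (Real.cosh (a * z))⁻¹ ^ k) (Ici 0) := by
  intro x hx y hy hxy
  refine pow_le_pow_left₀ (inv_nonneg.2 (Real.cosh_pos _).le) ?_ k
  refine inv_anti₀ (Real.cosh_pos _) ?_
  rw [Real.cosh_le_cosh, abs_mul, abs_mul, abs_of_nonneg (mem_Ici.1 hx), abs_of_nonneg (mem_Ici.1 hy)]
  exact mul_le_mul_of_nonneg_left hxy (abs_nonneg _)

/-- **the annealed inequality** for `E χ² = a² E sech⁴ (a Z)`: `Γ'(s + d) ≤ e^{-a² d/2} Γ'(s)` -/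
theorem lpa_annealed {a : ℝ} (ha : 0 < a) (c : ℝ) {d : ℝ} (hd : 0 ≤ d) (π : List (ℝ × ℝ)) (hadm : ScAdm a π) (hinc : ScInc π) (k : ℕ) :
    scP (lpaF a c) (π ++ [(a, d)]) (fun z => (Real.cosh (a * z))⁻¹ ^ (k + 1)) 0
      ≤ Real.exp (-(a ^ 2 * d / 2)) * scP (lpaF a (c + a * d / 2)) π (fun z => (Real.cosh (a * z))⁻¹ ^ (k + 1)) 0 := by
  have h := lpa_annealed_gen ha c hd π hadm hinc (f := fun z => (Real.cosh (a * z))⁻¹ ^ k)
    (by
      have : Continuous fun z : ℝ => (Real.cosh (a * z))⁻¹ := (by fun_prop : Continuous fun z : ℝ => Real.cosh (a * z)).inv₀ fun z => (Real.cosh_pos _).ne'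
      exact this.pow k)
    ⟨1, fun z => by
      rw [abs_of_nonneg (pow_nonneg (inv_nonneg.2 (Real.cosh_pos _).le) k)]
      exact pow_le_one₀ (inv_nonneg.2 (Real.cosh_pos _).le) (inv_le_one_of_one_le₀ (Real.one_le_cosh _))⟩
    (fun z => by simp only [mul_neg, Real.cosh_neg]) (lpa_sech_anti k)
  have e : (fun z : ℝ => (Real.cosh (a * z))⁻¹ ^ k / Real.cosh (a * z)) = fun z => (Real.cosh (a * z))⁻¹ ^ (k + 1) := by
    funext z
    rw [pow_succ, div_eq_mul_inv]
  rw [e] at h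
  exact h

theorem lpa_eqns_cite3 : True := by
  have := @lpaF.eq_1
  trivial

/-! ## the terminal mass (S8) -/

theorem lpa_unit_integral (G : ℝ → ℝ) : ∫ x, G (x ()) ∂(lpkGa Unit) = ∫ g, G g ∂(gaussianReal 0 1) :=
  (measurePreserving_funUnique (gaussianReal 0 1) Unit).integral_comp' G

theorem lpa_unit_sum (G : (Unit → Bool) → ℝ) : ∑ σ, G σ = G (fun _ => true) + G (fun _ => false) := by
  rw [← (Equiv.funUnique Unit Bool).symm.sum_comp, Fintype.sum_bool]
  rfl

theorem lpa_unit_Z (j z c : ℝ) (hj : j ≠ 0) (x : Unit → ℝ) :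
    lpkZ (fun σ : Unit → Bool => Real.exp (j * (z * lpkSg (σ ()) - Real.log 2 / j))) c x = Real.cosh (j * z + c * x ()) := by
  unfold lpkZ
  rw [lpa_unit_sum]
  simp only [lpkDot, Finset.univ_unique, Finset.sum_singleton, lpk_sg_true, lpk_sg_false, PUnit.default_eq_unit]
  rw [Real.cosh_eq, ← Real.exp_add, ← Real.exp_add]
  have e1 : j * (z * 1 - Real.log 2 / j) + c * (x () * 1) = (j * z + c * x ()) - Real.log 2 := by field_simp; ring
  have e2 : j * (z * -1 - Real.log 2 / j) + c * (x () * -1) = -(j * z + c * x ()) - Real.log 2 := by field_simp; ring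
  rw [e1, e2, Real.exp_sub, Real.exp_sub, Real.exp_log (by norm_num)]
  ring

/-- **terminal mass** (S8 of the reading of LL 03): one stage of mass `m` and variance `s` in front of the terminal datum `j⁻¹ log cosh (j z)`, `m ≤ j`,
is the annealed continuation of mass `m`, up to the constant `log 2 (1/m - 1/j)` and an error `≤ - m⁻¹ log Φ(m √s)`, UNIFORMLY in `z` -/
theorem lpa_term_mass {j m s : ℝ} (hm : 0 < m) (hmj : m ≤ j) (hs : 0 ≤ s) (z : ℝ) :
    scStep m s (lpaF j 0) z ≤ lpaF m (m * s / 2 + Real.log 2 * (m⁻¹ - j⁻¹)) z ∧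
    lpaF m (m * s / 2 + Real.log 2 * (m⁻¹ - j⁻¹)) z + m⁻¹ * Real.log (lpkPhi (m * √s)) ≤ scStep m s (lpaF j 0) z := by
  have hj : 0 < j := hm.trans_le hmj
  have hp0 : 0 < m / j := div_pos hm hj
  have hp1 : m / j ≤ 1 := (div_le_one hj).2 hmj
  obtain ⟨hU, hL⟩ := lpk_orth_log (ι := Unit) (fun σ => z * lpkSg (σ ()) - Real.log 2 / j) j (j * √s) (m / j) hp0 hp1
  have eW : ∫ x, lpkZ (fun σ : Unit → Bool => Real.exp (j * (z * lpkSg (σ ()) - Real.log 2 / j))) (j * √s) x ^ (m / j) ∂(lpkGa Unit)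
      = scW m s (lpaF j 0) z := by
    simp only [lpa_unit_Z j z _ hj.ne']
    rw [lpa_unit_integral (fun g => Real.cosh (j * z + j * √s * g) ^ (m / j))]
    unfold scW scHeat lpaF
    refine integral_congr_ae (Eventually.of_forall fun g => ?_)
    simp only
    rw [Real.rpow_def_of_pos (Real.cosh_pos _)]
    congr 1
    rw [show j * z + j * √s * g = j * (z + √s * g) by ring]
    field_simp
    ring
  have eS : Real.log (∑ σ : Unit → Bool, Real.exp (m / j * j * (z * lpkSg (σ ()) - Real.log 2 / j)))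
      = Real.log (Real.cosh (m * z)) + Real.log 2 * (1 - m / j) := by
    rw [lpa_unit_sum]
    simp only [lpk_sg_true, lpk_sg_false]
    have e1 : m / j * j * (z * 1 - Real.log 2 / j) = m * z - Real.log 2 * (m / j) := by field_simp
    have e2 : m / j * j * (z * -1 - Real.log 2 / j) = -(m * z) - Real.log 2 * (m / j) := by field_simp
    rw [e1, e2, Real.exp_sub, Real.exp_sub, ← add_div]
    have e3 : Real.exp (m * z) + Real.exp (-(m * z)) = 2 * Real.cosh (m * z) := by rw [Real.cosh_eq]; ring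
    rw [e3, Real.log_div (by have := Real.cosh_pos (m * z); positivity) (Real.exp_pos _).ne', Real.log_exp,
      Real.log_mul (by norm_num) (Real.cosh_pos _).ne']
    ring
  have eC : (m / j * (j * √s)) = m * √s := by field_simp
  rw [eW, eS, eC] at hU hL
  have eq2 : (m * √s) ^ 2 = m ^ 2 * s := by rw [mul_pow, Real.sq_sqrt hs]
  rw [eq2] at hU hL
  simp only [Fintype.card_unit, Nat.cast_one, one_mul] at hU hL
  have hst : scStep m s (lpaF j 0) z = m⁻¹ * Real.log (scW m s (lpaF j 0) z) := by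
    unfold scStep
    rw [if_neg hm.ne']
  have hF : lpaF m (m * s / 2 + Real.log 2 * (m⁻¹ - j⁻¹)) z
      = m⁻¹ * (Real.log (Real.cosh (m * z)) + Real.log 2 * (1 - m / j) + m ^ 2 * s / 2) := by
    unfold lpaF
    field_simp
    ring
  rw [hst, hF]
  have hmi : 0 < m⁻¹ := inv_pos.2 hm
  constructor
  · exact mul_le_mul_of_nonneg_left hU hmi.le
  · rw [← mul_add]
    exact mul_le_mul_of_nonneg_left hL hmi.le

/-- the same with an explicit exponentially small error -/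
theorem lpa_term_mass_abs {j m s : ℝ} (hm : 0 < m) (hmj : m ≤ j) (hs : 0 ≤ s) (h2 : Real.exp (-(m ^ 2 * s / 2)) ≤ 1 / 2) (z : ℝ) :
    |scStep m s (lpaF j 0) z - lpaF m (m * s / 2 + Real.log 2 * (m⁻¹ - j⁻¹)) z| ≤ 2 * m⁻¹ * Real.exp (-(m ^ 2 * s / 2)) := by
  obtain ⟨hU, hL⟩ := lpa_term_mass hm hmj hs z
  have eq2 : (m * √s) ^ 2 = m ^ 2 * s := by rw [mul_pow, Real.sq_sqrt hs]
  have h3 := lpk_log_phi (m * √s) (by positivity) (by rw [eq2]; exact h2)
  rw [eq2] at h3
  have hmi : 0 < m⁻¹ := inv_pos.2 hm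
  have h4 := mul_le_mul_of_nonneg_left h3 hmi.le
  rw [abs_le]
  constructor <;> nlinarith [Real.exp_pos (-(m ^ 2 * s / 2))]

/-! ## S4 (Riccati bounds) and S9 (decay of `sqrt (1 - u²)`), one step at a time -/

/-- Cameron-Martin: exponential tilting of the standard Gaussian -/
theorem lpa_tilt (t : ℝ) (φ : ℝ → ℝ) :
    ∫ g, Real.exp (t * g) * φ g ∂(gaussianReal 0 1) = Real.exp (t ^ 2 / 2) * ∫ g, φ (g + t) ∂(gaussianReal 0 1) := by
  rw [integral_gaussianReal_eq_integral_smul one_ne_zero, integral_gaussianReal_eq_integral_smul one_ne_zero, ← integral_const_mul]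
  rw [← integral_add_right_eq_self (μ := volume) (fun g => gaussianPDFReal 0 1 g • (Real.exp (t * g) * φ g)) t]
  refine integral_congr_ae (Eventually.of_forall fun g => ?_)
  simp only [smul_eq_mul]
  have h1 := lpk_pdf_tilt t (g + t)
  have h2 : gaussianPDFReal t 1 (g + t) = gaussianPDFReal 0 1 g := by
    simp [gaussianPDFReal]
  rw [h2] at h1
  calc gaussianPDFReal 0 1 (g + t) * (Real.exp (t * (g + t)) * φ (g + t))
      = (gaussianPDFReal 0 1 (g + t) * Real.exp (t * (g + t))) * φ (g + t) := by ring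
    _ = Real.exp (t ^ 2 / 2) * (gaussianPDFReal 0 1 g * φ (g + t)) := by rw [h1]; ring

/-- the heat flow of `e^{c y} p(y)` -/
theorem lpa_heat_tilt (c : ℝ) (p : ℝ → ℝ) {s : ℝ} (hs : 0 ≤ s) (z : ℝ) :
    scHeat s (fun y => Real.exp (c * y) * p y) z = Real.exp (c * z + c ^ 2 * s / 2) * scHeat s p (z + c * s) := by
  unfold scHeat
  have e1 : ∀ g : ℝ, Real.exp (c * (z + √s * g)) * p (z + √s * g) = Real.exp (c * z) * (Real.exp (c * √s * g) * p (z + √s * g)) := by
    intro g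
    rw [← mul_assoc, ← Real.exp_add]
    congr 2
    ring
  simp only [e1]
  rw [integral_const_mul, lpa_tilt (c * √s) (fun g => p (z + √s * g)), ← mul_assoc, ← Real.exp_add]
  have e2 : (c * √s) ^ 2 = c ^ 2 * s := by rw [mul_pow, Real.sq_sqrt hs]
  rw [e2]
  congr 1
  refine integral_congr_ae (Eventually.of_forall fun g => ?_)
  simp only
  congr 1
  have : √s * √s = s := Real.mul_self_sqrt hs
  calc z + √s * (g + c * √s) = z + c * (√s * √s) + √s * g := by ring
    _ = z + c * s + √s * g := by rw [this]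

theorem lpa_heat_mono_arg {p : ℝ → ℝ} (hp : ScE 0 p) (hm : Monotone p) (s : ℝ) {z z' : ℝ} (h : z ≤ z') : scHeat s p z ≤ scHeat s p z' :=
  integral_mono (sc_heat_integrable hp s z) (sc_heat_integrable hp s z') fun g => hm (by linarith)

theorem lpa_heat_anti_arg {p : ℝ → ℝ} (hp : ScE 0 p) (hm : Antitone p) (s : ℝ) {z z' : ℝ} (h : z ≤ z') : scHeat s p z' ≤ scHeat s p z :=
  integral_mono (sc_heat_integrable hp s z') (sc_heat_integrable hp s z) fun g => hm (by linarith)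

theorem lpa_heat_nonneg {p : ℝ → ℝ} (h : ∀ y, 0 ≤ p y) (s z : ℝ) : 0 ≤ scHeat s p z := integral_nonneg fun _ => h _

theorem lpa_sqrt_E0 {p : ℝ → ℝ} (hp : ScE 0 p) : ScE 0 (fun y => √(p y)) := by
  refine ⟨hp.1.sqrt, ((ScG.const 1).add hp.2).of_le fun z => ?_⟩
  rw [abs_of_nonneg (Real.sqrt_nonneg _)]
  rcases le_total (p z) 0 with h | h
  · rw [Real.sqrt_eq_zero_of_nonpos h]; exact abs_nonneg _
  · rw [abs_of_nonneg (by linarith)]
    nlinarith [Real.sq_sqrt h, Real.sqrt_nonneg (p z)]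

/-- Cauchy-Schwarz for the heat flow -/
theorem lpa_heat_cs {p q : ℝ → ℝ} (hp : ScE 0 p) (hq : ScE 0 q) (hp0 : ∀ y, 0 ≤ p y) (hq0 : ∀ y, 0 ≤ q y) (s z : ℝ) :
    scHeat s (fun y => √(p y * q y)) z ^ 2 ≤ scHeat s p z * scHeat s q z := by
  have h := sc_tr_mul_sq_le (F := fun _ => 0) (ScB.const 1 0) (lpa_sqrt_E0 hp) (lpa_sqrt_E0 hq) 0 s z
  rw [sc_tr_mass_zero, sc_tr_mass_zero, sc_tr_mass_zero] at h
  have e1 : (fun y => √(p y) * √(q y)) = fun y => √(p y * q y) := funext fun y => (Real.sqrt_mul (hp0 y) _).symm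
  have e2 : (fun y => √(p y) ^ 2) = p := funext fun y => Real.sq_sqrt (hp0 y)
  have e3 : (fun y => √(q y) ^ 2) = q := funext fun y => Real.sq_sqrt (hq0 y)
  rwa [e1, e2, e3] at h


/-- **S9, one step.**   `F` = continuation after the step, `|F'| ≤ 1`, lower Riccati bound `m (1 - F'²) ≤ F''` (`ScLow m F` of `Sc/Decay.lean`).   Then
`E[sqrt (1 - u²)(Z_after) | Z_before = z] ≤ e^{-m² s/2} sqrt (1 - u²)(z)`.
Proof: `A_± = e^{mF}(1 ± F')`, `p = A_+ e^{-my}` increases, `q = A_- e^{my}` decreases; Cameron-Martin and Cauchy-Schwarz.   No Ito formula, no regularity of the square root. -/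
theorem lpa_decay_step {F : ℝ → ℝ} (hF : ScB 2 F) (h1 : ∀ z, |deriv F z| ≤ 1) {m s : ℝ} (hm : 0 ≤ m) (hs : 0 ≤ s)
    (hlow : ∀ z, m * (1 - deriv F z ^ 2) ≤ deriv (deriv F) z) (z : ℝ) :
    scTr m s F (fun y => √(1 - deriv F y ^ 2)) z ≤ Real.exp (-(m ^ 2 * s / 2)) * √(1 - deriv (scStep m s F) z ^ 2) := by
  have hF1 : ScB 1 F := hF.of_succ
  have hF0 : ScB 0 F := hF1.of_succ
  have huc : Continuous (deriv F) := hF.2.2.1.continuous
  have hu1 : ∀ y, -1 ≤ deriv F y ∧ deriv F y ≤ 1 := fun y => abs_le.1 (h1 y)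
  have hEp : ScE 0 (fun y => 1 + deriv F y) := lpa_E0 (continuous_const.add huc) ⟨2, fun y => by
    rw [abs_le]; constructor <;> linarith [(hu1 y).1, (hu1 y).2]⟩
  have hEm : ScE 0 (fun y => 1 - deriv F y) := lpa_E0 (continuous_const.sub huc) ⟨2, fun y => by
    rw [abs_le]; constructor <;> linarith [(hu1 y).1, (hu1 y).2]⟩
  have hEu : ScE 0 (deriv F) := lpa_E0 huc ⟨1, h1⟩
  have hEA : ScE 0 (fun y => (1 + deriv F y) * Real.exp (m * F y)) := hEp.mul_exp hF1 hF0 m
  have hEB : ScE 0 (fun y => (1 - deriv F y) * Real.exp (m * F y)) := hEm.mul_exp hF1 hF0 m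
  have hEue : ScE 0 (fun y => deriv F y * Real.exp (m * F y)) := hEu.mul_exp hF1 hF0 m
  have hEe : ScE 0 (fun y => Real.exp (m * F y)) := sc_B_exp_E0 hF1 m
  -- p and q
  obtain ⟨p, hpdef⟩ : ∃ p : ℝ → ℝ, p = fun y => (1 + deriv F y) * Real.exp (m * F y) * Real.exp (-m * y) := ⟨_, rfl⟩
  obtain ⟨q, hqdef⟩ : ∃ q : ℝ → ℝ, q = fun y => (1 - deriv F y) * Real.exp (m * F y) * Real.exp (m * y) := ⟨_, rfl⟩
  have hpE : ScE 0 p := by rw [hpdef]; exact hEA.mul (sc_scE_exp_lin (-m))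
  have hqE : ScE 0 q := by rw [hqdef]; exact hEB.mul (sc_scE_exp_lin m)
  have hp0 : ∀ y, 0 ≤ p y := fun y => by
    rw [hpdef]
    exact mul_nonneg (mul_nonneg (by linarith [(hu1 y).1]) (Real.exp_pos _).le) (Real.exp_pos _).le
  have hq0 : ∀ y, 0 ≤ q y := fun y => by
    rw [hqdef]
    exact mul_nonneg (mul_nonneg (by linarith [(hu1 y).2]) (Real.exp_pos _).le) (Real.exp_pos _).le
  have hd : ∀ y, HasDerivAt (deriv F) (deriv (deriv F) y) y := fun y => (hF.2.2.1 y).hasDerivAt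
  have hdF : ∀ y, HasDerivAt F (deriv F y) y := fun y => (hF.1 y).hasDerivAt
  have hde : ∀ y, HasDerivAt (fun y => Real.exp (m * F y)) (Real.exp (m * F y) * (m * deriv F y)) y := fun y => ((hdF y).const_mul m).exp
  have hdl : ∀ c y : ℝ, HasDerivAt (fun y => Real.exp (c * y)) (Real.exp (c * y) * c) y := fun c y => by
    simpa using ((hasDerivAt_id y).const_mul c).exp
  have hpd : ∀ y, HasDerivAt p (Real.exp (m * F y) * Real.exp (-m * y) * (deriv (deriv F) y - m * (1 - deriv F y ^ 2))) y := fun y => by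
    rw [hpdef]
    refine ((((hd y).const_add 1).mul (hde y)).mul (hdl (-m) y)).congr_deriv ?_
    simp only [Pi.mul_apply]
    ring
  have hqd : ∀ y, HasDerivAt q (-(Real.exp (m * F y) * Real.exp (m * y) * (deriv (deriv F) y - m * (1 - deriv F y ^ 2)))) y := fun y => by
    rw [hqdef]
    refine ((((hd y).const_sub 1).mul (hde y)).mul (hdl m y)).congr_deriv ?_
    simp only [Pi.mul_apply]
    ring
  have hpm : Monotone p := monotone_of_deriv_nonneg (fun y => (hpd y).differentiableAt) fun y => by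
    rw [(hpd y).deriv]
    exact mul_nonneg (mul_pos (Real.exp_pos _) (Real.exp_pos _)).le (by linarith [hlow y])
  have hqm : Antitone q := antitone_of_deriv_nonpos (fun y => (hqd y).differentiableAt) fun y => by
    rw [(hqd y).deriv, neg_nonpos]
    exact mul_nonneg (mul_pos (Real.exp_pos _) (Real.exp_pos _)).le (by linarith [hlow y])
  -- the three heat integrals
  have hW : 0 < scW m s F z := sc_W_pos hF1 m s z
  obtain ⟨W, hWdef⟩ : ∃ W, W = scW m s F z := ⟨_, rfl⟩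
  rw [← hWdef] at hW
  obtain ⟨G', hG'def⟩ : ∃ G', G' = deriv (scStep m s F) z := ⟨_, rfl⟩
  have hG : scHeat s (fun y => deriv F y * Real.exp (m * F y)) z = W * G' := by
    rw [hG'def, sc_step_deriv hF1, hWdef]
    unfold scTr
    rw [mul_div_cancel₀ _ (sc_W_pos hF1 m s z).ne']
  have hWe : scHeat s (fun y => Real.exp (m * F y)) z = W := hWdef.symm
  have hA : scHeat s (fun y => (1 + deriv F y) * Real.exp (m * F y)) z = W * (1 + G') := by
    have e : (fun y => (1 + deriv F y) * Real.exp (m * F y)) = fun y => Real.exp (m * F y) + deriv F y * Real.exp (m * F y) := by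
      funext y; ring
    rw [e, sc_heat_add hEe hEue]
    simp only
    rw [hG, hWe]; ring
  have hB : scHeat s (fun y => (1 - deriv F y) * Real.exp (m * F y)) z = W * (1 - G') := by
    have e : (fun y => (1 - deriv F y) * Real.exp (m * F y)) = fun y => Real.exp (m * F y) - deriv F y * Real.exp (m * F y) := by
      funext y; ring
    rw [e, sc_heat_sub hEe hEue]
    simp only
    rw [hG, hWe]; ring
  have hPA : Real.exp (m * z + m ^ 2 * s / 2) * scHeat s p z ≤ W * (1 + G') := by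
    rw [← hA]
    have e : (fun y => (1 + deriv F y) * Real.exp (m * F y)) = fun y => Real.exp (m * y) * p y := by
      funext y
      rw [hpdef]
      have : Real.exp (m * y) * Real.exp (-m * y) = 1 := by rw [← Real.exp_add]; simp
      calc (1 + deriv F y) * Real.exp (m * F y) = (1 + deriv F y) * Real.exp (m * F y) * (Real.exp (m * y) * Real.exp (-m * y)) := by
            rw [this, mul_one]
        _ = _ := by ring
    rw [e, lpa_heat_tilt m p hs z]
    exact mul_le_mul_of_nonneg_left (lpa_heat_mono_arg hpE hpm s (by nlinarith)) (Real.exp_pos _).le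
  have hQB : Real.exp (-m * z + m ^ 2 * s / 2) * scHeat s q z ≤ W * (1 - G') := by
    rw [← hB]
    have e : (fun y => (1 - deriv F y) * Real.exp (m * F y)) = fun y => Real.exp (-m * y) * q y := by
      funext y
      rw [hqdef]
      have : Real.exp (-m * y) * Real.exp (m * y) = 1 := by rw [← Real.exp_add]; simp
      calc (1 - deriv F y) * Real.exp (m * F y) = (1 - deriv F y) * Real.exp (m * F y) * (Real.exp (-m * y) * Real.exp (m * y)) := by
            rw [this, mul_one]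
        _ = _ := by ring
    rw [e, lpa_heat_tilt (-m) q hs z, neg_sq]
    exact mul_le_mul_of_nonneg_left (lpa_heat_anti_arg hqE hqm s (by nlinarith)) (Real.exp_pos _).le
  have hcs := lpa_heat_cs hpE hqE hp0 hq0 s z
  have eX : (fun y => √(p y * q y)) = fun y => √(1 - deriv F y ^ 2) * Real.exp (m * F y) := by
    funext y
    have h0 : 0 ≤ 1 - deriv F y ^ 2 := by nlinarith [(hu1 y).1, (hu1 y).2]
    have : p y * q y = (1 - deriv F y ^ 2) * Real.exp (m * F y) ^ 2 := by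
      rw [hpdef, hqdef]
      have : Real.exp (-m * y) * Real.exp (m * y) = 1 := by rw [← Real.exp_add]; simp
      calc (1 + deriv F y) * Real.exp (m * F y) * Real.exp (-m * y) * ((1 - deriv F y) * Real.exp (m * F y) * Real.exp (m * y))
          = (1 - deriv F y ^ 2) * Real.exp (m * F y) ^ 2 * (Real.exp (-m * y) * Real.exp (m * y)) := by ring
        _ = _ := by rw [this, mul_one]
    rw [this, Real.sqrt_mul h0, Real.sqrt_sq (Real.exp_pos _).le]
  rw [eX] at hcs
  obtain ⟨X, hXdef⟩ : ∃ X, X = scHeat s (fun y => √(1 - deriv F y ^ 2) * Real.exp (m * F y)) z := ⟨_, rfl⟩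
  rw [← hXdef] at hcs
  have hX0 : 0 ≤ X := by
    rw [hXdef]
    exact lpa_heat_nonneg (fun y => mul_nonneg (Real.sqrt_nonneg _) (Real.exp_pos _).le) s z
  have hP0 := lpa_heat_nonneg hp0 s z
  have hQ0 := lpa_heat_nonneg hq0 s z
  have hprod : Real.exp (m ^ 2 * s) * (scHeat s p z * scHeat s q z) ≤ W ^ 2 * (1 - G' ^ 2) := by
    have h := mul_le_mul hPA hQB (mul_nonneg (Real.exp_pos _).le hQ0) ((mul_nonneg (Real.exp_pos _).le hP0).trans hPA)
    have e : Real.exp (m * z + m ^ 2 * s / 2) * scHeat s p z * (Real.exp (-m * z + m ^ 2 * s / 2) * scHeat s q z)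
        = Real.exp (m ^ 2 * s) * (scHeat s p z * scHeat s q z) := by
      have : Real.exp (m * z + m ^ 2 * s / 2) * Real.exp (-m * z + m ^ 2 * s / 2) = Real.exp (m ^ 2 * s) := by
        rw [← Real.exp_add]; congr 1; ring
      rw [← this]; ring
    rw [e] at h
    calc _ ≤ _ := h
      _ = _ := by ring
  have hTr : scTr m s F (fun y => √(1 - deriv F y ^ 2)) z = X / W := by
    unfold scTr
    rw [← hXdef, ← hWdef]
  rw [hTr, ← hG'def]
  have hsq : (Real.exp (m ^ 2 * s / 2) * (X / W)) ^ 2 ≤ 1 - G' ^ 2 := by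
    have e1 : Real.exp (m ^ 2 * s / 2) ^ 2 = Real.exp (m ^ 2 * s) := by
      rw [← Real.exp_nat_mul]; congr 1; push_cast; ring
    rw [mul_pow, e1, div_pow, ← mul_div_assoc, div_le_iff₀ (by positivity)]
    calc Real.exp (m ^ 2 * s) * X ^ 2 ≤ Real.exp (m ^ 2 * s) * (scHeat s p z * scHeat s q z) :=
          mul_le_mul_of_nonneg_left hcs (Real.exp_pos _).le
      _ ≤ W ^ 2 * (1 - G' ^ 2) := hprod
      _ = _ := by ring
  have h5 := (le_abs_self _).trans (Real.abs_le_sqrt hsq)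
  rw [Real.exp_neg, inv_mul_eq_div, le_div_iff₀ (Real.exp_pos _)]
  linarith


/-- **S4, lower Riccati bound, one step**: `m' (1 - F'²) ≤ F''`, `m ≤ m'`  ⟹  `m (1 - G'²) ≤ G''` for `G = scStep m s F` -/
theorem lpa_low_step {F : ℝ → ℝ} (hF : ScB 2 F) (h1 : ∀ z, |deriv F z| ≤ 1) {m m' : ℝ} (hmm : m ≤ m') (s : ℝ)
    (hlow : ∀ z, m' * (1 - deriv F z ^ 2) ≤ deriv (deriv F) z) (z : ℝ) :
    m * (1 - deriv (scStep m s F) z ^ 2) ≤ deriv (deriv (scStep m s F)) z := by
  have hF1 : ScB 1 F := hF.of_succ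
  have huc : Continuous (deriv F) := hF.2.2.1.continuous
  have hEu2 : ScE 0 (fun y => deriv F y ^ 2) := lpa_E0 (huc.pow 2) ⟨1, fun y => by
    rw [abs_of_nonneg (sq_nonneg _)]
    exact (sq_le_one_iff_abs_le_one _).2 (h1 y)⟩
  obtain ⟨C, hC⟩ := hF.2.2.2.1
  have hEw : ScE 0 (deriv (deriv F)) := lpa_E0 hF.2.2.2.2 ⟨C, hC⟩
  have hE1 : ScE 0 (fun y => m' * (1 - deriv F y ^ 2)) := ((ScE.const 0 1).sub hEu2).const_mul m'
  have h2 := sc_tr_mono hF1 hE1 hEw hlow m s z
  rw [sc_tr_const_mul, sc_tr_sub hF1 (ScE.const 0 1) hEu2, sc_tr_const hF1] at h2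
  simp only at h2
  have h3 : scTr m s F (fun y => deriv F y ^ 2) z ≤ 1 := by
    have := sc_tr_mono hF1 hEu2 (ScE.const 0 1) (fun y => (sq_le_one_iff_abs_le_one _).2 (h1 y)) m s z
    rwa [sc_tr_const hF1] at this
  rw [sc_step_deriv2 hF, sc_step_deriv hF1]
  nlinarith

/-- **S4, upper Riccati bound, one step**: `F'' ≤ j (1 - F'²)`, `m ≤ j`  ⟹  the same for `G = scStep m s F` -/
theorem lpa_up_step {F : ℝ → ℝ} (hF : ScB 2 F) (h1 : ∀ z, |deriv F z| ≤ 1) {m j : ℝ} (hmj : m ≤ j) (s : ℝ)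
    (hup : ∀ z, deriv (deriv F) z ≤ j * (1 - deriv F z ^ 2)) (z : ℝ) :
    deriv (deriv (scStep m s F)) z ≤ j * (1 - deriv (scStep m s F) z ^ 2) := by
  have hF1 : ScB 1 F := hF.of_succ
  have huc : Continuous (deriv F) := hF.2.2.1.continuous
  have hEu : ScE 0 (deriv F) := lpa_E0 huc ⟨1, h1⟩
  have hEu2 : ScE 0 (fun y => deriv F y ^ 2) := lpa_E0 (huc.pow 2) ⟨1, fun y => by
    rw [abs_of_nonneg (sq_nonneg _)]
    exact (sq_le_one_iff_abs_le_one _).2 (h1 y)⟩
  obtain ⟨C, hC⟩ := hF.2.2.2.1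
  have hEw : ScE 0 (deriv (deriv F)) := lpa_E0 hF.2.2.2.2 ⟨C, hC⟩
  have hE1 : ScE 0 (fun y => j * (1 - deriv F y ^ 2)) := ((ScE.const 0 1).sub hEu2).const_mul j
  have h2 := sc_tr_mono hF1 hEw hE1 hup m s z
  rw [sc_tr_const_mul, sc_tr_sub hF1 (ScE.const 0 1) hEu2, sc_tr_const hF1] at h2
  simp only at h2
  have h3 := sc_tr_sq_le hF1 hEu m s z
  rw [sc_step_deriv2 hF, sc_step_deriv hF1]
  nlinarith

theorem lpa_V_lip {F : ℝ → ℝ} (hF : ScB 1 F) (h1 : ∀ z, |deriv F z| ≤ 1) (π : List (ℝ × ℝ)) : ∀ z, |deriv (scV F π) z| ≤ 1 := by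
  induction π with
  | nil => exact h1
  | cons p π ih => exact fun z => sc_step_deriv_le (lpa_V_B hF π) ih p.1 p.2 z

theorem lpa_hd_le {a : ℝ} {p : ℝ × ℝ} {π : List (ℝ × ℝ)} (hadm : ScAdm a (p :: π)) (hinc : ScInc (p :: π)) : p.1 ≤ lpaHd a π := by
  cases π with
  | nil => exact (hadm p List.mem_cons_self).2.1
  | cons q π' => exact (List.pairwise_cons.1 hinc).1 q List.mem_cons_self

/-- **S4 along a step profile, lower bound** (time `0` of the list; any other time is the list of the remaining steps): `α(0) (1 - u²) ≤ χ` -/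
theorem lpa_low_V {F : ℝ → ℝ} {a : ℝ} (hF : ScB 2 F) (h1 : ∀ z, |deriv F z| ≤ 1)
    (hlow : ∀ z, a * (1 - deriv F z ^ 2) ≤ deriv (deriv F) z) (π : List (ℝ × ℝ)) (hadm : ScAdm a π) (hinc : ScInc π) :
    ∀ z, lpaHd a π * (1 - deriv (scV F π) z ^ 2) ≤ deriv (deriv (scV F π)) z := by
  induction π with
  | nil => exact hlow
  | cons p π ih =>
    exact lpa_low_step (lpa_V_B hF π) (lpa_V_lip hF.of_succ h1 π) (lpa_hd_le hadm hinc) p.2
      (ih (fun q hq => hadm q (List.mem_cons_of_mem _ hq)) (List.pairwise_cons.1 hinc).2)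

/-- **S4 along a step profile, upper bound**: `χ ≤ j (1 - u²)` (masses `≤ j`, any order) -/
theorem lpa_up_V {F : ℝ → ℝ} {j : ℝ} (hF : ScB 2 F) (h1 : ∀ z, |deriv F z| ≤ 1)
    (hup : ∀ z, deriv (deriv F) z ≤ j * (1 - deriv F z ^ 2)) (π : List (ℝ × ℝ)) (hadm : ∀ p ∈ π, p.1 ≤ j) :
    ∀ z, deriv (deriv (scV F π)) z ≤ j * (1 - deriv (scV F π) z ^ 2) := by
  induction π with
  | nil => exact hup
  | cons p π ih =>
    exact lpa_up_step (lpa_V_B hF π) (lpa_V_lip hF.of_succ h1 π) (hadm p List.mem_cons_self) p.2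
      (ih fun q hq => hadm q (List.mem_cons_of_mem _ hq))

theorem lpa_rt_E0 {G : ℝ → ℝ} (hG : ScB 2 G) : ScE 0 (fun y => √(1 - deriv G y ^ 2)) := by
  have huc : Continuous (deriv G) := hG.2.2.1.continuous
  refine lpa_E0 (continuous_const.sub (huc.pow 2)).sqrt ⟨1, fun y => ?_⟩
  rw [abs_of_nonneg (Real.sqrt_nonneg _)]
  exact Real.sqrt_le_one.2 (by nlinarith [sq_nonneg (deriv G y)])

/-- **S9 along a step profile**: if all the masses are `≥ μ ≥ 0`, then `E[sqrt (1 - u²)(Z_end) | Z_0 = z] ≤ e^{-μ² len/2} sqrt (1 - u²)(0, z)` -/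
theorem lpa_decay_P {F : ℝ → ℝ} {a μ : ℝ} (hF : ScB 2 F) (h1 : ∀ z, |deriv F z| ≤ 1)
    (hlow : ∀ z, a * (1 - deriv F z ^ 2) ≤ deriv (deriv F) z) (hμ0 : 0 ≤ μ)
    (π : List (ℝ × ℝ)) (hadm : ScAdm a π) (hinc : ScInc π) (hμ : ∀ p ∈ π, μ ≤ p.1) (z : ℝ) :
    scP F π (fun y => √(1 - deriv F y ^ 2)) z ≤ Real.exp (-(μ ^ 2 * scLen π / 2)) * √(1 - deriv (scV F π) z ^ 2) := by
  induction π generalizing z with
  | nil => simp [scP, scV, scLen]
  | cons p π ih =>
    have hadm' : ScAdm a π := fun q hq => hadm q (List.mem_cons_of_mem _ hq)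
    have hinc' : ScInc π := (List.pairwise_cons.1 hinc).2
    have hp := hadm p List.mem_cons_self
    have hle : p.1 ≤ lpaHd a π := lpa_hd_le hadm hinc
    have hV := lpa_V_B hF π
    have hL := lpa_V_lip hF.of_succ h1 π
    have hlowV : ∀ y, p.1 * (1 - deriv (scV F π) y ^ 2) ≤ deriv (deriv (scV F π)) y := by
      intro y
      have h2 := lpa_low_V hF h1 hlow π hadm' hinc' y
      have h3 : 0 ≤ 1 - deriv (scV F π) y ^ 2 := by
        have := (sq_le_one_iff_abs_le_one _).2 (hL y)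
        linarith
      nlinarith
    have hstep := lpa_decay_step hV hL hp.1 hp.2.2 hlowV z
    have hmono := sc_tr_mono hV.of_succ (lpa_P_E0 hF.of_succ (lpa_rt_E0 hF) π) ((lpa_rt_E0 hV).const_mul (Real.exp (-(μ ^ 2 * scLen π / 2))))
      (fun y => ih hadm' hinc' (fun q hq => hμ q (List.mem_cons_of_mem _ hq)) y) p.1 p.2 z
    rw [sc_tr_const_mul] at hmono
    simp only at hmono
    have hμp : μ ≤ p.1 := hμ p List.mem_cons_self
    have hexp : Real.exp (-(μ ^ 2 * scLen π / 2)) * Real.exp (-(p.1 ^ 2 * p.2 / 2)) ≤ Real.exp (-(μ ^ 2 * scLen (p :: π) / 2)) := by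
      rw [← Real.exp_add]
      apply Real.exp_le_exp.2
      have : scLen (p :: π) = p.2 + scLen π := rfl
      rw [this]
      have h4 : μ ^ 2 ≤ p.1 ^ 2 := pow_le_pow_left₀ hμ0 hμp 2
      nlinarith [hp.2.2]
    calc scP F (p :: π) (fun y => √(1 - deriv F y ^ 2)) z
        ≤ Real.exp (-(μ ^ 2 * scLen π / 2)) * scTr p.1 p.2 (scV F π) (fun y => √(1 - deriv (scV F π) y ^ 2)) z := hmono
      _ ≤ Real.exp (-(μ ^ 2 * scLen π / 2)) * (Real.exp (-(p.1 ^ 2 * p.2 / 2)) * √(1 - deriv (scStep p.1 p.2 (scV F π)) z ^ 2)) :=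
          mul_le_mul_of_nonneg_left hstep (Real.exp_pos _).le
      _ = (Real.exp (-(μ ^ 2 * scLen π / 2)) * Real.exp (-(p.1 ^ 2 * p.2 / 2))) * √(1 - deriv (scStep p.1 p.2 (scV F π)) z ^ 2) := by ring
      _ ≤ _ := mul_le_mul_of_nonneg_right hexp (Real.sqrt_nonneg _)


/-- consequence: `E[χ²(Z_end) | Z_0 = z] ≤ j² e^{-μ² len/2}` -/
theorem lpa_decay_chi_sq {F : ℝ → ℝ} {a j μ : ℝ} (hF : ScB 2 F) (h1 : ∀ z, |deriv F z| ≤ 1)
    (hlow : ∀ z, a * (1 - deriv F z ^ 2) ≤ deriv (deriv F) z) (hup : ∀ z, deriv (deriv F) z ≤ j * (1 - deriv F z ^ 2))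
    (hcv : ∀ z, 0 ≤ deriv (deriv F) z) (hμ0 : 0 ≤ μ)
    (π : List (ℝ × ℝ)) (hadm : ScAdm a π) (hinc : ScInc π) (hμ : ∀ p ∈ π, μ ≤ p.1) (z : ℝ) :
    scP F π (fun y => deriv (deriv F) y ^ 2) z ≤ j ^ 2 * Real.exp (-(μ ^ 2 * scLen π / 2)) := by
  obtain ⟨C, hC⟩ := hF.2.2.2.1
  have hEw2 : ScE 0 (fun y => deriv (deriv F) y ^ 2) := (lpa_E0 hF.2.2.2.2 ⟨C, hC⟩).pow 2
  have hpt : ∀ y, deriv (deriv F) y ^ 2 ≤ j ^ 2 * √(1 - deriv F y ^ 2) := by
    intro y
    have h0 : 0 ≤ 1 - deriv F y ^ 2 := by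
      have := (sq_le_one_iff_abs_le_one _).2 (h1 y)
      linarith
    have h2 : 1 - deriv F y ^ 2 ≤ 1 := by nlinarith [sq_nonneg (deriv F y)]
    obtain ⟨r, hr⟩ : ∃ r, r = √(1 - deriv F y ^ 2) := ⟨_, rfl⟩
    have hr0 : 0 ≤ r := hr ▸ Real.sqrt_nonneg _
    have hr1 : r ≤ 1 := hr ▸ Real.sqrt_le_one.2 h2
    have hr2 : r ^ 2 = 1 - deriv F y ^ 2 := hr ▸ Real.sq_sqrt h0
    rw [← hr]
    have h3 : deriv (deriv F) y ^ 2 ≤ (j * r ^ 2) ^ 2 := by
      rw [hr2]
      exact pow_le_pow_left₀ (hcv y) (hup y) 2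
    have h4 : r ^ 4 ≤ r := by
      have : r ^ 3 ≤ 1 := pow_le_one₀ hr0 hr1
      nlinarith
    calc deriv (deriv F) y ^ 2 ≤ (j * r ^ 2) ^ 2 := h3
      _ = j ^ 2 * r ^ 4 := by ring
      _ ≤ j ^ 2 * r := mul_le_mul_of_nonneg_left h4 (sq_nonneg j)
  have hmono : ∀ (π : List (ℝ × ℝ)) (φ ψ : ℝ → ℝ), ScE 0 φ → ScE 0 ψ → (∀ y, φ y ≤ ψ y) → ∀ y, scP F π φ y ≤ scP F π ψ y := by
    intro π
    induction π with
    | nil => exact fun φ ψ _ _ h => h
    | cons p π ih =>
      intro φ ψ hφ hψ h y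
      exact sc_tr_mono (lpa_V_B hF.of_succ π) (lpa_P_E0 hF.of_succ hφ π) (lpa_P_E0 hF.of_succ hψ π) (ih φ ψ hφ hψ h) p.1 p.2 y
  have h5 := hmono π _ _ hEw2 ((lpa_rt_E0 hF).const_mul (j ^ 2)) hpt z
  rw [lpa_P_const_mul] at h5
  have h6 := lpa_decay_P hF h1 hlow hμ0 π hadm hinc hμ z
  have h7 : √(1 - deriv (scV F π) z ^ 2) ≤ 1 := Real.sqrt_le_one.2 (by nlinarith [sq_nonneg (deriv (scV F π) z)])
  calc scP F π (fun y => deriv (deriv F) y ^ 2) z ≤ j ^ 2 * scP F π (fun y => √(1 - deriv F y ^ 2)) z := h5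
    _ ≤ j ^ 2 * (Real.exp (-(μ ^ 2 * scLen π / 2)) * 1) :=
        mul_le_mul_of_nonneg_left (h6.trans (mul_le_mul_of_nonneg_left h7 (Real.exp_pos _).le)) (sq_nonneg j)
    _ = _ := by ring

/-! ### the standard terminal datum -/

theorem lpa_F_deriv {a : ℝ} (ha : a ≠ 0) (c : ℝ) : deriv (lpaF a c) = fun z => Real.tanh (a * z) :=
  funext fun z => (lpa_F_hasDerivAt ha c z).deriv

theorem lpa_F_lip {a : ℝ} (ha : a ≠ 0) (c z : ℝ) : |deriv (lpaF a c) z| ≤ 1 := by
  rw [lpa_F_deriv ha]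
  exact (Real.abs_tanh_lt_one _).le

/-- the Riccati identity of the terminal datum -/
theorem lpa_F_riccati {a : ℝ} (ha : a ≠ 0) (c z : ℝ) : deriv (deriv (lpaF a c)) z = a * (1 - deriv (lpaF a c) z ^ 2) := by
  rw [lpa_F_deriv2 ha, lpa_F_deriv ha]

end Claimed.Agent.R286
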