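import Claimed.Agent.R286.Sc.Tau
import Claimed.Agent.R286.LL.PathsSc
import Claimed.Agent.R286.LL.PathsPk
import Claimed.Agent.R286.LL.PathsAnn283

/-!
# Row 286 (S0533), LL Section 3, DER part B: `LscMod.Ok M ⇒ LppOk ⟨M.V, M.E⟩`      (helper46, ADV of L03; prefix `lse_`)

The perturbation kit of LL 03 (`LL/PathsPk*`, architect helper121) stands on the abstract package `LppOk S`.      The scalar API on general monotone profiles is `LscMod.Ok M` (`LL/PathsSc`, head helper272;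
supplier BOX-C).      This file derives the fields of `LppOk` from the rules of `LscMod.Ok` for `S = ⟨M.V, M.E⟩`:
`ex_*, smooth, even, bd, hess, M3c, N3c, curve, gam, guerra, ann, term, dlip` (ALL orders).      `mom2, llip, dec` = helper277 (`LL/PathsDerA`, prefix `lsd_`).
-/

set_option autoImplicit false

namespace Claimed.Agent.R286

open MeasureTheory Set Filter Topology

/-! ## 1. vocabulary -/

/-- the package model of a scalar model -/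
def LscMod.pp (M : LscMod) : LppMod := ⟨M.V, M.E⟩

theorem lse_prof {A : ℝ → ℝ} {j : ℝ} (h : LppAdm A j) : ∃ Ξ, LscProf j Ξ A := by
  obtain ⟨τ, hτ⟩ := h.top
  exact ⟨max τ 0, h.mono, h.nn 0 le_rfl, fun ξ hξ => hτ ξ ((le_max_left _ _).trans hξ), le_max_right _ _⟩

theorem LppAdm.jpos {A : ℝ → ℝ} {j : ℝ} (h : LppAdm A j) : 0 < j := lt_of_lt_of_le one_pos h.j1

theorem lse_cls {g : ℝ → ℝ} (h : LppCls g) : ScE 0 g := by
  obtain ⟨hc, C, hC⟩ := h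
  refine ⟨hc, 2 * |C|, 1, fun z => (hC z).trans ?_⟩
  have h1 := Real.quadratic_le_exp_of_nonneg (abs_nonneg z)
  rw [sq_abs] at h1
  have h2 : 1 + z ^ 2 ≤ 2 * Real.exp (1 * |z|) := by
    rw [one_mul]; nlinarith [abs_nonneg z]
  calc C * (1 + z ^ 2) ≤ |C| * (1 + z ^ 2) := mul_le_mul_of_nonneg_right (le_abs_self C) (by positivity)
    _ ≤ |C| * (2 * Real.exp (1 * |z|)) := mul_le_mul_of_nonneg_left h2 (abs_nonneg _)
    _ = _ := by ring

theorem lse_E_contDiff {n : ℕ} {f : ℝ → ℝ} (h : ScE n f) : ContDiff ℝ n f := by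
  induction n generalizing f with
  | zero => exact contDiff_zero.2 h.1
  | succ n ih =>
    have := (contDiff_succ_iff_deriv (𝕜 := ℝ) (f := f) (n := n)).2 ⟨h.differentiable, by simp, ih h.deriv⟩
    exact_mod_cast this

theorem lse_T_iter {I : Set ℝ} {n : ℕ} (k : ℕ) {ψ : ℝ → ℝ → ℝ} (h : ScT I (n + k) ψ) : ScT I n fun r => deriv^[k] (ψ r) := by
  induction k generalizing ψ with
  | zero => exact h
  | succ k ih =>
    have h1 : ScT I (n + k) fun r => deriv (ψ r) := h.2.2.2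
    exact ih h1

theorem lse_E_iter {n : ℕ} (k : ℕ) {f : ℝ → ℝ} (h : ScE (n + k) f) : ScE n (deriv^[k] f) := by
  induction k generalizing f with
  | zero => exact h
  | succ k ih =>
    have h1 : ScE (n + k) (deriv f) := h.deriv
    exact ih h1

namespace LscMod

variable {M : LscMod}

theorem pp_vk (k : ℕ) (A : ℝ → ℝ) (j ξ z : ℝ) : M.pp.vk k A j ξ z = M.D k A j ξ z := by
  unfold LppMod.vk LscMod.D LscMod.pp
  rw [iteratedDeriv_eq_iterate]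

theorem D_zero (A : ℝ → ℝ) (j ξ : ℝ) : M.D 0 A j ξ = M.V A j ξ := rfl

theorem D_succ (k : ℕ) (A : ℝ → ℝ) (j ξ : ℝ) : deriv (M.D k A j ξ) = M.D (k + 1) A j ξ := by
  unfold LscMod.D
  rw [Function.iterate_succ_apply']

theorem D_iter (i k : ℕ) (A : ℝ → ℝ) (j ξ : ℝ) : deriv^[i] (M.D k A j ξ) = M.D (k + i) A j ξ := by
  unfold LscMod.D
  rw [add_comm, Function.iterate_add_apply]

theorem Ok.D_T (h : M.Ok) {A : ℝ → ℝ} {j Ξ : ℝ} (hj : 0 < j) (hA : LscProf j Ξ A) (R : ℝ) (n k : ℕ) :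
    ScT (Icc 0 R) n fun ξ => M.D k A j ξ := lse_T_iter k (h.V_T hj hA R (n + k))

theorem Ok.D_E (h : M.Ok) {A : ℝ → ℝ} {j Ξ : ℝ} (hj : 0 < j) (hA : LscProf j Ξ A) {ξ : ℝ} (hξ : 0 ≤ ξ) (n k : ℕ) :
    ScE n (M.D k A j ξ) := (h.D_T hj hA ξ n k).scE ⟨hξ, le_rfl⟩

theorem Ok.D_diff (h : M.Ok) {A : ℝ → ℝ} {j Ξ : ℝ} (hj : 0 < j) (hA : LscProf j Ξ A) {ξ : ℝ} (hξ : 0 ≤ ξ) (k : ℕ) :
    Differentiable ℝ (M.D k A j ξ) := (h.D_E hj hA hξ 1 k).differentiable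

theorem Ok.D_hasDeriv (h : M.Ok) {A : ℝ → ℝ} {j Ξ : ℝ} (hj : 0 < j) (hA : LscProf j Ξ A) {ξ : ℝ} (hξ : 0 ≤ ξ) (k : ℕ) (z : ℝ) :
    HasDerivAt (M.D k A j ξ) (M.D (k + 1) A j ξ z) z := by
  rw [← D_succ]
  exact (h.D_diff hj hA hξ k z).hasDerivAt

theorem Ok.D_parity (h : M.Ok) {A : ℝ → ℝ} {j Ξ : ℝ} (hj : 0 < j) (hA : LscProf j Ξ A) {ξ : ℝ} (hξ : 0 ≤ ξ) (k : ℕ) (z : ℝ) :
    M.D k A j ξ (-z) = (-1) ^ k * M.D k A j ξ z := by
  induction k generalizing z with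
  | zero => simpa [D_zero] using h.V_even hj hA ξ hξ z
  | succ k ih =>
    have e : (fun y => M.D k A j ξ (-y)) = fun y => (-1) ^ k * M.D k A j ξ y := funext ih
    have h1 := deriv_comp_neg (M.D k A j ξ) z
    rw [e, deriv_const_mul _ (h.D_diff hj hA hξ k z), D_succ] at h1
    rw [pow_succ]
    linarith

end LscMod

/-! ## 2. the immediate fields -/

section easy

variable {M : LscMod}

theorem lse_ex_add (h : M.Ok) : ∀ A j, LppAdm A j → ∀ ξ, 0 ≤ ξ → ∀ f g, LppCls f → LppCls g →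
    M.pp.Ex A j ξ (fun z => f z + g z) = M.pp.Ex A j ξ f + M.pp.Ex A j ξ g := by
  intro A j hA ξ hξ f g hf hg
  obtain ⟨Ξ, hP⟩ := lse_prof hA
  exact h.P_add hA.jpos hP le_rfl hξ (lse_cls hf) (lse_cls hg) 0

theorem lse_ex_smul (h : M.Ok) : ∀ A j, LppAdm A j → ∀ ξ, 0 ≤ ξ → ∀ (c : ℝ) f, LppCls f →
    M.pp.Ex A j ξ (fun z => c * f z) = c * M.pp.Ex A j ξ f := by
  intro A j hA ξ hξ c f hf
  obtain ⟨Ξ, hP⟩ := lse_prof hA
  exact h.P_smul hA.jpos hP le_rfl hξ c (lse_cls hf) 0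

theorem lse_ex_mono (h : M.Ok) : ∀ A j, LppAdm A j → ∀ ξ, 0 ≤ ξ → ∀ f g, LppCls f → LppCls g → (∀ z, f z ≤ g z) →
    M.pp.Ex A j ξ f ≤ M.pp.Ex A j ξ g := by
  intro A j hA ξ hξ f g hf hg hfg
  obtain ⟨Ξ, hP⟩ := lse_prof hA
  exact h.P_mono hA.jpos hP le_rfl hξ (lse_cls hf) (lse_cls hg) hfg 0

theorem lse_ex_one (h : M.Ok) : ∀ A j, LppAdm A j → ∀ ξ, 0 ≤ ξ → M.pp.Ex A j ξ (fun _ => 1) = 1 := by
  intro A j hA ξ hξ
  obtain ⟨Ξ, hP⟩ := lse_prof hA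
  exact h.P_const hA.jpos hP le_rfl hξ 1 0

theorem lse_ex_zero (h : M.Ok) : ∀ A j, LppAdm A j → ∀ g, LppCls g → M.pp.Ex A j 0 g = g 0 := by
  intro A j _ g _
  exact congrFun (h.P_self A j 0 g) 0

theorem lse_smooth (h : M.Ok) : ∀ A j, LppAdm A j → ∀ ξ, 0 ≤ ξ → ∀ n : ℕ, ContDiff ℝ n (M.pp.V A j ξ) := by
  intro A j hA ξ hξ n
  obtain ⟨Ξ, hP⟩ := lse_prof hA
  exact lse_E_contDiff (h.D_E hA.jpos hP hξ n 0)

theorem lse_even (h : M.Ok) : ∀ A j, LppAdm A j → ∀ ξ, 0 ≤ ξ → ∀ z, M.pp.V A j ξ (-z) = M.pp.V A j ξ z := by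
  intro A j hA ξ hξ z
  obtain ⟨Ξ, hP⟩ := lse_prof hA
  exact h.V_even hA.jpos hP ξ hξ z

/-- the tau-free bounds, on `D`, with a nonnegative constant -/
theorem lse_bdD (h : M.Ok) (k : ℕ) (hk : 1 ≤ k) : ∃ C : ℝ, 0 ≤ C ∧ ∀ A j, LppAdm A j → ∀ ξ, 0 ≤ ξ → ∀ z, |M.D k A j ξ z| ≤ C := by
  obtain ⟨C, hC⟩ := h.V_bd 4 k hk
  refine ⟨|C|, abs_nonneg _, fun A j hA ξ hξ z => ?_⟩
  obtain ⟨Ξ, hP⟩ := lse_prof hA
  exact (hC A j Ξ hA.j1 hA.j4 hP ξ hξ z).trans (le_abs_self C)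

theorem lse_bd (h : M.Ok) : ∀ k : ℕ, 1 ≤ k → ∃ C : ℝ, ∀ A j, LppAdm A j → ∀ ξ, 0 ≤ ξ → ∀ z, |M.pp.vk k A j ξ z| ≤ C := by
  intro k hk
  obtain ⟨C, -, hC⟩ := lse_bdD h k hk
  exact ⟨C, fun A j hA ξ hξ z => by rw [LscMod.pp_vk]; exact hC A j hA ξ hξ z⟩

theorem lse_hess (h : M.Ok) : ∀ A j, LppAdm A j → ∀ ξ, 0 ≤ ξ → ∀ z, 0 < M.pp.vk 2 A j ξ z ∧
    A ξ * (1 - M.pp.vk 1 A j ξ z ^ 2) ≤ M.pp.vk 2 A j ξ z ∧ M.pp.vk 2 A j ξ z ≤ j * (1 - M.pp.vk 1 A j ξ z ^ 2) := by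
  intro A j hA ξ hξ z
  obtain ⟨Ξ, hP⟩ := lse_prof hA
  simp only [LscMod.pp_vk]
  exact ⟨h.chi_pos hA.jpos hP ξ hξ z, h.chi_lo hA.jpos hP ξ hξ z, h.chi_hi hA.jpos hP ξ hξ z⟩

theorem lse_M2 (A : ℝ → ℝ) (j ξ : ℝ) : M.pp.M2 A j ξ = M.Gam1 A j ξ := by
  unfold LppMod.M2 LscMod.Gam1
  simp only [LscMod.pp_vk]
  rfl

theorem lse_Gam (A : ℝ → ℝ) (j ξ : ℝ) : M.pp.Gam A j ξ = M.Gam A j ξ := by
  unfold LppMod.Gam LscMod.Gam
  simp only [LscMod.pp_vk]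
  rfl

theorem lse_ann (h : M.Ok) : ∀ A, LppAdm A 1 → ∀ s, 0 ≤ s → (∀ ξ, s ≤ ξ → A ξ = 1) → ∀ d, 0 ≤ d →
    M.pp.M2 A 1 (s + d) ≤ Real.exp (-d / 2) * M.pp.M2 A 1 s := by
  intro A hA s hs htop d hd
  rw [lse_M2, lse_M2]
  exact h.ann ⟨hA.mono, hA.nn 0 le_rfl, htop, hs⟩ d hd

end easy

/-! ## 3. the moment curves -/

section curves

variable {M : LscMod}

/-- forward continuity of `ξ ↦ E ψ_ξ(Z_ξ)` on the half line -/
theorem lse_E_cont (h : M.Ok) {A : ℝ → ℝ} {j Ξ : ℝ} (hj : 0 < j) (hA : LscProf j Ξ A) {ψ : ℝ → ℝ → ℝ} (hψ : ∀ R, ScT (Icc 0 R) 0 ψ) :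
    ContinuousOn (fun ξ => M.E A j ξ (ψ ξ)) (Ici 0) := by
  intro x hx
  have hx0 : (0 : ℝ) ≤ x := hx
  have h1 := h.P_fwd hj hA le_rfl (by linarith : (0 : ℝ) ≤ x + 1) (hψ (x + 1)) 0 x ⟨hx0, by linarith⟩
  refine h1.mono_of_mem_nhdsWithin ?_
  have : Icc (0 : ℝ) (x + 1) = Ici 0 ∩ Iic (x + 1) := rfl
  rw [this]
  exact inter_mem_nhdsWithin _ (Iic_mem_nhds (by linarith))

/-- Dynkin's formula started from the origin, between two times -/
theorem lse_E_dyn (h : M.Ok) {A : ℝ → ℝ} {j Ξ : ℝ} (hj : 0 < j) (hA : LscProf j Ξ A) {φ G : ℝ → ℝ → ℝ} (hD : ∀ t, 0 ≤ t → M.Dyn A j 0 t φ G)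
    {ξ ξ' : ℝ} (hξ : 0 ≤ ξ) (hξ' : ξ ≤ ξ') :
    IntervalIntegrable (fun r => M.E A j r (G r)) volume ξ ξ' ∧ M.E A j ξ' (φ ξ') - M.E A j ξ (φ ξ) = ∫ r in ξ..ξ', M.E A j r (G r) := by
  obtain ⟨i1, e1⟩ := h.dynkin hj hA le_rfl hξ (hD ξ hξ) 0
  obtain ⟨i2, e2⟩ := h.dynkin hj hA le_rfl (hξ.trans hξ') (hD ξ' (hξ.trans hξ')) 0
  refine ⟨i1.symm.trans i2, ?_⟩
  have := intervalIntegral.integral_interval_sub_left i2 i1
  unfold LscMod.E
  rw [← this, ← e1, ← e2]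
  ring

theorem lse_M3c (h : M.Ok) : ∀ A j, LppAdm A j → ContinuousOn (M.pp.M3 A j) (Ici 0) := by
  intro A j hA
  obtain ⟨Ξ, hP⟩ := lse_prof hA
  have := lse_E_cont h hA.jpos hP (ψ := fun ξ z => M.D 2 A j ξ z ^ 3) fun R => (h.D_T hA.jpos hP R 0 2).pow 3
  refine this.congr fun ξ _ => ?_
  unfold LppMod.M3
  simp only [LscMod.pp_vk]
  rfl

theorem lse_N3c (h : M.Ok) : ∀ A j, LppAdm A j → ContinuousOn (M.pp.N3 A j) (Ici 0) := by
  intro A j hA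
  obtain ⟨Ξ, hP⟩ := lse_prof hA
  have := lse_E_cont h hA.jpos hP (ψ := fun ξ z => M.D 3 A j ξ z ^ 2) fun R => (h.D_T hA.jpos hP R 0 3).pow 2
  refine this.congr fun ξ _ => ?_
  unfold LppMod.N3
  simp only [LscMod.pp_vk]
  rfl

theorem lse_curve (h : M.Ok) : ∀ A j, LppAdm A j → ∀ ξ ξ', 0 ≤ ξ → ξ ≤ ξ' →
    M.pp.M2 A j ξ' - M.pp.M2 A j ξ = ∫ r in ξ..ξ', (M.pp.N3 A j r - 2 * A r * M.pp.M3 A j r) := by
  intro A j hA ξ ξ' hξ hξ'
  obtain ⟨Ξ, hP⟩ := lse_prof hA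
  have hj := hA.jpos
  have hD : ∀ t, 0 ≤ t → M.Dyn A j 0 t (fun r y => M.D 2 A j r y ^ 2)
      (fun r y => M.D 3 A j r y ^ 2 + (-(2 * A r)) * M.D 2 A j r y ^ 3) := by
    intro t ht
    refine h.dyn_congr (h.dyn_mul (h.dyn_V2 hj hP le_rfl ht) (h.dyn_V2 hj hP le_rfl ht)) (fun r _ => ?_) (fun r _ => ?_)
    · funext y; ring
    · funext y
      simp only [LscMod.D_succ]
      ring
  obtain ⟨-, e⟩ := lse_E_dyn h hj hP hD hξ hξ'
  have e2 : ∀ r, M.pp.M2 A j r = M.E A j r (fun y => M.D 2 A j r y ^ 2) := fun r => lse_M2 A j r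
  rw [e2, e2, e]
  refine intervalIntegral.integral_congr fun r hr => ?_
  rw [uIcc_of_le hξ'] at hr
  have hr0 : 0 ≤ r := hξ.trans hr.1
  have a1 : ScE 0 (fun y => M.D 3 A j r y ^ 2) := (h.D_E hj hP hr0 0 3).pow 2
  have a2 : ScE 0 (fun y => M.D 2 A j r y ^ 3) := (h.D_E hj hP hr0 0 2).pow 3
  unfold LscMod.E
  rw [h.P_add hj hP le_rfl hr0 a1 (a2.const_mul _), h.P_smul hj hP le_rfl hr0 _ a2]
  unfold LppMod.N3 LppMod.M3
  simp only [LscMod.pp_vk]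
  unfold LscMod.pp LscMod.E
  ring

theorem lse_gam (h : M.Ok) : ∀ A j, LppAdm A j → ∀ ξ, 0 ≤ ξ → M.pp.Gam A j ξ = ∫ r in (0 : ℝ)..ξ, M.pp.M2 A j r := by
  intro A j hA ξ hξ
  obtain ⟨Ξ, hP⟩ := lse_prof hA
  have hj := hA.jpos
  have hD : ∀ t, 0 ≤ t → M.Dyn A j 0 t (fun r y => M.D 1 A j r y ^ 2) (fun r y => M.D 2 A j r y ^ 2) := by
    intro t ht
    refine h.dyn_congr (h.dyn_mul (h.dyn_V1 hj hP le_rfl ht) (h.dyn_V1 hj hP le_rfl ht)) (fun r _ => ?_) (fun r _ => ?_)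
    · funext y; ring
    · funext y
      simp only [LscMod.D_succ]
      ring
  obtain ⟨-, e⟩ := lse_E_dyn h hj hP hD le_rfl hξ
  have e0 : M.E A j 0 (fun y => M.D 1 A j 0 y ^ 2) = 0 := by
    unfold LscMod.E
    rw [h.P_self]
    have := h.D_parity hj hP le_rfl 1 0
    simp only [neg_zero, pow_one] at this
    have h0 : M.D 1 A j 0 0 = 0 := by linarith
    simp [h0]
  rw [e0, sub_zero] at e
  rw [lse_Gam]
  unfold LscMod.Gam
  rw [e]
  exact intervalIntegral.integral_congr fun r _ => (lse_M2 A j r).symm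

end curves

/-! ## 4. comparison of two profiles -/

section cmp

variable {M : LscMod}

theorem LscProf.nn {A : ℝ → ℝ} {j Ξ : ℝ} (h : LscProf j Ξ A) {r : ℝ} (hr : 0 ≤ r) : 0 ≤ A r :=
  h.nonneg.trans (h.mono (mem_Ici.2 le_rfl) (mem_Ici.2 hr) hr)

theorem LscProf.intble {A : ℝ → ℝ} {j Ξ : ℝ} (h : LscProf j Ξ A) {s t : ℝ} (hs : 0 ≤ s) (hst : s ≤ t) : IntervalIntegrable A volume s t := by
  refine (h.mono.mono ?_).intervalIntegrable
  rw [uIcc_of_le hst]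
  exact fun x hx => mem_Ici.2 (hs.trans hx.1)

theorem lse_abs_intble {A A' : ℝ → ℝ} {j j' Ξ Ξ' : ℝ} (hA : LscProf j Ξ A) (hA' : LscProf j' Ξ' A') {s t : ℝ} (hs : 0 ≤ s) (hst : s ≤ t) :
    IntervalIntegrable (fun r => |A' r - A r|) volume s t := ((hA'.intble hs hst).sub (hA.intble hs hst)).abs

theorem lse_tail {f : ℝ → ℝ} {ξ T : ℝ} (hT : ξ ≤ T) (h : ∀ r, T ≤ r → f r = 0) : ∫ r in Ioi ξ, f r = ∫ r in ξ..T, f r := by
  rw [intervalIntegral.integral_of_le hT]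
  refine setIntegral_eq_of_subset_of_forall_sdiff_eq_zero measurableSet_Ioi Ioc_subset_Ioi_self fun x hx => h x ?_
  by_contra hlt
  exact hx.2 ⟨hx.1, (not_le.1 hlt).le⟩

/-- the source of the defect identity -/
noncomputable def lseG (M : LscMod) (A : ℝ → ℝ) (j : ℝ) (A' : ℝ → ℝ) (j' : ℝ) (r y : ℝ) : ℝ :=
  -((A' r - A r) * M.D 1 A' j' r y ^ 2 / 2 + A r * (M.D 1 A' j' r y - M.D 1 A j r y) ^ 2 / 2)

/-- the defect identity: `(∂_r + L^A)(V' - V) = -(A'-A) u'²/2 - A (u'-u)²/2` -/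
theorem lse_dyn_diff (h : M.Ok) {A A' : ℝ → ℝ} {j j' Ξ Ξ' : ℝ} (hj : 0 < j) (hj' : 0 < j') (hA : LscProf j Ξ A) (hA' : LscProf j' Ξ' A')
    {s t : ℝ} (hs : 0 ≤ s) (hst : s ≤ t) :
    M.Dyn A j s t (fun r y => M.V A' j' r y - M.V A j r y) (lseG M A j A' j') := by
  have h1 := h.dyn_model hj hj' hA hA' hs (h.dyn_V0 hj' hA' hs hst)
  have h2 := h.dyn_smul (-1) (h.dyn_V0 hj hA hs hst)
  refine h.dyn_congr (h.dyn_add h1 h2) (fun r _ => ?_) (fun r _ => ?_)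
  · funext y; ring
  · funext y
    have e : deriv (M.V A' j' r) y = M.D 1 A' j' r y := rfl
    rw [e]
    unfold lseG LscMod.dr
    ring

/-- one sided comparison -/
theorem lse_cmp_lo (h : M.Ok) {A A' : ℝ → ℝ} {j j' Ξ Ξ' : ℝ} (hj : 0 < j) (hj' : 0 < j') (hA : LscProf j Ξ A) (hA' : LscProf j' Ξ' A')
    {s t : ℝ} (hs : 0 ≤ s) (hst : s ≤ t) {c : ℝ} (hc : ∀ z, c ≤ M.V A' j' t z - M.V A j t z) (z : ℝ) :
    c - (1 / 2) * ∫ r in s..t, |A' r - A r| ≤ M.V A' j' s z - M.V A j s z := by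
  have hD := lse_dyn_diff h hj hj' hA hA' hs hst
  obtain ⟨hi, he⟩ := h.dynkin hj hA hs hst hD z
  have hE : ScE 0 (fun y => M.V A' j' t y - M.V A j t y) := ((h.dyn_reg hD).scE ⟨hst, le_rfl⟩).mono (by omega)
  have h1 : c ≤ M.P A j s t (fun y => M.V A' j' t y - M.V A j t y) z := by
    have := h.P_mono hj hA hs hst (ScE.const 0 c) hE hc z
    rwa [h.P_const hj hA hs hst] at this
  have h2 : ∫ r in s..t, M.P A j s r (lseG M A j A' j' r) z ≤ ∫ r in s..t, (1 / 2) * |A' r - A r| := by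
    refine intervalIntegral.integral_mono_on hst hi ((lse_abs_intble hA hA' hs hst).const_mul _) fun r hr => ?_
    have hr0 : 0 ≤ r := hs.trans hr.1
    have := h.P_mono hj hA hs hr.1 ((h.dyn_gen hD).1 r hr) (ScE.const 0 ((1 / 2) * |A' r - A r|)) (fun y => ?_) z
    · rwa [h.P_const hj hA hs hr.1] at this
    · unfold lseG
      have hu := h.u_le hj' hA' r hr0 y
      have hu2 : M.D 1 A' j' r y ^ 2 ≤ 1 := by
        rw [← sq_abs]; exact pow_le_one₀ (abs_nonneg _) hu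
      have hu0 : 0 ≤ M.D 1 A' j' r y ^ 2 := sq_nonneg _
      have hAr := hA.nn hr0
      have h3 : -(|A' r - A r|) ≤ (A' r - A r) * M.D 1 A' j' r y ^ 2 := by
        have := neg_abs_le (A' r - A r)
        have := abs_nonneg (A' r - A r)
        nlinarith
      have h4 : 0 ≤ A r * (M.D 1 A' j' r y - M.D 1 A j r y) ^ 2 := mul_nonneg hAr (sq_nonneg _)
      linarith
  rw [intervalIntegral.integral_const_mul] at h2
  linarith

/-- **two sided comparison** (Guerra, modulo constants, between two times) -/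
theorem lse_cmp (h : M.Ok) {A A' : ℝ → ℝ} {j j' Ξ Ξ' : ℝ} (hj : 0 < j) (hj' : 0 < j') (hA : LscProf j Ξ A) (hA' : LscProf j' Ξ' A')
    {s t : ℝ} (hs : 0 ≤ s) (hst : s ≤ t) {c η : ℝ} (hc : ∀ z, |M.V A' j' t z - M.V A j t z - c| ≤ η) (z : ℝ) :
    |M.V A' j' s z - M.V A j s z - c| ≤ η + (1 / 2) * ∫ r in s..t, |A' r - A r| := by
  have h1 := lse_cmp_lo h hj hj' hA hA' hs hst (c := c - η) (fun y => by have := (abs_le.1 (hc y)).1; linarith) z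
  have h2 := lse_cmp_lo h hj' hj hA' hA hs hst (c := -c - η) (fun y => by have := (abs_le.1 (hc y)).2; linarith) z
  have e : ∫ r in s..t, |A r - A' r| = ∫ r in s..t, |A' r - A r| := by
    simp only [abs_sub_comm]
  rw [e] at h2
  rw [abs_le]
  constructor <;> linarith

/-- same terminal mass: the values differ by at most half the `L¹` distance of the future -/
theorem lse_cmp_val (h : M.Ok) {A A' : ℝ → ℝ} {j : ℝ} (hA : LppAdm A j) (hA' : LppAdm A' j) {ξ : ℝ} (hξ : 0 ≤ ξ) (z : ℝ) :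
    |M.V A' j ξ z - M.V A j ξ z| ≤ (1 / 2) * ∫ r in Ioi ξ, |A' r - A r| := by
  obtain ⟨Ξ, hP⟩ := lse_prof hA
  obtain ⟨Ξ', hP'⟩ := lse_prof hA'
  obtain ⟨T, hT⟩ : ∃ T, T = max (max Ξ Ξ') ξ := ⟨_, rfl⟩
  have h1 : Ξ ≤ T := hT ▸ (le_max_left _ _).trans (le_max_left _ _)
  have h2 : Ξ' ≤ T := hT ▸ (le_max_right _ _).trans (le_max_left _ _)
  have h3 : ξ ≤ T := hT ▸ le_max_right _ _
  have := lse_cmp h hA.jpos hA'.jpos hP hP' hξ h3 (c := 0) (η := 0) (fun y => by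
    rw [h.V_top hA.jpos hP T h1, h.V_top hA'.jpos hP' T h2]; simp) z
  rw [lse_tail h3 (fun r hr => by rw [hP.top r (h1.trans hr), hP'.top r (h2.trans hr)]; simp)]
  simpa using this

theorem lse_guerra (h : M.Ok) : ∀ A A' j, LppAdm A j → LppAdm A' j → ∀ ξ, 0 ≤ ξ → ∃ c : ℝ, ∀ z,
    |M.pp.V A' j ξ z - M.pp.V A j ξ z - c| ≤ (1 / 2) * ∫ r in Ioi ξ, |A' r - A r| := by
  intro A A' j hA hA' ξ hξ
  exact ⟨0, fun z => by rw [sub_zero]; exact lse_cmp_val h hA hA' hξ z⟩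

end cmp

/-! ## 5. Landau-Kolmogorov for the difference of two continuations -/

section landau

variable {M : LscMod}

/-- one constant for finitely many orders -/
theorem lse_unif {P : ℕ → ℝ → Prop} (hmono : ∀ i C C', C ≤ C' → P i C → P i C') (hex : ∀ i, 1 ≤ i → ∃ C, 0 ≤ C ∧ P i C) (n : ℕ) :
    ∃ C, 0 ≤ C ∧ ∀ i, 1 ≤ i → i ≤ n → P i C := by
  induction n with
  | zero => exact ⟨0, le_rfl, fun i h1 h2 => by omega⟩
  | succ n ih =>
    obtain ⟨C, hC0, hC⟩ := ih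
    obtain ⟨C', hC'0, hC'⟩ := hex (n + 1) (by omega)
    refine ⟨max C C', hC0.trans (le_max_left _ _), fun i h1 h2 => ?_⟩
    rcases Nat.lt_or_ge i (n + 1) with h3 | h3
    · exact hmono i _ _ (le_max_left _ _) (hC i h1 (by omega))
    · obtain rfl : i = n + 1 := by omega
      exact hmono _ _ _ (le_max_right _ _) hC'

theorem lse_bdAll (h : M.Ok) (n : ℕ) : ∃ C : ℝ, 0 ≤ C ∧ ∀ i, 1 ≤ i → i ≤ n → ∀ A j, LppAdm A j → ∀ ξ, 0 ≤ ξ → ∀ z, |M.D i A j ξ z| ≤ C :=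
  lse_unif (P := fun i C => ∀ A j, LppAdm A j → ∀ ξ, 0 ≤ ξ → ∀ z, |M.D i A j ξ z| ≤ C)
    (fun _ _ _ hCC hC A j hA ξ hξ z => (hC A j hA ξ hξ z).trans hCC) (fun i hi => lse_bdD h i hi) n

/-- derivatives of the difference -/
theorem lse_diff_iter (h : M.Ok) {A A' : ℝ → ℝ} {j j' Ξ Ξ' : ℝ} (hj : 0 < j) (hj' : 0 < j') (hA : LscProf j Ξ A) (hA' : LscProf j' Ξ' A')
    {ξ : ℝ} (hξ : 0 ≤ ξ) (c : ℝ) (m : ℕ) :
    deriv^[m + 1] (fun z => M.V A' j' ξ z - M.V A j ξ z - c) = fun z => M.D (m + 1) A' j' ξ z - M.D (m + 1) A j ξ z := by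
  induction m with
  | zero =>
    funext z
    exact (((h.D_hasDeriv hj' hA' hξ 0 z).sub (h.D_hasDeriv hj hA hξ 0 z)).sub_const c).deriv
  | succ m ih =>
    rw [Function.iterate_succ_apply', ih]
    funext z
    exact ((h.D_hasDeriv hj' hA' hξ (m + 1) z).sub (h.D_hasDeriv hj hA hξ (m + 1) z)).deriv

theorem lse_landau1 (h : M.Ok) (i : ℕ) (hi : 1 ≤ i) : ∃ C : ℝ, 0 ≤ C ∧ ∀ A j A' j', LppAdm A j → LppAdm A' j' → ∀ ξ, 0 ≤ ξ → ∀ c a : ℝ, a ≤ 1 →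
    (∀ z, |M.V A' j' ξ z - M.V A j ξ z - c| ≤ a) → ∀ z, |M.D i A' j' ξ z - M.D i A j ξ z| ≤ C * Real.sqrt a := by
  obtain ⟨k, _, _, hB⟩ := lpk_landau_eps i (1 / 2) (by norm_num)
  obtain ⟨C0, hC00, hC0⟩ := lse_bdAll h k
  obtain ⟨C, hC, hL⟩ := hB (max 1 (2 * C0))
  refine ⟨C, hC, fun A j A' j' hA hA' ξ hξ c a ha hval z => ?_⟩
  obtain ⟨Ξ, hP⟩ := lse_prof hA
  obtain ⟨Ξ', hP'⟩ := lse_prof hA'
  have hsm : ContDiff ℝ k (fun z => M.V A' j' ξ z - M.V A j ξ z - c) :=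
    ((lse_E_contDiff (h.D_E hA'.jpos hP' hξ k 0)).sub (lse_E_contDiff (h.D_E hA.jpos hP hξ k 0))).sub contDiff_const
  have hit : ∀ m, 1 ≤ m → ∀ x, iteratedDeriv m (fun z => M.V A' j' ξ z - M.V A j ξ z - c) x = M.D m A' j' ξ x - M.D m A j ξ x := by
    intro m hm x
    obtain ⟨m, rfl⟩ : ∃ m', m = m' + 1 := ⟨m - 1, by omega⟩
    rw [iteratedDeriv_eq_iterate, lse_diff_iter h hA.jpos hA'.jpos hP hP' hξ c m]
  have := hL _ hsm (fun m hm x => ?_) a ha hval z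
  · rw [hit i hi] at this
    rw [Real.sqrt_eq_rpow]
    convert this using 3
    norm_num
  · rcases Nat.eq_zero_or_pos m with rfl | hm0
    · rw [iteratedDeriv_zero]
      exact ((hval x).trans ha).trans (le_max_left _ _)
    · rw [hit m hm0]
      refine le_trans ?_ (le_max_right _ _)
      have h1 := hC0 m hm0 hm A' j' hA' ξ hξ x
      have h2 := hC0 m hm0 hm A j hA ξ hξ x
      have := abs_sub (M.D m A' j' ξ x) (M.D m A j ξ x)
      linarith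

/-- a sup bound `a ≤ 1` on the values (modulo a constant) gives `C √a` for the derivatives of the orders `1..n` -/
theorem lse_landau (h : M.Ok) (n : ℕ) : ∃ C : ℝ, 0 ≤ C ∧ ∀ i, 1 ≤ i → i ≤ n → ∀ A j A' j', LppAdm A j → LppAdm A' j' → ∀ ξ, 0 ≤ ξ →
    ∀ c a : ℝ, a ≤ 1 → (∀ z, |M.V A' j' ξ z - M.V A j ξ z - c| ≤ a) → ∀ z, |M.D i A' j' ξ z - M.D i A j ξ z| ≤ C * Real.sqrt a :=
  lse_unif (P := fun i C => ∀ A j A' j', LppAdm A j → LppAdm A' j' → ∀ ξ, 0 ≤ ξ →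
      ∀ c a : ℝ, a ≤ 1 → (∀ z, |M.V A' j' ξ z - M.V A j ξ z - c| ≤ a) → ∀ z, |M.D i A' j' ξ z - M.D i A j ξ z| ≤ C * Real.sqrt a)
    (fun _ _ _ hCC hC A j A' j' hA hA' ξ hξ c a ha hv z =>
      (hC A j A' j' hA hA' ξ hξ c a ha hv z).trans (mul_le_mul_of_nonneg_right hCC (Real.sqrt_nonneg _)))
    (fun i hi => lse_landau1 h i hi) n

end landau

/-! ## 6. the terminal mass -/

section term

variable {M : LscMod}

theorem lse_cap_adm {A : ℝ → ℝ} (hA : LppAdm A 1) (T : ℝ) {j : ℝ} (hj1 : 1 ≤ j) (hj4 : j ≤ 4) : LppAdm (lppCap A T j) j := by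
  refine ⟨hj1, hj4, fun x hx y hy hxy => ?_, fun ξ hξ => ?_, fun ξ hξ => ?_, ⟨T, fun ξ hξ => ?_⟩⟩
  · unfold lppCap
    by_cases h1 : y < T
    · rw [if_pos h1, if_pos (lt_of_le_of_lt hxy h1)]
      exact hA.mono hx hy hxy
    · rw [if_neg h1]
      by_cases h2 : x < T
      · rw [if_pos h2]
        exact (hA.le x hx).trans hj1
      · rw [if_neg h2]
  · unfold lppCap
    split_ifs
    · exact hA.nn ξ hξ
    · linarith
  · unfold lppCap
    split_ifs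
    · exact (hA.le ξ hξ).trans hj1
    · exact le_rfl
  · unfold lppCap
    rw [if_neg (not_lt.2 hξ)]

/-- the values at the time `s0` -/
theorem lse_term_val (h : M.Ok) {A : ℝ → ℝ} (hA : LppAdm A 1) {s0 T j : ℝ} (hs0 : 0 ≤ s0) (hT : s0 ≤ T) (hj1 : 1 ≤ j) (hj4 : j ≤ 4)
    (htop : ∀ ξ, s0 ≤ ξ → A ξ = 1) (h2 : Real.exp (-((T - s0) / 2)) ≤ 1 / 2) : ∃ c : ℝ, ∀ z,
    |M.V (lppCap A T j) j s0 z - M.V A 1 s0 z - c| ≤ 2 * Real.exp (-((T - s0) / 2)) := by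
  have hj : 0 < j := by linarith
  have hA' := lse_cap_adm hA T hj1 hj4
  have hP : LscProf 1 s0 A := ⟨hA.mono, hA.nn 0 le_rfl, htop, hs0⟩
  have hP' : LscProf j T (lppCap A T j) := ⟨hA'.mono, hA'.nn 0 le_rfl, fun ξ hξ => by unfold lppCap; rw [if_neg (not_lt.2 hξ)], hs0.trans hT⟩
  have e1 : M.V (lppCap A T j) j T = fun z => lpaF j 0 z + (-(j * T / 2)) := by
    funext z
    rw [h.V_top hj hP' T le_rfl z]
    unfold lpaF
    ring
  have e2 : M.V (lppCap A T j) j s0 = fun z => scStep 1 (T - s0) (lpaF j 0) z + (-(j * T / 2)) := by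
    rw [h.V_step hj hP' hs0 hT (m := 1) (fun r hr => by unfold lppCap; rw [if_pos hr.2]; exact htop r hr.1), e1,
      sc_step_add_const (lpa_F_B 1 j 0)]
  refine ⟨(T - s0) / 2 + Real.log 2 * (1 - j⁻¹) - j * T / 2 + s0 / 2, fun z => ?_⟩
  have h3 := lpa_term_mass_abs (j := j) (m := 1) (s := T - s0) one_pos hj1 (by linarith) (by simpa using h2) z
  rw [e2, h.V_top one_pos hP s0 le_rfl z]
  unfold lpaF at h3 ⊢
  simp only [one_pow, one_mul, inv_one, mul_one] at h3 ⊢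
  convert h3 using 2
  ring

theorem lse_term (h : M.Ok) : ∀ k : ℕ, 1 ≤ k → ∃ C c : ℝ, 0 < c ∧ ∀ A, LppAdm A 1 → ∀ s0 T j, 0 ≤ s0 → s0 ≤ T → 1 ≤ j → j ≤ 4 →
    (∀ ξ, s0 ≤ ξ → A ξ = 1) → ∀ ξ ∈ Icc 0 s0, ∀ z,
      |M.pp.vk k (lppCap A T j) j ξ z - M.pp.vk k A 1 ξ z| ≤ C * Real.exp (-c * (T - s0)) := by
  intro k hk
  obtain ⟨C0, hC00, hC0⟩ := lse_bdD h k hk
  obtain ⟨C1, hC10, hC1⟩ := lse_landau1 h k hk
  refine ⟨2 * C1 + 4 * C0, 1 / 4, by norm_num, fun A hA s0 T j hs0 hT hj1 hj4 htop ξ hξ z => ?_⟩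
  have hj : 0 < j := by linarith
  have hA' := lse_cap_adm hA T hj1 hj4
  simp only [LscMod.pp_vk]
  obtain ⟨E, hE⟩ : ∃ E, E = Real.exp (-(1 / 4) * (T - s0)) := ⟨_, rfl⟩
  have hE0 : 0 < E := hE ▸ Real.exp_pos _
  have hE2 : Real.exp (-((T - s0) / 2)) = E ^ 2 := by
    rw [hE, ← Real.exp_nat_mul]
    congr 1
    push_cast
    ring
  rw [← hE]
  by_cases h2 : Real.exp (-((T - s0) / 2)) ≤ 1 / 2
  · obtain ⟨c, hc⟩ := lse_term_val h hA hs0 hT hj1 hj4 htop h2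
    obtain ⟨Ξ, hP⟩ := lse_prof hA
    obtain ⟨Ξ', hP'⟩ := lse_prof hA'
    have hz : ∫ r in ξ..s0, |lppCap A T j r - A r| = 0 := by
      refine intervalIntegral.integral_zero_ae ?_
      have : ∀ᵐ x : ℝ, x ≠ s0 := by simp [ae_iff, measure_singleton]
      filter_upwards [this] with x hx hx2
      rw [uIoc_of_le hξ.2] at hx2
      have : x < T := lt_of_lt_of_le (lt_of_le_of_ne hx2.2 hx) hT
      unfold lppCap
      rw [if_pos this]
      simp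
    have hv : ∀ y, |M.V (lppCap A T j) j ξ y - M.V A 1 ξ y - c| ≤ 2 * Real.exp (-((T - s0) / 2)) := by
      intro y
      have := lse_cmp h one_pos hj hP hP' hξ.1 hξ.2 hc y
      rw [hz] at this
      linarith
    have := hC1 A 1 (lppCap A T j) j hA hA' ξ hξ.1 c _ (by linarith) hv z
    refine this.trans ?_
    rw [hE2]
    have h3 : Real.sqrt (2 * E ^ 2) ≤ 2 * E := by
      rw [show 2 * E = Real.sqrt ((2 * E) ^ 2) from (Real.sqrt_sq (by positivity)).symm]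
      exact Real.sqrt_le_sqrt (by nlinarith)
    calc C1 * Real.sqrt (2 * E ^ 2) ≤ C1 * (2 * E) := mul_le_mul_of_nonneg_left h3 hC10
      _ ≤ (2 * C1 + 4 * C0) * E := by nlinarith
  · rw [hE2] at h2
    have hE1 : 1 / 2 ≤ E := by
      by_contra hlt
      have : E < 1 / 2 := not_le.1 hlt
      exact h2 (by nlinarith)
    have h1 := hC0 _ j hA' ξ hξ.1 z
    have h3 := hC0 A 1 hA ξ hξ.1 z
    have := abs_sub (M.D k (lppCap A T j) j ξ z) (M.D k A 1 ξ z)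
    nlinarith

end term

/-! ## 7. finite differences -/

/-- iterated forward difference of step `η` -/
def lseFd (η : ℝ) : ℕ → (ℝ → ℝ) → ℝ → ℝ
  | 0, f => f
  | k + 1, f => lseFd η k (fun z => f (z + η) - f z)

/-- mean value theorem for iterated differences -/
theorem lse_fd_mv {η : ℝ} (hη : 0 < η) (k : ℕ) {f : ℝ → ℝ} (hf : ContDiff ℝ k f) (z : ℝ) :
    ∃ ζ ∈ Icc z (z + k * η), lseFd η k f z = η ^ k * iteratedDeriv k f ζ := by
  induction k generalizing f with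
  | zero => exact ⟨z, ⟨le_rfl, by simp⟩, by simp [lseFd]⟩
  | succ k ih =>
    have hf' : ContDiff ℝ k f := hf.of_le (by exact_mod_cast Nat.le_succ k)
    have hs : ContDiff ℝ k (fun z => f (z + η)) := hf'.comp (contDiff_id.add contDiff_const)
    obtain ⟨ζ, hζ, e⟩ := ih (hs.sub hf')
    have e1 : iteratedDeriv k (fun z => f (z + η) - f z) ζ = iteratedDeriv k f (ζ + η) - iteratedDeriv k f ζ := by
      rw [iteratedDeriv_fun_sub hs.contDiffAt hf'.contDiffAt, iteratedDeriv_comp_add_const]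
    have hd : Differentiable ℝ (iteratedDeriv k f) := hf.differentiable_iteratedDeriv k (by exact_mod_cast Nat.lt_succ_self k)
    obtain ⟨c, hc, e2⟩ := exists_deriv_eq_slope (iteratedDeriv k f) (a := ζ) (b := ζ + η) (by linarith) hd.continuous.continuousOn
      hd.differentiableOn
    refine ⟨c, ⟨hζ.1.trans hc.1.le, ?_⟩, ?_⟩
    · push_cast
      have := hc.2
      have := hζ.2
      linarith
    · show lseFd η k (fun z => f (z + η) - f z) z = _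
      rw [e, e1, iteratedDeriv_succ, e2, add_sub_cancel_left, pow_succ]
      field_simp

theorem lse_fd_le {η : ℝ} (hη : 0 < η) (k : ℕ) {f : ℝ → ℝ} (hf : ContDiff ℝ k f) {B : ℝ} (hB : ∀ ζ, |iteratedDeriv k f ζ| ≤ B) (z : ℝ) :
    |lseFd η k f z| ≤ η ^ k * B := by
  obtain ⟨ζ, -, e⟩ := lse_fd_mv hη k hf z
  rw [e, abs_mul, abs_of_pos (pow_pos hη k)]
  exact mul_le_mul_of_nonneg_left (hB ζ) (pow_pos hη k).le

theorem lse_fd_ge (k : ℕ) {f : ℝ → ℝ} (hf : ContDiff ℝ k f) {B : ℝ} (z : ℝ) (hB : ∀ η, 0 < η → |lseFd η k f z| ≤ η ^ k * B) :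
    |iteratedDeriv k f z| ≤ B := by
  by_contra hlt
  have hlt : B < |iteratedDeriv k f z| := not_le.1 hlt
  have hc : Continuous fun ζ => |iteratedDeriv k f ζ| := (hf.continuous_iteratedDeriv k le_rfl).abs
  have hO : IsOpen {ζ | B < |iteratedDeriv k f ζ|} := isOpen_lt continuous_const hc
  obtain ⟨ε, hε, hball⟩ := Metric.isOpen_iff.1 hO z hlt
  obtain ⟨η, hη⟩ : ∃ η, η = ε / (2 * (k + 1)) := ⟨_, rfl⟩
  have hk : (0 : ℝ) < 2 * (k + 1) := by positivity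
  have hη0 : 0 < η := hη ▸ div_pos hε hk
  obtain ⟨ζ, hζ, e⟩ := lse_fd_mv hη0 k hf z
  have h1 : k * η < ε := by
    rw [hη, ← mul_div_assoc, div_lt_iff₀ hk]
    nlinarith
  have h2 : ζ ∈ Metric.ball z ε := by
    rw [Metric.mem_ball, Real.dist_eq, abs_of_nonneg (by linarith [hζ.1])]
    linarith [hζ.2]
  have h3 : B < |iteratedDeriv k f ζ| := hball h2
  have h4 := hB η hη0
  rw [e, abs_mul, abs_of_pos (pow_pos hη0 k)] at h4
  exact absurd (le_of_mul_le_mul_left h4 (pow_pos hη0 k)) (not_le.2 h3)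

theorem lse_fd_integral {a b η : ℝ} (k : ℕ) {Φ : ℝ → ℝ → ℝ} (hΦ : ∀ z, IntervalIntegrable (fun r => Φ r z) volume a b) :
    (∀ z, IntervalIntegrable (fun r => lseFd η k (Φ r) z) volume a b) ∧
      ∀ z, lseFd η k (fun y => ∫ r in a..b, Φ r y) z = ∫ r in a..b, lseFd η k (Φ r) z := by
  induction k generalizing Φ with
  | zero => exact ⟨hΦ, fun z => rfl⟩
  | succ k ih =>
    obtain ⟨i1, e1⟩ := ih (Φ := fun r z => Φ r (z + η) - Φ r z) fun z => (hΦ (z + η)).sub (hΦ z)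
    refine ⟨i1, fun z => ?_⟩
    refine Eq.trans ?_ (e1 z)
    show lseFd η k (fun z => (∫ r in a..b, Φ r (z + η)) - ∫ r in a..b, Φ r z) z = _
    congr 1
    funext y
    rw [intervalIntegral.integral_sub (hΦ (y + η)) (hΦ y)]

/-- **differentiation under the integral sign, as an inequality**: no measurability of the derivatives is needed -/
theorem lse_fd_main {a b : ℝ} (hab : a ≤ b) (k : ℕ) {Φ : ℝ → ℝ → ℝ} {K : ℝ → ℝ} (hΦ : ∀ z, IntervalIntegrable (fun r => Φ r z) volume a b)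
    (hsm : ∀ r ∈ Icc a b, ContDiff ℝ k (Φ r)) (hK : ∀ r ∈ Icc a b, ∀ z, |iteratedDeriv k (Φ r) z| ≤ K r) (hKi : IntervalIntegrable K volume a b)
    (hF : ContDiff ℝ k fun y => ∫ r in a..b, Φ r y) (z : ℝ) :
    |iteratedDeriv k (fun y => ∫ r in a..b, Φ r y) z| ≤ ∫ r in a..b, K r := by
  refine lse_fd_ge k hF z fun η hη => ?_
  obtain ⟨-, e1⟩ := lse_fd_integral (η := η) k hΦ
  rw [e1, ← intervalIntegral.integral_const_mul, ← Real.norm_eq_abs]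
  refine intervalIntegral.norm_integral_le_of_norm_le hab (Eventually.of_forall fun r hr => ?_) (hKi.const_mul _)
  have hr' : r ∈ Icc a b := ⟨hr.1.le, hr.2⟩
  rw [Real.norm_eq_abs]
  exact lse_fd_le hη k (hsm r hr') (hK r hr') z

/-! ## 8. `dlip`: all `z`-derivatives are Lipschitz in the profile for the `L¹` norm of the future -/

section dlip

variable {M : LscMod}

theorem lse_N_of {n : ℕ} {B : ℝ} {f : ℝ → ℝ} (hf : ScE n f) (hb : ∀ i ≤ n, ∀ z, |deriv^[i] f z| ≤ B) : ScN n B f := by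
  induction n generalizing f with
  | zero => exact ⟨hf.1, hb 0 le_rfl⟩
  | succ n ih => exact ⟨hb 0 (Nat.zero_le _), hf.differentiable, ih hf.deriv fun i hi z => hb (i + 1) (by omega) z⟩

/-- the source of the defect identity in the bounded class, with its norm -/
theorem lse_G_N (h : M.Ok) {A A' : ℝ → ℝ} {j j' : ℝ} (hA : LppAdm A j) (hA' : LppAdm A' j') {r : ℝ} (hr : 0 ≤ r) (k : ℕ) {B E : ℝ}
    (hB : ∀ i, 1 ≤ i → i ≤ k + 1 → ∀ z, |M.D i A' j' r z| ≤ B) (hE : ∀ i, 1 ≤ i → i ≤ k + 1 → ∀ z, |M.D i A' j' r z - M.D i A j r z| ≤ E) :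
    ScN k (|A' r - A r| * (2 ^ k * (B * B) / 2) + 2 * (2 ^ k * (E * E))) (lseG M A j A' j' r) := by
  obtain ⟨Ξ, hP⟩ := lse_prof hA
  obtain ⟨Ξ', hP'⟩ := lse_prof hA'
  have hu : ScN k B (M.D 1 A' j' r) := lse_N_of (h.D_E hA'.jpos hP' hr k 1) fun i hi z => by
    rw [LscMod.D_iter]; exact hB _ (by omega) (by omega) z
  have hd : ScN k E (fun y => M.D 1 A' j' r y - M.D 1 A j r y) :=
    lse_N_of ((h.D_E hA'.jpos hP' hr k 1).sub (h.D_E hA.jpos hP hr k 1)) fun i hi z => by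
      rw [← lse_diff_iter h hA.jpos hA'.jpos hP hP' hr 0 0, ← Function.iterate_add_apply,
        lse_diff_iter h hA.jpos hA'.jpos hP hP' hr 0 i]
      exact hE _ (by omega) (by omega) z
  have h1 := (((hu.mul hu).const_mul ((A' r - A r) / 2)).add ((hd.mul hd).const_mul (A r / 2))).neg
  have e : (fun z => -((A' r - A r) / 2 * (M.D 1 A' j' r z * M.D 1 A' j' r z) +
      A r / 2 * ((M.D 1 A' j' r z - M.D 1 A j r z) * (M.D 1 A' j' r z - M.D 1 A j r z)))) = lseG M A j A' j' r := by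
    funext z
    unfold lseG
    ring
  rw [e] at h1
  refine h1.weaken ?_
  have hA2 : |A r / 2| ≤ 2 := by
    rw [abs_of_nonneg (by have := hA.nn r hr; linarith)]
    have := hA.le r hr
    have := hA.j4
    linarith
  have hEE : 0 ≤ 2 ^ k * (E * E) := mul_nonneg (by positivity) (mul_self_nonneg E)
  have e2 : |(A' r - A r) / 2| = |A' r - A r| / 2 := by rw [abs_div]; norm_num
  rw [e2]
  nlinarith

theorem lse_G_Bd (h : M.Ok) {A A' : ℝ → ℝ} {j j' : ℝ} (hA : LppAdm A j) (hA' : LppAdm A' j') {r : ℝ} (hr : 0 ≤ r) (n : ℕ) :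
    ScBd n (lseG M A j A' j' r) := by
  obtain ⟨B, _, hB⟩ := lse_bdAll h (n + 1)
  refine (lse_G_N h hA hA' hr n (B := B) (E := 2 * B) (fun i h1 h2 z => hB i h1 h2 A' j' hA' r hr z) fun i h1 h2 z => ?_).scBd
  have h3 := hB i h1 h2 A' j' hA' r hr z
  have h4 := hB i h1 h2 A j hA r hr z
  have := abs_sub (M.D i A' j' r z) (M.D i A j r z)
  linarith

/-- tails of the `L¹` distance -/
theorem lse_tail_mono {A A' : ℝ → ℝ} {j : ℝ} (hA : LppAdm A j) (hA' : LppAdm A' j) {ξ r : ℝ} (hξ : 0 ≤ ξ) (hr : ξ ≤ r) :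
    ∫ x in Ioi r, |A' x - A x| ≤ ∫ x in Ioi ξ, |A' x - A x| := by
  obtain ⟨Ξ, hP⟩ := lse_prof hA
  obtain ⟨Ξ', hP'⟩ := lse_prof hA'
  obtain ⟨T, hT⟩ : ∃ T, T = max (max Ξ Ξ') r := ⟨_, rfl⟩
  have h1 : Ξ ≤ T := hT ▸ (le_max_left _ _).trans (le_max_left _ _)
  have h2 : Ξ' ≤ T := hT ▸ (le_max_right _ _).trans (le_max_left _ _)
  have h3 : r ≤ T := hT ▸ le_max_right _ _
  have hz : ∀ x, T ≤ x → |A' x - A x| = 0 := fun x hx => by rw [hP.top x (h1.trans hx), hP'.top x (h2.trans hx)]; simp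
  rw [lse_tail h3 hz, lse_tail (hr.trans h3) hz,
    ← intervalIntegral.integral_add_adjacent_intervals (lse_abs_intble hP hP' hξ hr) (lse_abs_intble hP hP' (hξ.trans hr) h3)]
  have := intervalIntegral.integral_nonneg (μ := volume) hr (fun u _ => abs_nonneg (A' u - A u))
  linarith

theorem lse_dlipD (h : M.Ok) (k : ℕ) (hk : 1 ≤ k) (R : ℝ) : ∃ C : ℝ, ∀ A A' j, LppAdm A j → LppAdm A' j → (∀ ξ, R ≤ ξ → A' ξ = A ξ) → ∀ ξ, 0 ≤ ξ → ∀ z,
    |M.D k A' j ξ z - M.D k A j ξ z| ≤ C * ∫ r in Ioi ξ, |A' r - A r| := by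
  obtain ⟨B, hB0, hB⟩ := lse_bdAll h (k + 1)
  obtain ⟨L, hL0, hL⟩ := lse_landau h (k + 1)
  obtain ⟨CP, hCP⟩ := h.P_grad 4 k
  refine ⟨|CP| * (2 ^ k * (B * B) / 2 + |R| * (2 ^ k * (L * L))) + B, fun A A' j hA hA' hR ξ hξ z => ?_⟩
  obtain ⟨Ξ, hP⟩ := lse_prof hA
  obtain ⟨Ξ', hP'⟩ := lse_prof hA'
  have hj := hA.jpos
  obtain ⟨ε, hε⟩ : ∃ ε, ε = ∫ r in Ioi ξ, |A' r - A r| := ⟨_, rfl⟩
  rw [← hε]
  have hε0 : 0 ≤ ε := hε ▸ integral_nonneg fun _ => abs_nonneg _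
  have hC1 : 0 ≤ |CP| * (2 ^ k * (B * B) / 2 + |R| * (2 ^ k * (L * L))) := by positivity
  -- large distance: the trivial bound
  rcases le_or_gt 2 ε with hbig | hsmall
  · have h1 := hB k hk (by omega) A' j hA' ξ hξ z
    have h2 := hB k hk (by omega) A j hA ξ hξ z
    have := abs_sub (M.D k A' j ξ z) (M.D k A j ξ z)
    nlinarith
  -- after `R` the two continuations coincide
  have hval : ∀ r, ξ ≤ r → ∀ y, |M.V A' j r y - M.V A j r y - 0| ≤ ε / 2 := by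
    intro r hr y
    have := lse_cmp_val h hA hA' (hξ.trans hr) y
    have h2 := lse_tail_mono hA hA' hξ hr
    rw [sub_zero]
    linarith
  have hzero : ∀ r, 0 ≤ r → R ≤ r → M.V A' j r = M.V A j r := by
    intro r hr0 hr
    funext y
    have := lse_cmp_val h hA hA' hr0 y
    rw [lse_tail le_rfl (fun x hx => by rw [hR x (hr.trans hx)]; simp), intervalIntegral.integral_same, mul_zero] at this
    have := abs_nonpos_iff.1 this
    linarith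
  rcases le_or_gt R ξ with hRξ | hξR
  · have : M.D k A' j ξ = M.D k A j ξ := by
      unfold LscMod.D
      rw [hzero ξ hξ hRξ]
    rw [this, sub_self, abs_zero]
    positivity
  -- the representation
  have hR0 : 0 ≤ R := hξ.trans hξR.le
  have hD := lse_dyn_diff h hj hA'.jpos hP hP' hξ hξR.le
  have hrep : ∀ y, IntervalIntegrable (fun r => M.P A j ξ r (lseG M A j A' j r) y) volume ξ R ∧
      M.V A j ξ y - M.V A' j ξ y - 0 = ∫ r in ξ..R, M.P A j ξ r (lseG M A j A' j r) y := by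
    intro y
    obtain ⟨hi, he⟩ := h.dynkin hj hP hξ hξR.le hD y
    refine ⟨hi, ?_⟩
    rw [← he]
    have e0 : (fun y => M.V A' j R y - M.V A j R y) = fun _ => 0 := by
      funext y; rw [hzero R hR0 le_rfl]; ring
    rw [e0, h.P_const hj hP hξ hξR.le]
    ring
  have hN : ∀ r ∈ Icc ξ R, ScN k (|A' r - A r| * (2 ^ k * (B * B) / 2) + 2 * (2 ^ k * ((L * √(ε / 2)) * (L * √(ε / 2))))) (lseG M A j A' j r) := by
    intro r hr
    have hr0 : 0 ≤ r := hξ.trans hr.1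
    exact lse_G_N h hA hA' hr0 k (fun i h1 h2 y => hB i h1 h2 A' j hA' r hr0 y)
      (fun i h1 h2 y => hL i h1 h2 A j A' j hA hA' r hr0 0 (ε / 2) (by linarith) (hval r hr.1) y)
  have hfun : (fun y => M.V A j ξ y - M.V A' j ξ y - 0) = fun y => ∫ r in ξ..R, M.P A j ξ r (lseG M A j A' j r) y :=
    funext fun y => (hrep y).2
  have hsmF : ContDiff ℝ k fun y => ∫ r in ξ..R, M.P A j ξ r (lseG M A j A' j r) y := by
    rw [← hfun]
    exact ((lse_E_contDiff (h.D_E hj hP hξ k 0)).sub (lse_E_contDiff (h.D_E hA'.jpos hP' hξ k 0))).sub contDiff_const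
  have hKi : IntervalIntegrable (fun r => |CP| * (|A' r - A r| * (2 ^ k * (B * B) / 2) + 2 * (2 ^ k * ((L * √(ε / 2)) * (L * √(ε / 2)))))) volume ξ R :=
    (((lse_abs_intble hP hP' hξ hξR.le).mul_const _).add intervalIntegrable_const).const_mul _
  have hmain := lse_fd_main hξR.le k (fun y => (hrep y).1)
    (fun r hr => lse_E_contDiff ((h.P_T hj hP (hξ.trans hr.1) (lse_G_Bd h hA hA' (hξ.trans hr.1) (k + 1))).scE ⟨hξ, hr.1⟩))
    (K := fun r => |CP| * (|A' r - A r| * (2 ^ k * (B * B) / 2) + 2 * (2 ^ k * ((L * √(ε / 2)) * (L * √(ε / 2))))))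
    (fun r hr y => by
      rw [iteratedDeriv_eq_iterate]
      refine (hCP A j Ξ hA.j1 hA.j4 hP ξ r hξ hr.1 _ _ (hN r hr).scBd (fun i hi y => (hN r hr).iter hi y) y).trans ?_
      exact mul_le_mul_of_nonneg_right (le_abs_self CP) (hN r hr).nonneg) hKi hsmF z
  rw [← hfun, iteratedDeriv_eq_iterate] at hmain
  obtain ⟨k', rfl⟩ : ∃ k', k = k' + 1 := ⟨k - 1, by omega⟩
  rw [lse_diff_iter h hA'.jpos hj hP' hP hξ 0 k'] at hmain
  rw [abs_sub_comm]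
  refine hmain.trans ?_
  have hεR : ε = ∫ r in ξ..R, |A' r - A r| := by
    rw [hε]
    exact lse_tail hξR.le fun x hx => by rw [hR x hx]; simp
  rw [intervalIntegral.integral_const_mul, intervalIntegral.integral_add ((lse_abs_intble hP hP' hξ hξR.le).mul_const _) intervalIntegrable_const,
    intervalIntegral.integral_mul_const, intervalIntegral.integral_const, ← hεR, smul_eq_mul]
  have hsq : √(ε / 2) * √(ε / 2) = ε / 2 := Real.mul_self_sqrt (by linarith)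
  have e3 : (L * √(ε / 2)) * (L * √(ε / 2)) = L * L * (ε / 2) := by
    calc (L * √(ε / 2)) * (L * √(ε / 2)) = L * L * (√(ε / 2) * √(ε / 2)) := by ring
      _ = _ := by rw [hsq]
  rw [e3, abs_of_nonneg hR0]
  have h5 : (R - ξ) * (2 * (2 ^ (k' + 1) * (L * L * (ε / 2)))) ≤ R * (2 ^ (k' + 1) * (L * L)) * ε := by
    have : 0 ≤ 2 ^ (k' + 1) * (L * L) * ε := by positivity
    nlinarith
  have h6 : |CP| * (ε * (2 ^ (k' + 1) * (B * B) / 2) + (R - ξ) * (2 * (2 ^ (k' + 1) * (L * L * (ε / 2))))) ≤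
      |CP| * ((2 ^ (k' + 1) * (B * B) / 2 + R * (2 ^ (k' + 1) * (L * L))) * ε) :=
    mul_le_mul_of_nonneg_left (by linarith) (abs_nonneg _)
  have h7 : 0 ≤ B * ε := mul_nonneg hB0 hε0
  linarith

theorem lse_dlip (h : M.Ok) : ∀ k : ℕ, 1 ≤ k → ∀ R : ℝ, ∃ C : ℝ, ∀ A A' j, LppAdm A j → LppAdm A' j → (∀ ξ, R ≤ ξ → A' ξ = A ξ) → ∀ ξ, 0 ≤ ξ → ∀ z,
    |M.pp.vk k A' j ξ z - M.pp.vk k A j ξ z| ≤ C * ∫ r in Ioi ξ, |A' r - A r| := by
  intro k hk R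
  obtain ⟨C, hC⟩ := lse_dlipD h k hk R
  exact ⟨C, fun A A' j hA hA' hR ξ hξ z => by simp only [LscMod.pp_vk]; exact hC A A' j hA hA' hR ξ hξ z⟩

end dlip

/-! ## 9. assembly: `lpp_of_lsc` in `LL/PathsDer.lean` (`lppOf M = M.pp` by `rfl`) -/

theorem lse_eqns_cite : True := by
  have := @LscMod.pp.eq_1
  have := @lseG.eq_1
  have := @lseFd.eq_1
  trivial

end Claimed.Agent.R286
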