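import Claimed.Agent.R286.LL.PathsBase
import Claimed.Agent.R286.LL.PathsPk
import Claimed.Agent.R286.LL.PathsDerA
import Claimed.Agent.R286.LL.PathsAnn283
import Claimed.Agent.R286.Sc.LscV
import Claimed.Agent.R286.Sc.Bound
import Claimed.Agent.R286.LL.PathsDerB
import Claimed.Agent.R286.Lib.SmoothExt

/-!
# Row 286 (S0533), LL Section 3, PERTURBATION KIT, file 0: THE PRODUCER OF `LppOk`      (architect helper121; prefix `lpd_`)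

`lppOf M` = the mid-level package `LppMod` read off the scalar model `M : LscMod` (`LL/PathsSc.lean`);      **`lpp_of_lsc : M.Ok → LppOk (lppOf M)`**, ONE LEAF PER FIELD;
`llPk = lppOf llMod`, `llPk_ok : LppOk llPk`  = THE instance used by LL 03 (`llBase.scV = llPk.V`, `llBase.scG = llPk.Gam`, `llBase.scG1 = llPk.M2`).

OWNERS of the leaves (claim286 by Lean name; prove IN PLACE or in `LL/PathsDerA.lean` (277) and cite here):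
* 277: `lpd_dlip`, `lpd_llip`, `lpd_mom2`, `lpd_dec`  (ports of `Sc/Pert.lean`);      * 272 / 46: `lpd_curve`, `lpd_gam`, `lpd_M3c`, `lpd_N3c`, `lpd_guerra`, `lpd_term`;      * free: the rest (all short).

PROOF LINES.  Notation `u = D 1`, `χ = D 2`, `(∂ + L_A)` = the generator in `M.Dyn A j`.
* `lpd_curve`: `dyn_V2`, `dyn_mul`: `(∂+L) χ² = -2 A χ³ + (D 3)²`; `dynkin` at `z = 0` from `s = 0`, subtract the two formulas on `[0,ξ]`, `[0,ξ']`.      `lpd_gam`: `dyn_V1`, `dyn_mul`: `(∂+L) u² = χ²`, `u(0,0) = 0` (evenness).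
* `lpd_M3c`, `lpd_N3c`: `P_fwd` with `ψ r = (D 2 r)³`, `(D 3 r)²` (`V_T`, products of `ScT`).
* `lpd_guerra` (with `c = 0`): `dyn_model` + `dyn_V0`: `(∂ + L_A)(V' - V) = - A (u' - u)²/2 - (A' - A) u'²/2`, so `δ(ξ) ≥ E δ(t) - (1/2) ∫_ξ^t |A' - A|`, `δ(t) = 0` for `t ≥ Ξ, Ξ'` (`V_top`, SAME `j`); the other
  inequality by exchanging the two models.
* `lpd_dec`: `f_ε(x) = sqrt(ε + 1 - x²)` extended to a global smooth function (`sxt_extend` of `Lib/SmoothExt.lean`); `dyn_V1`, `dyn_comp`: `(∂+L) f_ε(u) = f_ε''(u) χ²/2 = -(1+ε) χ² / (2 Y^{3/2})`, `Y = ε + 1 - u²`;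
  `χ ≥ a_0 (Y - ε)`, `(Y-ε)²/Y^{3/2} ≥ sqrt Y - 2 sqrt ε`;  Gronwall for `m(t) = E f_ε(u(t)) - 2 sqrt ε`;  `ε → 0`.
* `lpd_term`: (i) at the time `s_0`: both continuations are ONE Cole-Hopf step of mass `1` and length `σ² = M - s_0` (`V_step`) of `j⁻¹ log cosh (j y) - j M/2`, `log cosh y - M/2`;
  `cosh(j y)^{1/j} = 2^{1 - 1/j} cosh(y) ρ(y)`, `|ρ - 1| ≤ 2 e^{-2|y|}`; under the `cosh`-tilt `y ∼ N(z ± σ², σ²)` with weights `e^{±z}/(2 cosh z)`: `E_tilt e^{-2|y|} ≤ 2 e^{-σ²/8}` UNIFORMLY in `z` (253's S8);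
  (ii) before `s_0` (same masses): `(∂ + L_A)(V' - V) = - A (u'-u)²/2 ≤ 0` and the symmetric inequality: `inf δ(s_0) ≤ δ(ξ) ≤ sup δ(s_0)`;  (iii) Landau-Kolmogorov `lpk_landau*` (`LL/PathsKit283.lean`) with `V_bd`.
-/

set_option autoImplicit false

namespace Claimed.Agent.R286

open MeasureTheory ProbabilityTheory Filter Topology Set

/-- the mid-level package of a scalar model -/
def lppOf (M : LscMod) : LppMod := ⟨M.V, fun A j ξ g => M.P A j 0 ξ g 0⟩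

theorem lpd_V (M : LscMod) : (lppOf M).V = M.V := rfl

theorem lpd_Ex (M : LscMod) (A : ℝ → ℝ) (j ξ : ℝ) (g : ℝ → ℝ) : (lppOf M).Ex A j ξ g = M.E A j ξ g := rfl

theorem lpd_vk (M : LscMod) (k : ℕ) (A : ℝ → ℝ) (j ξ : ℝ) : (lppOf M).vk k A j ξ = M.D k A j ξ := by
  funext z
  simp only [LppMod.vk, LscMod.D, lppOf, iteratedDeriv_eq_iterate]

theorem lpd_Gam (M : LscMod) : (lppOf M).Gam = M.Gam := by
  funext A j ξ
  simp only [LppMod.Gam, LscMod.Gam, lpd_vk, lpd_Ex]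

theorem lpd_M2 (M : LscMod) : (lppOf M).M2 = M.Gam1 := by
  funext A j ξ
  simp only [LppMod.M2, LscMod.Gam1, lpd_vk, lpd_Ex]

theorem lpd_prof {A : ℝ → ℝ} {j : ℝ} (h : LppAdm A j) : 0 < j ∧ ∃ Ξ : ℝ, LscProf j Ξ A := by
  obtain ⟨τ, hτ⟩ := h.top
  exact ⟨by linarith [h.j1], max τ 0, h.mono, h.nn 0 le_rfl, fun ξ hξ => hτ ξ ((le_max_left _ _).trans hξ), le_max_right _ _⟩

/-- LEAF: the test class of `LppOk` is inside the exponential class (`1 + z² ≤ 2 e^{|z|}`) -/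
theorem lpd_cls {g : ℝ → ℝ} (h : LppCls g) : ScE 0 g := by
  obtain ⟨hc, C, hC⟩ := h
  refine ⟨hc, 2 * |C|, 1, fun z => (hC z).trans ?_⟩
  have h1 : 1 + z ^ 2 ≤ 2 * Real.exp (1 * |z|) := by
    have h2 := Real.quadratic_le_exp_of_nonneg (abs_nonneg z)
    rw [sq_abs] at h2
    rw [one_mul]
    nlinarith [abs_nonneg z]
  calc C * (1 + z ^ 2) ≤ |C| * (1 + z ^ 2) := mul_le_mul_of_nonneg_right (le_abs_self C) (by positivity)
    _ ≤ |C| * (2 * Real.exp (1 * |z|)) := mul_le_mul_of_nonneg_left h1 (abs_nonneg C)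
    _ = 2 * |C| * Real.exp (1 * |z|) := by ring

/-! ## K8 on the concrete continuation `lsiV` (helper283): S8 `lpa_term_mass_abs` + `scg_restrict`, `scg_lip` + `lsi_V_bd` + Landau-Kolmogorov `lpk_landau_rpow` -/
theorem lpt_prof {A : ℝ → ℝ} {j : ℝ} (hA : LppAdm A j) {s0 : ℝ} (hs0 : 0 ≤ s0) (h1 : ∀ ξ, s0 ≤ ξ → A ξ = j) : LscProf j s0 A :=
  ⟨hA.mono, hA.nn 0 le_rfl, h1, hs0⟩

theorem lpt_cap_prof {A : ℝ → ℝ} (hA : LppAdm A 1) {M j : ℝ} (hM : 0 ≤ M) (hj : 1 ≤ j) : LscProf j M (lppCap A M j) := by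
  refine ⟨fun x hx y hy hxy => ?_, ?_, fun ξ hξ => ?_, hM⟩
  · unfold lppCap
    by_cases h1 : y < M
    · rw [if_pos h1, if_pos (hxy.trans_lt h1)]
      exact hA.mono hx hy hxy
    · rw [if_neg h1]
      by_cases h2 : x < M
      · rw [if_pos h2]
        exact (hA.le x hx).trans hj
      · rw [if_neg h2]
  · unfold lppCap
    by_cases h1 : (0 : ℝ) < M
    · rw [if_pos h1]; exact hA.nn 0 le_rfl
    · rw [if_neg h1]; linarith
  · unfold lppCap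
    rw [if_neg (not_lt.2 hξ)]

/-- the two continuations at the time `s0` -/
theorem lpt_at_s0 {A : ℝ → ℝ} (hA : LppAdm A 1) {s0 M j : ℝ} (hs0 : 0 ≤ s0) (hsM : s0 ≤ M) (hj : 1 ≤ j)
    (h1 : ∀ ξ, s0 ≤ ξ → A ξ = 1) (h2 : Real.exp (-((M - s0) / 2)) ≤ 1 / 2) (z : ℝ) :
    |lsiV (lppCap A M j) j s0 z - lsiV A 1 s0 z - ((M - s0) / 2 + Real.log 2 * (1 - j⁻¹) - j * M / 2 + s0 / 2)|
      ≤ 2 * Real.exp (-((M - s0) / 2)) := by
  have hj0 : 0 < j := zero_lt_one.trans_le hj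
  have hP := lpt_prof hA hs0 h1
  have hP' := lpt_cap_prof hA (hs0.trans hsM) hj
  have e1 : lsiV (lppCap A M j) j s0 = scStep 1 (M - s0) (lsiV (lppCap A M j) j M) := by
    refine lsi_V_step hj0 hP' hs0 hsM fun r hr => ?_
    unfold lppCap
    rw [if_pos hr.2]
    exact h1 r hr.1
  have e2 : lsiV (lppCap A M j) j M = fun z => lpaF j 0 z + (-(j * M / 2)) := by
    funext y
    rw [lsi_V_top hj0 hP' M le_rfl y]
    unfold lpaF
    ring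
  have e3 : lsiV A 1 s0 z = lpaF 1 0 z - s0 / 2 := by
    rw [lsi_V_top one_pos hP s0 le_rfl z]
    unfold lpaF
    ring
  rw [e1, e2, sc_step_add_const (lpa_F_B 1 j 0), e3]
  have h3 := lpa_term_mass_abs (j := j) (m := 1) (s := M - s0) one_pos hj (by linarith) (by simpa using h2) z
  have e4 : lpaF 1 (1 * (M - s0) / 2 + Real.log 2 * (1⁻¹ - j⁻¹)) z = lpaF 1 0 z + ((M - s0) / 2 + Real.log 2 * (1 - j⁻¹)) := by
    unfold lpaF
    simp only [inv_one, one_mul]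
    ring
  rw [e4] at h3
  have e5 : (2 : ℝ) * 1⁻¹ * Real.exp (-(1 ^ 2 * (M - s0) / 2)) = 2 * Real.exp (-((M - s0) / 2)) := by
    simp
  rw [e5] at h3
  refine le_trans (le_of_eq ?_) h3
  congr 1
  ring

/-- sup-norm contraction of the earlier part of the profile -/
theorem lpt_contract {A : ℝ → ℝ} (hA : LppAdm A 1) {s0 M j : ℝ} (hs0 : 0 ≤ s0) (hsM : s0 ≤ M) (hj : 1 ≤ j)
    (h1 : ∀ ξ, s0 ≤ ξ → A ξ = 1) {ε c0 : ℝ} (hε : ∀ z, |lsiV (lppCap A M j) j s0 z - lsiV A 1 s0 z - c0| ≤ ε)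
    {ξ : ℝ} (hξ : ξ ∈ Icc 0 s0) (z : ℝ) : |lsiV (lppCap A M j) j ξ z - lsiV A 1 ξ z - c0| ≤ ε := by
  have hj0 : 0 < j := zero_lt_one.trans_le hj
  have hP := lpt_prof hA hs0 h1
  have hP' := lpt_cap_prof hA (hs0.trans hsM) hj
  have hM0 : 0 ≤ M := hs0.trans hsM
  have a1 : lsiV (lppCap A M j) j ξ = fun z => scVa (scLC j) (lppCap A M j) M ξ z - j * M / 2 :=
    lsi_V_eq hj0 hP' le_rfl hξ.1 (hξ.2.trans hsM)
  have a2 : lsiV (lppCap A M j) j s0 = fun z => scVa (scLC j) (lppCap A M j) M s0 z - j * M / 2 :=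
    lsi_V_eq hj0 hP' le_rfl hs0 hsM
  have a3 : lsiV A 1 ξ = fun z => scVa (scLC 1) A s0 ξ z - 1 * s0 / 2 := lsi_V_eq one_pos hP le_rfl hξ.1 hξ.2
  have a4 : lsiV A 1 s0 = fun z => scLC 1 z - 1 * s0 / 2 := by
    rw [lsi_V_eq one_pos hP le_rfl hs0 le_rfl, scg_Va_of_le _ _ hs0 le_rfl]
  have a5 := scg_restrict (sc_LC_BI j) (hP'.coef M) hξ.1 hξ.2 hsM
  obtain ⟨c1, hc1⟩ : ∃ c1 : ℝ, c1 = c0 + j * M / 2 - s0 / 2 := ⟨_, rfl⟩
  have hF' : ScBI (scVa (scLC j) (lppCap A M j) M s0) := scg_Va_BI (sc_LC_BI j) hM0 (hP'.coef M) hs0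
  have hF : ScBI (fun z => scLC 1 z + c1) := lsi_BI_add_const (sc_LC_BI 1) c1
  have hL' : ∀ z, |deriv (scVa (scLC j) (lppCap A M j) M s0) z| ≤ 1 := fun y =>
    scg_u_le (sc_LC_BI j) (lsi_LC_ad hj0).lip hM0 (hP'.coef M) hs0 y
  have hL : ∀ z, |deriv (fun z => scLC 1 z + c1) z| ≤ 1 := fun y => by
    rw [deriv_add_const]
    exact (lsi_LC_ad one_pos).lip y
  have hε' : ∀ y, |scVa (scLC j) (lppCap A M j) M s0 y - (fun z => scLC 1 z + c1) y| ≤ ε := fun y => by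
    have := hε y
    rw [a2, a4] at this
    refine le_trans (le_of_eq ?_) this
    congr 1
    simp only [hc1]
    ring
  have h3 := scg_lip hF hF' hL hL' hε' ((hP.coef s0).weaken hj) (hP'.coef s0) hξ.1 hξ.2 z
  have h4 : ∫ r in ξ..s0, |lppCap A M j r - A r| = 0 := by
    refine intervalIntegral.integral_zero_ae ?_
    filter_upwards [compl_mem_ae_iff.2 (measure_singleton s0)] with x hx hx2
    rw [uIoc_of_le hξ.2] at hx2
    have hx3 : x < s0 := lt_of_le_of_ne hx2.2 hx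
    unfold lppCap
    rw [if_pos (hx3.trans_le hsM)]
    simp
  rw [h4, mul_zero, add_zero, a5, lsi_Va_add_const (sc_LC_BI 1) c1 hs0 (hP.coef s0) hξ.1] at h3
  rw [a1, a3]
  refine le_trans (le_of_eq ?_) h3
  congr 1
  simp only [hc1]
  ring

theorem lpt_contDiff {A : ℝ → ℝ} {j Ξ : ℝ} (hj : 0 < j) (hA : LscProf j Ξ A) {ξ : ℝ} (hξ : 0 ≤ ξ) (n : ℕ) :
    ContDiff ℝ n (lsiV A j ξ) := by
  have hR : Ξ ≤ max Ξ ξ := le_max_left _ _
  have hξR : ξ ≤ max Ξ ξ := le_max_right _ _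
  rw [lsi_V_eq hj hA hR hξ hξR]
  exact (scb_E_contDiff (scg_BI_E (scg_Va_BI (sc_LC_BI j) (hξ.trans hξR) (hA.coef _) hξ) n)).sub contDiff_const

theorem lpt_iter_sub {f1 f2 : ℝ → ℝ} {i : ℕ} (h1 : ContDiff ℝ i f1) (h2 : ContDiff ℝ i f2) (hi : 0 < i) (c x : ℝ) :
    iteratedDeriv i (fun z => f1 z - f2 z - c) x = iteratedDeriv i f1 x - iteratedDeriv i f2 x := by
  have e : (fun z => f1 z - f2 z - c) = fun z => (-c) + (f1 - f2) z := by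
    funext z
    simp only [Pi.sub_apply]
    ring
  rw [e, iteratedDeriv_const_add hi, iteratedDeriv_sub h1.contDiffAt h2.contDiffAt]

/-- **K8** (field `term` of `LppOk` for `V := lsiV`) TEX[LL:paths:lift] -/
theorem lpt_term (k : ℕ) (hk : 1 ≤ k) : ∃ C c : ℝ, 0 < c ∧ ∀ A, LppAdm A 1 → ∀ s0 M j, 0 ≤ s0 → s0 ≤ M → 1 ≤ j → j ≤ 4 →
    (∀ ξ, s0 ≤ ξ → A ξ = 1) → ∀ ξ ∈ Icc 0 s0, ∀ z,
      |iteratedDeriv k (lsiV (lppCap A M j) j ξ) z - iteratedDeriv k (lsiV A 1 ξ) z| ≤ C * Real.exp (-c * (M - s0)) := by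
  choose! Cb hCb using fun i (hi : 1 ≤ i) => lsi_V_bd 4 i hi
  have hkR : (0 : ℝ) < (k : ℝ) + 1 := by positivity
  have hCk0 : ∀ i, 1 ≤ i → 0 ≤ Cb i := fun i hi => by
    have hA1 : LscProf 1 0 (fun _ => (1 : ℝ)) := ⟨fun _ _ _ _ _ => le_rfl, zero_le_one, fun _ _ => rfl, le_rfl⟩
    exact (abs_nonneg _).trans (hCb i hi _ 1 0 le_rfl (by norm_num) hA1 0 le_rfl 0)
  obtain ⟨K1, hK1⟩ : ∃ K1 : ℝ, K1 = 3 ^ ((k + 1) * k) * (2 * (2 * Cb (k + 1)) ^ ((k : ℝ) / ((k + 1 : ℕ) : ℝ))) := ⟨_, rfl⟩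
  have hK10 : 0 ≤ K1 := by
    rw [hK1]
    have := hCk0 (k + 1) (by omega)
    positivity
  refine ⟨max K1 (4 * Cb k), 1 / (2 * ((k : ℝ) + 1)), by positivity, fun A hA s0 M j hs0 hsM hj hj4 h1 ξ hξ z => ?_⟩
  have hj0 : 0 < j := zero_lt_one.trans_le hj
  have hP := lpt_prof hA hs0 h1
  have hP' := lpt_cap_prof hA (hs0.trans hsM) hj
  have hd0 : 0 ≤ M - s0 := by linarith
  have hbd : ∀ i, 1 ≤ i → ∀ x, |iteratedDeriv i (lsiV (lppCap A M j) j ξ) x - iteratedDeriv i (lsiV A 1 ξ) x| ≤ 2 * Cb i := by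
    intro i hi x
    rw [iteratedDeriv_eq_iterate, iteratedDeriv_eq_iterate]
    have b1 := hCb i hi _ j M hj hj4 hP' ξ hξ.1 x
    have b2 := hCb i hi _ 1 s0 le_rfl (by norm_num) hP ξ hξ.1 x
    have := abs_sub (deriv^[i] (lsiV (lppCap A M j) j ξ) x) (deriv^[i] (lsiV A 1 ξ) x)
    linarith
  have hexp : Real.exp (-((M - s0) / 2)) ≤ Real.exp (-(1 / (2 * ((k : ℝ) + 1))) * (M - s0)) := by
    refine Real.exp_le_exp.2 ?_
    have : 1 / (2 * ((k : ℝ) + 1)) ≤ 1 / 2 := by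
      rw [div_le_div_iff₀ (by positivity) (by norm_num)]
      have : (0 : ℝ) ≤ k := Nat.cast_nonneg k
      linarith
    nlinarith
  by_cases h2 : Real.exp (-((M - s0) / 2)) ≤ 1 / 2
  · obtain ⟨c0, hc0⟩ : ∃ c0 : ℝ, c0 = (M - s0) / 2 + Real.log 2 * (1 - j⁻¹) - j * M / 2 + s0 / 2 := ⟨_, rfl⟩
    have hε := fun y => lpt_contract hA hs0 hsM hj h1 (fun y => lpt_at_s0 hA hs0 hsM hj h1 h2 y) hξ y
    rw [← hc0] at hε
    have hc1 : ∀ n : ℕ, ContDiff ℝ n (lsiV (lppCap A M j) j ξ) := lpt_contDiff hj0 hP' hξ.1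
    have hc2 : ∀ n : ℕ, ContDiff ℝ n (lsiV A 1 ξ) := lpt_contDiff one_pos hP hξ.1
    have hg : ContDiff ℝ (k + 1 : ℕ) (fun y => lsiV (lppCap A M j) j ξ y - lsiV A 1 ξ y - c0) :=
      ((hc1 _).sub (hc2 _)).sub contDiff_const
    have hL := lpk_landau_rpow (k + 1) (by omega) _ hg (fun i _ => by
      rcases Nat.eq_zero_or_pos i with rfl | hi
      · exact ⟨_, fun x => by rw [iteratedDeriv_zero]; exact hε x⟩
      · exact ⟨2 * Cb i, fun x => by rw [lpt_iter_sub (hc1 i) (hc2 i) hi]; exact hbd i hi x⟩) _ (2 * Cb (k + 1)) hε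
      (fun x => by rw [lpt_iter_sub (hc1 _) (hc2 _) (by omega)]; exact hbd _ (by omega) x) k (by omega) z
    rw [lpt_iter_sub (hc1 k) (hc2 k) (by omega)] at hL
    refine hL.trans ?_
    have hp : 1 - (k : ℝ) / ((k + 1 : ℕ) : ℝ) = 1 / ((k : ℝ) + 1) := by
      push_cast
      field_simp
      ring
    have e1 : (2 * Real.exp (-((M - s0) / 2))) ^ (1 - (k : ℝ) / ((k + 1 : ℕ) : ℝ))
        ≤ 2 * Real.exp (-(1 / (2 * ((k : ℝ) + 1))) * (M - s0)) := by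
      rw [hp, Real.mul_rpow (by norm_num) (Real.exp_pos _).le, ← Real.exp_mul]
      have e2 : -((M - s0) / 2) * (1 / ((k : ℝ) + 1)) = -(1 / (2 * ((k : ℝ) + 1))) * (M - s0) := by
        field_simp
      rw [e2]
      refine mul_le_mul_of_nonneg_right ?_ (Real.exp_pos _).le
      calc (2 : ℝ) ^ (1 / ((k : ℝ) + 1)) ≤ (2 : ℝ) ^ (1 : ℝ) := by
            refine Real.rpow_le_rpow_of_exponent_le (by norm_num) ?_
            rw [div_le_one hkR]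
            have : (0 : ℝ) ≤ k := Nat.cast_nonneg k
            linarith
        _ = 2 := Real.rpow_one 2
    have hB0 : 0 ≤ (2 * Cb (k + 1)) ^ ((k : ℝ) / ((k + 1 : ℕ) : ℝ)) := by
      have := hCk0 (k + 1) (by omega)
      positivity
    calc 3 ^ ((k + 1) * k) * ((2 * Real.exp (-((M - s0) / 2))) ^ (1 - (k : ℝ) / ((k + 1 : ℕ) : ℝ))
          * (2 * Cb (k + 1)) ^ ((k : ℝ) / ((k + 1 : ℕ) : ℝ)))
        ≤ 3 ^ ((k + 1) * k) * ((2 * Real.exp (-(1 / (2 * ((k : ℝ) + 1))) * (M - s0)))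
          * (2 * Cb (k + 1)) ^ ((k : ℝ) / ((k + 1 : ℕ) : ℝ))) := by
          refine mul_le_mul_of_nonneg_left (mul_le_mul_of_nonneg_right e1 hB0) (by positivity)
      _ = K1 * Real.exp (-(1 / (2 * ((k : ℝ) + 1))) * (M - s0)) := by rw [hK1]; ring
      _ ≤ max K1 (4 * Cb k) * Real.exp (-(1 / (2 * ((k : ℝ) + 1))) * (M - s0)) :=
          mul_le_mul_of_nonneg_right (le_max_left _ _) (Real.exp_pos _).le
  · push Not at h2
    refine (hbd k hk z).trans ?_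
    have h3 : 4 * Cb k * Real.exp (-((M - s0) / 2)) ≤ max K1 (4 * Cb k) * Real.exp (-(1 / (2 * ((k : ℝ) + 1))) * (M - s0)) :=
      mul_le_mul (le_max_right _ _) hexp (Real.exp_pos _).le (hK10.trans (le_max_left _ _))
    have := hCk0 k hk
    nlinarith

/-- a model identified with the concrete one has `V = lsiV` -/
theorem lpt_V_id {M : LscMod} (hid : LscIdSc M) {A : ℝ → ℝ} {j Ξ : ℝ} (hj : 0 < j) (hA : LscProf j Ξ A) {ξ : ℝ} (hξ : 0 ≤ ξ) :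
    M.V A j ξ = lsiV A j ξ := by
  rw [(hid A j Ξ (max Ξ ξ) hj hA (le_max_left _ _)).1 ξ ⟨hξ, le_max_right _ _⟩,
    lsi_V_eq hj hA (le_max_left _ _) hξ (le_max_right _ _)]

/-! ## K6 (helper215): decay of `E sqrt(1 - u²)` -/

/-- exponential decay from a differential inequality (continuous right side) -/
theorem lpdc_ode {n γ : ℝ → ℝ} {s t c n0 : ℝ} (h0 : 0 ≤ s) (hst : s ≤ t) (hγ : ContinuousOn γ (Icc 0 t))
    (hn : ∀ r ∈ Icc 0 t, n r = n0 + ∫ x in (0 : ℝ)..r, γ x) (hle : ∀ r ∈ Icc s t, γ r ≤ -(c * n r)) :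
    n t ≤ Real.exp (-(c * (t - s))) * n s := by
  have ht0 : 0 ≤ t := h0.trans hst
  have hii : IntervalIntegrable γ volume 0 t := by
    apply ContinuousOn.intervalIntegrable
    rwa [uIcc_of_le ht0]
  have hnc : ContinuousOn n (Icc 0 t) := by
    have h1 : ContinuousOn (fun r => n0 + ∫ x in (0 : ℝ)..r, γ x) (Icc 0 t) := by
      have := intervalIntegral.continuousOn_primitive_interval (μ := volume) (f := γ) (a := 0) (b := t)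
        (by rw [uIcc_of_le ht0]; exact hγ.integrableOn_Icc)
      rw [uIcc_of_le ht0] at this
      exact continuousOn_const.add this
    exact h1.congr hn
  have hder : ∀ r ∈ Ioo s t, HasDerivAt n (γ r) r := by
    intro r hr
    have hr' : r ∈ Ioo 0 t := ⟨h0.trans_lt hr.1, hr.2⟩
    have hnb : Ioo 0 t ∈ 𝓝 r := isOpen_Ioo.mem_nhds hr'
    have h1 : HasDerivAt (fun r => ∫ x in (0 : ℝ)..r, γ x) (γ r) r := by
      refine intervalIntegral.integral_hasDerivAt_right ?_ ?_ ?_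
      · exact hii.mono_set (by rw [uIcc_of_le ht0, uIcc_of_le hr'.1.le]; exact Icc_subset_Icc le_rfl hr'.2.le)
      · exact (hγ.mono Ioo_subset_Icc_self).stronglyMeasurableAtFilter isOpen_Ioo r hr'
      · exact (hγ.mono Ioo_subset_Icc_self).continuousAt hnb
    refine (h1.const_add n0).congr_of_eventuallyEq ?_
    filter_upwards [hnb] with x hx
    exact hn x ⟨hx.1.le, hx.2.le⟩
  have hanti : AntitoneOn (fun r => Real.exp (c * r) * n r) (Icc s t) := by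
    refine antitoneOn_of_deriv_nonpos (convex_Icc s t) ?_ ?_ ?_
    · exact (Continuous.continuousOn (by fun_prop)).mul (hnc.mono (Icc_subset_Icc h0 le_rfl))
    · intro r hr
      rw [interior_Icc] at hr
      have e1 : HasDerivAt (fun r : ℝ => Real.exp (c * r)) (Real.exp (c * r) * c) r := by
        simpa using ((hasDerivAt_id r).const_mul c).exp
      exact (e1.mul (hder r hr)).differentiableAt.differentiableWithinAt
    · intro r hr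
      rw [interior_Icc] at hr
      have e1 : HasDerivAt (fun r : ℝ => Real.exp (c * r)) (Real.exp (c * r) * c) r := by
        simpa using ((hasDerivAt_id r).const_mul c).exp
      have e2 : deriv (fun r => Real.exp (c * r) * n r) r = Real.exp (c * r) * c * n r + Real.exp (c * r) * γ r :=
        (e1.mul (hder r hr)).deriv
      rw [e2]
      have h2 := hle r ⟨hr.1.le, hr.2.le⟩
      have h3 : Real.exp (c * r) * c * n r + Real.exp (c * r) * γ r = Real.exp (c * r) * (c * n r + γ r) := by ring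
      rw [h3]
      exact mul_nonpos_of_nonneg_of_nonpos (Real.exp_pos _).le (by linarith)
  have h4 := hanti ⟨le_rfl, hst⟩ ⟨hst, le_rfl⟩ hst
  simp only at h4
  have e5 : Real.exp (-(c * (t - s))) = Real.exp (c * s) * (Real.exp (c * t))⁻¹ := by
    rw [← Real.exp_neg, ← Real.exp_add]
    congr 1
    ring
  rw [e5]
  have hp := Real.exp_pos (c * t)
  calc n t = (Real.exp (c * t) * n t) * (Real.exp (c * t))⁻¹ := by field_simp
    _ ≤ (Real.exp (c * s) * n s) * (Real.exp (c * t))⁻¹ := mul_le_mul_of_nonneg_right h4 (inv_pos.2 hp).le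
    _ = _ := by ring

/-- the pointwise inequality: `e = sqrt ε`, `S = sqrt (ε + 1 - u²)` -/
theorem lpdc_ineq {e S a0 χ : ℝ} (he : 0 < e) (hS : e ≤ S) (ha : 0 ≤ a0) (hχ : a0 * (S ^ 2 - e ^ 2) ≤ χ) :
    -((1 + e ^ 2) / (S * S ^ 2)) * χ ^ 2 / 2 ≤ -(a0 ^ 2 / 2 * (S - 2 * e)) := by
  have hS0 : 0 < S := he.trans_le hS
  have hD : 0 < S * S ^ 2 := by positivity
  have h0 : 0 ≤ S ^ 2 - e ^ 2 := by nlinarith
  have h1 : (a0 * (S ^ 2 - e ^ 2)) ^ 2 ≤ χ ^ 2 := pow_le_pow_left₀ (mul_nonneg ha h0) hχ 2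
  have h2 : (S - 2 * e) * (S * S ^ 2) ≤ (S ^ 2 - e ^ 2) ^ 2 := by
    have : 0 ≤ 2 * e * S ^ 2 * (S - e) + e ^ 4 := by
      have : 0 ≤ S - e := by linarith
      positivity
    nlinarith
  have h3 : a0 ^ 2 * (S - 2 * e) ≤ (1 + e ^ 2) / (S * S ^ 2) * χ ^ 2 := by
    rw [div_mul_eq_mul_div, le_div_iff₀ hD]
    calc a0 ^ 2 * (S - 2 * e) * (S * S ^ 2) = a0 ^ 2 * ((S - 2 * e) * (S * S ^ 2)) := by ring
      _ ≤ a0 ^ 2 * (S ^ 2 - e ^ 2) ^ 2 := mul_le_mul_of_nonneg_left h2 (sq_nonneg _)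
      _ = (a0 * (S ^ 2 - e ^ 2)) ^ 2 := by ring
      _ ≤ χ ^ 2 := h1
      _ ≤ (1 + e ^ 2) * χ ^ 2 := by nlinarith [sq_nonneg e, sq_nonneg χ, mul_nonneg (sq_nonneg e) (sq_nonneg χ)]
  linarith

/-- a global smooth function equal to `sqrt (ε + 1 - x²)` near `[-1,1]` -/
theorem lpdc_ext {ε : ℝ} (hε : 0 < ε) (hε1 : ε ≤ 1) : ∃ g : ℝ → ℝ, ContDiff ℝ (⊤ : ℕ∞) g ∧
    (∀ x ∈ Icc (-1 : ℝ) 1, g x = Real.sqrt (ε + 1 - x ^ 2)) ∧
    (∀ x ∈ Icc (-1 : ℝ) 1, deriv (deriv g) x = -((1 + ε) / (Real.sqrt (ε + 1 - x ^ 2) * Real.sqrt (ε + 1 - x ^ 2) ^ 2))) := by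
  set b : ℝ := 1 + ε / 4 with hb
  have hq : ∀ x ∈ Icc (-b) b, 0 < ε + 1 - x ^ 2 := by
    intro x hx
    have h1 : x ^ 2 ≤ b ^ 2 := sq_le_sq' hx.1 hx.2
    have h2 : b ^ 2 < 1 + ε := by rw [hb]; nlinarith
    linarith
  have hb0 : -b < b := by rw [hb]; linarith
  have hf : ContDiffOn ℝ (⊤ : ℕ∞) (fun x : ℝ => Real.sqrt (ε + 1 - x ^ 2)) (Icc (-b) b) := by
    refine ContDiffOn.sqrt ?_ (fun x hx => (hq x hx).ne')
    exact (contDiff_const.sub (contDiff_id.pow 2)).contDiffOn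
  obtain ⟨g, hg, hgf⟩ := sxt_extend hb0 hf
  have hsub : Icc (-1 : ℝ) 1 ⊆ Ioo (-b) b := fun x hx => ⟨by rw [hb]; linarith [hx.1], by rw [hb]; linarith [hx.2]⟩
  refine ⟨g, hg, fun x hx => hgf x (Ioo_subset_Icc_self (hsub hx)), fun x hx => ?_⟩
  have hnb : Ioo (-b) b ∈ 𝓝 x := isOpen_Ioo.mem_nhds (hsub hx)
  have d1 : ∀ y ∈ Ioo (-b) b, HasDerivAt (fun x : ℝ => Real.sqrt (ε + 1 - x ^ 2)) (-(2 * y) / (2 * Real.sqrt (ε + 1 - y ^ 2))) y := by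
    intro y hy
    have h1 : HasDerivAt (fun x : ℝ => ε + 1 - x ^ 2) (-(2 * y)) y := by
      have := ((hasDerivAt_id y).pow 2).const_sub (ε + 1)
      simpa using this
    exact h1.sqrt (hq y (Ioo_subset_Icc_self hy)).ne'
  have e1 : deriv g =ᶠ[𝓝 x] fun y => -(2 * y) / (2 * Real.sqrt (ε + 1 - y ^ 2)) := by
    filter_upwards [hnb] with y hy
    have hnb' : Ioo (-b) b ∈ 𝓝 y := isOpen_Ioo.mem_nhds hy
    have e2 : g =ᶠ[𝓝 y] fun x : ℝ => Real.sqrt (ε + 1 - x ^ 2) := by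
      filter_upwards [hnb'] with w hw
      exact hgf w (Ioo_subset_Icc_self hw)
    rw [e2.deriv_eq, (d1 y hy).deriv]
  rw [e1.deriv_eq]
  have hx' := hsub hx
  have hqx := hq x (Ioo_subset_Icc_self hx')
  have hS : 0 < Real.sqrt (ε + 1 - x ^ 2) := Real.sqrt_pos.2 hqx
  have d2 : HasDerivAt (fun y : ℝ => -(2 * y) / (2 * Real.sqrt (ε + 1 - y ^ 2)))
      ((-2 * (2 * Real.sqrt (ε + 1 - x ^ 2)) - -(2 * x) * (2 * (-(2 * x) / (2 * Real.sqrt (ε + 1 - x ^ 2)))))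
        / (2 * Real.sqrt (ε + 1 - x ^ 2)) ^ 2) x := by
    have h1 : HasDerivAt (fun y : ℝ => -(2 * y)) (-2) x := by
      have h := ((hasDerivAt_id x).const_mul (2 : ℝ)).fun_neg
      simpa using h
    exact h1.div ((d1 x hx').const_mul 2) (by positivity)
  rw [d2.deriv]
  have hsq : Real.sqrt (ε + 1 - x ^ 2) ^ 2 = ε + 1 - x ^ 2 := Real.sq_sqrt hqx.le
  set S := Real.sqrt (ε + 1 - x ^ 2) with hSdef
  have hx2 : x ^ 2 = ε + 1 - S ^ 2 := by linarith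
  field_simp
  nlinarith

/-- the regularised inequality -/
theorem lpdc_eps {M : LscMod} (hM : M.Ok) {A : ℝ → ℝ} {j Ξ : ℝ} (hj : 0 < j) (hA : LscProf j Ξ A) {s t a0 : ℝ} (hs : 0 ≤ s) (hst : s ≤ t)
    (ha : 0 ≤ a0) (hlow : ∀ r ∈ Icc s t, a0 ≤ A r) {ε : ℝ} (hε : 0 < ε) (hε1 : ε ≤ 1) :
    M.E A j t (fun z => Real.sqrt (1 - M.D 1 A j t z ^ 2))
      ≤ 2 * Real.sqrt ε + Real.exp (-(a0 ^ 2 / 2 * (t - s))) * Real.sqrt (1 + ε) := by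
  obtain ⟨g, hg, hg0, hg2⟩ := lpdc_ext hε hε1
  have ht0 : 0 ≤ t := hs.trans hst
  have hu : ∀ r, 0 ≤ r → ∀ y, M.D 1 A j r y ∈ Icc (-1 : ℝ) 1 := fun r hr y => abs_le.1 (hM.u_le hj hA r hr y)
  have hd := hM.dyn_comp (hM.dyn_V1 hj hA le_rfl ht0) ⟨1, fun r hr y => hM.u_le hj hA r hr.1 y⟩ hg
  set φ : ℝ → ℝ → ℝ := fun r y => g (M.D 1 A j r y) with hφ
  set G : ℝ → ℝ → ℝ := fun r y => deriv g (M.D 1 A j r y) * 0 + deriv (deriv g) (M.D 1 A j r y) * deriv (M.D 1 A j r) y ^ 2 / 2 with hG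
  have hφE : ∀ r ∈ Icc 0 t, ScE 0 (φ r) := fun r hr => ((hM.dyn_reg hd).scE hr).mono (by norm_num)
  have hGE : ∀ r ∈ Icc 0 t, ScE 0 (G r) := (hM.dyn_gen hd).1
  have c1 : ContinuousOn (fun p : ℝ × ℝ => M.D 1 A j p.1 p.2) (Icc 0 t ×ˢ univ) := (hM.D_T hj hA t 0 1).continuousOn
  have c2 : ContinuousOn (fun p : ℝ × ℝ => M.D 2 A j p.1 p.2) (Icc 0 t ×ˢ univ) := (hM.D_T hj hA t 0 2).continuousOn
  have hg'' : Continuous (deriv (deriv g)) := (hg.iterate_deriv 2).continuous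
  have hGT : ScT (Icc 0 t) 0 G := by
    refine ⟨?_, (hM.dyn_gen hd).2⟩
    have e : (fun p : ℝ × ℝ => G p.1 p.2) = fun p : ℝ × ℝ => deriv (deriv g) (M.D 1 A j p.1 p.2) * M.D 2 A j p.1 p.2 ^ 2 / 2 := by
      funext p
      simp only [hG, LscMod.lsd_D_succ, mul_zero, zero_add]
    rw [e]
    exact ((hg''.comp_continuousOn c1).mul (c2.pow 2)).div_const 2
  have hγ : ContinuousOn (fun r => M.P A j 0 r (G r) 0) (Icc 0 t) := hM.P_fwd hj hA le_rfl ht0 hGT 0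
  set e : ℝ := Real.sqrt ε with he
  have he0 : 0 < e := Real.sqrt_pos.2 hε
  have hee : e ^ 2 = ε := Real.sq_sqrt hε.le
  have hn : ∀ r ∈ Icc 0 t, M.P A j 0 r (φ r) 0 - 2 * e = (φ 0 0 - 2 * e) + ∫ x in (0 : ℝ)..r, M.P A j 0 x (G x) 0 := by
    intro r hr
    have := (hM.dynkin hj hA le_rfl hr.1 (hM.dyn_sub hd le_rfl hr.1 hr.2) 0).2
    linarith
  have hle : ∀ r ∈ Icc s t, M.P A j 0 r (G r) 0 ≤ -(a0 ^ 2 / 2 * (M.P A j 0 r (φ r) 0 - 2 * e)) := by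
    intro r hr
    have hr' : r ∈ Icc 0 t := ⟨hs.trans hr.1, hr.2⟩
    have hE2 : ScE 0 (fun y => (-(a0 ^ 2 / 2)) * φ r y + a0 ^ 2 / 2 * (2 * e)) := ((hφE r hr').const_mul _).add (ScE.const 0 _)
    have h1 := hM.P_mono hj hA le_rfl hr'.1 (hGE r hr') hE2 (fun y => by
      have hx := hu r hr'.1 y
      have hq : ε ≤ ε + 1 - M.D 1 A j r y ^ 2 := by
        have : M.D 1 A j r y ^ 2 ≤ 1 := by
          have := sq_le_sq' hx.1 hx.2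
          simpa using this
        linarith
      have hS : e ≤ Real.sqrt (ε + 1 - M.D 1 A j r y ^ 2) := Real.sqrt_le_sqrt hq
      have hSS : Real.sqrt (ε + 1 - M.D 1 A j r y ^ 2) ^ 2 = ε + 1 - M.D 1 A j r y ^ 2 := Real.sq_sqrt (hε.le.trans hq)
      have hχ : a0 * (Real.sqrt (ε + 1 - M.D 1 A j r y ^ 2) ^ 2 - e ^ 2) ≤ M.D 2 A j r y := by
        rw [hSS, hee]
        have h3 := hM.chi_lo hj hA r hr'.1 y
        have h4 : 0 ≤ 1 - M.D 1 A j r y ^ 2 := by linarith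
        have h5 : a0 * (1 - M.D 1 A j r y ^ 2) ≤ A r * (1 - M.D 1 A j r y ^ 2) := mul_le_mul_of_nonneg_right (hlow r hr) h4
        have e6 : ε + 1 - M.D 1 A j r y ^ 2 - ε = 1 - M.D 1 A j r y ^ 2 := by ring
        rw [e6]
        linarith
      have h7 := lpdc_ineq he0 hS ha hχ
      simp only [hG, hφ, LscMod.lsd_D_succ, mul_zero, zero_add]
      rw [hg2 _ hx, hg0 _ hx, ← hee]
      rw [hee]
      rw [hee] at h7
      linarith) 0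
    rw [hM.P_add hj hA le_rfl hr'.1 ((hφE r hr').const_mul _) (ScE.const 0 _), hM.P_smul hj hA le_rfl hr'.1 _ (hφE r hr'),
      hM.P_const hj hA le_rfl hr'.1] at h1
    linarith
  have key := lpdc_ode hs hst hγ hn hle
  -- the value at `s`
  have hsI : s ∈ Icc 0 t := ⟨hs, hst⟩
  have htI : t ∈ Icc 0 t := ⟨ht0, le_rfl⟩
  have h8 : M.P A j 0 s (φ s) 0 ≤ Real.sqrt (1 + ε) := by
    have := hM.P_mono hj hA le_rfl hs (hφE s hsI) (ScE.const 0 (Real.sqrt (1 + ε))) (fun y => by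
      simp only [hφ]
      rw [hg0 _ (hu s hs y)]
      exact Real.sqrt_le_sqrt (by nlinarith [sq_nonneg (M.D 1 A j s y)])) 0
    rwa [hM.P_const hj hA le_rfl hs] at this
  have hE0 : ScE 0 (fun z => Real.sqrt (1 - M.D 1 A j t z ^ 2)) := by
    refine ⟨?_, ScG.of_bdd (C := 1) fun z => ?_⟩
    · exact (continuous_const.sub ((hM.D_E hj hA ht0 0 1).continuous.pow 2)).sqrt
    · rw [abs_of_nonneg (Real.sqrt_nonneg _)]
      refine Real.sqrt_le_one.2 ?_ |>.trans le_rfl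
      nlinarith [sq_nonneg (M.D 1 A j t z)]
  have h9 : M.E A j t (fun z => Real.sqrt (1 - M.D 1 A j t z ^ 2)) ≤ M.P A j 0 t (φ t) 0 :=
    hM.P_mono hj hA le_rfl ht0 hE0 (hφE t htI) (fun y => by
      simp only [hφ]
      rw [hg0 _ (hu t ht0 y)]
      exact Real.sqrt_le_sqrt (by linarith)) 0
  have hx0 := Real.exp_pos (-(a0 ^ 2 / 2 * (t - s)))
  have h10 : Real.exp (-(a0 ^ 2 / 2 * (t - s))) * (M.P A j 0 s (φ s) 0 - 2 * e)
      ≤ Real.exp (-(a0 ^ 2 / 2 * (t - s))) * Real.sqrt (1 + ε) :=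
    mul_le_mul_of_nonneg_left (by linarith) hx0.le
  linarith

/-- **K6** on the abstract model -/
theorem lpdc_dec {M : LscMod} (hM : M.Ok) {A : ℝ → ℝ} {j Ξ : ℝ} (hj : 0 < j) (hA : LscProf j Ξ A) {s t a0 : ℝ} (hs : 0 ≤ s) (hst : s ≤ t)
    (ha : 0 ≤ a0) (hlow : ∀ r ∈ Icc s t, a0 ≤ A r) :
    M.E A j t (fun z => Real.sqrt (1 - M.D 1 A j t z ^ 2)) ≤ Real.exp (-(a0 ^ 2 * (t - s) / 2)) := by
  have hlim : Tendsto (fun ε : ℝ => 2 * Real.sqrt ε + Real.exp (-(a0 ^ 2 / 2 * (t - s))) * Real.sqrt (1 + ε)) (𝓝[>] 0)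
      (𝓝 (2 * Real.sqrt 0 + Real.exp (-(a0 ^ 2 / 2 * (t - s))) * Real.sqrt (1 + 0))) := by
    have hc : Continuous (fun ε : ℝ => 2 * Real.sqrt ε + Real.exp (-(a0 ^ 2 / 2 * (t - s))) * Real.sqrt (1 + ε)) := by fun_prop
    exact (hc.tendsto 0).mono_left nhdsWithin_le_nhds
  have h1 := ge_of_tendsto hlim (b := M.E A j t (fun z => Real.sqrt (1 - M.D 1 A j t z ^ 2))) (by
    have : Ioc (0 : ℝ) 1 ∈ 𝓝[>] (0 : ℝ) := Ioc_mem_nhdsGT one_pos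
    filter_upwards [this] with ε hε
    exact lpdc_eps hM hj hA hs hst ha hlow hε.1 hε.2)
  simp only [Real.sqrt_zero, mul_zero, zero_add, add_zero, Real.sqrt_one, mul_one] at h1
  refine h1.trans (le_of_eq ?_)
  congr 1
  ring

section fields

variable {M : LscMod} (hM : M.Ok)

include hM

theorem lpd_ex_add (A : ℝ → ℝ) (j : ℝ) (hA : LppAdm A j) (ξ : ℝ) (hξ : 0 ≤ ξ) (f g : ℝ → ℝ) (hf : LppCls f) (hg : LppCls g) :
    (lppOf M).Ex A j ξ (fun z => f z + g z) = (lppOf M).Ex A j ξ f + (lppOf M).Ex A j ξ g := by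
  obtain ⟨hj, Ξ, hp⟩ := lpd_prof hA
  exact hM.P_add hj hp le_rfl hξ (lpd_cls hf) (lpd_cls hg) 0

theorem lpd_ex_smul (A : ℝ → ℝ) (j : ℝ) (hA : LppAdm A j) (ξ : ℝ) (hξ : 0 ≤ ξ) (c : ℝ) (f : ℝ → ℝ) (hf : LppCls f) :
    (lppOf M).Ex A j ξ (fun z => c * f z) = c * (lppOf M).Ex A j ξ f := by
  obtain ⟨hj, Ξ, hp⟩ := lpd_prof hA
  exact hM.P_smul hj hp le_rfl hξ c (lpd_cls hf) 0

theorem lpd_ex_mono (A : ℝ → ℝ) (j : ℝ) (hA : LppAdm A j) (ξ : ℝ) (hξ : 0 ≤ ξ) (f g : ℝ → ℝ) (hf : LppCls f) (hg : LppCls g)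
    (h : ∀ z, f z ≤ g z) : (lppOf M).Ex A j ξ f ≤ (lppOf M).Ex A j ξ g := by
  obtain ⟨hj, Ξ, hp⟩ := lpd_prof hA
  exact hM.P_mono hj hp le_rfl hξ (lpd_cls hf) (lpd_cls hg) h 0

theorem lpd_ex_one (A : ℝ → ℝ) (j : ℝ) (hA : LppAdm A j) (ξ : ℝ) (hξ : 0 ≤ ξ) : (lppOf M).Ex A j ξ (fun _ => 1) = 1 := by
  obtain ⟨hj, Ξ, hp⟩ := lpd_prof hA
  exact hM.P_const hj hp le_rfl hξ 1 0

theorem lpd_ex_zero (A : ℝ → ℝ) (j : ℝ) (g : ℝ → ℝ) : (lppOf M).Ex A j 0 g = g 0 := by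
  show M.P A j 0 0 g 0 = g 0
  rw [hM.P_self]

/-- LEAF (277; `scq_mom2`): `dyn_space` with `g = z²`: `m' = 1 + 2 A E[u z] ≤ 1 + 2 j B m`, `|u(z)| ≤ B |z|` -/
theorem lpd_mom2 (R : ℝ) : ∃ C : ℝ, ∀ A j, LppAdm A j → ∀ ξ ∈ Icc 0 R, (lppOf M).Ex A j ξ (fun z => z ^ 2) ≤ C * ξ :=
  LscMod.lsd_f_mom2 hM R

/-- LEAF: from `V_T` -/
theorem lpd_smooth (A : ℝ → ℝ) (j : ℝ) (hA : LppAdm A j) (ξ : ℝ) (hξ : 0 ≤ ξ) (n : ℕ) : ContDiff ℝ n ((lppOf M).V A j ξ) :=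
  lse_smooth hM A j hA ξ hξ n

theorem lpd_even (A : ℝ → ℝ) (j : ℝ) (hA : LppAdm A j) (ξ : ℝ) (hξ : 0 ≤ ξ) (z : ℝ) : (lppOf M).V A j ξ (-z) = (lppOf M).V A j ξ z := by
  obtain ⟨hj, Ξ, hp⟩ := lpd_prof hA
  exact hM.V_even hj hp ξ hξ z

theorem lpd_bd (k : ℕ) (hk : 1 ≤ k) : ∃ C : ℝ, ∀ A j, LppAdm A j → ∀ ξ, 0 ≤ ξ → ∀ z, |(lppOf M).vk k A j ξ z| ≤ C := by
  obtain ⟨C, hC⟩ := hM.V_bd 4 k hk
  refine ⟨C, fun A j hA ξ hξ z => ?_⟩
  obtain ⟨hj, Ξ, hp⟩ := lpd_prof hA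
  rw [lpd_vk]
  exact hC A j Ξ hA.j1 hA.j4 hp ξ hξ z

theorem lpd_hess (A : ℝ → ℝ) (j : ℝ) (hA : LppAdm A j) (ξ : ℝ) (hξ : 0 ≤ ξ) (z : ℝ) : 0 < (lppOf M).vk 2 A j ξ z ∧
    A ξ * (1 - (lppOf M).vk 1 A j ξ z ^ 2) ≤ (lppOf M).vk 2 A j ξ z ∧ (lppOf M).vk 2 A j ξ z ≤ j * (1 - (lppOf M).vk 1 A j ξ z ^ 2) := by
  obtain ⟨hj, Ξ, hp⟩ := lpd_prof hA
  simp only [lpd_vk]
  exact ⟨hM.chi_pos hj hp ξ hξ z, hM.chi_lo hj hp ξ hξ z, hM.chi_hi hj hp ξ hξ z⟩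

/-- LEAF -/
theorem lpd_M3c (A : ℝ → ℝ) (j : ℝ) (hA : LppAdm A j) : ContinuousOn ((lppOf M).M3 A j) (Ici 0) :=
  lse_M3c hM A j hA

/-- LEAF -/
theorem lpd_N3c (A : ℝ → ℝ) (j : ℝ) (hA : LppAdm A j) : ContinuousOn ((lppOf M).N3 A j) (Ici 0) :=
  lse_N3c hM A j hA

/-- LEAF -/
theorem lpd_curve (A : ℝ → ℝ) (j : ℝ) (hA : LppAdm A j) (ξ ξ' : ℝ) (h0 : 0 ≤ ξ) (h1 : ξ ≤ ξ') :
    (lppOf M).M2 A j ξ' - (lppOf M).M2 A j ξ = ∫ r in ξ..ξ', ((lppOf M).N3 A j r - 2 * A r * (lppOf M).M3 A j r) :=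
  lse_curve hM A j hA ξ ξ' h0 h1

/-- LEAF -/
theorem lpd_gam (A : ℝ → ℝ) (j : ℝ) (hA : LppAdm A j) (ξ : ℝ) (h0 : 0 ≤ ξ) :
    (lppOf M).Gam A j ξ = ∫ r in (0 : ℝ)..ξ, (lppOf M).M2 A j r :=
  lse_gam hM A j hA ξ h0

/-- LEAF K2 (277) -/
theorem lpd_dlip (k : ℕ) (hk : 1 ≤ k) (hk4 : k ≤ 4) (R : ℝ) : ∃ C : ℝ, ∀ A A' j, LppAdm A j → LppAdm A' j → (∀ ξ, R ≤ ξ → A' ξ = A ξ) → ∀ ξ, 0 ≤ ξ → ∀ z,
    |(lppOf M).vk k A' j ξ z - (lppOf M).vk k A j ξ z| ≤ C * ∫ r in Ioi ξ, |A' r - A r| := by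
  simp only [lpd_vk]
  exact LscMod.lsd_f_dlip hM k hk hk4 R

/-- LEAF -/
theorem lpd_guerra (A A' : ℝ → ℝ) (j : ℝ) (hA : LppAdm A j) (hA' : LppAdm A' j) (ξ : ℝ) (hξ : 0 ≤ ξ) : ∃ c : ℝ, ∀ z,
    |(lppOf M).V A' j ξ z - (lppOf M).V A j ξ z - c| ≤ (1 / 2) * ∫ r in Ioi ξ, |A' r - A r| :=
  lse_guerra hM A A' j hA hA' ξ hξ

/-- LEAF K3 (277) -/
theorem lpd_llip (R : ℝ) : ∃ C : ℝ, ∀ A j A' j', LppAdm A j → LppAdm A' j' → ∀ ξ ∈ Icc 0 R, ∀ (g : ℝ → ℝ) (G : ℝ), LppTest g G →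
    ∀ D H : ℝ → ℝ, (∀ r ∈ Ico 0 ξ, ∀ z, |(lppOf M).vk 2 A' j' r z - (lppOf M).vk 2 A j r z| ≤ D r) →
      (∀ r ∈ Ico 0 ξ, (|A' r - A r| + A r * D r) * r ≤ H r) → IntervalIntegrable H volume 0 ξ →
      |(lppOf M).Ex A' j' ξ g - (lppOf M).Ex A j ξ g| ≤ C * G * ∫ r in (0 : ℝ)..ξ, H r := by
  simp only [lpd_vk]
  exact LscMod.lsd_f_llip hM R

theorem lpd_ann (A : ℝ → ℝ) (hA : LppAdm A 1) (s : ℝ) (hs : 0 ≤ s) (htop : ∀ ξ, s ≤ ξ → A ξ = 1) (d : ℝ) (hd : 0 ≤ d) :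
    (lppOf M).M2 A 1 (s + d) ≤ Real.exp (-d / 2) * (lppOf M).M2 A 1 s := by
  rw [lpd_M2]
  exact hM.ann ⟨hA.mono, hA.nn 0 le_rfl, htop, hs⟩ d hd

/-- LEAF K6 (277) -/
theorem lpd_dec (A : ℝ → ℝ) (j : ℝ) (hA : LppAdm A j) (s t a0 : ℝ) (hs : 0 ≤ s) (hst : s ≤ t) (ha : 0 ≤ a0) (hlow : ∀ r ∈ Icc s t, a0 ≤ A r) :
    (lppOf M).Ex A j t (fun z => Real.sqrt (1 - (lppOf M).vk 1 A j t z ^ 2)) ≤ Real.exp (-(a0 ^ 2 * (t - s) / 2)) := by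
  obtain ⟨hj, Ξ, hp⟩ := lpd_prof hA
  have h := lpdc_dec hM hj hp hs hst ha hlow
  simpa only [lpd_Ex, lpd_vk] using h

/-- LEAF K8 -/
theorem lpd_term (hid : LscIdSc M) (k : ℕ) (hk : 1 ≤ k) : ∃ C c : ℝ, 0 < c ∧ ∀ A, LppAdm A 1 → ∀ s0 M' j, 0 ≤ s0 → s0 ≤ M' → 1 ≤ j → j ≤ 4 →
    (∀ ξ, s0 ≤ ξ → A ξ = 1) → ∀ ξ ∈ Icc 0 s0, ∀ z,
      |(lppOf M).vk k (lppCap A M' j) j ξ z - (lppOf M).vk k A 1 ξ z| ≤ C * Real.exp (-c * (M' - s0)) := by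
  have _ := hM
  obtain ⟨C, c, hc, h⟩ := lpt_term k hk
  refine ⟨C, c, hc, fun A hA s0 M' j hs0 hsM hj hj4 h1 ξ hξ z => ?_⟩
  have e1 : (lppOf M).V (lppCap A M' j) j ξ = lsiV (lppCap A M' j) j ξ :=
    lpt_V_id hid (zero_lt_one.trans_le hj) (lpt_cap_prof hA (hs0.trans hsM) hj) hξ.1
  have e2 : (lppOf M).V A 1 ξ = lsiV A 1 ξ := lpt_V_id hid one_pos (lpt_prof hA hs0 h1) hξ.1
  unfold LppMod.vk
  rw [e1, e2]
  exact h A hA s0 M' j hs0 hsM hj hj4 h1 ξ hξ z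

/-- **THE PRODUCER** -/
theorem lpp_of_lsc (hid : LscIdSc M) : LppOk (lppOf M) where
  ex_add := lpd_ex_add hM
  ex_smul := lpd_ex_smul hM
  ex_mono := lpd_ex_mono hM
  ex_one := lpd_ex_one hM
  ex_zero := fun A j _ g _ => lpd_ex_zero hM A j g
  mom2 := lpd_mom2 hM
  smooth := lpd_smooth hM
  even := lpd_even hM
  bd := lpd_bd hM
  hess := lpd_hess hM
  M3c := lpd_M3c hM
  N3c := lpd_N3c hM
  curve := lpd_curve hM
  gam := lpd_gam hM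
  dlip := lpd_dlip hM
  guerra := lpd_guerra hM
  llip := lpd_llip hM
  ann := lpd_ann hM
  dec := lpd_dec hM
  term := lpd_term hM hid

end fields

/-- THE instance of LL 03 -/
noncomputable def llPk : LppMod := lppOf llMod

theorem llPk_ok : LppOk llPk := lpp_of_lsc llMod_ok llMod_id

theorem llPk_V : llBase.scV = llPk.V := rfl

theorem llPk_G : llBase.scG = llPk.Gam := (lpd_Gam llMod).symm

theorem llPk_G1 : llBase.scG1 = llPk.M2 := (lpd_M2 llMod).symm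

theorem llPk_link : LppLink llBase llPk := ⟨llPk_V, llPk_G, llPk_G1⟩

theorem lpd_eqns_cite : True := by
  have := @lppOf.eq_1
  have := @llPk.eq_1
  trivial

end Claimed.Agent.R286
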