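import Claimed.Agent.R286.LL.PathsPkD
import Claimed.Agent.R286.LL.PathsKk

/-!
# Row 286 (S0533), LL Section 3: LEMMA paths:parameter-regularity (l.195-368) = `LlPt.RegL`, `LlPt.RegT`      (architect helper267; prefix `lrg_`, `Lrg`)

TEX[LL:paths:parameter-regularity]#195-368      HANDOVER 04:40Z (267 drafted to row 289; successor for the glue helper31): sections 0-5 are PROVED (0 sorry); what is left = section 6-8 below (plan in the docstrings) = 236's `LL/PathsRegT.lean`.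
* §0 `LppOk2 S` = THE 3 NEW PACKAGE FACTS (to be derived from `LscMod.Ok`, plan at the end of this header): `duh` (tau-free Duhamel), `jU`, `jE` (Lipschitz in the terminal mass);  `LrgLink 𝔹 S`.
* §1 two models on `[0,R]` (`|A'-A| ≤ a r`, `A ≤ C_A r`, orders 2-4 `ε`-close): `lrg_cmp_M2'`, `lrg_cmp_drop` (the factor `ξ²` survives), constants `lrgE`, `lrgE2` (homogeneous in `(a,ε)`).
* §2 `lrg_gap_alg`, `lrg_inv_alg`, `lrg_gam_lip/mono/diff`.      §3 DIRECT family in `λ`: `lrg_dir_M2`, `lrg_dir_drop`, `lrg_dir_far` (all times `≥ z_0`, by `duh`).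
* §4 terminal mass: `lrg_glip` (`|Γ_j' - Γ_j|(ξ) ≤ C (1+ξ) |j'-j|`, by `jU` + `duh`; replaces the tree-density argument l.322-350), `lrg_jE_unif`.
* §5 SMOOTHED family in `ℓ` (hypotheses bundled in `LrgTH`): fields `lrg_T_b0, gap0, K0, Kpt, q0, qpt` in real parameters.   Clock lemmas: `LL/PathsKk.lean` §7-8.
PLAN for `LppOk2` from `LscMod.Ok` (`j ≤ j'`, same profile below `M`, `W = V_j' - V_j`):  `(∂_r + L_j) W = - A (u'-u)²/2`, `(∂_r + L_j') W = + A (u'-u)²/2` (`dyn_V0`, `dyn_model`), so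
`P^j[W_M] ≤ W ≤ P^j'[W_M]`;  `W_M + (j'-j) M/2 = g = F(j',·) - F(j,·)`, `F = j⁻¹ log cosh (j z)`, `0 ≤ c0 - g ≤ C (j'-j) sech(j z)`, `c0 = log 2 (1/j - 1/j')`;  conditional decay
`P^j_{ξ,M}[sqrt(1-u²)] ≤ exp(-a0² (M-R)/2)`;  first order term `P^j[g]`: all derivatives `≤ C |j'-j|` (`P_grad`), Landau-Kolmogorov on it;  remainder `(1/2) ∫ A P^j[(u'-u)²]` is `O(|j'-j|^{4/3})`
(Landau on `W`), so TELESCOPE `j = j_0 < ... < j_n = j'` and let `n → ∞` (Landau on the sum of the remainders).   `duh`: `dyn_P` + `dyn_model` + `dynkin` + `P_grad` (= 277's `llip` without parity).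
-/

set_option autoImplicit false
set_option linter.unusedSectionVars false
set_option linter.unusedVariables false

namespace Claimed.Agent.R286

open MeasureTheory Set Filter Topology

/-! ## 0. additions to the package; the link with `LlBase` -/

/-- tau-free Duhamel for two models (no parity gain, NO horizon): `E' g - E g = ∫_0^ξ E'_r[(A'u' - A u)(r) ∂_z P_{r,ξ} g] dr`, `|∂_z P g| ≤ C G` (`P_grad`) -/
def LrgDuh (S : LppMod) (C : ℝ) : Prop :=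
  ∀ A j A' j', LppAdm A j → LppAdm A' j' → ∀ ξ, 0 ≤ ξ → ∀ (g : ℝ → ℝ) (G : ℝ), LppTest g G →
    ∀ H : ℝ → ℝ, (∀ r ∈ Ico 0 ξ, ∀ z, |A' r * S.vk 1 A' j' r z - A r * S.vk 1 A j r z| ≤ H r) →
      IntervalIntegrable H volume 0 ξ → |S.Ex A' j' ξ g - S.Ex A j ξ g| ≤ C * G * ∫ r in (0 : ℝ)..ξ, H r

/-- Lipschitz dependence on the terminal mass, all times, order `k` -/
def LrgJU (S : LppMod) (k : ℕ) (C : ℝ) : Prop :=
  ∀ (A : ℝ → ℝ) (M j j' : ℝ), 0 ≤ M → LppAdm (lppCap A M j) j → LppAdm (lppCap A M j') j' → ∀ ξ, 0 ≤ ξ → ∀ z,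
    |S.vk k (lppCap A M j') j' ξ z - S.vk k (lppCap A M j) j ξ z| ≤ C * |j' - j|

/-- the terminal mass is exponentially invisible before `R` if the masses are `≥ a0` on `[R,M)` -/
def LrgJE (S : LppMod) (k : ℕ) (a0 C c : ℝ) : Prop :=
  ∀ (A : ℝ → ℝ) (M j j' R : ℝ), 0 ≤ R → R ≤ M → LppAdm (lppCap A M j) j → LppAdm (lppCap A M j') j' →
    (∀ r ∈ Ico R M, a0 ≤ A r) → ∀ ξ ∈ Icc 0 R, ∀ z,
      |S.vk k (lppCap A M j') j' ξ z - S.vk k (lppCap A M j) j ξ z| ≤ C * Real.exp (-c * (M - R)) * |j' - j|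

/-- THE ADDITIONS (LL 03 l.256-368) -/
structure LppOk2 (S : LppMod) : Prop where
  duh : ∃ C : ℝ, LrgDuh S C
  jU : ∀ k : ℕ, 1 ≤ k → ∃ C : ℝ, LrgJU S k C
  jE : ∀ k : ℕ, 1 ≤ k → ∀ a0 : ℝ, 0 < a0 → ∃ C c : ℝ, 0 < c ∧ LrgJE S k a0 C c

/-- the scalar fields of the base are those of the package -/
structure LrgLink (𝔹 : LlBase) (S : LppMod) : Prop where
  V : 𝔹.scV = S.V
  G : 𝔹.scG = S.Gam
  G1 : 𝔹.scG1 = S.M2

/-! ## 1. two models on `[0,R]`: `|A' - A| ≤ a r`, `A ≤ C_A r`, derivatives of orders `2,3,4` are `ε`-close -/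

/-- `|Γ'' difference| ≤ E r` -/
noncomputable def lrgE (B CA R a ε : ℝ) : ℝ :=
  2 * B ^ 2 * ε + 3 * B ^ 4 * (a + CA * ε) * R ^ 2 + 2 * a * B ^ 3 + 2 * CA * (3 * B ^ 2 * ε + 3 * B ^ 4 * (a + CA * ε) * R ^ 3)
/-- `|Γ' difference| ≤ E₂` -/
noncomputable def lrgE2 (B CA R a ε : ℝ) : ℝ := 2 * B * ε + 3 * B ^ 4 * (a + CA * ε) * R ^ 3

theorem lrgE_hom (B CA R a ε δ : ℝ) : lrgE B CA R (δ * a) (δ * ε) = δ * lrgE B CA R a ε := by unfold lrgE; ring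
theorem lrgE2_hom (B CA R a ε δ : ℝ) : lrgE2 B CA R (δ * a) (δ * ε) = δ * lrgE2 B CA R a ε := by unfold lrgE2; ring
theorem lrgE_nonneg {B CA R a ε : ℝ} (hB : 0 ≤ B) (hCA : 0 ≤ CA) (hR : 0 ≤ R) (ha : 0 ≤ a) (hε : 0 ≤ ε) : 0 ≤ lrgE B CA R a ε := by
  unfold lrgE; positivity
theorem lrgE2_nonneg {B CA R a ε : ℝ} (hB : 0 ≤ B) (hCA : 0 ≤ CA) (hR : 0 ≤ R) (ha : 0 ≤ a) (hε : 0 ≤ ε) : 0 ≤ lrgE2 B CA R a ε := by
  unfold lrgE2; positivity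

section one

variable {S : LppMod} (hS : LppOk S) {R B : ℝ} (hB : LppB S R B) {A : ℝ → ℝ} {j : ℝ} (hA : LppAdm A j)

include hS hB hA

theorem lrg_M2_abs (ξ : ℝ) (hξ : 0 ≤ ξ) : |S.M2 A j ξ| ≤ B ^ 2 := by
  have bw := hB.bd 2 (by norm_num) (by norm_num) A j hA ξ hξ
  have hb : ∀ z, |S.vk 2 A j ξ z ^ 2| ≤ B ^ 2 := fun z => by rw [sq (S.vk 2 A j ξ z)]; exact lpp_aux_m2 (bw z) (bw z)
  exact lpp_ex_abs_le_const hS hA hξ (LppCls.of_bdd ((lpp_vk_cont hS hA hξ 2).pow 2) hb) hb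

theorem lrg_M3_abs (ξ : ℝ) (hξ : 0 ≤ ξ) : |S.M3 A j ξ| ≤ B ^ 3 := by
  have bw := hB.bd 2 (by norm_num) (by norm_num) A j hA ξ hξ
  have hb : ∀ z, |S.vk 2 A j ξ z ^ 3| ≤ B ^ 3 := fun z => by
    rw [show S.vk 2 A j ξ z ^ 3 = S.vk 2 A j ξ z * S.vk 2 A j ξ z * S.vk 2 A j ξ z by ring]
    exact lpp_aux_m3 (bw z) (bw z) (bw z)
  exact lpp_ex_abs_le_const hS hA hξ (LppCls.of_bdd ((lpp_vk_cont hS hA hξ 2).pow 3) hb) hb

/-- parity: `E V_zzz² ≤ B³ ξ` -/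
theorem lrg_N3_abs (ξ : ℝ) (hξ : ξ ∈ Icc 0 R) : |S.N3 A j ξ| ≤ B ^ 3 * ξ := by
  have hB0 : 0 ≤ B := by linarith [hB.one]
  have b3 := hB.bd 3 (by norm_num) (by norm_num) A j hA ξ hξ.1
  have b4 := hB.bd 4 (by norm_num) (by norm_num) A j hA ξ hξ.1
  have c3 := lpp_vk_cont hS hA hξ.1 3
  have d3 := lpp_vk_hasDerivAt hS hA hξ.1 3
  have z3 : S.vk 3 A j ξ 0 = 0 := by
    have := lpp_vk_neg hS hA hξ.1 3 0
    rw [neg_zero] at this
    linarith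
  have hm : ∀ z, |S.vk 3 A j ξ z| ≤ B * |z| := fun z => lpp_abs_le_mul_abs d3 z3 b4 z
  have h1 := lpp_aux_Ex_sq hS hA hξ.1 (f := fun z => S.vk 3 A j ξ z ^ 2) (g := fun _ => 0) (K := B ^ 2) (c := B ^ 2) (m := B * ξ)
    (c3.pow 2) continuous_const (fun z => by rw [sq (S.vk 3 A j ξ z)]; exact lpp_aux_m2 (b3 z) (b3 z))
    (fun z => by simp; positivity) (by positivity)
    (fun z => by
      rw [sub_zero, abs_pow, ← sq_abs z, ← mul_pow]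
      exact pow_le_pow_left₀ (abs_nonneg _) (hm z) 2) (hB.mom A j hA ξ hξ)
  rw [lpp_ex_const hS hA hξ.1 0, sub_zero] at h1
  have e : B ^ 2 * (B * ξ) = B ^ 3 * ξ := by ring
  rw [e] at h1
  exact h1

/-- `|Γ'(ξ) - Γ'(0)| ≤ C ξ²` -/
theorem lrg_drop_abs {CA : ℝ} (hCA0 : 0 ≤ CA) (hCA : ∀ r ∈ Icc 0 R, A r ≤ CA * r) (ξ : ℝ) (hξ : ξ ∈ Icc 0 R) :
    |S.M2 A j ξ - S.M2 A j 0| ≤ (B ^ 3 + 2 * CA * B ^ 3) * ξ ^ 2 / 2 := by
  have hB0 : 0 ≤ B := by linarith [hB.one]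
  rw [hS.curve A j hA 0 ξ le_rfl hξ.1]
  have h := intervalIntegral.norm_integral_le_of_norm_le (μ := volume) (a := 0) (b := ξ)
    (f := fun r => S.N3 A j r - 2 * A r * S.M3 A j r) (g := fun r => (B ^ 3 + 2 * CA * B ^ 3) * r) hξ.1
    (Filter.Eventually.of_forall fun r hr => ?_) (Continuous.intervalIntegrable (by fun_prop) _ _)
  · rw [Real.norm_eq_abs, intervalIntegral.integral_const_mul, integral_id] at h
    have e : (B ^ 3 + 2 * CA * B ^ 3) * ((ξ ^ 2 - 0 ^ 2) / 2) = (B ^ 3 + 2 * CA * B ^ 3) * ξ ^ 2 / 2 := by ring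
    rwa [e] at h
  · have hr' : r ∈ Icc 0 R := ⟨hr.1.le, hr.2.trans hξ.2⟩
    have a1 := lrg_N3_abs hS hB hA r hr'
    have a2 := lrg_M3_abs hS hB hA r hr'.1
    have a3 := hCA r hr'
    have a4 := hA.nn r hr'.1
    rw [Real.norm_eq_abs]
    have a5 : |2 * A r * S.M3 A j r| ≤ 2 * (CA * r) * B ^ 3 := by
      rw [abs_mul, abs_of_nonneg (by positivity : 0 ≤ 2 * A r)]
      exact mul_le_mul (by linarith) a2 (abs_nonneg _) (by have := hr'.1; positivity)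
    have a6 := abs_sub (S.N3 A j r) (2 * A r * S.M3 A j r)
    nlinarith

end one

section cmp

variable {S : LppMod} (hS : LppOk S) {R B : ℝ} (hB : LppB S R B) {A A' : ℝ → ℝ} {j j' : ℝ}
  (hA : LppAdm A j) (hA' : LppAdm A' j') {a ε CA : ℝ} (ha0 : 0 ≤ a) (hε0 : 0 ≤ ε) (hCA0 : 0 ≤ CA)
  (hε : ∀ k : ℕ, 2 ≤ k → k ≤ 4 → ∀ ξ ∈ Icc 0 R, ∀ z, |S.vk k A' j' ξ z - S.vk k A j ξ z| ≤ ε)
  (ha : ∀ r ∈ Icc 0 R, |A' r - A r| ≤ a * r)
  (hCA : ∀ r ∈ Icc 0 R, A r ≤ CA * r)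

include hS hB hA hA' ha0 hε0 hCA0 hε ha hCA

theorem lrg_cmp_I (ξ : ℝ) (hξ : ξ ∈ Icc 0 R) (g : ℝ → ℝ) (G : ℝ) (hg : LppTest g G) :
    |S.Ex A' j' ξ g - S.Ex A j ξ g| ≤ B * G * ((a + CA * ε) * ξ ^ 3 / 3) := by
  have h := hB.ll A j A' j' hA hA' ξ hξ g G hg (fun _ => ε) (fun r => (a + CA * ε) * r ^ 2)
    (fun r hr z => hε 2 le_rfl (by norm_num) r ⟨hr.1, hr.2.le.trans hξ.2⟩ z)
    (fun r hr => by
      have hr' : r ∈ Icc 0 R := ⟨hr.1, hr.2.le.trans hξ.2⟩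
      have a1 := ha r hr'
      have a2 := hCA r hr'
      have a3 : A r * ε ≤ CA * r * ε := mul_le_mul_of_nonneg_right a2 hε0
      have a4 : (|A' r - A r| + A r * ε) * r ≤ (a * r + CA * r * ε) * r := mul_le_mul_of_nonneg_right (by linarith) hr.1
      have e : (a * r + CA * r * ε) * r = (a + CA * ε) * r ^ 2 := by ring
      linarith)
    (Continuous.intervalIntegrable (by fun_prop) _ _)
  have e : ∫ r in (0 : ℝ)..ξ, (a + CA * ε) * r ^ 2 = (a + CA * ε) * ξ ^ 3 / 3 := by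
    rw [intervalIntegral.integral_const_mul, integral_pow]
    norm_num
    ring
  rwa [e] at h

theorem lrg_cmp_M2 (ξ : ℝ) (hξ : ξ ∈ Icc 0 R) : |S.M2 A' j' ξ - S.M2 A j ξ| ≤ 2 * B * ε + 3 * B ^ 4 * (a + CA * ε) * ξ ^ 3 := by
  have h := lpp_M2_diff hS hB hA hA' hξ (fun k h2 h4 z => hε k h2 h4 ξ hξ z)
    (fun g G hg => lrg_cmp_I hS hB hA hA' ha0 hε0 hCA0 hε ha hCA ξ hξ g G hg)
  have e : 9 * B ^ 4 * ((a + CA * ε) * ξ ^ 3 / 3) = 3 * B ^ 4 * (a + CA * ε) * ξ ^ 3 := by ring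
  linarith

theorem lrg_cmp_M3 (ξ : ℝ) (hξ : ξ ∈ Icc 0 R) : |S.M3 A' j' ξ - S.M3 A j ξ| ≤ 3 * B ^ 2 * ε + 3 * B ^ 4 * (a + CA * ε) * ξ ^ 3 := by
  have h := lpp_M3_diff hS hB hA hA' hξ (fun k h2 h4 z => hε k h2 h4 ξ hξ z)
    (fun g G hg => lrg_cmp_I hS hB hA hA' ha0 hε0 hCA0 hε ha hCA ξ hξ g G hg)
  have e : 9 * B ^ 4 * ((a + CA * ε) * ξ ^ 3 / 3) = 3 * B ^ 4 * (a + CA * ε) * ξ ^ 3 := by ring
  linarith

theorem lrg_cmp_N3 (ξ : ℝ) (hξ : ξ ∈ Icc 0 R) : |S.N3 A' j' ξ - S.N3 A j ξ| ≤ 2 * B ^ 2 * ε * ξ + 3 * B ^ 4 * (a + CA * ε) * ξ ^ 3 := by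
  have h := lpp_N3_diff hS hB hA hA' hξ (fun k h2 h4 z => hε k h2 h4 ξ hξ z)
    (fun g G hg => lrg_cmp_I hS hB hA hA' ha0 hε0 hCA0 hε ha hCA ξ hξ g G hg)
  have e : 9 * B ^ 4 * ((a + CA * ε) * ξ ^ 3 / 3) = 3 * B ^ 4 * (a + CA * ε) * ξ ^ 3 := by ring
  linarith

theorem lrg_cmp_M2' (ξ : ℝ) (hξ : ξ ∈ Icc 0 R) : |S.M2 A' j' ξ - S.M2 A j ξ| ≤ lrgE2 B CA R a ε := by
  have hB0 : 0 ≤ B := by linarith [hB.one]
  have h := lrg_cmp_M2 hS hB hA hA' ha0 hε0 hCA0 hε ha hCA ξ hξ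
  have h3 : ξ ^ 3 ≤ R ^ 3 := pow_le_pow_left₀ hξ.1 hξ.2 3
  have h4 : 3 * B ^ 4 * (a + CA * ε) * ξ ^ 3 ≤ 3 * B ^ 4 * (a + CA * ε) * R ^ 3 := mul_le_mul_of_nonneg_left h3 (by positivity)
  unfold lrgE2
  linarith

/-- **the drop**: the quadratic vanishing survives the comparison -/
theorem lrg_cmp_drop (ξ : ℝ) (hξ : ξ ∈ Icc 0 R) :
    |(S.M2 A' j' ξ - S.M2 A' j' 0) - (S.M2 A j ξ - S.M2 A j 0)| ≤ lrgE B CA R a ε * ξ ^ 2 / 2 := by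
  have hB0 : 0 ≤ B := by linarith [hB.one]
  have hR0 : 0 ≤ R := hξ.1.trans hξ.2
  rw [hS.curve A j hA 0 ξ le_rfl hξ.1, hS.curve A' j' hA' 0 ξ le_rfl hξ.1,
    ← intervalIntegral.integral_sub (lpp_aux_curv_int hS hA' 0 ξ le_rfl hξ.1) (lpp_aux_curv_int hS hA 0 ξ le_rfl hξ.1)]
  have h := intervalIntegral.norm_integral_le_of_norm_le (μ := volume) (a := 0) (b := ξ)
    (f := fun r => (S.N3 A' j' r - 2 * A' r * S.M3 A' j' r) - (S.N3 A j r - 2 * A r * S.M3 A j r))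
    (g := fun r => lrgE B CA R a ε * r) hξ.1
    (Filter.Eventually.of_forall fun r hr => ?_) (Continuous.intervalIntegrable (by fun_prop) _ _)
  · rw [Real.norm_eq_abs, intervalIntegral.integral_const_mul, integral_id] at h
    have e : lrgE B CA R a ε * ((ξ ^ 2 - 0 ^ 2) / 2) = lrgE B CA R a ε * ξ ^ 2 / 2 := by ring
    rwa [e] at h
  · have hr' : r ∈ Icc 0 R := ⟨hr.1.le, hr.2.trans hξ.2⟩
    have hr0 := hr'.1
    have a1 := lrg_cmp_N3 hS hB hA hA' ha0 hε0 hCA0 hε ha hCA r hr'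
    have a2 := lrg_cmp_M3 hS hB hA hA' ha0 hε0 hCA0 hε ha hCA r hr'
    have a3 := lrg_M3_abs hS hB hA' r hr0
    have a4 := ha r hr'
    have a5 := hCA r hr'
    have a6 := hA.nn r hr0
    have hH : 0 ≤ 3 * B ^ 4 * (a + CA * ε) := by positivity
    have r3 : r ^ 3 ≤ R ^ 3 := pow_le_pow_left₀ hr0 hr'.2 3
    have r2 : r ^ 3 ≤ R ^ 2 * r := by
      have : r ^ 2 ≤ R ^ 2 := pow_le_pow_left₀ hr0 hr'.2 2
      calc r ^ 3 = r ^ 2 * r := by ring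
        _ ≤ R ^ 2 * r := mul_le_mul_of_nonneg_right this hr0
    have e : (S.N3 A' j' r - 2 * A' r * S.M3 A' j' r) - (S.N3 A j r - 2 * A r * S.M3 A j r)
        = (S.N3 A' j' r - S.N3 A j r) - 2 * ((A' r - A r) * S.M3 A' j' r) - 2 * (A r * (S.M3 A' j' r - S.M3 A j r)) := by ring
    rw [Real.norm_eq_abs, e]
    have b1 : |(A' r - A r) * S.M3 A' j' r| ≤ a * r * B ^ 3 := by
      rw [abs_mul]; exact mul_le_mul a4 a3 (abs_nonneg _) (by positivity)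
    have b2 : |A r * (S.M3 A' j' r - S.M3 A j r)| ≤ CA * r * (3 * B ^ 2 * ε + 3 * B ^ 4 * (a + CA * ε) * R ^ 3) := by
      rw [abs_mul, abs_of_nonneg a6]
      refine mul_le_mul a5 (a2.trans ?_) (abs_nonneg _) (by positivity)
      have := mul_le_mul_of_nonneg_left r3 hH
      linarith
    have b3 : |S.N3 A' j' r - S.N3 A j r| ≤ 2 * B ^ 2 * ε * r + 3 * B ^ 4 * (a + CA * ε) * (R ^ 2 * r) := by
      have := mul_le_mul_of_nonneg_left r2 hH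
      linarith
    have t1 := abs_sub ((S.N3 A' j' r - S.N3 A j r) - 2 * ((A' r - A r) * S.M3 A' j' r)) (2 * (A r * (S.M3 A' j' r - S.M3 A j r)))
    have t2 := abs_sub (S.N3 A' j' r - S.N3 A j r) (2 * ((A' r - A r) * S.M3 A' j' r))
    rw [abs_mul, abs_of_nonneg (by norm_num : (0 : ℝ) ≤ 2)] at t1 t2
    have e2 : lrgE B CA R a ε * r = (2 * B ^ 2 * ε * r + 3 * B ^ 4 * (a + CA * ε) * (R ^ 2 * r)) + 2 * (a * r * B ^ 3)
        + 2 * (CA * r * (3 * B ^ 2 * ε + 3 * B ^ 4 * (a + CA * ε) * R ^ 3)) := by unfold lrgE; ring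
    rw [e2]
    linarith

end cmp

/-! ## 2. algebra of the gap; the response -/

theorem lrg_gap_alg {m m0 m0' x x' Cd E e X : ℝ} (hm : 0 < m) (h0 : m ≤ m0) (h0' : m ≤ m0') (hX : 0 ≤ X) (hCd : 0 ≤ Cd)
    (hd : |x - m0| ≤ Cd * X) (hdd : |(x' - m0') - (x - m0)| ≤ E * X) (he : |m0' - m0| ≤ e) :
    |(1 - x' / m0') - (1 - x / m0)| ≤ (E / m + Cd * e / m ^ 2) * X := by
  have p0 : 0 < m0 := lt_of_lt_of_le hm h0
  have p0' : 0 < m0' := lt_of_lt_of_le hm h0'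
  have e1 : (1 - x' / m0') - (1 - x / m0) = -(((x' - m0') - (x - m0)) / m0') + (x - m0) * ((m0' - m0) / (m0 * m0')) := by
    field_simp; ring
  rw [e1]
  refine (abs_add_le _ _).trans ?_
  have b1 : |-(((x' - m0') - (x - m0)) / m0')| ≤ E * X / m := by
    rw [abs_neg, abs_div, abs_of_pos p0']
    have hEX : 0 ≤ E * X := (abs_nonneg _).trans hdd
    exact div_le_div₀ hEX hdd hm h0'
  have he0 : 0 ≤ e := (abs_nonneg _).trans he
  have b2 : |(x - m0) * ((m0' - m0) / (m0 * m0'))| ≤ Cd * X * (e / m ^ 2) := by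
    rw [abs_mul]
    refine mul_le_mul hd ?_ (abs_nonneg _) (by positivity)
    rw [abs_div, abs_of_pos (mul_pos p0 p0')]
    refine div_le_div₀ he0 he (by positivity) ?_
    rw [sq]; exact mul_le_mul h0 h0' hm.le p0.le
  have e2 : (E / m + Cd * e / m ^ 2) * X = E * X / m + Cd * X * (e / m ^ 2) := by ring
  rw [e2]
  exact add_le_add b1 b2

theorem lrg_inv_alg {m m0 m0' e L : ℝ} (hm : 0 < m) (h0 : m ≤ m0) (h0' : m ≤ m0') (he : |m0' - m0| ≤ e) (hL : 1 ≤ L) :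
    |1 / (L * m0') - 1 / (L * m0)| ≤ e / m ^ 2 := by
  have p0 : 0 < m0 := lt_of_lt_of_le hm h0
  have p0' : 0 < m0' := lt_of_lt_of_le hm h0'
  have hL0 : 0 < L := by linarith
  have he0 : 0 ≤ e := (abs_nonneg _).trans he
  have e1 : 1 / (L * m0') - 1 / (L * m0) = -(m0' - m0) / (L * (m0 * m0')) := by field_simp; ring
  rw [e1, abs_div, abs_neg, abs_of_pos (by positivity : 0 < L * (m0 * m0'))]
  refine div_le_div₀ he0 he (by positivity) ?_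
  have a1 : m ^ 2 ≤ m0 * m0' := by rw [sq]; exact mul_le_mul h0 h0' hm.le p0.le
  nlinarith [mul_pos p0 p0']

section gam

variable {S : LppMod} (hS : LppOk S) {T ξs : ℝ} {A0 : ℝ → ℝ} (hb : LppBase S T A0 ξs)

include hS hb

theorem lrg_M2_int {A : ℝ → ℝ} {j : ℝ} (hA : LppAdm A j) (a b : ℝ) (ha : 0 ≤ a) (hb' : 0 ≤ b) :
    IntervalIntegrable (S.M2 A j) volume a b := by
  have hsub : uIcc a b ⊆ Ici 0 := fun r hr => (le_min ha hb').trans hr.1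
  exact ((lpp_M2_cont hS hb hA).mono hsub).intervalIntegrable

/-- `Γ` is `B²`-Lipschitz -/
theorem lrg_gam_lip {R B : ℝ} (hB : LppB S R B) {A : ℝ → ℝ} {j : ℝ} (hA : LppAdm A j) (ξ ξ' : ℝ) (h0 : 0 ≤ ξ) (h0' : 0 ≤ ξ') :
    |S.Gam A j ξ' - S.Gam A j ξ| ≤ B ^ 2 * |ξ' - ξ| := by
  rw [hS.gam A j hA ξ h0, hS.gam A j hA ξ' h0',
    intervalIntegral.integral_interval_sub_left (lrg_M2_int hS hb hA 0 ξ' le_rfl h0') (lrg_M2_int hS hb hA 0 ξ le_rfl h0)]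
  have h := intervalIntegral.norm_integral_le_of_norm_le_const (a := ξ) (b := ξ') (f := S.M2 A j) (C := B ^ 2)
    (fun r hr => by
      have hr0 : 0 ≤ r := (le_min h0 h0').trans hr.1.le
      exact lrg_M2_abs hS hB hA r hr0)
  simpa using h

/-- `Γ` is nondecreasing -/
theorem lrg_gam_mono {A : ℝ → ℝ} {j : ℝ} (hA : LppAdm A j) : MonotoneOn (S.Gam A j) (Ici 0) := by
  intro ξ h0 ξ' h0' h
  have h0 : (0 : ℝ) ≤ ξ := h0
  have h0' : (0 : ℝ) ≤ ξ' := h0'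
  have e : S.Gam A j ξ' - S.Gam A j ξ = ∫ r in ξ..ξ', S.M2 A j r := by
    rw [hS.gam A j hA ξ h0, hS.gam A j hA ξ' h0',
      intervalIntegral.integral_interval_sub_left (lrg_M2_int hS hb hA 0 ξ' le_rfl h0') (lrg_M2_int hS hb hA 0 ξ le_rfl h0)]
  have : 0 ≤ ∫ r in ξ..ξ', S.M2 A j r :=
    intervalIntegral.integral_nonneg h fun r hr => lpp_M2_nonneg hS hA (h0.trans hr.1)
  linarith

/-- two models whose `Γ'` are `e`-close on `[0,R]` -/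
theorem lrg_gam_diff {A A' : ℝ → ℝ} {j j' R e : ℝ} (hA : LppAdm A j) (hA' : LppAdm A' j')
    (h : ∀ ξ ∈ Icc 0 R, |S.M2 A' j' ξ - S.M2 A j ξ| ≤ e) (ξ : ℝ) (hξ : ξ ∈ Icc 0 R) :
    |S.Gam A' j' ξ - S.Gam A j ξ| ≤ e * ξ := by
  rw [hS.gam A j hA ξ hξ.1, hS.gam A' j' hA' ξ hξ.1,
    ← intervalIntegral.integral_sub (lrg_M2_int hS hb hA' 0 ξ le_rfl hξ.1) (lrg_M2_int hS hb hA 0 ξ le_rfl hξ.1)]
  have h2 := intervalIntegral.norm_integral_le_of_norm_le_const (a := 0) (b := ξ) (f := fun r => S.M2 A' j' r - S.M2 A j r) (C := e)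
    (fun r hr => by
      rw [uIoc_of_le hξ.1] at hr
      exact h r ⟨hr.1.le, hr.2.trans hξ.2⟩)
  rw [sub_zero, abs_of_nonneg hξ.1] at h2
  exact h2

end gam

/-! ## 3. the direct reference as a function of the strength (normalised coordinates) -/

theorem lrg_ind_int (c z0 ξ : ℝ) (hz : 0 ≤ z0) (hξ : z0 ≤ ξ) :
    IntervalIntegrable (fun r : ℝ => if r < z0 then c else 0) volume 0 ξ ∧ ∫ r in (0 : ℝ)..ξ, (if r < z0 then c else 0) = c * z0 := by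
  have e : (fun r : ℝ => if r < z0 then c else 0) = (Iio z0).indicator fun _ => c := by
    funext r; simp [indicator, mem_Iio]
  rw [e]
  constructor
  · rw [intervalIntegrable_iff]
    exact (integrableOn_const (by simp)).indicator measurableSet_Iio
  · rw [intervalIntegral.integral_of_le (hz.trans hξ), setIntegral_indicator measurableSet_Iio, setIntegral_const]
    have e2 : Ioc 0 ξ ∩ Iio z0 = Ioo 0 z0 := by
      ext r; simp only [mem_inter_iff, mem_Ioc, mem_Iio, mem_Ioo]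
      constructor
      · rintro ⟨⟨h1, _⟩, h3⟩; exact ⟨h1, h3⟩
      · rintro ⟨h1, h3⟩; exact ⟨⟨h1, h3.le.trans hξ⟩, h3⟩
    rw [e2]
    simp [Measure.real, hz, mul_comm]

section dirL

variable {S : LppMod} (hS : LppOk S) {T ξs B : ℝ} {A0 : ℝ → ℝ} (hb : LppBase S T A0 ξs) (hB : LppB S ξs B)
  {CA : ℝ} (hCA0 : 0 ≤ CA) (hCA : ∀ ξ ∈ Icc 0 ξs, A0 ξ ≤ CA * ξ)
  {z0 : ℝ} {P : ℝ → ℝ} (hz : 0 < z0) (hzs : z0 ≤ ξs) (hP : LppCut z0 P)
  {lam lam' : ℝ} (hl : 0 ≤ lam) (hl1 : lam ≤ 1) (hl' : 0 ≤ lam')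
  (hD : LppAdm (fun ξ => A0 ξ + lam * P ξ) 1) (hD' : LppAdm (fun ξ => A0 ξ + lam' * P ξ) 1)

include hS hb hB hCA0 hCA hz hzs hP hl hl1 hl' hD hD'

/-- LEAF D1 (`dl`; `∫_ξ^∞ |A_λ' - A_λ| = |λ' - λ| ∫_ξ^∞ P`) -/
theorem lrg_dir_eps (k : ℕ) (h1 : 1 ≤ k) (h4 : k ≤ 4) (ξ : ℝ) (hξ : 0 ≤ ξ) (z : ℝ) :
    |S.vk k (fun ξ => A0 ξ + lam' * P ξ) 1 ξ z - S.vk k (fun ξ => A0 ξ + lam * P ξ) 1 ξ z| ≤ B * (|lam' - lam| * lppIP P ξ) := by
  have h := hB.dl k h1 h4 _ _ 1 hD hD' (fun r hr => by rw [hP.zero r (hzs.trans hr)]; ring) ξ hξ z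
  have e : ∫ r in Ioi ξ, |(A0 r + lam' * P r) - (A0 r + lam * P r)| = |lam' - lam| * lppIP P ξ := by
    unfold lppIP
    rw [← integral_const_mul]
    refine setIntegral_congr_fun measurableSet_Ioi fun r hr => ?_
    have hr0 : 0 ≤ r := hξ.trans (le_of_lt hr)
    have : (A0 r + lam' * P r) - (A0 r + lam * P r) = (lam' - lam) * P r := by ring
    rw [this, abs_mul, abs_of_nonneg (hP.nn r hr0).1]
  rwa [e] at h

theorem lrg_dir_eps' (k : ℕ) (h1 : 1 ≤ k) (h4 : k ≤ 4) (ξ : ℝ) (hξ : 0 ≤ ξ) (z : ℝ) :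
    |S.vk k (fun ξ => A0 ξ + lam' * P ξ) 1 ξ z - S.vk k (fun ξ => A0 ξ + lam * P ξ) 1 ξ z| ≤ |lam' - lam| * (B * z0 ^ 2 / 2) := by
  have hB0 : 0 ≤ B := by linarith [hB.one]
  have h := lrg_dir_eps hS hb hB hCA0 hCA hz hzs hP hl hl1 hl' hD hD' k h1 h4 ξ hξ z
  have h3 := lpp_IP_le hz hP ξ hξ
  have h4 : B * (|lam' - lam| * lppIP P ξ) ≤ B * (|lam' - lam| * (z0 ^ 2 / 2)) :=
    mul_le_mul_of_nonneg_left (mul_le_mul_of_nonneg_left h3 (abs_nonneg _)) hB0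
  have e : B * (|lam' - lam| * (z0 ^ 2 / 2)) = |lam' - lam| * (B * z0 ^ 2 / 2) := by ring
  linarith

theorem lrg_dir_a (r : ℝ) (hr : r ∈ Icc 0 ξs) : |(A0 r + lam' * P r) - (A0 r + lam * P r)| ≤ |lam' - lam| * 1 * r := by
  have : (A0 r + lam' * P r) - (A0 r + lam * P r) = (lam' - lam) * P r := by ring
  rw [this, abs_mul, abs_of_nonneg (hP.nn r hr.1).1, mul_one]
  exact mul_le_mul_of_nonneg_left (hP.nn r hr.1).2 (abs_nonneg _)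

theorem lrg_dir_CA (r : ℝ) (hr : r ∈ Icc 0 ξs) : A0 r + lam * P r ≤ (CA + 1) * r := by
  have a1 := hCA r hr
  have a2 := (hP.nn r hr.1).2
  have a3 : lam * P r ≤ 1 * r := mul_le_mul hl1 a2 (hP.nn r hr.1).1 (by norm_num)
  linarith

/-- `Γ'` on the active interval -/
theorem lrg_dir_M2 (ξ : ℝ) (hξ : ξ ∈ Icc 0 ξs) :
    |S.M2 (fun ξ => A0 ξ + lam' * P ξ) 1 ξ - S.M2 (fun ξ => A0 ξ + lam * P ξ) 1 ξ|
      ≤ |lam' - lam| * lrgE2 B (CA + 1) ξs 1 (B * z0 ^ 2 / 2) := by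
  have hB0 : 0 ≤ B := by linarith [hB.one]
  rw [← lrgE2_hom]
  exact lrg_cmp_M2' hS hB hD hD' (by positivity) (by positivity) (by positivity)
    (fun k h2 h4 ξ hξ z => lrg_dir_eps' hS hb hB hCA0 hCA hz hzs hP hl hl1 hl' hD hD' k (by omega) h4 ξ hξ.1 z)
    (lrg_dir_a hS hb hB hCA0 hCA hz hzs hP hl hl1 hl' hD hD') (lrg_dir_CA hS hb hB hCA0 hCA hz hzs hP hl hl1 hl' hD hD') ξ hξ

/-- the drop -/
theorem lrg_dir_drop (ξ : ℝ) (hξ : ξ ∈ Icc 0 ξs) :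
    |(S.M2 (fun ξ => A0 ξ + lam' * P ξ) 1 ξ - S.M2 (fun ξ => A0 ξ + lam' * P ξ) 1 0)
        - (S.M2 (fun ξ => A0 ξ + lam * P ξ) 1 ξ - S.M2 (fun ξ => A0 ξ + lam * P ξ) 1 0)|
      ≤ |lam' - lam| * lrgE B (CA + 1) ξs 1 (B * z0 ^ 2 / 2) * ξ ^ 2 / 2 := by
  have hB0 : 0 ≤ B := by linarith [hB.one]
  rw [← lrgE_hom]
  exact lrg_cmp_drop hS hB hD hD' (by positivity) (by positivity) (by positivity)
    (fun k h2 h4 ξ hξ z => lrg_dir_eps' hS hb hB hCA0 hCA hz hzs hP hl hl1 hl' hD hD' k (by omega) h4 ξ hξ.1 z)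
    (lrg_dir_a hS hb hB hCA0 hCA hz hzs hP hl hl1 hl' hD hD') (lrg_dir_CA hS hb hB hCA0 hCA hz hzs hP hl hl1 hl' hD hD') ξ hξ

/-- LEAF D5 (`duh`): beyond `z_0` the continuations coincide and the laws differ by `O(|λ' - λ|)`, at ALL later times -/
theorem lrg_dir_far {Cd : ℝ} (hCd : LrgDuh S Cd) (ξ : ℝ) (hξ : z0 ≤ ξ) :
    |S.M2 (fun ξ => A0 ξ + lam' * P ξ) 1 ξ - S.M2 (fun ξ => A0 ξ + lam * P ξ) 1 ξ|
      ≤ |lam' - lam| * (Cd * (9 * B ^ 3) * ((B * z0 + B * z0 ^ 2 / 2) * z0)) := by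
  have hB0 : 0 ≤ B := by linarith [hB.one]
  have hξ0 : 0 ≤ ξ := hz.le.trans hξ
  have hsame : (fun z => S.vk 2 (fun ξ => A0 ξ + lam' * P ξ) 1 ξ z ^ 2) = fun z => S.vk 2 (fun ξ => A0 ξ + lam * P ξ) 1 ξ z ^ 2 := by
    funext z
    have h := lrg_dir_eps hS hb hB hCA0 hCA hz hzs hP hl hl1 hl' hD hD' 2 (by norm_num) (by norm_num) ξ hξ0 z
    rw [lpp_IP_zero hz hP ξ hξ, mul_zero, mul_zero] at h
    have : S.vk 2 (fun ξ => A0 ξ + lam' * P ξ) 1 ξ z = S.vk 2 (fun ξ => A0 ξ + lam * P ξ) 1 ξ z :=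
      sub_eq_zero.1 (abs_eq_zero.1 (le_antisymm h (abs_nonneg _)))
    rw [this]
  obtain ⟨i1, i2⟩ := lrg_ind_int (|lam' - lam| * (B * z0 + B * z0 ^ 2 / 2)) z0 ξ hz.le hξ
  have h2 := hCd _ _ _ _ hD hD' ξ hξ0 _ _ (lpp_test_w2 hS hB hD hξ0)
    (fun r => if r < z0 then |lam' - lam| * (B * z0 + B * z0 ^ 2 / 2) else 0) (fun r hr z => ?_) i1
  · rw [i2] at h2
    have e : S.M2 (fun ξ => A0 ξ + lam' * P ξ) 1 ξ = S.Ex (fun ξ => A0 ξ + lam' * P ξ) 1 ξ (fun z => S.vk 2 (fun ξ => A0 ξ + lam * P ξ) 1 ξ z ^ 2) := by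
      unfold LppMod.M2; rw [hsame]
    rw [e]
    have e2 : |lam' - lam| * (Cd * (9 * B ^ 3) * ((B * z0 + B * z0 ^ 2 / 2) * z0))
        = Cd * (9 * B ^ 3) * (|lam' - lam| * (B * z0 + B * z0 ^ 2 / 2) * z0) := by ring
    rw [e2]
    exact h2
  · have hr0 := hr.1
    have hu := lrg_dir_eps hS hb hB hCA0 hCA hz hzs hP hl hl1 hl' hD hD' 1 le_rfl (by norm_num) r hr0 z
    have bu := hB.bd 1 le_rfl (by norm_num) _ _ hD' r hr0 z
    have a1 := hD.nn r hr0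
    have a2 := hD.le r hr0
    have e : (A0 r + lam' * P r) * S.vk 1 (fun ξ => A0 ξ + lam' * P ξ) 1 r z - (A0 r + lam * P r) * S.vk 1 (fun ξ => A0 ξ + lam * P ξ) 1 r z
        = (lam' - lam) * P r * S.vk 1 (fun ξ => A0 ξ + lam' * P ξ) 1 r z
          + (A0 r + lam * P r) * (S.vk 1 (fun ξ => A0 ξ + lam' * P ξ) 1 r z - S.vk 1 (fun ξ => A0 ξ + lam * P ξ) 1 r z) := by ring
    rw [e]
    refine (abs_add_le _ _).trans ?_
    rw [abs_mul, abs_mul, abs_mul, abs_of_nonneg a1, abs_of_nonneg (hP.nn r hr0).1]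
    have hd := abs_nonneg (lam' - lam)
    have b2 : (A0 r + lam * P r) * |S.vk 1 (fun ξ => A0 ξ + lam' * P ξ) 1 r z - S.vk 1 (fun ξ => A0 ξ + lam * P ξ) 1 r z|
        ≤ 1 * (B * (|lam' - lam| * lppIP P r)) := mul_le_mul a2 hu (abs_nonneg _) (by norm_num)
    split_ifs with c
    · have p1 : P r ≤ z0 := (hP.nn r hr0).2.trans c.le
      have p2 := lpp_IP_le hz hP r hr0
      have b1 : |lam' - lam| * P r * |S.vk 1 (fun ξ => A0 ξ + lam' * P ξ) 1 r z| ≤ |lam' - lam| * z0 * B :=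
        mul_le_mul (mul_le_mul_of_nonneg_left p1 hd) bu (abs_nonneg _) (by positivity)
      have b3 : B * (|lam' - lam| * lppIP P r) ≤ B * (|lam' - lam| * (z0 ^ 2 / 2)) :=
        mul_le_mul_of_nonneg_left (mul_le_mul_of_nonneg_left p2 hd) hB0
      nlinarith
    · have c' : z0 ≤ r := not_lt.1 c
      rw [lpp_IP_zero hz hP r c'] at b2
      have p0 : |lam' - lam| * P r * |S.vk 1 (fun ξ => A0 ξ + lam' * P ξ) 1 r z| = 0 := by rw [hP.zero r c']; ring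
      rw [p0]
      linarith

end dirL

/-! ## 4. the terminal mass (normalised coordinates) -/

/-- `g = u²`: `g' = 2 u w`, `g'' = 2 (w² + u v3)` -/
theorem lrg_test_u2 {S : LppMod} (hS : LppOk S) {R B : ℝ} (hB : LppB S R B) {A : ℝ → ℝ} {j ξ : ℝ} (hA : LppAdm A j) (hξ : 0 ≤ ξ) :
    LppTest (fun z => S.vk 1 A j ξ z ^ 2) (9 * B ^ 3) := by
  have hB1 := hB.one
  have hB23 : B ^ 2 ≤ B ^ 3 := pow_le_pow_right₀ hB1 (by norm_num)
  have hB3 : 0 ≤ B ^ 3 := by positivity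
  have bw := hB.bd 1 (by norm_num) (by norm_num) A j hA ξ hξ
  have b3 := hB.bd 2 (by norm_num) (by norm_num) A j hA ξ hξ
  have b4 := hB.bd 3 (by norm_num) (by norm_num) A j hA ξ hξ
  have dw := lpp_vk_hasDerivAt hS hA hξ 1
  have d3 := lpp_vk_hasDerivAt hS hA hξ 2
  refine lpp_aux_test_of (g1 := fun z => 2 * (S.vk 1 A j ξ z * S.vk 2 A j ξ z))
    (g2 := fun z => 2 * (S.vk 2 A j ξ z * S.vk 2 A j ξ z + S.vk 1 A j ξ z * S.vk 3 A j ξ z))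
    ((lpp_vk_contDiff hS hA hξ 1 2).pow 2) ((lpp_vk_scBd hS hA hξ 3 1 le_rfl).pow 2) ?_ ?_ ?_ ?_ ?_ ?_
  · intro z
    rw [lpp_vk_neg hS hA hξ 1 z]
    ring
  · intro z
    have h := (dw z).pow 2
    have e : 2 * (S.vk 1 A j ξ z * S.vk 2 A j ξ z) = ((2 : ℕ) : ℝ) * S.vk 1 A j ξ z ^ (2 - 1) * S.vk (1 + 1) A j ξ z := by
      norm_num
      ring
    rw [e]
    exact h
  · intro z
    exact ((dw z).mul (d3 z)).const_mul 2
  · intro z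
    have := lpp_aux_m2 (bw z) (bw z)
    rw [sq]
    linarith
  · intro z
    have := lpp_aux_m2 (bw z) (b3 z)
    rw [abs_mul, abs_of_nonneg (by norm_num : (0 : ℝ) ≤ 2)]
    linarith
  · intro z
    have h1 := lpp_aux_m2 (b3 z) (b3 z)
    have h2 := lpp_aux_m2 (bw z) (b4 z)
    have h3 := abs_add_le (S.vk 2 A j ξ z * S.vk 2 A j ξ z) (S.vk 1 A j ξ z * S.vk 3 A j ξ z)
    rw [abs_mul, abs_of_nonneg (by norm_num : (0 : ℝ) ≤ 2)]
    linarith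

section smJ

variable {S : LppMod} (hS : LppOk S) {R B : ℝ} (hB : LppB S R B) {A : ℝ → ℝ} {M j j' : ℝ} (hM : 0 ≤ M)
  (hA : LppAdm (lppCap A M j) j) (hA' : LppAdm (lppCap A M j') j')

include hS hB hM hA hA'

/-- the drifts of the two models -/
theorem lrg_j_drift {CU : ℝ} (hCU : LrgJU S 1 CU) (r : ℝ) (hr : 0 ≤ r) (z : ℝ) :
    |lppCap A M j' r * S.vk 1 (lppCap A M j') j' r z - lppCap A M j r * S.vk 1 (lppCap A M j) j r z| ≤ (B + 4 * CU) * |j' - j| := by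
  have hu := hCU A M j j' hM hA hA' r hr z
  have bu := hB.bd 1 le_rfl (by norm_num) _ _ hA' r hr z
  have hd : |lppCap A M j' r - lppCap A M j r| ≤ |j' - j| := by
    unfold lppCap
    split_ifs
    · simp
    · exact le_rfl
  have a1 := hA.nn r hr
  have a2 := (hA.le r hr).trans hA.j4
  have e : lppCap A M j' r * S.vk 1 (lppCap A M j') j' r z - lppCap A M j r * S.vk 1 (lppCap A M j) j r z
      = (lppCap A M j' r - lppCap A M j r) * S.vk 1 (lppCap A M j') j' r z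
        + lppCap A M j r * (S.vk 1 (lppCap A M j') j' r z - S.vk 1 (lppCap A M j) j r z) := by ring
  rw [e]
  refine (abs_add_le _ _).trans ?_
  rw [abs_mul, abs_mul, abs_of_nonneg a1]
  have hB0 : 0 ≤ B := by linarith [hB.one]
  have b1 : |lppCap A M j' r - lppCap A M j r| * |S.vk 1 (lppCap A M j') j' r z| ≤ |j' - j| * B :=
    mul_le_mul hd bu (abs_nonneg _) (abs_nonneg _)
  have hCU0 : 0 ≤ CU * |j' - j| := (abs_nonneg _).trans hu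
  have b2 : lppCap A M j r * |S.vk 1 (lppCap A M j') j' r z - S.vk 1 (lppCap A M j) j r z| ≤ 4 * (CU * |j' - j|) :=
    mul_le_mul a2 hu (abs_nonneg _) (by norm_num)
  linarith

/-- **the response is Lipschitz in the terminal mass with a constant `O(1 + ξ)`** (LL 03 l.322-350; here by Duhamel instead of the tree density) -/
theorem lrg_glip {CU Cd : ℝ} (hCU : LrgJU S 1 CU) (hCd : LrgDuh S Cd) (ξ : ℝ) (hξ : 0 ≤ ξ) :
    |S.Gam (lppCap A M j') j' ξ - S.Gam (lppCap A M j) j ξ| ≤ (2 * B * CU + Cd * (9 * B ^ 3) * ((B + 4 * CU) * ξ)) * |j' - j| := by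
  have hB0 : 0 ≤ B := by linarith [hB.one]
  have bu := hB.bd 1 le_rfl (by norm_num) _ _ hA ξ hξ
  have bu' := hB.bd 1 le_rfl (by norm_num) _ _ hA' ξ hξ
  have cu := lpp_vk_cont hS hA hξ 1
  have cu' := lpp_vk_cont hS hA' hξ 1
  have h1 : |S.Ex (lppCap A M j') j' ξ (fun z => S.vk 1 (lppCap A M j') j' ξ z ^ 2)
      - S.Ex (lppCap A M j') j' ξ (fun z => S.vk 1 (lppCap A M j) j ξ z ^ 2)| ≤ 2 * B * (CU * |j' - j|) := by
    refine lpp_aux_Ex_c hS hA' hξ (K := B ^ 2) (cu'.pow 2) (cu.pow 2) (fun z => ?_) (fun z => ?_) (fun z => ?_)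
    · rw [sq (S.vk 1 _ _ _ z)]; exact lpp_aux_m2 (bu' z) (bu' z)
    · rw [sq (S.vk 1 _ _ _ z)]; exact lpp_aux_m2 (bu z) (bu z)
    · have e : S.vk 1 (lppCap A M j') j' ξ z ^ 2 - S.vk 1 (lppCap A M j) j ξ z ^ 2
          = (S.vk 1 (lppCap A M j') j' ξ z + S.vk 1 (lppCap A M j) j ξ z) * (S.vk 1 (lppCap A M j') j' ξ z - S.vk 1 (lppCap A M j) j ξ z) := by ring
      rw [e, abs_mul]
      refine mul_le_mul ?_ (hCU A M j j' hM hA hA' ξ hξ z) (abs_nonneg _) (by positivity)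
      linarith [abs_add_le (S.vk 1 (lppCap A M j') j' ξ z) (S.vk 1 (lppCap A M j) j ξ z), bu z, bu' z]
  have h2 := hCd _ _ _ _ hA hA' ξ hξ _ _ (lrg_test_u2 hS hB hA hξ) (fun _ => (B + 4 * CU) * |j' - j|)
    (fun r hr z => lrg_j_drift hS hB hM hA hA' hCU r hr.1 z) intervalIntegrable_const
  rw [intervalIntegral.integral_const, sub_zero, smul_eq_mul] at h2
  have h3 : S.Gam (lppCap A M j') j' ξ - S.Gam (lppCap A M j) j ξ
      = (S.Ex (lppCap A M j') j' ξ (fun z => S.vk 1 (lppCap A M j') j' ξ z ^ 2)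
          - S.Ex (lppCap A M j') j' ξ (fun z => S.vk 1 (lppCap A M j) j ξ z ^ 2))
        + (S.Ex (lppCap A M j') j' ξ (fun z => S.vk 1 (lppCap A M j) j ξ z ^ 2)
          - S.Ex (lppCap A M j) j ξ (fun z => S.vk 1 (lppCap A M j) j ξ z ^ 2)) := by
    simp only [LppMod.Gam]
    ring
  rw [h3]
  refine (abs_add_le _ _).trans ?_
  have e : (2 * B * CU + Cd * (9 * B ^ 3) * ((B + 4 * CU) * ξ)) * |j' - j|
      = 2 * B * (CU * |j' - j|) + Cd * (9 * B ^ 3) * (ξ * ((B + 4 * CU) * |j' - j|)) := by ring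
  rw [e]
  exact add_le_add h1 h2

end smJ

/-- one pair of constants for all the orders `1 ≤ k ≤ K` -/
theorem lrg_jE_unif {S : LppMod} (hS2 : LppOk2 S) (a0 : ℝ) (ha0 : 0 < a0) (K : ℕ) :
    ∃ C c : ℝ, 0 ≤ C ∧ 0 < c ∧ ∀ k : ℕ, 1 ≤ k → k ≤ K → LrgJE S k a0 C c := by
  induction K with
  | zero => exact ⟨0, 1, le_rfl, one_pos, fun k h1 h0 => by omega⟩
  | succ K ih =>
    obtain ⟨C, c, hC, hc, H⟩ := ih
    obtain ⟨C1, c1, hc1, H1⟩ := hS2.jE (K + 1) (by omega) a0 ha0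
    have key : ∀ (k : ℕ) (C2 c2 : ℝ), C2 ≤ max C |C1| → 0 ≤ C2 ∨ True → min c c1 ≤ c2 → LrgJE S k a0 C2 c2 →
        LrgJE S k a0 (max C |C1|) (min c c1) := by
      intro k C2 c2 hC2 _ hc2 h A M j j' R hR hRM hA hA' hlow ξ hξ z
      refine (h A M j j' R hR hRM hA hA' hlow ξ hξ z).trans ?_
      refine mul_le_mul_of_nonneg_right ?_ (abs_nonneg _)
      have e1 : Real.exp (-c2 * (M - R)) ≤ Real.exp (-(min c c1) * (M - R)) := by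
        apply Real.exp_le_exp.2
        have := mul_le_mul_of_nonneg_right hc2 (by linarith : 0 ≤ M - R)
        linarith
      have h0 : 0 ≤ max C |C1| := hC.trans (le_max_left _ _)
      calc C2 * Real.exp (-c2 * (M - R)) ≤ max C |C1| * Real.exp (-c2 * (M - R)) :=
            mul_le_mul_of_nonneg_right hC2 (Real.exp_pos _).le
        _ ≤ max C |C1| * Real.exp (-(min c c1) * (M - R)) := mul_le_mul_of_nonneg_left e1 h0
    refine ⟨max C |C1|, min c c1, hC.trans (le_max_left _ _), lt_min hc hc1, fun k h1 hk => ?_⟩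
    rcases Nat.lt_or_ge k (K + 1) with h | h
    · exact key k C c (le_max_left _ _) (Or.inr trivial) (min_le_left _ _) (H k h1 (by omega))
    · have : k = K + 1 := by omega
      subst this
      exact key _ C1 c1 ((le_abs_self _).trans (le_max_right _ _)) (Or.inr trivial) (min_le_right _ _) H1

/-! ## 5. the smoothed reference as a function of the size (real parameters) -/

/-- `Â` below `M` -/
noncomputable def lrgHat (A0 P : ℝ → ℝ) (lam ξs pT om : ℝ) : ℝ → ℝ := fun ξ => lkkBr A0 P lam ξs pT om ξ + om * ξ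

theorem lrg_sm_cap (A0 P : ℝ → ℝ) (lam ξs pT om M J : ℝ) :
    lkkSm A0 P lam ξs pT om M J = lppCap (lrgHat A0 P lam ξs pT om) M J := by
  funext ξ
  unfold lkkSm lppCap lrgHat
  by_cases c : M ≤ ξ
  · rw [if_pos c, if_neg (not_lt.2 c)]
  · rw [if_neg c, if_pos (not_le.1 c)]

theorem lrg_sm_lpp (A0 P : ℝ → ℝ) (lam ξs pT om M J : ℝ) : lkkSm A0 P lam ξs pT om M J = lppSm A0 P ξs pT lam om M J := rfl

theorem LrgJU.abs {S : LppMod} {k : ℕ} {C : ℝ} (h : LrgJU S k C) : LrgJU S k |C| :=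
  fun A M j j' hM hA hA' ξ hξ z => (h A M j j' hM hA hA' ξ hξ z).trans (mul_le_mul_of_nonneg_right (le_abs_self _) (abs_nonneg _))

theorem LrgDuh.abs {S : LppMod} {C : ℝ} (h : LrgDuh S C) : LrgDuh S |C| := by
  intro A j A' j' hA hA' ξ hξ g G hg H hH hi
  refine (h A j A' j' hA hA' ξ hξ g G hg H hH hi).trans ?_
  have hG : 0 ≤ G := (abs_nonneg _).trans (hg.b0 0)
  have hI : 0 ≤ ∫ r in (0 : ℝ)..ξ, H r := by
    refine intervalIntegral.integral_nonneg_of_ae_restrict hξ ?_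
    rw [Filter.EventuallyLE, ae_restrict_iff' measurableSet_Icc]
    have hne : ∀ᵐ x ∂(volume : Measure ℝ), x ≠ ξ := by simp [ae_iff]
    filter_upwards [hne] with r hr hr2
    exact (abs_nonneg _).trans (hH r ⟨hr2.1, lt_of_le_of_ne hr2.2 hr⟩ 0)
  rw [mul_assoc, mul_assoc]
  exact mul_le_mul_of_nonneg_right (le_abs_self _) (mul_nonneg hG hI)

/-- the hypotheses of the size comparison, two sizes `ℓ, ℓ'` -/
structure LrgTH (S : LppMod) (T ξs pT ca Ca ξ1 z0 LP lam om M B CA CU Cd : ℝ) (A0 P : ℝ → ℝ) (ell ell' δ m : ℝ) : Prop where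
  hS : LppOk S
  hb : LppBase S T A0 ξs
  hk : LkkBase A0 ξs pT ca Ca ξ1
  hPk : LkkCut P z0 LP
  hz : z0 ≤ ξ1
  hl0 : 0 ≤ lam
  hl : lam * LP ≤ ca / 2
  hl1 : lam ≤ 1
  ho : 0 < om
  ho1 : om ≤ 1
  hM : ξs < M
  hB : LppB S ξ1 B
  hCA0 : 0 ≤ CA
  hCA : ∀ ξ ∈ Icc 0 ξs, A0 ξ ≤ CA * ξ
  hCU0 : 0 ≤ CU
  hCU : LrgJU S 1 CU
  hCd0 : 0 ≤ Cd
  hCd : LrgDuh S Cd
  h1 : 1 ≤ ell
  h1' : 1 ≤ ell'
  hJ : 1 + om * M ≤ 4 / ell
  hJ' : 1 + om * M ≤ 4 / ell'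
  hA : LppAdm (lkkSm A0 P lam ξs pT om M (4 / ell)) (4 / ell)
  hA' : LppAdm (lkkSm A0 P lam ξs pT om M (4 / ell')) (4 / ell')
  hδ0 : 0 ≤ δ
  hδ : ∀ k : ℕ, 2 ≤ k → k ≤ 4 → ∀ ξ ∈ Icc 0 ξ1, ∀ z,
    |S.vk k (lkkSm A0 P lam ξs pT om M (4 / ell')) (4 / ell') ξ z - S.vk k (lkkSm A0 P lam ξs pT om M (4 / ell)) (4 / ell) ξ z| ≤ δ
  hm : 0 < m
  hm0 : m ≤ S.M2 (lkkSm A0 P lam ξs pT om M (4 / ell)) (4 / ell) 0
  hm0' : m ≤ S.M2 (lkkSm A0 P lam ξs pT om M (4 / ell')) (4 / ell') 0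

section smT

variable {S : LppMod} {T ξs pT ca Ca ξ1 z0 LP lam om M B CA CU Cd : ℝ} {A0 P : ℝ → ℝ} {ell ell' δ m : ℝ}
  (h : LrgTH S T ξs pT ca Ca ξ1 z0 LP lam om M B CA CU Cd A0 P ell ell' δ m)

include h

theorem lrg_T_a (r : ℝ) (hr : r ∈ Icc 0 ξ1) :
    |lkkSm A0 P lam ξs pT om M (4 / ell') r - lkkSm A0 P lam ξs pT om M (4 / ell) r| ≤ δ * 0 * r := by
  have hr2 : r < ξs := lt_of_le_of_lt hr.2 h.hk.x1s
  rw [lkk_sm_low h.hk h.hPk h.hz h.hl0 h.hl h.ho h.hM h.hJ r hr2, lkk_sm_low h.hk h.hPk h.hz h.hl0 h.hl h.ho h.hM h.hJ' r hr2]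
  simp

theorem lrg_T_CA (r : ℝ) (hr : r ∈ Icc 0 ξ1) : lkkSm A0 P lam ξs pT om M (4 / ell) r ≤ (CA + 2) * r := by
  have hr2 : r < ξs := lt_of_le_of_lt hr.2 h.hk.x1s
  rw [lkk_sm_low h.hk h.hPk h.hz h.hl0 h.hl h.ho h.hM h.hJ r hr2]
  unfold lkkDir
  have a1 := h.hCA r ⟨hr.1, hr2.le⟩
  have a3 : lam * P r ≤ 1 * r := mul_le_mul h.hl1 (h.hPk.le r hr.1) (h.hPk.nn r hr.1) (by norm_num)
  have a4 : om * r ≤ 1 * r := mul_le_mul_of_nonneg_right h.ho1 hr.1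
  linarith

theorem lrg_T_M2 (ξ : ℝ) (hξ : ξ ∈ Icc 0 ξ1) :
    |S.M2 (lkkSm A0 P lam ξs pT om M (4 / ell')) (4 / ell') ξ - S.M2 (lkkSm A0 P lam ξs pT om M (4 / ell)) (4 / ell) ξ|
      ≤ δ * lrgE2 B (CA + 2) ξ1 0 1 := by
  have := h.hδ0
  have := h.hCA0
  rw [← lrgE2_hom]
  exact lrg_cmp_M2' h.hS h.hB h.hA h.hA' (by positivity) (by positivity) (by positivity)
    (fun k h2 h4 ξ hξ z => by rw [mul_one]; exact h.hδ k h2 h4 ξ hξ z) (lrg_T_a h) (lrg_T_CA h) ξ hξ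

theorem lrg_T_drop (ξ : ℝ) (hξ : ξ ∈ Icc 0 ξ1) :
    |(S.M2 (lkkSm A0 P lam ξs pT om M (4 / ell')) (4 / ell') ξ - S.M2 (lkkSm A0 P lam ξs pT om M (4 / ell')) (4 / ell') 0)
        - (S.M2 (lkkSm A0 P lam ξs pT om M (4 / ell)) (4 / ell) ξ - S.M2 (lkkSm A0 P lam ξs pT om M (4 / ell)) (4 / ell) 0)|
      ≤ δ * lrgE B (CA + 2) ξ1 0 1 * ξ ^ 2 / 2 := by
  have := h.hδ0
  have := h.hCA0
  rw [← lrgE_hom]
  exact lrg_cmp_drop h.hS h.hB h.hA h.hA' (by positivity) (by positivity) (by positivity)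
    (fun k h2 h4 ξ hξ z => by rw [mul_one]; exact h.hδ k h2 h4 ξ hξ z) (lrg_T_a h) (lrg_T_CA h) ξ hξ

/-- field `b0` -/
theorem lrg_T_b0 :
    |ell' ^ 2 * (1 / (ell' ^ 2 * S.M2 (lkkSm A0 P lam ξs pT om M (4 / ell')) (4 / ell') 0))
        - ell ^ 2 * (1 / (ell ^ 2 * S.M2 (lkkSm A0 P lam ξs pT om M (4 / ell)) (4 / ell) 0))|
      ≤ δ * lrgE2 B (CA + 2) ξ1 0 1 / m ^ 2 := by
  have hl : ell ≠ 0 := by linarith [h.h1]
  have hl' : ell' ≠ 0 := by linarith [h.h1']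
  have h2 := lrg_inv_alg h.hm h.hm0 h.hm0' (lrg_T_M2 h 0 ⟨le_rfl, h.hk.x10.le⟩) (le_refl (1 : ℝ))
  have e1 : ∀ (l x : ℝ), l ≠ 0 → l ^ 2 * (1 / (l ^ 2 * x)) = 1 / (1 * x) := by
    intro l x hl
    rw [one_mul, one_div, mul_inv, ← mul_assoc, mul_inv_cancel₀ (pow_ne_zero 2 hl), one_mul, one_div]
  rw [e1 _ _ hl, e1 _ _ hl']
  exact h2

/-- field `gap0` -/
theorem lrg_T_gap0 (ξ : ℝ) (hξ : ξ ∈ Icc 0 ξ1) :
    |(1 - S.M2 (lkkSm A0 P lam ξs pT om M (4 / ell')) (4 / ell') ξ / S.M2 (lkkSm A0 P lam ξs pT om M (4 / ell')) (4 / ell') 0)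
        - (1 - S.M2 (lkkSm A0 P lam ξs pT om M (4 / ell)) (4 / ell) ξ / S.M2 (lkkSm A0 P lam ξs pT om M (4 / ell)) (4 / ell) 0)|
      ≤ δ * (lrgE B (CA + 2) ξ1 0 1 / 2 / m + (B ^ 3 + 2 * (CA + 2) * B ^ 3) / 2 * lrgE2 B (CA + 2) ξ1 0 1 / m ^ 2) * ξ ^ 2 := by
  have hB0 : 0 ≤ B := by linarith [h.hB.one]
  have hCA0 := h.hCA0
  have d1 : |S.M2 (lkkSm A0 P lam ξs pT om M (4 / ell)) (4 / ell) ξ - S.M2 (lkkSm A0 P lam ξs pT om M (4 / ell)) (4 / ell) 0|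
      ≤ (B ^ 3 + 2 * (CA + 2) * B ^ 3) / 2 * ξ ^ 2 := by
    have := lrg_drop_abs h.hS h.hB h.hA (by positivity) (lrg_T_CA h) ξ hξ
    linarith
  have d2 : |(S.M2 (lkkSm A0 P lam ξs pT om M (4 / ell')) (4 / ell') ξ - S.M2 (lkkSm A0 P lam ξs pT om M (4 / ell')) (4 / ell') 0)
        - (S.M2 (lkkSm A0 P lam ξs pT om M (4 / ell)) (4 / ell) ξ - S.M2 (lkkSm A0 P lam ξs pT om M (4 / ell)) (4 / ell) 0)|
      ≤ δ * lrgE B (CA + 2) ξ1 0 1 / 2 * ξ ^ 2 := by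
    have := lrg_T_drop h ξ hξ
    linarith
  have h2 := lrg_gap_alg h.hm h.hm0 h.hm0' (sq_nonneg ξ) (by positivity) d1 d2 (lrg_T_M2 h 0 ⟨le_rfl, h.hk.x10.le⟩)
  refine h2.trans (le_of_eq ?_)
  ring

theorem lrg_T_omM : M ≤ 3 / om := by
  rw [le_div_iff₀ h.ho]
  have a1 : 4 / ell ≤ 4 := div_le_self (by norm_num) h.h1
  linarith [h.hJ, mul_comm om M]

theorem lrg_T_X_nonneg (v : ℝ) : 0 ≤ llInv (lkkSm A0 P lam ξs pT om M (4 / ell)) (v / ell) := lpq_inv_nonneg _ _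

theorem lrg_T_X_le (v : ℝ) (hv : v ≤ 4) : llInv (lkkSm A0 P lam ξs pT om M (4 / ell)) (v / ell) ≤ M :=
  lpq_inv_le_tau (lkk_sm_prof h.hk h.hPk h.hz h.hl0 h.hl h.ho h.hM h.hJ) _
    (div_le_div_of_nonneg_right hv (by linarith [h.h1]))

theorem lrg_T_X'_le (v : ℝ) (hv : v ≤ 4) : llInv (lkkSm A0 P lam ξs pT om M (4 / ell')) (v / ell') ≤ M :=
  lpq_inv_le_tau (lkk_sm_prof h.hk h.hPk h.hz h.hl0 h.hl h.ho h.hM h.hJ') _
    (div_le_div_of_nonneg_right hv (by linarith [h.h1']))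

theorem lrg_T_X_le0 (v : ℝ) (hv0 : 0 ≤ v) (hv : v ≤ ca / 2 * ξ1) :
    ca / 2 * llInv (lkkSm A0 P lam ξs pT om M (4 / ell)) (v / ell) ≤ v := by
  have a1 : v / ell ≤ v := div_le_self hv0 h.h1
  exact (lkk_sm_inv_le0 h.hk h.hPk h.hz h.hl0 h.hl h.ho h.hM h.hJ (v / ell) (div_nonneg hv0 (by linarith [h.h1])) (a1.trans hv)).trans a1

theorem lrg_T_X'_le0 (v : ℝ) (hv0 : 0 ≤ v) (hv : v ≤ ca / 2 * ξ1) :
    ca / 2 * llInv (lkkSm A0 P lam ξs pT om M (4 / ell')) (v / ell') ≤ v := by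
  have a1 : v / ell' ≤ v := div_le_self hv0 h.h1'
  exact (lkk_sm_inv_le0 h.hk h.hPk h.hz h.hl0 h.hl h.ho h.hM h.hJ' (v / ell') (div_nonneg hv0 (by linarith [h.h1'])) (a1.trans hv)).trans a1

/-- field `K0` -/
theorem lrg_T_K0 (v : ℝ) (hv0 : 0 ≤ v) (hv : v ≤ ca / 2 * ξ1) (hv4 : v ≤ 4) :
    |(ell' ^ 2)⁻¹ * llInv (lkkSm A0 P lam ξs pT om M (4 / ell')) (v / ell')
        - (ell ^ 2)⁻¹ * llInv (lkkSm A0 P lam ξs pT om M (4 / ell)) (v / ell)| ≤ 6 / ca * v * |ell' - ell| := by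
  have hca := h.hk.ca0
  have a1 := lkk_K_diff_alg (X := llInv (lkkSm A0 P lam ξs pT om M (4 / ell)) (v / ell)) h.h1 h.h1' (lpq_inv_nonneg (lkkSm A0 P lam ξs pT om M (4 / ell')) (v / ell'))
  have a2 := lrg_T_X'_le0 h v hv0 hv
  have a3 := lkk_sm_xi_0 h.hk h.hPk h.hz h.hl0 h.hl h.ho h.hM h.h1 h.h1' h.hJ h.hJ' v hv0 hv hv4
  refine a1.trans ?_
  have hd := abs_nonneg (ell' - ell)
  have e : 6 / ca * v * |ell' - ell| = (3 * v * |ell' - ell|) / (ca / 2) := by field_simp; ring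
  rw [e, le_div_iff₀ (by positivity)]
  have a4 : |ell' - ell| * (ca / 2 * llInv (lkkSm A0 P lam ξs pT om M (4 / ell')) (v / ell')) ≤ |ell' - ell| * v :=
    mul_le_mul_of_nonneg_left a2 hd
  nlinarith

/-- field `Kpt` -/
theorem lrg_T_Kpt (v : ℝ) (hv0 : 0 ≤ v) (hv4 : v ≤ 4) :
    |(ell' ^ 2)⁻¹ * llInv (lkkSm A0 P lam ξs pT om M (4 / ell')) (v / ell')
        - (ell ^ 2)⁻¹ * llInv (lkkSm A0 P lam ξs pT om M (4 / ell)) (v / ell)| ≤ 10 / om * |ell' - ell| := by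
  have ho := h.ho
  have a1 := lkk_K_diff_alg (X := llInv (lkkSm A0 P lam ξs pT om M (4 / ell)) (v / ell)) h.h1 h.h1' (lpq_inv_nonneg (lkkSm A0 P lam ξs pT om M (4 / ell')) (v / ell'))
  have a2 := (lrg_T_X'_le h v hv4).trans (lrg_T_omM h)
  have a3 := lkk_sm_xi_pt h.hk h.hPk h.hz h.hl0 h.hl h.ho h.hM h.h1 h.h1' h.hJ h.hJ' v hv0 hv4
  refine a1.trans ?_
  have hd := abs_nonneg (ell' - ell)
  have e : 10 / om * |ell' - ell| = (10 * |ell' - ell|) / om := by ring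
  rw [e, le_div_iff₀ ho]
  rw [le_div_iff₀ ho] at a2
  have a4 : |ell' - ell| * (llInv (lkkSm A0 P lam ξs pT om M (4 / ell')) (v / ell') * om) ≤ |ell' - ell| * 3 :=
    mul_le_mul_of_nonneg_left a2 hd
  nlinarith

theorem lrg_T_dj : |4 / ell' - 4 / ell| ≤ 4 * |ell' - ell| := by
  have hl : 0 < ell := by linarith [h.h1]
  have hl' : 0 < ell' := by linarith [h.h1']
  have e : 4 / ell' - 4 / ell = 4 * (-(ell' - ell) / (ell * ell')) := by field_simp; ring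
  rw [e, abs_mul, abs_of_nonneg (by norm_num : (0 : ℝ) ≤ 4), abs_div, abs_neg, abs_of_pos (mul_pos hl hl')]
  refine mul_le_mul_of_nonneg_left (div_le_self (abs_nonneg _) ?_) (by norm_num)
  nlinarith [h.h1, h.h1']

/-- the response at two sizes, general masses -/
theorem lrg_T_q (v : ℝ) (hv0 : 0 ≤ v) (hv4 : v ≤ 4) :
    |S.Gam (lkkSm A0 P lam ξs pT om M (4 / ell')) (4 / ell') (llInv (lkkSm A0 P lam ξs pT om M (4 / ell')) (v / ell'))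
        - S.Gam (lkkSm A0 P lam ξs pT om M (4 / ell)) (4 / ell) (llInv (lkkSm A0 P lam ξs pT om M (4 / ell)) (v / ell))|
      ≤ B ^ 2 * |llInv (lkkSm A0 P lam ξs pT om M (4 / ell')) (v / ell') - llInv (lkkSm A0 P lam ξs pT om M (4 / ell)) (v / ell)|
        + (2 * B * CU + Cd * (9 * B ^ 3) * ((B + 4 * CU) * M)) * (4 * |ell' - ell|) := by
  have hB0 : 0 ≤ B := by linarith [h.hB.one]
  have hCU0 := h.hCU0
  have hCd0 := h.hCd0
  have hM0 : 0 ≤ M := (h.hb.xs.trans h.hM).le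
  set X := llInv (lkkSm A0 P lam ξs pT om M (4 / ell)) (v / ell) with hX
  set X' := llInv (lkkSm A0 P lam ξs pT om M (4 / ell')) (v / ell') with hX'
  have x0 : 0 ≤ X := lpq_inv_nonneg _ _
  have x0' : 0 ≤ X' := lpq_inv_nonneg _ _
  have xM : X ≤ M := lrg_T_X_le h v hv4
  have a1 := lrg_gam_lip h.hS h.hb h.hB h.hA' X X' x0 x0'
  have hA := h.hA
  have hA' := h.hA'
  rw [lrg_sm_cap] at hA hA'
  have a2 := lrg_glip h.hS h.hB hM0 hA hA' h.hCU h.hCd X x0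
  rw [← lrg_sm_cap, ← lrg_sm_cap] at a2
  have a3 := lrg_T_dj h
  have a4 : (2 * B * CU + Cd * (9 * B ^ 3) * ((B + 4 * CU) * X)) * |4 / ell' - 4 / ell|
      ≤ (2 * B * CU + Cd * (9 * B ^ 3) * ((B + 4 * CU) * M)) * (4 * |ell' - ell|) := by
    refine mul_le_mul ?_ a3 (abs_nonneg _) (by positivity)
    have : Cd * (9 * B ^ 3) * ((B + 4 * CU) * X) ≤ Cd * (9 * B ^ 3) * ((B + 4 * CU) * M) :=
      mul_le_mul_of_nonneg_left (mul_le_mul_of_nonneg_left xM (by positivity)) (by positivity)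
    linarith
  have e : S.Gam (lkkSm A0 P lam ξs pT om M (4 / ell')) (4 / ell') X' - S.Gam (lkkSm A0 P lam ξs pT om M (4 / ell)) (4 / ell) X
      = (S.Gam (lkkSm A0 P lam ξs pT om M (4 / ell')) (4 / ell') X' - S.Gam (lkkSm A0 P lam ξs pT om M (4 / ell')) (4 / ell') X)
        + (S.Gam (lkkSm A0 P lam ξs pT om M (4 / ell')) (4 / ell') X - S.Gam (lkkSm A0 P lam ξs pT om M (4 / ell)) (4 / ell) X) := by ring
  rw [e]
  refine (abs_add_le _ _).trans ?_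
  linarith

/-- field `qpt` -/
theorem lrg_T_qpt (v : ℝ) (hv0 : 0 ≤ v) (hv4 : v ≤ 4) :
    |S.Gam (lkkSm A0 P lam ξs pT om M (4 / ell')) (4 / ell') (llInv (lkkSm A0 P lam ξs pT om M (4 / ell')) (v / ell'))
        - S.Gam (lkkSm A0 P lam ξs pT om M (4 / ell)) (4 / ell) (llInv (lkkSm A0 P lam ξs pT om M (4 / ell)) (v / ell))|
      ≤ (4 * B ^ 2 + 4 * (2 * B * CU + Cd * (9 * B ^ 3) * ((B + 4 * CU) * 3))) / om * |ell' - ell| := by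
  have hB0 : 0 ≤ B := by linarith [h.hB.one]
  have hCU0 := h.hCU0
  have hCd0 := h.hCd0
  have ho := h.ho
  have a1 := lrg_T_q h v hv0 hv4
  have a3 := lkk_sm_xi_pt h.hk h.hPk h.hz h.hl0 h.hl h.ho h.hM h.h1 h.h1' h.hJ h.hJ' v hv0 hv4
  have a2 := lrg_T_omM h
  rw [le_div_iff₀ ho] at a2
  refine a1.trans ?_
  have hd := abs_nonneg (ell' - ell)
  rw [div_mul_eq_mul_div, le_div_iff₀ ho]
  have b1 : B ^ 2 * (om * |llInv (lkkSm A0 P lam ξs pT om M (4 / ell')) (v / ell') - llInv (lkkSm A0 P lam ξs pT om M (4 / ell)) (v / ell)|)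
      ≤ B ^ 2 * (4 * |ell' - ell|) := mul_le_mul_of_nonneg_left a3 (by positivity)
  have b2 : (2 * B * CU) * om ≤ 2 * B * CU * 1 := mul_le_mul_of_nonneg_left h.ho1 (by positivity)
  have b3 : Cd * (9 * B ^ 3) * ((B + 4 * CU) * (M * om)) ≤ Cd * (9 * B ^ 3) * ((B + 4 * CU) * 3) :=
    mul_le_mul_of_nonneg_left (mul_le_mul_of_nonneg_left a2 (by positivity)) (by positivity)
  have b4 : ((2 * B * CU) * om + Cd * (9 * B ^ 3) * ((B + 4 * CU) * (M * om))) * (4 * |ell' - ell|)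
      ≤ (2 * B * CU * 1 + Cd * (9 * B ^ 3) * ((B + 4 * CU) * 3)) * (4 * |ell' - ell|) :=
    mul_le_mul_of_nonneg_right (by linarith) (by positivity)
  nlinarith

/-- field `q0` -/
theorem lrg_T_q0 (v : ℝ) (hv0 : 0 ≤ v) (hv : v ≤ ca / 2 * ξ1) (hv4 : v ≤ 4) :
    |S.Gam (lkkSm A0 P lam ξs pT om M (4 / ell')) (4 / ell') (llInv (lkkSm A0 P lam ξs pT om M (4 / ell')) (v / ell'))
        - S.Gam (lkkSm A0 P lam ξs pT om M (4 / ell)) (4 / ell) (llInv (lkkSm A0 P lam ξs pT om M (4 / ell)) (v / ell))|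
      ≤ 2 / ca * v * (B ^ 2 * |ell' - ell| + δ * lrgE2 B (CA + 2) ξ1 0 1) := by
  have hB0 : 0 ≤ B := by linarith [h.hB.one]
  have hca := h.hk.ca0
  have hE2 : 0 ≤ lrgE2 B (CA + 2) ξ1 0 1 := lrgE2_nonneg hB0 (by linarith [h.hCA0]) h.hk.x10.le le_rfl (by norm_num)
  have hδ0 := h.hδ0
  have y0 := lrg_T_X_le0 h v hv0 hv
  have a3 := lkk_sm_xi_0 h.hk h.hPk h.hz h.hl0 h.hl h.ho h.hM h.h1 h.h1' h.hJ h.hJ' v hv0 hv hv4
  set X := llInv (lkkSm A0 P lam ξs pT om M (4 / ell)) (v / ell) with hX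
  set X' := llInv (lkkSm A0 P lam ξs pT om M (4 / ell')) (v / ell') with hX'
  have x0 : 0 ≤ X := lpq_inv_nonneg _ _
  have x0' : 0 ≤ X' := lpq_inv_nonneg _ _
  have x1 : X ≤ ξ1 := by
    have : ca / 2 * X ≤ ca / 2 * ξ1 := y0.trans hv
    exact le_of_mul_le_mul_left this (by positivity)
  have a1 := lrg_gam_lip h.hS h.hb h.hB h.hA' X X' x0 x0'
  have a2 := lrg_gam_diff h.hS h.hb h.hA h.hA' (lrg_T_M2 h) X ⟨x0, x1⟩
  have e : S.Gam (lkkSm A0 P lam ξs pT om M (4 / ell')) (4 / ell') X' - S.Gam (lkkSm A0 P lam ξs pT om M (4 / ell)) (4 / ell) X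
      = (S.Gam (lkkSm A0 P lam ξs pT om M (4 / ell')) (4 / ell') X' - S.Gam (lkkSm A0 P lam ξs pT om M (4 / ell')) (4 / ell') X)
        + (S.Gam (lkkSm A0 P lam ξs pT om M (4 / ell')) (4 / ell') X - S.Gam (lkkSm A0 P lam ξs pT om M (4 / ell)) (4 / ell) X) := by ring
  rw [e]
  refine (abs_add_le _ _).trans ((add_le_add a1 a2).trans ?_)
  have e2 : 2 / ca * v * (B ^ 2 * |ell' - ell| + δ * lrgE2 B (CA + 2) ξ1 0 1)
      = (B ^ 2 * (v * |ell' - ell|) + δ * lrgE2 B (CA + 2) ξ1 0 1 * v) / (ca / 2) := by field_simp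
  rw [e2, le_div_iff₀ (by positivity)]
  have b1 : B ^ 2 * (ca / 2 * |X' - X|) ≤ B ^ 2 * (v * |ell' - ell|) := mul_le_mul_of_nonneg_left a3 (by positivity)
  have b2 : δ * lrgE2 B (CA + 2) ξ1 0 1 * (ca / 2 * X) ≤ δ * lrgE2 B (CA + 2) ξ1 0 1 * v := mul_le_mul_of_nonneg_left y0 (by positivity)
  nlinarith

end smT

/-! ## 6-8. TO DO (statements to be typed by the successor; all ingredients are above and in `PathsKk` §7-8)
* `lrg_T_l1` : `∫_0^4 (|K'-K| + |q'-q|) ≤ (8 M + (1+B²) 4 M + 16 Cg) |ℓ'-ℓ|`, `Cg = 2 B CU + Cd 9 B³ (B+4CU) M`: pointwise `lkk_K_diff_alg` + `lrg_T_X'_le`, `lrg_T_q`; integrate with `lkk_sm_xi_l1`;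
  `by_cases` on the integrability of the left side (`intervalIntegral.integral_undef`); the majorant is integrable because `v ↦ llInv A (v/ℓ)` is monotone on `[0,4]` (`lpq_inv_monoOn`).
* normal forms (`hL : LrgLink 𝔹 S`): `p.b0 = 1/(ℓ² M2 A j 0)`, `p.gapN ξ = 1 - M2 A j ξ / M2 A j 0`, `p.q v = Gam A j (p.xi v)` (`ℓ ≠ 0`), `p.K v = (ℓ²)⁻¹ p.xi v`, `p.xi v = llInv A (v/ℓ)` (rfl), `A = p.Aprof F 𝔹`, `j = p.j`;
  `(p.wLm l').Aprof = lkkDir A0 P l'` if `p.sm = false`;  `(p.wTh θ).Aprof = lkkSm A0 P λ ξs pT ω M (4/e^{θ/6})` if `p.sm = true` (as in `lkk_point`).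
* `LppBase S T (𝔹.A0 T) (𝔹.xiS T)` from `LlBaseProfile` + `LkkBase` (`lin`: `CA = Ca + 1/ξs`; `dens`: `LkkBase.lo`), `LppTop` from `pTop_mem`, `lt_top`.
* RegL at a point (`δ = |l'-λ|`, `m = 1/(2T) ≤ M2(0)` by `lrg_dir_M2` against `λ = 0` and `lpp_base_M2`): `b0` `lrg_inv_alg` + `lrg_dir_M2` at `0`;  `K` `lkk_dir_inv_lip`;  `K_far` `lkk_dir_inv_far`;
  `q` `lrg_gam_lip` + `lrg_gam_diff` + `lkk_dir_inv_lip` + `lkk_dir_inv_le`;  `gap0` (`ξ0 = ξ1`) `lrg_gap_alg` (`X = ξ²`) + `lrg_drop_abs` + `lrg_dir_drop`;  `gap`: `ξ ≤ ξs` as `gap0`, `ξ ≥ ξs`: `lrg_gap_alg` (`X = 1`) + `lrg_dir_far`.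
* RegT at a point: `ℓ = e^{θ/6} ∈ [1,2]`, `|ℓ'-ℓ| ≤ |θ'-θ|`;  `δ = C e^{-c(M-ξs)} |j'-j|` from `lrg_jE_unif` (`a0 = pT`, `R = ξs`, `lpp_sm_low`), `K = max 4 R0`;  `m ≤ M2(0)` from `lpp_sm_M2` + the direct bound;  `LppAdm` from `lpp_sm_adm`.
* scales: `ω (M²+1) → 0` (`Real.log_le_rpow_div`), `x^pS → 0`, `M → ∞` (`lkk_M_large`).
-/

/-! ## 9. EXIT
(31, 05:15Z) the sorried `lrg_main` is DELETED (no consumer): the exit of this lemma is `ll3_refexit := lrx_glue ll3_ref ll3_regL ll3_regT` (`Exit/Plist.lean`, `Exit/RefExit.lean`);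
`RegL` = `lrl_main` (273, `LL/PathsRegL.lean`), `RegT` = `lrt_regT` (236, `LL/PathsRegT.lean`, uses sections 4-5 above), `LppOk2 llPk`: `duh` 273, `jU` 183 + 265, `jE` 46. -/

end Claimed.Agent.R286
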