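import Claimed.Agent.R286.LL.PathsReg

/-!
# Row 286 (S0533), LL Section 3: LEMMA paths:parameter-regularity, DIRECT REFERENCE (`LlRegL`)
(architect and prover helper273, successor of helper267; head of LL 03 helper272, co-head helper253; prefix `lrl_`, `Lrl`)

TWO STRENGTHS `λ, λ'` of the direct profile `A_λ = A_0 + λ P`, `δ = |λ' - λ|`.      Paper: LL 03-paths.tex l.195-215 (statement), l.262-272 (proof), l.150-160 (the linearised lift).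
* §1 beyond the support (`RegL.gap` is asked at ALL times) ONE closed statement is used besides `LppOk S`; any of: `LrlFE` (the estimate itself), `LrgDuh` (helper267's tau-free Duhamel, INSTANCE `exit_lrgduh` of
  `Exit/LrgDuhInst.lean`; exit `lrl_main_duh`), `LrlFar` (Markov property at `ξ_*`: `Γ̂'(s + d) = E g(Z_s)`; exit `lrl_main`).
* §2 moments of the two models at one time: `lrl_eps` (K2), `lrl_law` (K3), `lrl_M2`, `lrl_M3`, `lrl_N3`, `lrl_drop` (the factor `ξ²` survives: the gap is differentiated AFTER subtracting its value at `0`), `lrl_far`, `lrl_Gam`.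
* §3 algebra of quotients.      §4 the six fields at one point.      §5 EXIT `lrl_main` (order of the constants of `LlRefExit`: `zb` → `z0` → `C, ξ0` → `F` → `N0`), monotonicity `LlRegL.lrl_mono`.
-/

set_option autoImplicit false
set_option linter.unusedSectionVars false

namespace Claimed.Agent.R286

open MeasureTheory Set

/-! ## 1. the horizon-free field -/

/-- beyond a time `s` after which the mass is `1`, `Γ̂'(s + d)` is the expectation AT THE TIME `s` of an even test function with two bounded derivatives, the same for all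
profiles, bounded uniformly in `s, d` -/
def LrlFar (S : LppMod) : Prop :=
  ∃ G0 : ℝ, ∀ s d : ℝ, 0 ≤ s → 0 ≤ d → ∃ g : ℝ → ℝ, LppTest g G0 ∧
    ∀ A, LppAdm A 1 → (∀ ξ, s ≤ ξ → A ξ = 1) → S.M2 A 1 (s + d) = S.Ex A 1 s g

/-! ## 2. two strengths -/

/-- `e₀`: the derivatives of the continuations differ by at most `e₀ δ` -/
noncomputable def lrlE0 (B z0 : ℝ) : ℝ := B * (z0 ^ 2 / 2)
/-- `h₁`: the source of the Duhamel formula is at most `h₁ δ r²` -/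
noncomputable def lrlH1 (B CA z0 : ℝ) : ℝ := 1 + (CA + 1) * lrlE0 B z0
/-- constants of the differences of `E χ²`, `E χ³`, `E V_zzz²`, of the drop, and beyond the support -/
noncomputable def lrlC2 (B CA z0 ξs : ℝ) : ℝ := 2 * B * lrlE0 B z0 + 3 * B ^ 4 * lrlH1 B CA z0 * ξs ^ 3
noncomputable def lrlC3 (B CA z0 ξs : ℝ) : ℝ := 3 * B ^ 2 * lrlE0 B z0 + 3 * B ^ 4 * lrlH1 B CA z0 * ξs ^ 3
noncomputable def lrlN3 (B CA z0 ξs : ℝ) : ℝ := 2 * B ^ 2 * lrlE0 B z0 + 3 * B ^ 4 * lrlH1 B CA z0 * ξs ^ 2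
noncomputable def lrlD1 (B CA z0 ξs : ℝ) : ℝ := lrlN3 B CA z0 ξs + 2 * B ^ 3 + 2 * (CA + 1) * lrlC3 B CA z0 ξs
noncomputable def lrlCF (B CA z0 ξs G0 : ℝ) : ℝ := B * G0 * (lrlH1 B CA z0 * ξs ^ 3 / 3)

section two

variable {S : LppMod} (hS : LppOk S) {ξs B CA z0 : ℝ} {A0 P : ℝ → ℝ} (hB : LppB S ξs B)
  (hCA0 : 0 ≤ CA) (hCA : ∀ ξ ∈ Icc 0 ξs, A0 ξ ≤ CA * ξ) (hz : 0 < z0) (hzs : z0 ≤ ξs) (hP : LppCut z0 P)
  {lam lam' : ℝ} (hl : 0 ≤ lam) (hl1 : lam ≤ 1)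
  (hA : LppAdm (fun ξ => A0 ξ + lam * P ξ) 1) (hA' : LppAdm (fun ξ => A0 ξ + lam' * P ξ) 1)

include hB hCA0 hz in
theorem lrl_const_nonneg : 0 ≤ lrlE0 B z0 ∧ 0 ≤ lrlH1 B CA z0 := by
  have hB0 : 0 ≤ B := by linarith [hB.one]
  have h1 : 0 ≤ lrlE0 B z0 := by unfold lrlE0; positivity
  exact ⟨h1, by unfold lrlH1; positivity⟩

include hP in
theorem lrl_abs_diff (r : ℝ) (hr : 0 ≤ r) :
    |(fun ξ => A0 ξ + lam' * P ξ) r - (fun ξ => A0 ξ + lam * P ξ) r| = |lam' - lam| * P r := by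
  have e : (fun ξ => A0 ξ + lam' * P ξ) r - (fun ξ => A0 ξ + lam * P ξ) r = (lam' - lam) * P r := by
    simp only; ring
  rw [e, abs_mul, abs_of_nonneg (hP.nn r hr).1]

include hS hB hz hzs hP hA hA'

/-- K2 for the two strengths -/
theorem lrl_eps (k : ℕ) (h1 : 1 ≤ k) (h4 : k ≤ 4) (ξ : ℝ) (hξ : 0 ≤ ξ) (z : ℝ) :
    |S.vk k (fun ξ => A0 ξ + lam' * P ξ) 1 ξ z - S.vk k (fun ξ => A0 ξ + lam * P ξ) 1 ξ z| ≤ lrlE0 B z0 * |lam' - lam| := by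
  have hB0 : 0 ≤ B := by linarith [hB.one]
  have h3 := hB.dl k h1 h4 _ _ 1 hA hA' (fun r hr => by simp only [hP.zero r (hzs.trans hr)]; ring) ξ hξ z
  have h5 : ∫ r in Ioi ξ, |(fun ξ => A0 ξ + lam' * P ξ) r - (fun ξ => A0 ξ + lam * P ξ) r| = |lam' - lam| * lppIP P ξ := by
    unfold lppIP
    rw [← integral_const_mul]
    exact setIntegral_congr_fun measurableSet_Ioi fun r hr => lrl_abs_diff hP r (hξ.trans (le_of_lt hr))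
  rw [h5] at h3
  refine h3.trans ?_
  have h6 := lpp_IP_le hz hP ξ hξ
  have h7 : |lam' - lam| * lppIP P ξ ≤ |lam' - lam| * (z0 ^ 2 / 2) := mul_le_mul_of_nonneg_left h6 (abs_nonneg _)
  calc B * (|lam' - lam| * lppIP P ξ) ≤ B * (|lam' - lam| * (z0 ^ 2 / 2)) := mul_le_mul_of_nonneg_left h7 hB0
    _ = lrlE0 B z0 * |lam' - lam| := by unfold lrlE0; ring

include hCA0 hCA hl hl1

/-- K3 for the two strengths: the law at a time `ξ ≤ ξ_*` tested on even functions -/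
theorem lrl_law (ξ : ℝ) (hξ : ξ ∈ Icc 0 ξs) (g : ℝ → ℝ) (G : ℝ) (hg : LppTest g G) :
    |S.Ex (fun ξ => A0 ξ + lam' * P ξ) 1 ξ g - S.Ex (fun ξ => A0 ξ + lam * P ξ) 1 ξ g|
      ≤ B * G * (lrlH1 B CA z0 * |lam' - lam| * ξ ^ 3 / 3) := by
  obtain ⟨he0, hh0⟩ := lrl_const_nonneg hB hCA0 hz
  have hd : 0 ≤ |lam' - lam| := abs_nonneg _
  have h2 := hB.ll _ 1 _ 1 hA hA' ξ hξ g G hg (fun _ => lrlE0 B z0 * |lam' - lam|)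
    (fun r => lrlH1 B CA z0 * |lam' - lam| * r ^ 2) ?_ ?_ ?_
  · rw [intervalIntegral.integral_const_mul, integral_pow] at h2
    refine h2.trans (le_of_eq ?_)
    push_cast
    ring
  · intro r hr z
    exact lrl_eps hS hB hz hzs hP hA hA' 2 (by norm_num) (by norm_num) r hr.1 z
  · intro r hr
    rw [lrl_abs_diff hP r hr.1]
    have p0 := hP.nn r hr.1
    have a1 : A0 r + lam * P r ≤ (CA + 1) * r := by
      have := hCA r ⟨hr.1, hr.2.le.trans hξ.2⟩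
      have h3 : lam * P r ≤ 1 * r := mul_le_mul hl1 p0.2 p0.1 zero_le_one
      linarith
    have a2 : |lam' - lam| * P r ≤ |lam' - lam| * r := mul_le_mul_of_nonneg_left p0.2 hd
    have a3 : (A0 r + lam * P r) * (lrlE0 B z0 * |lam' - lam|) ≤ (CA + 1) * r * (lrlE0 B z0 * |lam' - lam|) :=
      mul_le_mul_of_nonneg_right a1 (mul_nonneg he0 hd)
    calc (|lam' - lam| * P r + (A0 r + lam * P r) * (lrlE0 B z0 * |lam' - lam|)) * r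
        ≤ (|lam' - lam| * r + (CA + 1) * r * (lrlE0 B z0 * |lam' - lam|)) * r :=
          mul_le_mul_of_nonneg_right (by linarith) hr.1
      _ = lrlH1 B CA z0 * |lam' - lam| * r ^ 2 := by unfold lrlH1; ring
  · exact (continuous_const.mul (continuous_pow 2)).intervalIntegrable _ _

theorem lrl_cube {ξ : ℝ} (hξ : ξ ∈ Icc 0 ξs) : ξ ^ 3 ≤ ξs ^ 3 ∧ ξ ^ 3 ≤ ξs ^ 2 * ξ := by
  have h1 : ξ ^ 2 ≤ ξs ^ 2 := pow_le_pow_left₀ hξ.1 hξ.2 2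
  exact ⟨pow_le_pow_left₀ hξ.1 hξ.2 3, by nlinarith [hξ.1]⟩

/-- `E χ²` -/
theorem lrl_M2 (ξ : ℝ) (hξ : ξ ∈ Icc 0 ξs) :
    |S.M2 (fun ξ => A0 ξ + lam' * P ξ) 1 ξ - S.M2 (fun ξ => A0 ξ + lam * P ξ) 1 ξ| ≤ lrlC2 B CA z0 ξs * |lam' - lam| := by
  obtain ⟨he0, hh0⟩ := lrl_const_nonneg hB hCA0 hz
  have hB0 : 0 ≤ B := by linarith [hB.one]
  have hd : 0 ≤ |lam' - lam| := abs_nonneg _
  have h1 := lpp_M2_diff hS hB hA hA' hξ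
    (fun k h2 h4 z => lrl_eps hS hB hz hzs hP hA hA' k (by omega) h4 ξ hξ.1 z)
    (fun g G hg => lrl_law hS hB hCA0 hCA hz hzs hP hl hl1 hA hA' ξ hξ g G hg)
  refine h1.trans ?_
  have h2 := (lrl_cube hS hB hCA0 hCA hz hzs hP hl hl1 hA hA' hξ).1
  have h3 : lrlH1 B CA z0 * |lam' - lam| * ξ ^ 3 ≤ lrlH1 B CA z0 * |lam' - lam| * ξs ^ 3 :=
    mul_le_mul_of_nonneg_left h2 (mul_nonneg hh0 hd)
  have h4 : 9 * B ^ 4 * (lrlH1 B CA z0 * |lam' - lam| * ξ ^ 3 / 3) ≤ 9 * B ^ 4 * (lrlH1 B CA z0 * |lam' - lam| * ξs ^ 3 / 3) :=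
    mul_le_mul_of_nonneg_left (by linarith) (by positivity)
  unfold lrlC2
  linarith

/-- `E χ³` -/
theorem lrl_M3 (ξ : ℝ) (hξ : ξ ∈ Icc 0 ξs) :
    |S.M3 (fun ξ => A0 ξ + lam' * P ξ) 1 ξ - S.M3 (fun ξ => A0 ξ + lam * P ξ) 1 ξ| ≤ lrlC3 B CA z0 ξs * |lam' - lam| := by
  obtain ⟨he0, hh0⟩ := lrl_const_nonneg hB hCA0 hz
  have hB0 : 0 ≤ B := by linarith [hB.one]
  have hd : 0 ≤ |lam' - lam| := abs_nonneg _
  have h1 := lpp_M3_diff hS hB hA hA' hξ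
    (fun k h2 h4 z => lrl_eps hS hB hz hzs hP hA hA' k (by omega) h4 ξ hξ.1 z)
    (fun g G hg => lrl_law hS hB hCA0 hCA hz hzs hP hl hl1 hA hA' ξ hξ g G hg)
  refine h1.trans ?_
  have h2 := (lrl_cube hS hB hCA0 hCA hz hzs hP hl hl1 hA hA' hξ).1
  have h3 : lrlH1 B CA z0 * |lam' - lam| * ξ ^ 3 ≤ lrlH1 B CA z0 * |lam' - lam| * ξs ^ 3 :=
    mul_le_mul_of_nonneg_left h2 (mul_nonneg hh0 hd)
  have h4 : 9 * B ^ 4 * (lrlH1 B CA z0 * |lam' - lam| * ξ ^ 3 / 3) ≤ 9 * B ^ 4 * (lrlH1 B CA z0 * |lam' - lam| * ξs ^ 3 / 3) :=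
    mul_le_mul_of_nonneg_left (by linarith) (by positivity)
  unfold lrlC3
  linarith

/-- `E V_zzz²`: oddness gives the factor `ξ` -/
theorem lrl_N3 (ξ : ℝ) (hξ : ξ ∈ Icc 0 ξs) :
    |S.N3 (fun ξ => A0 ξ + lam' * P ξ) 1 ξ - S.N3 (fun ξ => A0 ξ + lam * P ξ) 1 ξ| ≤ lrlN3 B CA z0 ξs * |lam' - lam| * ξ := by
  obtain ⟨he0, hh0⟩ := lrl_const_nonneg hB hCA0 hz
  have hB0 : 0 ≤ B := by linarith [hB.one]
  have hd : 0 ≤ |lam' - lam| := abs_nonneg _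
  have h1 := lpp_N3_diff hS hB hA hA' hξ
    (fun k h2 h4 z => lrl_eps hS hB hz hzs hP hA hA' k (by omega) h4 ξ hξ.1 z)
    (fun g G hg => lrl_law hS hB hCA0 hCA hz hzs hP hl hl1 hA hA' ξ hξ g G hg)
  refine h1.trans ?_
  have h2 := (lrl_cube hS hB hCA0 hCA hz hzs hP hl hl1 hA hA' hξ).2
  have h3 : lrlH1 B CA z0 * |lam' - lam| * ξ ^ 3 ≤ lrlH1 B CA z0 * |lam' - lam| * (ξs ^ 2 * ξ) :=
    mul_le_mul_of_nonneg_left h2 (mul_nonneg hh0 hd)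
  have h4 : 9 * B ^ 4 * (lrlH1 B CA z0 * |lam' - lam| * ξ ^ 3 / 3) ≤ 9 * B ^ 4 * (lrlH1 B CA z0 * |lam' - lam| * (ξs ^ 2 * ξ) / 3) :=
    mul_le_mul_of_nonneg_left (by linarith) (by positivity)
  unfold lrlN3
  linarith

omit hz hzs hP hA' hCA0 hCA hl hl1 in
theorem lrl_M3_le (r : ℝ) (hr : 0 ≤ r) : |S.M3 (fun ξ => A0 ξ + lam * P ξ) 1 r| ≤ B ^ 3 := by
  have hb3 : ∀ z, |S.vk 2 (fun ξ => A0 ξ + lam * P ξ) 1 r z ^ 3| ≤ B ^ 3 := fun z => by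
    rw [abs_pow]
    exact pow_le_pow_left₀ (abs_nonneg _) (hB.bd 2 (by norm_num) (by norm_num) _ 1 hA r hr z) 3
  exact lpp_ex_abs_le_const hS hA hr (LppCls.of_bdd ((lpp_vk_cont hS hA hr 2).pow 3) hb3) hb3

omit hz hzs hP hA' hCA0 hCA hl hl1 in
theorem lrl_M2_le (r : ℝ) (hr : 0 ≤ r) : |S.M2 (fun ξ => A0 ξ + lam * P ξ) 1 r| ≤ B ^ 2 := by
  have hb3 : ∀ z, |S.vk 2 (fun ξ => A0 ξ + lam * P ξ) 1 r z ^ 2| ≤ B ^ 2 := fun z => by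
    rw [abs_pow]
    exact pow_le_pow_left₀ (abs_nonneg _) (hB.bd 2 (by norm_num) (by norm_num) _ 1 hA r hr z) 2
  exact lpp_ex_abs_le_const hS hA hr (LppCls.of_bdd ((lpp_vk_cont hS hA hr 2).pow 2) hb3) hb3

/-- the integrand of the curvature identity -/
theorem lrl_curv (r : ℝ) (hr : r ∈ Icc 0 ξs) :
    |(S.N3 (fun ξ => A0 ξ + lam * P ξ) 1 r - 2 * (A0 r + lam * P r) * S.M3 (fun ξ => A0 ξ + lam * P ξ) 1 r)
      - (S.N3 (fun ξ => A0 ξ + lam' * P ξ) 1 r - 2 * (A0 r + lam' * P r) * S.M3 (fun ξ => A0 ξ + lam' * P ξ) 1 r)|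
      ≤ lrlD1 B CA z0 ξs * |lam' - lam| * r := by
  have hB0 : 0 ≤ B := by linarith [hB.one]
  have hd : 0 ≤ |lam' - lam| := abs_nonneg _
  have n3 := lrl_N3 hS hB hCA0 hCA hz hzs hP hl hl1 hA hA' r hr
  have m3 := lrl_M3 hS hB hCA0 hCA hz hzs hP hl hl1 hA hA' r hr
  have b3 := lrl_M3_le hS hB hA' r hr.1
  have p0 := hP.nn r hr.1
  have a0 : 0 ≤ A0 r + lam * P r := hA.nn r hr.1
  have a1 : A0 r + lam * P r ≤ (CA + 1) * r := by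
    have := hCA r hr
    have h3 : lam * P r ≤ 1 * r := mul_le_mul hl1 p0.2 p0.1 zero_le_one
    linarith
  set N := S.N3 (fun ξ => A0 ξ + lam * P ξ) 1 r
  set N' := S.N3 (fun ξ => A0 ξ + lam' * P ξ) 1 r
  set M := S.M3 (fun ξ => A0 ξ + lam * P ξ) 1 r
  set M' := S.M3 (fun ξ => A0 ξ + lam' * P ξ) 1 r
  have e : (N - 2 * (A0 r + lam * P r) * M) - (N' - 2 * (A0 r + lam' * P r) * M')
      = -(N' - N) + 2 * ((lam' - lam) * P r * M') + 2 * ((A0 r + lam * P r) * (M' - M)) := by ring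
  have t1 : |(lam' - lam) * P r * M'| ≤ |lam' - lam| * r * B ^ 3 := by
    rw [abs_mul, abs_mul, abs_of_nonneg p0.1]
    exact mul_le_mul (mul_le_mul_of_nonneg_left p0.2 hd) b3 (abs_nonneg _) (mul_nonneg hd hr.1)
  have t2 : |(A0 r + lam * P r) * (M' - M)| ≤ (CA + 1) * r * (lrlC3 B CA z0 ξs * |lam' - lam|) := by
    rw [abs_mul, abs_of_nonneg a0]
    exact mul_le_mul a1 m3 (abs_nonneg _) (a0.trans a1)
  rw [e]
  have t3 := abs_add_three (-(N' - N)) (2 * ((lam' - lam) * P r * M')) (2 * ((A0 r + lam * P r) * (M' - M)))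
  rw [abs_neg, abs_mul 2, abs_mul 2, abs_two] at t3
  refine t3.trans ?_
  unfold lrlD1
  nlinarith

/-- **the drop `Γ̂'(0) - Γ̂'(ξ)`: the factor `ξ²` survives** -/
theorem lrl_drop (ξ : ℝ) (hξ : ξ ∈ Icc 0 ξs) :
    |(S.M2 (fun ξ => A0 ξ + lam' * P ξ) 1 0 - S.M2 (fun ξ => A0 ξ + lam' * P ξ) 1 ξ)
      - (S.M2 (fun ξ => A0 ξ + lam * P ξ) 1 0 - S.M2 (fun ξ => A0 ξ + lam * P ξ) 1 ξ)|
      ≤ lrlD1 B CA z0 ξs * |lam' - lam| * ξ ^ 2 / 2 := by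
  have c1 := hS.curve _ 1 hA 0 ξ le_rfl hξ.1
  have c2 := hS.curve _ 1 hA' 0 ξ le_rfl hξ.1
  have i1 := lpp_aux_curv_int hS hA 0 ξ le_rfl hξ.1
  have i2 := lpp_aux_curv_int hS hA' 0 ξ le_rfl hξ.1
  have e : (S.M2 (fun ξ => A0 ξ + lam' * P ξ) 1 0 - S.M2 (fun ξ => A0 ξ + lam' * P ξ) 1 ξ)
      - (S.M2 (fun ξ => A0 ξ + lam * P ξ) 1 0 - S.M2 (fun ξ => A0 ξ + lam * P ξ) 1 ξ)
      = ∫ r in (0 : ℝ)..ξ, ((S.N3 (fun ξ => A0 ξ + lam * P ξ) 1 r - 2 * (A0 r + lam * P r) * S.M3 (fun ξ => A0 ξ + lam * P ξ) 1 r)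
        - (S.N3 (fun ξ => A0 ξ + lam' * P ξ) 1 r - 2 * (A0 r + lam' * P r) * S.M3 (fun ξ => A0 ξ + lam' * P ξ) 1 r)) := by
    rw [intervalIntegral.integral_sub i1 i2, ← c1, ← c2]; ring
  rw [e, ← Real.norm_eq_abs]
  have h1 := intervalIntegral.norm_integral_le_of_norm_le (μ := volume) hξ.1
    (f := fun r => (S.N3 (fun ξ => A0 ξ + lam * P ξ) 1 r - 2 * (A0 r + lam * P r) * S.M3 (fun ξ => A0 ξ + lam * P ξ) 1 r)
        - (S.N3 (fun ξ => A0 ξ + lam' * P ξ) 1 r - 2 * (A0 r + lam' * P r) * S.M3 (fun ξ => A0 ξ + lam' * P ξ) 1 r))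
    (g := fun r => lrlD1 B CA z0 ξs * |lam' - lam| * r)
    (Filter.Eventually.of_forall fun r hr => by
      rw [Real.norm_eq_abs]
      exact lrl_curv hS hB hCA0 hCA hz hzs hP hl hl1 hA hA' r ⟨hr.1.le, hr.2.trans hξ.2⟩)
    ((continuous_const.mul continuous_id).intervalIntegrable _ _)
  refine h1.trans (le_of_eq ?_)
  rw [intervalIntegral.integral_const_mul, integral_id]
  ring

/-- beyond the support -/
theorem lrl_far (htop : ∀ ξ, ξs ≤ ξ → A0 ξ = 1) {G0 : ℝ}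
    (hF : ∀ s d : ℝ, 0 ≤ s → 0 ≤ d → ∃ g : ℝ → ℝ, LppTest g G0 ∧
      ∀ A, LppAdm A 1 → (∀ ξ, s ≤ ξ → A ξ = 1) → S.M2 A 1 (s + d) = S.Ex A 1 s g) (ξ : ℝ) (hξ : ξs ≤ ξ) :
    |S.M2 (fun ξ => A0 ξ + lam' * P ξ) 1 ξ - S.M2 (fun ξ => A0 ξ + lam * P ξ) 1 ξ| ≤ lrlCF B CA z0 ξs G0 * |lam' - lam| := by
  have hs0 : 0 ≤ ξs := hz.le.trans hzs
  obtain ⟨g, hg, h⟩ := hF ξs (ξ - ξs) hs0 (by linarith)
  have e1 := h _ hA (fun r hr => by simp only [hP.zero r (hzs.trans hr), htop r hr]; ring)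
  have e2 := h _ hA' (fun r hr => by simp only [hP.zero r (hzs.trans hr), htop r hr]; ring)
  rw [add_sub_cancel] at e1 e2
  rw [e1, e2]
  refine (lrl_law hS hB hCA0 hCA hz hzs hP hl hl1 hA hA' ξs ⟨hs0, le_rfl⟩ g G0 hg).trans (le_of_eq ?_)
  unfold lrlCF
  ring

omit hz hzs hP hA' hCA0 hCA hl hl1 in
theorem lrl_M2_int {T : ℝ} (hb : LppBase S T A0 ξs) (a b : ℝ) (ha : 0 ≤ a) (hb' : 0 ≤ b) :
    IntervalIntegrable (S.M2 (fun ξ => A0 ξ + lam * P ξ) 1) volume a b := by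
  refine ((lpp_M2_cont hS hb hA).mono ?_).intervalIntegrable
  intro r hr
  exact (le_min ha hb').trans hr.1

/-- `Γ̂` at one time -/
theorem lrl_Gam {T : ℝ} (hb : LppBase S T A0 ξs) (ξ : ℝ) (hξ : ξ ∈ Icc 0 ξs) :
    |S.Gam (fun ξ => A0 ξ + lam' * P ξ) 1 ξ - S.Gam (fun ξ => A0 ξ + lam * P ξ) 1 ξ| ≤ lrlC2 B CA z0 ξs * |lam' - lam| * ξ := by
  rw [hS.gam _ 1 hA ξ hξ.1, hS.gam _ 1 hA' ξ hξ.1,
    ← intervalIntegral.integral_sub (lrl_M2_int hS hB hA' hb 0 ξ le_rfl hξ.1) (lrl_M2_int hS hB hA hb 0 ξ le_rfl hξ.1),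
    ← Real.norm_eq_abs]
  have h1 := intervalIntegral.norm_integral_le_of_norm_le_const (a := 0) (b := ξ)
    (f := fun r => S.M2 (fun ξ => A0 ξ + lam' * P ξ) 1 r - S.M2 (fun ξ => A0 ξ + lam * P ξ) 1 r)
    (C := lrlC2 B CA z0 ξs * |lam' - lam|) (fun r hr => by
      rw [uIoc_of_le hξ.1] at hr
      rw [Real.norm_eq_abs]
      exact lrl_M2 hS hB hCA0 hCA hz hzs hP hl hl1 hA hA' r ⟨hr.1.le, hr.2.trans hξ.2⟩)
  rwa [sub_zero, abs_of_nonneg hξ.1] at h1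

omit hz hzs hP hA' hCA0 hCA hl hl1 in
/-- `Γ̂` is Lipschitz in time -/
theorem lrl_Gam_lip {T : ℝ} (hb : LppBase S T A0 ξs) (ξ ξ' : ℝ) (hξ : 0 ≤ ξ) (hξ' : 0 ≤ ξ') :
    |S.Gam (fun ξ => A0 ξ + lam * P ξ) 1 ξ' - S.Gam (fun ξ => A0 ξ + lam * P ξ) 1 ξ| ≤ B ^ 2 * |ξ' - ξ| := by
  rw [hS.gam _ 1 hA ξ hξ, hS.gam _ 1 hA ξ' hξ',
    intervalIntegral.integral_interval_sub_left (lrl_M2_int hS hB hA hb 0 ξ' le_rfl hξ') (lrl_M2_int hS hB hA hb 0 ξ le_rfl hξ),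
    ← Real.norm_eq_abs]
  refine intervalIntegral.norm_integral_le_of_norm_le_const (fun r hr => ?_)
  rw [Real.norm_eq_abs]
  refine lrl_M2_le hS hB hA r ?_
  have := hr.1
  exact (le_min hξ hξ').trans this.le

end two

/-! ## 3. quotients -/

theorem lrl_quot {a a' m m' μ : ℝ} (hμ : 0 < μ) (hm : μ ≤ m) (hm' : μ ≤ m') :
    |a' / m' - a / m| ≤ |a' - a| / μ + |a| * |m' - m| / μ ^ 2 := by
  have h0 : 0 < m := hμ.trans_le hm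
  have h0' : 0 < m' := hμ.trans_le hm'
  have e : a' / m' - a / m = (a' - a) / m' + a * (m - m') / (m * m') := by field_simp; ring
  rw [e]
  refine (abs_add_le _ _).trans (add_le_add ?_ ?_)
  · rw [abs_div, abs_of_pos h0']
    exact div_le_div_of_nonneg_left (abs_nonneg _) hμ hm'
  · rw [abs_div, abs_mul, abs_of_pos (mul_pos h0 h0'), abs_sub_comm m m']
    refine div_le_div_of_nonneg_left (by positivity) (by positivity) ?_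
    nlinarith

/-! ## 4. the two models in normalised coordinates, ONE constant -/

/-- the comparison of the two models in normalised coordinates -/
structure LrlN (S : LppMod) (A A' : ℝ → ℝ) (ξs δ K : ℝ) : Prop where
  inv : |1 / S.M2 A' 1 0 - 1 / S.M2 A 1 0| ≤ K * δ
  gap0 : ∀ ξ ∈ Icc 0 ξs, |(1 - S.M2 A' 1 ξ / S.M2 A' 1 0) - (1 - S.M2 A 1 ξ / S.M2 A 1 0)| ≤ K * δ * ξ ^ 2
  gap : ∀ ξ, 0 ≤ ξ → |(1 - S.M2 A' 1 ξ / S.M2 A' 1 0) - (1 - S.M2 A 1 ξ / S.M2 A 1 0)| ≤ K * δ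
  gam : ∀ ξ ∈ Icc 0 ξs, |S.Gam A' 1 ξ - S.Gam A 1 ξ| ≤ K * δ * ξ
  lip : ∀ ξ ξ', 0 ≤ ξ → 0 ≤ ξ' → |S.Gam A' 1 ξ' - S.Gam A' 1 ξ| ≤ K * |ξ' - ξ|

/-- constant of the gap on the active side -/
noncomputable def lrlGa (B CA z0 ξs μ CL : ℝ) : ℝ := lrlD1 B CA z0 ξs / 2 / μ + CL * lrlC2 B CA z0 ξs / μ ^ 2
/-- constant of the gap beyond the support -/
noncomputable def lrlGb (B CA z0 ξs cF μ : ℝ) : ℝ := cF / μ + B ^ 2 * lrlC2 B CA z0 ξs / μ ^ 2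
/-- THE constant -/
noncomputable def lrlK (B CA z0 ξs cF μ CL : ℝ) : ℝ :=
  lrlC2 B CA z0 ξs / μ ^ 2 + lrlGa B CA z0 ξs μ CL * (1 + ξs ^ 2) + lrlGb B CA z0 ξs cF μ + lrlC2 B CA z0 ξs + B ^ 2

theorem lrl_consts_nonneg {B CA z0 ξs cF μ CL : ℝ} (hB : 1 ≤ B) (hCA : 0 ≤ CA) (_hz : 0 ≤ z0) (hs : 0 ≤ ξs) (hG : 0 ≤ cF) (hμ : 0 < μ)
    (hCL : 0 ≤ CL) : 0 ≤ lrlC2 B CA z0 ξs ∧ 0 ≤ lrlD1 B CA z0 ξs ∧ 0 ≤ lrlGa B CA z0 ξs μ CL ∧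
      0 ≤ lrlGb B CA z0 ξs cF μ := by
  have hB0 : 0 ≤ B := by linarith
  have e0 : 0 ≤ lrlE0 B z0 := by unfold lrlE0; positivity
  have h1 : 0 ≤ lrlH1 B CA z0 := by unfold lrlH1; positivity
  have c2 : 0 ≤ lrlC2 B CA z0 ξs := by unfold lrlC2; positivity
  have c3 : 0 ≤ lrlC3 B CA z0 ξs := by unfold lrlC3; positivity
  have n3 : 0 ≤ lrlN3 B CA z0 ξs := by unfold lrlN3; positivity
  have d1 : 0 ≤ lrlD1 B CA z0 ξs := by unfold lrlD1; positivity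
  exact ⟨c2, d1, by unfold lrlGa; positivity, by unfold lrlGb; positivity⟩

theorem lrl_CF_nonneg {B CA z0 ξs G0 : ℝ} (hB : 1 ≤ B) (hCA : 0 ≤ CA) (hs : 0 ≤ ξs) (hG : 0 ≤ G0) : 0 ≤ lrlCF B CA z0 ξs G0 := by
  have hB0 : 0 ≤ B := by linarith
  have e0 : 0 ≤ lrlE0 B z0 := by unfold lrlE0; positivity
  have h1 : 0 ≤ lrlH1 B CA z0 := by unfold lrlH1; positivity
  unfold lrlCF; positivity

theorem lrl_norm {S : LppMod} (hS : LppOk S) {T ξs B CA z0 : ℝ} {A0 P : ℝ → ℝ} (hb : LppBase S T A0 ξs) (hB : LppB S ξs B)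
    (hCA0 : 0 ≤ CA) (hCA : ∀ ξ ∈ Icc 0 ξs, A0 ξ ≤ CA * ξ) (hz : 0 < z0) (hzs : z0 ≤ ξs) (hP : LppCut z0 P)
    {lam lam' : ℝ} (hl : 0 ≤ lam) (hl1 : lam ≤ 1)
    (hA : LppAdm (fun ξ => A0 ξ + lam * P ξ) 1) (hA' : LppAdm (fun ξ => A0 ξ + lam' * P ξ) 1) {cF : ℝ} (hcF : 0 ≤ cF)
    (hfar : ∀ ξ, ξs ≤ ξ →
      |S.M2 (fun ξ => A0 ξ + lam' * P ξ) 1 ξ - S.M2 (fun ξ => A0 ξ + lam * P ξ) 1 ξ| ≤ cF * |lam' - lam|)
    {μ CL : ℝ} (hμ : 0 < μ) (hm : μ ≤ S.M2 (fun ξ => A0 ξ + lam * P ξ) 1 0) (hm' : μ ≤ S.M2 (fun ξ => A0 ξ + lam' * P ξ) 1 0)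
    (hCL : 0 ≤ CL) (hdrop : ∀ ξ ∈ Icc 0 ξs,
      |S.M2 (fun ξ => A0 ξ + lam * P ξ) 1 0 - S.M2 (fun ξ => A0 ξ + lam * P ξ) 1 ξ| ≤ CL * ξ ^ 2) :
    LrlN S (fun ξ => A0 ξ + lam * P ξ) (fun ξ => A0 ξ + lam' * P ξ) ξs |lam' - lam| (lrlK B CA z0 ξs cF μ CL) := by
  have hs0 : 0 ≤ ξs := hz.le.trans hzs
  obtain ⟨c2, d1, ga, gb⟩ := lrl_consts_nonneg (ξs := ξs) (cF := cF) hB.one hCA0 hz.le hs0 hcF hμ hCL
  have hd : 0 ≤ |lam' - lam| := abs_nonneg _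
  have hB2 : 0 ≤ B ^ 2 := sq_nonneg B
  have hq : 0 ≤ lrlC2 B CA z0 ξs / μ ^ 2 := by positivity
  have hm0 : 0 < S.M2 (fun ξ => A0 ξ + lam * P ξ) 1 0 := hμ.trans_le hm
  have hm0' : 0 < S.M2 (fun ξ => A0 ξ + lam' * P ξ) 1 0 := hμ.trans_le hm'
  have M0 := lrl_M2 hS hB hCA0 hCA hz hzs hP hl hl1 hA hA' 0 ⟨le_rfl, hs0⟩
  -- the active side
  have act : ∀ ξ ∈ Icc 0 ξs, |(1 - S.M2 (fun ξ => A0 ξ + lam' * P ξ) 1 ξ / S.M2 (fun ξ => A0 ξ + lam' * P ξ) 1 0)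
      - (1 - S.M2 (fun ξ => A0 ξ + lam * P ξ) 1 ξ / S.M2 (fun ξ => A0 ξ + lam * P ξ) 1 0)|
      ≤ lrlGa B CA z0 ξs μ CL * |lam' - lam| * ξ ^ 2 := by
    intro ξ hξ
    have e : (1 - S.M2 (fun ξ => A0 ξ + lam' * P ξ) 1 ξ / S.M2 (fun ξ => A0 ξ + lam' * P ξ) 1 0)
        - (1 - S.M2 (fun ξ => A0 ξ + lam * P ξ) 1 ξ / S.M2 (fun ξ => A0 ξ + lam * P ξ) 1 0)
        = (S.M2 (fun ξ => A0 ξ + lam' * P ξ) 1 0 - S.M2 (fun ξ => A0 ξ + lam' * P ξ) 1 ξ) / S.M2 (fun ξ => A0 ξ + lam' * P ξ) 1 0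
          - (S.M2 (fun ξ => A0 ξ + lam * P ξ) 1 0 - S.M2 (fun ξ => A0 ξ + lam * P ξ) 1 ξ) / S.M2 (fun ξ => A0 ξ + lam * P ξ) 1 0 := by
      field_simp
    rw [e]
    refine (lrl_quot hμ hm hm').trans ?_
    have t1 := lrl_drop hS hB hCA0 hCA hz hzs hP hl hl1 hA hA' ξ hξ
    have t2 := hdrop ξ hξ
    have t3 : |S.M2 (fun ξ => A0 ξ + lam * P ξ) 1 0 - S.M2 (fun ξ => A0 ξ + lam * P ξ) 1 ξ|
        * |S.M2 (fun ξ => A0 ξ + lam' * P ξ) 1 0 - S.M2 (fun ξ => A0 ξ + lam * P ξ) 1 0|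
        ≤ CL * ξ ^ 2 * (lrlC2 B CA z0 ξs * |lam' - lam|) := mul_le_mul t2 M0 (abs_nonneg _) (by positivity)
    have t4 := div_le_div_of_nonneg_right t1 hμ.le
    have t5 := div_le_div_of_nonneg_right t3 (sq_nonneg μ)
    refine (add_le_add t4 t5).trans (le_of_eq ?_)
    unfold lrlGa
    ring
  have far : ∀ ξ, ξs ≤ ξ → |(1 - S.M2 (fun ξ => A0 ξ + lam' * P ξ) 1 ξ / S.M2 (fun ξ => A0 ξ + lam' * P ξ) 1 0)
      - (1 - S.M2 (fun ξ => A0 ξ + lam * P ξ) 1 ξ / S.M2 (fun ξ => A0 ξ + lam * P ξ) 1 0)|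
      ≤ lrlGb B CA z0 ξs cF μ * |lam' - lam| := by
    intro ξ hξ
    have e : (1 - S.M2 (fun ξ => A0 ξ + lam' * P ξ) 1 ξ / S.M2 (fun ξ => A0 ξ + lam' * P ξ) 1 0)
        - (1 - S.M2 (fun ξ => A0 ξ + lam * P ξ) 1 ξ / S.M2 (fun ξ => A0 ξ + lam * P ξ) 1 0)
        = -(S.M2 (fun ξ => A0 ξ + lam' * P ξ) 1 ξ / S.M2 (fun ξ => A0 ξ + lam' * P ξ) 1 0
          - S.M2 (fun ξ => A0 ξ + lam * P ξ) 1 ξ / S.M2 (fun ξ => A0 ξ + lam * P ξ) 1 0) := by ring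
    rw [e, abs_neg]
    refine (lrl_quot hμ hm hm').trans ?_
    have t1 := hfar ξ hξ
    have t2 := lrl_M2_le hS hB hA ξ (hs0.trans hξ)
    have t3 : |S.M2 (fun ξ => A0 ξ + lam * P ξ) 1 ξ|
        * |S.M2 (fun ξ => A0 ξ + lam' * P ξ) 1 0 - S.M2 (fun ξ => A0 ξ + lam * P ξ) 1 0|
        ≤ B ^ 2 * (lrlC2 B CA z0 ξs * |lam' - lam|) := mul_le_mul t2 M0 (abs_nonneg _) hB2
    have t4 := div_le_div_of_nonneg_right t1 hμ.le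
    have t5 := div_le_div_of_nonneg_right t3 (sq_nonneg μ)
    refine (add_le_add t4 t5).trans (le_of_eq ?_)
    unfold lrlGb
    ring
  have hx2 : 0 ≤ ξs ^ 2 := sq_nonneg ξs
  have k1 : lrlC2 B CA z0 ξs / μ ^ 2 ≤ lrlK B CA z0 ξs cF μ CL := by
    unfold lrlK; nlinarith [mul_nonneg ga hx2]
  have k2 : lrlGa B CA z0 ξs μ CL ≤ lrlK B CA z0 ξs cF μ CL := by
    unfold lrlK; nlinarith [mul_nonneg ga hx2]
  have k2' : lrlGa B CA z0 ξs μ CL * ξs ^ 2 ≤ lrlK B CA z0 ξs cF μ CL := by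
    unfold lrlK; nlinarith [mul_nonneg ga hx2]
  have k3 : lrlGb B CA z0 ξs cF μ ≤ lrlK B CA z0 ξs cF μ CL := by
    unfold lrlK; nlinarith [mul_nonneg ga hx2]
  have k4 : lrlC2 B CA z0 ξs ≤ lrlK B CA z0 ξs cF μ CL := by
    unfold lrlK; nlinarith [mul_nonneg ga hx2]
  have k5 : B ^ 2 ≤ lrlK B CA z0 ξs cF μ CL := by
    unfold lrlK; nlinarith [mul_nonneg ga hx2]
  refine ⟨?_, ?_, ?_, ?_, ?_⟩
  · refine (lrl_quot hμ hm hm').trans ?_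
    rw [sub_self, abs_zero, zero_div, zero_add, abs_one, one_mul]
    refine (div_le_div_of_nonneg_right M0 (sq_nonneg μ)).trans ?_
    calc lrlC2 B CA z0 ξs * |lam' - lam| / μ ^ 2 = lrlC2 B CA z0 ξs / μ ^ 2 * |lam' - lam| := by ring
      _ ≤ _ := mul_le_mul_of_nonneg_right k1 hd
  · intro ξ hξ
    exact (act ξ hξ).trans (mul_le_mul_of_nonneg_right (mul_le_mul_of_nonneg_right k2 hd) (sq_nonneg ξ))
  · intro ξ hξ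
    rcases le_total ξ ξs with c | c
    · refine (act ξ ⟨hξ, c⟩).trans ?_
      have h1 : ξ ^ 2 ≤ ξs ^ 2 := pow_le_pow_left₀ hξ c 2
      calc lrlGa B CA z0 ξs μ CL * |lam' - lam| * ξ ^ 2 ≤ lrlGa B CA z0 ξs μ CL * |lam' - lam| * ξs ^ 2 :=
            mul_le_mul_of_nonneg_left h1 (mul_nonneg ga hd)
        _ = lrlGa B CA z0 ξs μ CL * ξs ^ 2 * |lam' - lam| := by ring
        _ ≤ _ := mul_le_mul_of_nonneg_right k2' hd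
    · exact (far ξ c).trans (mul_le_mul_of_nonneg_right k3 hd)
  · intro ξ hξ
    exact (lrl_Gam hS hB hCA0 hCA hz hzs hP hl hl1 hA hA' hb ξ hξ).trans
      (mul_le_mul_of_nonneg_right (mul_le_mul_of_nonneg_right k4 hd) hξ.1)
  · intro ξ ξ' hξ hξ'
    exact (lrl_Gam_lip hS hB hA' hb ξ ξ' hξ hξ').trans (mul_le_mul_of_nonneg_right k5 (abs_nonneg _))

/-! ## 5. the six fields at one direct point -/

section read

variable {p : LlPt} {F : LlFix} {𝔹 : LlBase} {S : LppMod}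

theorem lrl_Aprof (h : p.sm = false) : p.Aprof F 𝔹 = fun ξ => 𝔹.A0 F.T ξ + p.lam * F.P ξ := by
  unfold LlPt.Aprof
  rw [h]
  rfl

theorem lrl_j (h : p.sm = false) : p.j = 1 := by
  unfold LlPt.j
  rw [h]
  rfl

theorem lrl_a (h : p.sm = false) : p.a = p.ell := by
  unfold LlPt.a
  rw [h]
  rfl

theorem lrl_Gam1N (hL : LppLink 𝔹 S) (h : p.sm = false) (ξ : ℝ) :
    p.Gam1N F 𝔹 ξ = S.M2 (fun ξ => 𝔹.A0 F.T ξ + p.lam * F.P ξ) 1 ξ := by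
  unfold LlPt.Gam1N
  rw [lrl_Aprof h, lrl_j h, hL.G1]

theorem lrl_gapN (hL : LppLink 𝔹 S) (h : p.sm = false) (ξ : ℝ) :
    p.gapN F 𝔹 ξ = 1 - S.M2 (fun ξ => 𝔹.A0 F.T ξ + p.lam * F.P ξ) 1 ξ / S.M2 (fun ξ => 𝔹.A0 F.T ξ + p.lam * F.P ξ) 1 0 := by
  unfold LlPt.gapN
  rw [lrl_Gam1N hL h, lrl_Gam1N hL h]

theorem lrl_b0 (hL : LppLink 𝔹 S) (h : p.sm = false) :
    p.b0 F 𝔹 = (p.ell ^ 2)⁻¹ * (1 / S.M2 (fun ξ => 𝔹.A0 F.T ξ + p.lam * F.P ξ) 1 0) := by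
  unfold LlPt.b0 LlPt.Gam1
  rw [lrl_Gam1N hL h, mul_zero, one_div, one_div, mul_inv]

theorem lrl_xi (h : p.sm = false) (v : ℝ) : p.xi F 𝔹 v = llInv (lkkDir (𝔹.A0 F.T) F.P p.lam) (v / p.ell) := by
  unfold LlPt.xi
  rw [lrl_Aprof h]
  rfl

theorem lrl_q (hL : LppLink 𝔹 S) (h : p.sm = false) (h1 : 1 ≤ p.ell) (v : ℝ) :
    p.q F 𝔹 v = S.Gam (fun ξ => 𝔹.A0 F.T ξ + p.lam * F.P ξ) 1 (p.xi F 𝔹 v) := by
  have hl : p.ell ^ 2 ≠ 0 := by positivity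
  unfold LlPt.q LlPt.Gam LlPt.GamN LlPt.K
  rw [lrl_Aprof h, lrl_j h, hL.G, mul_inv_cancel_left₀ hl]

end read

/-- the constant of `LlPt.RegL` -/
noncomputable def lrlC (K ca ξ1 ξs : ℝ) : ℝ := 1 + K + (2 / ca) ^ 2 + K * (2 / ca) ^ 2 + K * (2 * ξs / (ca * ξ1))

theorem lrl_point {p : LlPt} {F : LlFix} {𝔹 : LlBase} {S : LppMod} (hL : LppLink 𝔹 S) {ca Ca ξ1 LP K l' : ℝ}
    (hk : LkkBase (𝔹.A0 F.T) (𝔹.xiS F.T) (𝔹.pTop F.T) ca Ca ξ1) (hP : LkkCut F.P F.z0 LP) (hz : F.z0 ≤ ξ1)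
    (hsm : p.sm = false) (h1 : 1 ≤ p.ell) (hl0 : 0 ≤ p.lam) (hl : p.lam * LP ≤ ca / 2) (hl0' : 0 ≤ l') (hl' : l' * LP ≤ ca / 2)
    (hK : 0 ≤ K)
    (hN : LrlN S (fun ξ => 𝔹.A0 F.T ξ + p.lam * F.P ξ) (fun ξ => 𝔹.A0 F.T ξ + l' * F.P ξ) (𝔹.xiS F.T) |l' - p.lam| K) :
    p.RegL F 𝔹 (lrlC K ca ξ1 (𝔹.xiS F.T)) (𝔹.xiS F.T) l' := by
  have hsm' : (p.wLm l').sm = false := hsm
  have hca := hk.ca0
  have hx1 := hk.x10
  have hxs : 0 < 𝔹.xiS F.T := hk.x10.trans hk.x1s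
  have hd : 0 ≤ |l' - p.lam| := abs_nonneg _
  have hell : 0 < p.ell := by linarith
  have hi0 : 0 ≤ (p.ell ^ 2)⁻¹ := by positivity
  have hi1 : (p.ell ^ 2)⁻¹ ≤ 1 := inv_le_one_of_one_le₀ (by nlinarith)
  have q1 : 0 ≤ (2 / ca) ^ 2 := by positivity
  have q2 : 0 ≤ 2 * 𝔹.xiS F.T / (ca * ξ1) := by positivity
  have c1 : K ≤ lrlC K ca ξ1 (𝔹.xiS F.T) := by
    unfold lrlC; nlinarith [mul_nonneg hK q1, mul_nonneg hK q2]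
  have c2 : (2 / ca) ^ 2 ≤ lrlC K ca ξ1 (𝔹.xiS F.T) := by
    unfold lrlC; nlinarith [mul_nonneg hK q1, mul_nonneg hK q2]
  have c3 : K * (2 / ca) ^ 2 + K * (2 * 𝔹.xiS F.T / (ca * ξ1)) ≤ lrlC K ca ξ1 (𝔹.xiS F.T) := by
    unfold lrlC; nlinarith [mul_nonneg hK q1, mul_nonneg hK q2]
  have hw : ∀ v ∈ Ioo 0 p.a, 0 ≤ v / p.ell ∧ v / p.ell ≤ 1 ∧ v / p.ell ≤ v := by
    intro v hv
    rw [lrl_a hsm] at hv
    exact ⟨(div_pos hv.1 hell).le, (div_le_one hell).2 hv.2.le, div_le_self hv.1.le h1⟩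
  have hxi : ∀ v, (p.wLm l').xi F 𝔹 v = llInv (lkkDir (𝔹.A0 F.T) F.P l') (v / p.ell) := fun v => lrl_xi hsm' v
  have hlip : ∀ v ∈ Ioo 0 p.a, |(p.wLm l').xi F 𝔹 v - p.xi F 𝔹 v| ≤ (2 / ca) ^ 2 * |l' - p.lam| * (v / p.ell) := by
    intro v hv
    rw [hxi, lrl_xi hsm]
    exact lkk_dir_inv_lip hk hP hz hl0 hl hl0' hl' _ (hw v hv).1 (hw v hv).2.1
  refine ⟨?_, ?_, ?_, ?_, ?_, ?_⟩
  · rw [lrl_b0 hL hsm, lrl_b0 hL hsm']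
    show |(p.ell ^ 2)⁻¹ * (1 / S.M2 (fun ξ => 𝔹.A0 F.T ξ + l' * F.P ξ) 1 0)
      - (p.ell ^ 2)⁻¹ * (1 / S.M2 (fun ξ => 𝔹.A0 F.T ξ + p.lam * F.P ξ) 1 0)| ≤ _
    rw [← mul_sub, abs_mul, abs_of_nonneg hi0]
    calc (p.ell ^ 2)⁻¹ * |1 / S.M2 (fun ξ => 𝔹.A0 F.T ξ + l' * F.P ξ) 1 0 - 1 / S.M2 (fun ξ => 𝔹.A0 F.T ξ + p.lam * F.P ξ) 1 0|
        ≤ 1 * (K * |l' - p.lam|) := mul_le_mul hi1 hN.inv (abs_nonneg _) zero_le_one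
      _ ≤ _ := by rw [one_mul]; exact mul_le_mul_of_nonneg_right c1 hd
  · intro v hv
    show |(p.ell ^ 2)⁻¹ * (p.wLm l').xi F 𝔹 v - (p.ell ^ 2)⁻¹ * p.xi F 𝔹 v| ≤ _
    rw [← mul_sub, abs_mul, abs_of_nonneg hi0]
    have t1 : (2 / ca) ^ 2 * |l' - p.lam| * (v / p.ell) ≤ (2 / ca) ^ 2 * |l' - p.lam| * v :=
      mul_le_mul_of_nonneg_left (hw v hv).2.2 (mul_nonneg q1 hd)
    calc (p.ell ^ 2)⁻¹ * |(p.wLm l').xi F 𝔹 v - p.xi F 𝔹 v|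
        ≤ 1 * ((2 / ca) ^ 2 * |l' - p.lam| * v) := mul_le_mul hi1 ((hlip v hv).trans t1) (abs_nonneg _) zero_le_one
      _ ≤ _ := by
          rw [one_mul]
          exact mul_le_mul_of_nonneg_right (mul_le_mul_of_nonneg_right c2 hd) hv.1.le
  · intro v hv hfar
    show (p.ell ^ 2)⁻¹ * (p.wLm l').xi F 𝔹 v = (p.ell ^ 2)⁻¹ * p.xi F 𝔹 v
    rw [lrl_xi hsm] at hfar
    rw [hxi, lrl_xi hsm, lkk_dir_inv_far hk hP hz hl0 hl hl0' hl' _ (hw v hv).2.1 hfar]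
  · intro v hv
    obtain ⟨w0, w1, wv⟩ := hw v hv
    rw [lrl_q hL hsm h1, lrl_q hL hsm' h1]
    show |S.Gam (fun ξ => 𝔹.A0 F.T ξ + l' * F.P ξ) 1 ((p.wLm l').xi F 𝔹 v)
      - S.Gam (fun ξ => 𝔹.A0 F.T ξ + p.lam * F.P ξ) 1 (p.xi F 𝔹 v)| ≤ _
    have x0 : 0 ≤ p.xi F 𝔹 v := lpq_inv_nonneg _ _
    have x0' : 0 ≤ (p.wLm l').xi F 𝔹 v := lpq_inv_nonneg _ _
    have xs : p.xi F 𝔹 v ≤ 𝔹.xiS F.T := by
      rw [lrl_xi hsm]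
      exact lpq_inv_le_tau (lkk_dir_prof hk hP hz hl0 hl) _ w1
    have xw : p.xi F 𝔹 v ≤ 2 * 𝔹.xiS F.T / (ca * ξ1) * (v / p.ell) := by
      rw [lrl_xi hsm]
      exact lkk_dir_inv_le hk hP hz hl0 hl hl0' hl' _ w0 w1
    have t1 := hN.lip _ _ x0 x0'
    have t2 := hN.gam _ ⟨x0, xs⟩
    have t3 : |S.Gam (fun ξ => 𝔹.A0 F.T ξ + l' * F.P ξ) 1 ((p.wLm l').xi F 𝔹 v)
        - S.Gam (fun ξ => 𝔹.A0 F.T ξ + p.lam * F.P ξ) 1 (p.xi F 𝔹 v)|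
        ≤ K * |(p.wLm l').xi F 𝔹 v - p.xi F 𝔹 v| + K * |l' - p.lam| * p.xi F 𝔹 v := by
      refine le_trans ?_ (add_le_add t1 t2)
      refine le_trans (le_of_eq ?_) (abs_add_le _ _)
      congr 1
      ring
    have t4 : K * |(p.wLm l').xi F 𝔹 v - p.xi F 𝔹 v| ≤ K * ((2 / ca) ^ 2 * |l' - p.lam| * (v / p.ell)) :=
      mul_le_mul_of_nonneg_left (hlip v hv) hK
    have t5 : K * |l' - p.lam| * p.xi F 𝔹 v ≤ K * |l' - p.lam| * (2 * 𝔹.xiS F.T / (ca * ξ1) * (v / p.ell)) :=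
      mul_le_mul_of_nonneg_left xw (mul_nonneg hK hd)
    have wm : v / p.ell ≤ min v 1 := le_min wv w1
    calc _ ≤ (K * (2 / ca) ^ 2 + K * (2 * 𝔹.xiS F.T / (ca * ξ1))) * |l' - p.lam| * (v / p.ell) := by
          refine t3.trans ((add_le_add t4 t5).trans (le_of_eq ?_)); ring
      _ ≤ lrlC K ca ξ1 (𝔹.xiS F.T) * |l' - p.lam| * (v / p.ell) :=
          mul_le_mul_of_nonneg_right (mul_le_mul_of_nonneg_right c3 hd) w0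
      _ ≤ _ := mul_le_mul_of_nonneg_left wm (mul_nonneg (hK.trans c1) hd)
  · intro ξ hξ
    rw [lrl_gapN hL hsm, lrl_gapN hL hsm']
    exact (hN.gap0 ξ hξ).trans (mul_le_mul_of_nonneg_right (mul_le_mul_of_nonneg_right c1 hd) (sq_nonneg ξ))
  · intro ξ hξ
    rw [lrl_gapN hL hsm, lrl_gapN hL hsm']
    exact (hN.gap ξ hξ).trans (mul_le_mul_of_nonneg_right c1 hd)

/-! ## 6. the exit -/

theorem lrl_K_nonneg {B CA z0 ξs cF μ CL : ℝ} (hB : 1 ≤ B) (hCA : 0 ≤ CA) (hz : 0 ≤ z0) (hs : 0 ≤ ξs) (hG : 0 ≤ cF) (hμ : 0 < μ)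
    (hCL : 0 ≤ CL) : 0 ≤ lrlK B CA z0 ξs cF μ CL := by
  obtain ⟨c2, -, ga, gb⟩ := lrl_consts_nonneg (ξs := ξs) (cF := cF) hB hCA hz hs hG hμ hCL
  unfold lrlK
  positivity

theorem lrl_C_one_le {K ca ξ1 ξs : ℝ} (hK : 0 ≤ K) (hca : 0 < ca) (h1 : 0 < ξ1) (hs : 0 ≤ ξs) : 1 ≤ lrlC K ca ξ1 ξs := by
  have q1 : 0 ≤ (2 / ca) ^ 2 := by positivity
  have q2 : 0 ≤ 2 * ξs / (ca * ξ1) := by positivity
  unfold lrlC
  nlinarith [mul_nonneg hK q1, mul_nonneg hK q2]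

/-- the constants may be enlarged (`C`) and shrunk (`ξ0`): for the glue of `LlRefExit` -/
theorem LlPt.RegL.lrl_mono {p : LlPt} {F : LlFix} {𝔹 : LlBase} {C C' ξ0 ξ0' l' : ℝ} (h : p.RegL F 𝔹 C ξ0 l') (hC : C ≤ C')
    (hξ : ξ0' ≤ ξ0) : p.RegL F 𝔹 C' ξ0' l' := by
  have hd : 0 ≤ |l' - p.lam| := abs_nonneg _
  have hCd : C * |l' - p.lam| ≤ C' * |l' - p.lam| := mul_le_mul_of_nonneg_right hC hd
  refine ⟨h.b0.trans hCd, fun v hv => (h.K v hv).trans (mul_le_mul_of_nonneg_right hCd hv.1.le), h.K_far,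
    fun v hv => (h.q v hv).trans (mul_le_mul_of_nonneg_right hCd (le_min hv.1.le zero_le_one)),
    fun ξ hx => (h.gap0 ξ ⟨hx.1, hx.2.trans hξ⟩).trans (mul_le_mul_of_nonneg_right hCd (sq_nonneg ξ)),
    fun ξ hx => (h.gap ξ hx).trans hCd⟩

theorem LlRegL.lrl_mono {𝔹 : LlBase} {F : LlFix} {C C' ξ0 ξ0' : ℝ} (h : LlRegL 𝔹 F C ξ0) (hC : C ≤ C') (hξ : ξ0' ≤ ξ0) :
    LlRegL 𝔹 F C' ξ0' := by
  obtain ⟨N0, hN0⟩ := h
  exact ⟨N0, fun p hp hN hsm l' h1 h2 => (hN0 p hp hN hsm l' h1 h2).lrl_mono hC hξ⟩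

/-- the estimate beyond the support, for the cut-offs `P` at the scale `z0`, with the constant `cF` -/
def LrlFE (S : LppMod) (A0 : ℝ → ℝ) (ξs z0 cF : ℝ) : Prop :=
  ∀ P, LppCut z0 P → ∀ lam lam' : ℝ, 0 ≤ lam → lam ≤ 1 → 0 ≤ lam' →
    LppAdm (fun ξ => A0 ξ + lam * P ξ) 1 → LppAdm (fun ξ => A0 ξ + lam' * P ξ) 1 → ∀ ξ, ξs ≤ ξ →
      |S.M2 (fun ξ => A0 ξ + lam' * P ξ) 1 ξ - S.M2 (fun ξ => A0 ξ + lam * P ξ) 1 ξ| ≤ cF * |lam' - lam|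

/-- **EXIT, general form: Lemma paths:parameter-regularity, direct reference, Lipschitz form.**   TEX[LL:paths:parameter-regularity]
ORDER OF THE CONSTANTS: `zb` (depends on `𝔹, S, T`) → `z0` → `C, ξ0` → the remaining data `F` → `N0` (inside `LlRegL`). -/
theorem lrl_main_of {𝔹 : LlBase} {S : LppMod} {T : ℝ} (hL : LppLink 𝔹 S) (hS : LppOk S)
    (hb : LlBaseProfile 𝔹 T) (hbase : LppBase S T (𝔹.A0 T) (𝔹.xiS T))
    (hFE : ∀ z0, 0 < z0 → z0 ≤ 𝔹.xiS T → ∃ cF : ℝ, 0 ≤ cF ∧ LrlFE S (𝔹.A0 T) (𝔹.xiS T) z0 cF) :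
    ∃ zb : ℝ, 0 < zb ∧ ∀ z0, 0 < z0 → z0 ≤ zb → ∃ C ξ0 : ℝ, 1 ≤ C ∧ 0 < ξ0 ∧
      ∀ F : LlFix, F.Ok → F.T = T → F.z0 = z0 → LlRegL 𝔹 F C ξ0 := by
  obtain ⟨ca, Ca, ξ1, hk⟩ := lkk_base 𝔹 T hb
  obtain ⟨z1, hz1, -, hz1s, hlift⟩ := lpp_lift_dir hS hbase
  obtain ⟨B, hB⟩ := lpp_B_exists hS (𝔹.xiS T)
  obtain ⟨CA, hCA⟩ := hbase.lin
  have hT0 : 0 < T := by linarith [hbase.T1]
  have hxs : 0 < 𝔹.xiS T := hbase.xs
  refine ⟨min z1 ξ1, lt_min hz1 hk.x10, fun z0 hz0 hzb => ?_⟩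
  obtain ⟨c, CL, hc, hl⟩ := hlift z0 hz0 (hzb.trans (min_le_left _ _))
  obtain ⟨cF, hcF, hF⟩ := hFE z0 hz0 ((hzb.trans (min_le_left _ _)).trans hz1s)
  have hμ : 0 < 1 / (2 * T) := by positivity
  have hK : 0 ≤ lrlK B |CA| z0 (𝔹.xiS T) cF (1 / (2 * T)) |CL| :=
    lrl_K_nonneg hB.one (abs_nonneg _) hz0.le hxs.le hcF hμ (abs_nonneg _)
  refine ⟨lrlC (lrlK B |CA| z0 (𝔹.xiS T) cF (1 / (2 * T)) |CL|) ca ξ1 (𝔹.xiS T), 𝔹.xiS T,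
    lrl_C_one_le hK hk.ca0 hk.x10 hxs.le, hxs, fun F hFok hFT hFz => ?_⟩
  subst hFT
  subst hFz
  obtain ⟨LP, hP⟩ := lkk_cut F hFok
  obtain ⟨l0, hl0, hlift2⟩ := hl F.P hFok.lppCut
  have hLP := hP.LP0
  have hca := hk.ca0
  have hε : 0 < min (min l0 1) (min (1 / (2 * F.T * (|CL| + 1))) (ca / 2 / (LP + 1))) := by
    refine lt_min (lt_min hl0 one_pos) (lt_min ?_ ?_)
    · have := abs_nonneg CL; positivity
    · positivity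
  obtain ⟨N1, hN1⟩ := lkk_lam_small hFok hε
  refine ⟨N1, fun p hp hN hsm l' hlo hhi => ?_⟩
  have hp' : (p.wLm l').Ok F :=
    ⟨hp.N2, hp.ell1, hp.ell2, hlo, hhi, hp.g0, hp.gu, hp.chiL, hp.chiE, fun h => by
      have h2 : p.sm = true := h
      rw [hsm] at h2
      exact absurd h2 (by decide)⟩
  -- everything that is used of one strength
  have one : ∀ lam : ℝ, 0 < lam → lam ≤ min (min l0 1) (min (1 / (2 * F.T * (|CL| + 1))) (ca / 2 / (LP + 1))) →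
      lam ≤ 1 ∧ lam * LP ≤ ca / 2 ∧ LppAdm (fun ξ => 𝔹.A0 F.T ξ + lam * F.P ξ) 1 ∧
      1 / (2 * F.T) ≤ S.M2 (fun ξ => 𝔹.A0 F.T ξ + lam * F.P ξ) 1 0 ∧
      ∀ ξ ∈ Icc 0 (𝔹.xiS F.T), |S.M2 (fun ξ => 𝔹.A0 F.T ξ + lam * F.P ξ) 1 0 - S.M2 (fun ξ => 𝔹.A0 F.T ξ + lam * F.P ξ) 1 ξ|
        ≤ |CL| * ξ ^ 2 := by
    intro lam hlam hle
    have b1 : lam ≤ l0 := hle.trans ((min_le_left _ _).trans (min_le_left _ _))
    have b2 : lam ≤ 1 := hle.trans ((min_le_left _ _).trans (min_le_right _ _))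
    have b3 : lam ≤ 1 / (2 * F.T * (|CL| + 1)) := hle.trans ((min_le_right _ _).trans (min_le_left _ _))
    have b4 : lam ≤ ca / 2 / (LP + 1) := hle.trans ((min_le_right _ _).trans (min_le_right _ _))
    have Lf := hlift2 lam hlam b1
    have hCL0 := abs_nonneg CL
    have b5 : |CL| * lam ≤ 1 / (2 * F.T) := by
      rw [le_div_iff₀ (by positivity)] at b3 ⊢
      nlinarith
    have b6 : CL * lam ≤ |CL| * lam := mul_le_mul_of_nonneg_right (le_abs_self _) hlam.le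
    refine ⟨b2, ?_, Lf.adm, ?_, ?_⟩
    · rw [le_div_iff₀ (by linarith)] at b4
      nlinarith
    · have := (abs_le.1 Lf.m0).1
      have e : 1 / F.T = 1 / (2 * F.T) + 1 / (2 * F.T) := by field_simp; norm_num
      linarith
    · intro ξ hξ
      have u1 := Lf.lo ξ hξ.1
      have u2 := Lf.hi ξ hξ
      have u3 : 0 ≤ c * lam * min (ξ ^ 2) 1 := by
        have : 0 ≤ min (ξ ^ 2) 1 := le_min (sq_nonneg _) zero_le_one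
        positivity
      rw [abs_of_nonneg (u3.trans u1)]
      refine u2.trans ?_
      have u4 : CL * lam ≤ |CL| := b6.trans (mul_le_of_le_one_right hCL0 b2)
      exact mul_le_mul_of_nonneg_right u4 (sq_nonneg ξ)
  obtain ⟨s1, s2, s3, s4, s5⟩ := one p.lam (lkk_lam_pos hp) (hN1 p hp hN)
  obtain ⟨-, s2', s3', s4', -⟩ := one l' (lkk_lam_pos hp') (hN1 (p.wLm l') hp' hN)
  have hCA' : ∀ ξ ∈ Icc 0 (𝔹.xiS F.T), 𝔹.A0 F.T ξ ≤ |CA| * ξ := fun ξ hξ =>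
    (hCA ξ hξ).trans (mul_le_mul_of_nonneg_right (le_abs_self _) hξ.1)
  have hNn := lrl_norm hS hbase hB (abs_nonneg CA) hCA' hz0 ((hzb.trans (min_le_left _ _)).trans hz1s) hFok.lppCut
    (lkk_lam_pos hp).le s1 s3 s3' hcF (hF F.P hFok.lppCut p.lam l' (lkk_lam_pos hp).le s1 (lkk_lam_pos hp').le s3 s3')
    hμ s4 s4' (abs_nonneg CL) s5
  exact lrl_point hL hk hP (hzb.trans (min_le_right _ _)) hsm hp.ell1 (lkk_lam_pos hp).le s2 (lkk_lam_pos hp').le s2' hK hNn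

/-- the estimate beyond the support from the Markov property at `ξ_*` -/
theorem lrl_FE_of_far {S : LppMod} (hS : LppOk S) (hFar : LrlFar S) {T ξs : ℝ} {A0 : ℝ → ℝ} (hbase : LppBase S T A0 ξs)
    (z0 : ℝ) (hz0 : 0 < z0) (hzs : z0 ≤ ξs) : ∃ cF : ℝ, 0 ≤ cF ∧ LrlFE S A0 ξs z0 cF := by
  obtain ⟨B, hB⟩ := lpp_B_exists hS ξs
  obtain ⟨CA, hCA⟩ := hbase.lin
  obtain ⟨G0, hF⟩ := hFar
  have hG0 : 0 ≤ G0 := by
    obtain ⟨g, hg, -⟩ := hF 0 0 le_rfl le_rfl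
    exact (abs_nonneg _).trans (hg.b0 0)
  have hCA' : ∀ ξ ∈ Icc 0 ξs, A0 ξ ≤ |CA| * ξ := fun ξ hξ =>
    (hCA ξ hξ).trans (mul_le_mul_of_nonneg_right (le_abs_self _) hξ.1)
  exact ⟨lrlCF B |CA| z0 ξs G0, lrl_CF_nonneg hB.one (abs_nonneg _) hbase.xs.le hG0,
    fun P hP lam lam' hl hl1 _ hA hA' ξ hξ =>
      lrl_far hS hB (abs_nonneg _) hCA' hz0 hzs hP hl hl1 hA hA' hbase.top hF ξ hξ⟩

/-- the estimate beyond the support from the tau-free Duhamel bound (helper267's `lrg_dir_far`) -/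
theorem lrl_FE_of_duh {S : LppMod} (hS : LppOk S) (hD : ∃ C : ℝ, LrgDuh S C) {T ξs : ℝ} {A0 : ℝ → ℝ} (hbase : LppBase S T A0 ξs)
    (z0 : ℝ) (hz0 : 0 < z0) (hzs : z0 ≤ ξs) : ∃ cF : ℝ, 0 ≤ cF ∧ LrlFE S A0 ξs z0 cF := by
  obtain ⟨B, hB⟩ := lpp_B_exists hS ξs
  obtain ⟨CA, hCA⟩ := hbase.lin
  obtain ⟨Cd, hCd⟩ := hD
  have hCA' : ∀ ξ ∈ Icc 0 ξs, A0 ξ ≤ |CA| * ξ := fun ξ hξ =>
    (hCA ξ hξ).trans (mul_le_mul_of_nonneg_right (le_abs_self _) hξ.1)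
  refine ⟨|Cd * (9 * B ^ 3) * ((B * z0 + B * z0 ^ 2 / 2) * z0)|, abs_nonneg _,
    fun P hP lam lam' hl hl1 hl' hA hA' ξ hξ => ?_⟩
  refine (lrg_dir_far hS hbase hB (abs_nonneg _) hCA' hz0 hzs hP hl hl1 hl' hA hA' hCd ξ (hzs.trans hξ)).trans ?_
  rw [mul_comm]
  exact mul_le_mul_of_nonneg_right (le_abs_self _) (abs_nonneg _)

/-- **EXIT** from the Markov property at `ξ_*` -/
theorem lrl_main {𝔹 : LlBase} {S : LppMod} {T : ℝ} (hL : LppLink 𝔹 S) (hS : LppOk S) (hFar : LrlFar S)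
    (hb : LlBaseProfile 𝔹 T) (hbase : LppBase S T (𝔹.A0 T) (𝔹.xiS T)) :
    ∃ zb : ℝ, 0 < zb ∧ ∀ z0, 0 < z0 → z0 ≤ zb → ∃ C ξ0 : ℝ, 1 ≤ C ∧ 0 < ξ0 ∧
      ∀ F : LlFix, F.Ok → F.T = T → F.z0 = z0 → LlRegL 𝔹 F C ξ0 :=
  lrl_main_of hL hS hb hbase (lrl_FE_of_far hS hFar hbase)

/-- **EXIT** from the tau-free Duhamel bound `LppOk2.duh` (instance: `exit_lrgduh`)   TEX[LL:paths:parameter-regularity] -/
theorem lrl_main_duh {𝔹 : LlBase} {S : LppMod} {T : ℝ} (hL : LppLink 𝔹 S) (hS : LppOk S) (hD : ∃ C : ℝ, LrgDuh S C)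
    (hb : LlBaseProfile 𝔹 T) (hbase : LppBase S T (𝔹.A0 T) (𝔹.xiS T)) :
    ∃ zb : ℝ, 0 < zb ∧ ∀ z0, 0 < z0 → z0 ≤ zb → ∃ C ξ0 : ℝ, 1 ≤ C ∧ 0 < ξ0 ∧
      ∀ F : LlFix, F.Ok → F.T = T → F.z0 = z0 → LlRegL 𝔹 F C ξ0 :=
  lrl_main_of hL hS hb hbase (lrl_FE_of_duh hS hD hbase)

theorem lrl_eqns_cite : True := by
  have := @LrlFar.eq_1
  have := @LrlFE.eq_1
  have := @lrlE0.eq_1
  have := @lrlH1.eq_1
  have := @lrlC2.eq_1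
  have := @lrlC3.eq_1
  have := @lrlN3.eq_1
  have := @lrlD1.eq_1
  have := @lrlCF.eq_1
  have := @lrlGa.eq_1
  have := @lrlGb.eq_1
  have := @lrlK.eq_1
  have := @lrlC.eq_1
  trivial

end Claimed.Agent.R286
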