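import Claimed.Agent.R286.LL.PathsDefs
import Claimed.Agent.R286.Defs.Clk
import Claimed.Agent.R286.LL.PathsClkE2
import Claimed.Agent.R286.Exit.PSysInst

/-!
# Row 286 (S0533), LL Section 3, block CLK (head helper253), file G: (P10) PARAMETER MONOTONICITY      (architect helper23; prefix `lcg_`, `Lcg`)

LL 03-paths.tex l.513-531.   TEX[LL:paths:parameter-regularity]#369-522.
`∂_γ (f_m^0 - ∫ b q²/4) ≥ (1/4) ∫ c (D_v² + (S_v - q)²) dv` along a matrix decrease `c = -∂_γ b ≥ 0` with the path prescription `∂_γ h = c q` above the mask, `h = 0` on the mask.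
* `LlA1Seg 𝔹`  = what is used of (A1): first line INTEGRATED along an affine segment of admissible clocks + `0 ≤ S`, `S² ≤ B`, integrability in `v`   (SK instance: `ck_pr_deriv`, `ck_pr_deriv_cont`, `exit_clk_SB`, `exit_clk_intble`).
* `lcg_abs`    = (P10) for an abstract affine family `b_r = b_0 - r c`, `h_r = h_0 + r c q 1_{v ≥ x}`.
* `lcg_G0_*`, `lcg_Gu_*` = the two families of (P3) are of this form.
* `lcg_p10`    = `LlP10 𝔹 F`.
* PRODUCERS (end of the file): `lla_a1seg_of 𝔹 rfl rfl rfl : LlA1Seg 𝔹` for `pres, S, B = skPf, skPS, skPB`;  `lla_admC`, `lla_qreg`;  `lla_p10 : LlA1Seg 𝔹 → LceAll 𝔹 F → LlP10 𝔹 F`.      ALL PROVED (0 sorry in the file).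
-/

set_option autoImplicit false

namespace Claimed.Agent.R286

open MeasureTheory Set

/-- affine segment of clocks -/
def lcgSeg (θ : ℝ) (c0 c1 : ℝ → ℝ) : ℝ → ℝ := fun v => c0 v + θ * (c1 v - c0 v)

/-- the speed of the pressure along the segment: first line of (A1) -/
noncomputable def lcgD (𝔹 : LlBase) (m : ℕ) (a : ℝ) (b0 h0 b1 h1 : ℝ → ℝ) (θ : ℝ) : ℝ :=
  -(1 / 4) * (∫ v in (0 : ℝ)..a, 𝔹.Bv m a (lcgSeg θ b0 b1) (lcgSeg θ h0 h1) v * (b1 v - b0 v))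
    - (1 / 2) * ∫ v in (0 : ℝ)..a, 𝔹.Sv m a (lcgSeg θ b0 b1) (lcgSeg θ h0 h1) v * (h1 v - h0 v)

/-- **what (P10) uses of (A1)**.      OWNER of the instance: LL 02 (helper93) / layer C (helper262). -/
structure LlA1Seg (𝔹 : LlBase) : Prop where
  S_nn : ∀ (m : ℕ) (a : ℝ) (b h : ℝ → ℝ), 1 ≤ m → 0 < a → GhClk1 a b → GhClk1 a h → ∀ v ∈ Ioo 0 a, 0 ≤ 𝔹.Sv m a b h v
  SB : ∀ (m : ℕ) (a : ℝ) (b h : ℝ → ℝ), 1 ≤ m → 0 < a → GhClk1 a b → GhClk1 a h → ∀ v ∈ Ioo 0 a,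
    𝔹.Sv m a b h v ^ 2 ≤ 𝔹.Bv m a b h v ∧ 𝔹.Bv m a b h v ≤ 1
  S_int : ∀ (m : ℕ) (a : ℝ) (b h : ℝ → ℝ), 1 ≤ m → 0 < a → GhClk1 a b → GhClk1 a h → IntervalIntegrable (𝔹.Sv m a b h) volume 0 a
  B_int : ∀ (m : ℕ) (a : ℝ) (b h : ℝ → ℝ), 1 ≤ m → 0 < a → GhClk1 a b → GhClk1 a h → IntervalIntegrable (𝔹.Bv m a b h) volume 0 a
  ftc : ∀ (m : ℕ) (a : ℝ) (b0 h0 b1 h1 : ℝ → ℝ), 1 ≤ m → 0 < a → GhClk1 a b0 → GhClk1 a h0 → GhClk1 a b1 → GhClk1 a h1 →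
    IntervalIntegrable (lcgD 𝔹 m a b0 h0 b1 h1) volume 0 1 ∧
      𝔹.f m a b1 h1 - 𝔹.f m a b0 h0 = ∫ θ in (0 : ℝ)..1, lcgD 𝔹 m a b0 h0 b1 h1 θ

/-! ## the abstract family -/

/-- `b_r = b_0 - r c` -/
def lcgB (b0 c : ℝ → ℝ) (r : ℝ) : ℝ → ℝ := fun v => b0 v - r * c v
/-- `h_r = h_0 + r c q` above the mask, `h_0` on the mask -/
noncomputable def lcgH (h0 c q : ℝ → ℝ) (x r : ℝ) : ℝ → ℝ := fun v => h0 v + if v < x then 0 else r * (c v * q v)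

/-- hypotheses on the weights -/
structure LcgW (a : ℝ) (c q : ℝ → ℝ) (Cc Cq : ℝ) : Prop where
  a0 : 0 < a
  c_rg : ∀ v ∈ Ioo 0 a, 0 ≤ c v ∧ c v ≤ Cc
  q_rg : ∀ v ∈ Ioo 0 a, 0 ≤ q v ∧ q v ≤ Cq
  c_ms : AEStronglyMeasurable c (volume.restrict (Ioc 0 a))
  q_ms : AEStronglyMeasurable q (volume.restrict (Ioc 0 a))

/-- the segment between two members of the family is the family -/
theorem lcg_seg_B (b0 c : ℝ → ℝ) (g g' θ : ℝ) : lcgSeg θ (lcgB b0 c g) (lcgB b0 c g') = lcgB b0 c (g + θ * (g' - g)) := by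
  funext v
  simp only [lcgSeg, lcgB]
  ring

theorem lcg_seg_H (h0 c q : ℝ → ℝ) (x g g' θ : ℝ) :
    lcgSeg θ (lcgH h0 c q x g) (lcgH h0 c q x g') = lcgH h0 c q x (g + θ * (g' - g)) := by
  funext v
  simp only [lcgSeg, lcgH]
  split_ifs <;> ring

/-- the integrand of (P10) at the parameter `r` -/
noncomputable def lcgI (𝔹 : LlBase) (m : ℕ) (a : ℝ) (b0 h0 c q : ℝ → ℝ) (x r : ℝ) : ℝ :=
  ∫ v in (0 : ℝ)..a, c v / 4 * (𝔹.Bv m a (lcgB b0 c r) (lcgH h0 c q x r) v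
    - 2 * q v * 𝔹.Sv m a (lcgB b0 c r) (lcgH h0 c q x r) v + q v ^ 2)

/-- `0 ≤ I(r)` (`B - 2 q S + q² ≥ (S - q)²`) -/
theorem lcg_I_nn {𝔹 : LlBase} (hA : LlA1Seg 𝔹) {m : ℕ} {a : ℝ} {b0 h0 c q : ℝ → ℝ} {x r Cc Cq : ℝ} (hm : 1 ≤ m) (hW : LcgW a c q Cc Cq)
    (hb : GhClk1 a (lcgB b0 c r)) (hh : GhClk1 a (lcgH h0 c q x r)) : 0 ≤ lcgI 𝔹 m a b0 h0 c q x r := by
  unfold lcgI
  rw [intervalIntegral.integral_of_le hW.a0.le, integral_Ioc_eq_integral_Ioo]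
  refine setIntegral_nonneg measurableSet_Ioo fun v hv => ?_
  have h1 := (hA.SB m a _ _ hm hW.a0 hb hh v hv).1
  have h2 := (hW.c_rg v hv).1
  refine mul_nonneg (by positivity) ?_
  nlinarith [sq_nonneg (𝔹.Sv m a (lcgB b0 c r) (lcgH h0 c q x r) v - q v)]

theorem lcg_aux_bdd {a C : ℝ} (ha : 0 < a) {w f : ℝ → ℝ} (hw : AEStronglyMeasurable w (volume.restrict (Ioc 0 a)))
    (hb : ∀ v ∈ Ioo 0 a, |w v| ≤ C) (hf : IntervalIntegrable f volume 0 a) : IntervalIntegrable (fun v => w v * f v) volume 0 a := by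
  rw [intervalIntegrable_iff_integrableOn_Ioc_of_le ha.le] at hf ⊢
  refine Integrable.bdd_mul hf hw (c := C) ?_
  rw [← Measure.restrict_congr_set Ioo_ae_eq_Ioc]
  exact (ae_restrict_iff' measurableSet_Ioo).2 (ae_of_all _ hb)

theorem lcg_aux_c_abs {a : ℝ} {c q : ℝ → ℝ} {Cc Cq : ℝ} (hW : LcgW a c q Cc Cq) : ∀ v ∈ Ioo 0 a, |c v| ≤ Cc := by
  intro v hv
  rw [abs_of_nonneg (hW.c_rg v hv).1]
  exact (hW.c_rg v hv).2

theorem lcg_aux_cq_abs {a : ℝ} {c q : ℝ → ℝ} {Cc Cq : ℝ} (hW : LcgW a c q Cc Cq) : ∀ v ∈ Ioo 0 a, |(c * q) v| ≤ Cc * Cq := by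
  intro v hv
  obtain ⟨c0, c1⟩ := hW.c_rg v hv
  obtain ⟨q0, q1⟩ := hW.q_rg v hv
  rw [Pi.mul_apply, abs_of_nonneg (mul_nonneg c0 q0)]
  exact mul_le_mul c1 q1 q0 (c0.trans c1)

theorem lcg_aux_ite_ms {a : ℝ} {c q : ℝ → ℝ} {Cc Cq : ℝ} (hW : LcgW a c q Cc Cq) (x : ℝ) :
    AEStronglyMeasurable (fun v => if v < x then 0 else c v * q v) (volume.restrict (Ioc 0 a)) := by
  have e : (fun v => if v < x then 0 else c v * q v) = (Ici x).indicator (c * q) := by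
    funext v
    by_cases h : v < x
    · rw [if_pos h, indicator_of_notMem (by simpa using h)]
    · rw [if_neg h, indicator_of_mem (by simpa using h)]; rfl
  rw [e]
  exact (hW.c_ms.mul hW.q_ms).indicator measurableSet_Ici

theorem lcg_aux_ite_abs {a : ℝ} {c q : ℝ → ℝ} {Cc Cq : ℝ} (hW : LcgW a c q Cc Cq) (x : ℝ) :
    ∀ v ∈ Ioo 0 a, |(if v < x then 0 else c v * q v)| ≤ Cc * Cq := by
  intro v hv
  have h := lcg_aux_cq_abs hW v hv
  split_ifs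
  · rw [abs_zero]; exact (abs_nonneg _).trans h
  · exact h

theorem lcg_aux_cqq_int {a : ℝ} {c q : ℝ → ℝ} {Cc Cq : ℝ} (hW : LcgW a c q Cc Cq) :
    IntervalIntegrable (fun v => c v * q v ^ 2) volume 0 a := by
  have h1 : IntervalIntegrable (fun _ : ℝ => (1 : ℝ)) volume 0 a := intervalIntegrable_const
  have h2 := lcg_aux_bdd hW.a0 hW.q_ms (C := Cq) (fun v hv => by
    rw [abs_of_nonneg (hW.q_rg v hv).1]; exact (hW.q_rg v hv).2) h1
  have h3 := lcg_aux_bdd hW.a0 (hW.c_ms.mul hW.q_ms) (lcg_aux_cq_abs hW) h2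
  refine h3.congr fun v _ => ?_
  simp only [Pi.mul_apply]
  ring

/-- pointwise in the parameter: `(g' - g) I(r(θ)) ≤ D(θ) + (g' - g) ∫ c q²/4`  (the difference is `(g' - g) ∫_{v < x} c q S / 2 ≥ 0`).
Proof: split the three integrals (all integrands are bounded and measurable: `S_int`, `B_int`, `LcgW`), `b_{g'} - b_g = -(g' - g) c`, `h_{g'} - h_g = (g' - g) c q 1_{v ≥ x}`. -/
theorem lcg_I_le {𝔹 : LlBase} (hA : LlA1Seg 𝔹) {m : ℕ} {a : ℝ} {b0 h0 c q : ℝ → ℝ} {x g g' θ Cc Cq : ℝ} (hm : 1 ≤ m) (hW : LcgW a c q Cc Cq)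
    (hgg : g ≤ g') (hb : GhClk1 a (lcgB b0 c (g + θ * (g' - g)))) (hh : GhClk1 a (lcgH h0 c q x (g + θ * (g' - g)))) :
    (g' - g) * lcgI 𝔹 m a b0 h0 c q x (g + θ * (g' - g)) ≤
      lcgD 𝔹 m a (lcgB b0 c g) (lcgH h0 c q x g) (lcgB b0 c g') (lcgH h0 c q x g') θ + (g' - g) * ∫ v in (0 : ℝ)..a, c v * q v ^ 2 / 4 := by
  have ha := hW.a0
  set r : ℝ := g + θ * (g' - g) with hr
  set B : ℝ → ℝ := 𝔹.Bv m a (lcgB b0 c r) (lcgH h0 c q x r) with hB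
  set S : ℝ → ℝ := 𝔹.Sv m a (lcgB b0 c r) (lcgH h0 c q x r) with hS
  have iB0 : IntervalIntegrable B volume 0 a := hA.B_int m a _ _ hm ha hb hh
  have iS0 : IntervalIntegrable S volume 0 a := hA.S_int m a _ _ hm ha hb hh
  have iB : IntervalIntegrable (fun v => c v * B v) volume 0 a := lcg_aux_bdd ha hW.c_ms (lcg_aux_c_abs hW) iB0
  have iS : IntervalIntegrable (fun v => c v * q v * S v) volume 0 a := lcg_aux_bdd ha (hW.c_ms.mul hW.q_ms) (lcg_aux_cq_abs hW) iS0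
  have iSx : IntervalIntegrable (fun v => (if v < x then 0 else c v * q v) * S v) volume 0 a :=
    lcg_aux_bdd ha (lcg_aux_ite_ms hW x) (lcg_aux_ite_abs hW x) iS0
  have iQ : IntervalIntegrable (fun v => c v * q v ^ 2) volume 0 a := lcg_aux_cqq_int hW
  have e1 : lcgI 𝔹 m a b0 h0 c q x r
      = 1 / 4 * (∫ v in (0 : ℝ)..a, c v * B v) - 1 / 2 * (∫ v in (0 : ℝ)..a, c v * q v * S v) + 1 / 4 * ∫ v in (0 : ℝ)..a, c v * q v ^ 2 := by
    unfold lcgI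
    rw [← intervalIntegral.integral_const_mul, ← intervalIntegral.integral_const_mul, ← intervalIntegral.integral_const_mul,
      ← intervalIntegral.integral_sub (iB.const_mul _) (iS.const_mul _),
      ← intervalIntegral.integral_add ((iB.const_mul _).sub (iS.const_mul _)) (iQ.const_mul _)]
    refine intervalIntegral.integral_congr fun v _ => ?_
    simp only [← hB, ← hS]
    ring
  have e2 : lcgD 𝔹 m a (lcgB b0 c g) (lcgH h0 c q x g) (lcgB b0 c g') (lcgH h0 c q x g') θ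
      = (g' - g) / 4 * (∫ v in (0 : ℝ)..a, c v * B v) - (g' - g) / 2 * ∫ v in (0 : ℝ)..a, (if v < x then 0 else c v * q v) * S v := by
    unfold lcgD
    rw [lcg_seg_B, lcg_seg_H, ← hr, ← hB, ← hS]
    have a1 : (∫ v in (0 : ℝ)..a, B v * (lcgB b0 c g' v - lcgB b0 c g v)) = -(g' - g) * ∫ v in (0 : ℝ)..a, c v * B v := by
      rw [← intervalIntegral.integral_const_mul]
      refine intervalIntegral.integral_congr fun v _ => ?_
      simp only [lcgB]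
      ring
    have a2 : (∫ v in (0 : ℝ)..a, S v * (lcgH h0 c q x g' v - lcgH h0 c q x g v))
        = (g' - g) * ∫ v in (0 : ℝ)..a, (if v < x then 0 else c v * q v) * S v := by
      rw [← intervalIntegral.integral_const_mul]
      refine intervalIntegral.integral_congr fun v _ => ?_
      simp only [lcgH]
      split_ifs <;> ring
    rw [a1, a2]
    ring
  have e3 : (∫ v in (0 : ℝ)..a, c v * q v ^ 2 / 4) = 1 / 4 * ∫ v in (0 : ℝ)..a, c v * q v ^ 2 := by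
    rw [← intervalIntegral.integral_const_mul]
    refine intervalIntegral.integral_congr fun v _ => ?_
    ring
  have e4 : (∫ v in (0 : ℝ)..a, (if v < x then 0 else c v * q v) * S v) ≤ ∫ v in (0 : ℝ)..a, c v * q v * S v := by
    rw [intervalIntegral.integral_of_le ha.le, intervalIntegral.integral_of_le ha.le, integral_Ioc_eq_integral_Ioo, integral_Ioc_eq_integral_Ioo]
    rw [intervalIntegrable_iff_integrableOn_Ioo_of_le ha.le] at iS iSx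
    refine setIntegral_mono_on iSx iS measurableSet_Ioo fun v hv => ?_
    have s0 : 0 ≤ S v := hA.S_nn m a _ _ hm ha hb hh v hv
    have c0 := (hW.c_rg v hv).1
    have q0 := (hW.q_rg v hv).1
    refine mul_le_mul_of_nonneg_right ?_ s0
    split_ifs
    · exact mul_nonneg c0 q0
    · exact le_rfl
  rw [e1, e2, e3]
  have e5 := mul_le_mul_of_nonneg_left e4 (sub_nonneg.2 hgg)
  linarith

/-- change of variables `r = g + θ (g' - g)` -/
theorem lcg_subst (I : ℝ → ℝ) (g g' : ℝ) : ∫ r in g..g', I r = ∫ θ in (0 : ℝ)..1, (g' - g) * I (g + θ * (g' - g)) := by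
  have h := intervalIntegral.mul_integral_comp_add_mul (a := (0 : ℝ)) (b := 1) (f := I) (g' - g) g
  rw [intervalIntegral.integral_const_mul]
  have e : (fun θ : ℝ => I (g + θ * (g' - g))) = fun θ : ℝ => I (g + (g' - g) * θ) := by
    funext θ; rw [mul_comm]
  rw [e, h]
  congr 1 <;> ring

/-- `∫ b_{g'} q²/4 - ∫ b_g q²/4 = -(g' - g) ∫ c q²/4` -/
theorem lcg_corr {a : ℝ} {b0 c q : ℝ → ℝ} {Cc Cq : ℝ} (hW : LcgW a c q Cc Cq) (g g' : ℝ)
    (hb : IntervalIntegrable (fun v => lcgB b0 c g v * q v ^ 2 / 4) volume 0 a) :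
    (∫ v in (0 : ℝ)..a, lcgB b0 c g' v * q v ^ 2 / 4) - (∫ v in (0 : ℝ)..a, lcgB b0 c g v * q v ^ 2 / 4)
      = -((g' - g) * ∫ v in (0 : ℝ)..a, c v * q v ^ 2 / 4) := by
  have iQ : IntervalIntegrable (fun v => c v * q v ^ 2 / 4) volume 0 a := (lcg_aux_cqq_int hW).div_const 4
  have e : (fun v => lcgB b0 c g' v * q v ^ 2 / 4) = fun v => lcgB b0 c g v * q v ^ 2 / 4 - (g' - g) * (c v * q v ^ 2 / 4) := by
    funext v
    simp only [lcgB]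
    ring
  rw [e, intervalIntegral.integral_sub hb (iQ.const_mul _), intervalIntegral.integral_const_mul]
  ring

theorem lcg_aux_bqq_int {a : ℝ} {b c q : ℝ → ℝ} {Cc Cq : ℝ} (hW : LcgW a c q Cc Cq) (hb : MonotoneOn b (Icc 0 a)) :
    IntervalIntegrable (fun v => b v * q v ^ 2 / 4) volume 0 a := by
  have h1 : IntervalIntegrable b volume 0 a := by
    refine MonotoneOn.intervalIntegrable ?_
    rwa [uIcc_of_le hW.a0.le]
  have hq : ∀ v ∈ Ioo 0 a, |q v| ≤ Cq := fun v hv => by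
    rw [abs_of_nonneg (hW.q_rg v hv).1]; exact (hW.q_rg v hv).2
  have h2 := lcg_aux_bdd hW.a0 hW.q_ms hq h1
  have h3 := (lcg_aux_bdd hW.a0 hW.q_ms hq h2).div_const 4
  refine h3.congr fun v _ => ?_
  ring

/-- **(P10), abstract form.**      Glue: `lcg_subst`, `integral_mono_of_nonneg` (`lcg_I_nn`, `lcg_I_le`, integrability from `ftc`), `ftc`, `lcg_corr`. -/
theorem lcg_abs {𝔹 : LlBase} (hA : LlA1Seg 𝔹) {m : ℕ} {a : ℝ} {b0 h0 c q : ℝ → ℝ} {x g g' Cc Cq : ℝ} (hm : 1 ≤ m) (hW : LcgW a c q Cc Cq)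
    (hgg : g ≤ g') (hb : ∀ r ∈ Icc g g', GhClk1 a (lcgB b0 c r)) (hh : ∀ r ∈ Icc g g', GhClk1 a (lcgH h0 c q x r)) :
    ∫ r in g..g', lcgI 𝔹 m a b0 h0 c q x r ≤
      (𝔹.f m a (lcgB b0 c g') (lcgH h0 c q x g') - ∫ v in (0 : ℝ)..a, lcgB b0 c g' v * q v ^ 2 / 4)
        - (𝔹.f m a (lcgB b0 c g) (lcgH h0 c q x g) - ∫ v in (0 : ℝ)..a, lcgB b0 c g v * q v ^ 2 / 4) := by
  have ha := hW.a0
  have hg : g ∈ Icc g g' := ⟨le_rfl, hgg⟩
  have hg' : g' ∈ Icc g g' := ⟨hgg, le_rfl⟩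
  obtain ⟨iD, hftc⟩ := hA.ftc m a _ _ _ _ hm ha (hb g hg) (hh g hg) (hb g' hg') (hh g' hg')
  have hmem : ∀ θ ∈ Ioc (0 : ℝ) 1, g + θ * (g' - g) ∈ Icc g g' := by
    intro θ hθ
    have h0 : 0 ≤ g' - g := sub_nonneg.2 hgg
    constructor
    · have := mul_nonneg hθ.1.le h0
      linarith
    · have := mul_le_mul_of_nonneg_right hθ.2 h0
      linarith
  have hcorr := lcg_corr hW g g' (lcg_aux_bqq_int hW (hb g hg).1)
  set Q : ℝ := ∫ v in (0 : ℝ)..a, c v * q v ^ 2 / 4 with hQ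
  have iR : IntervalIntegrable (fun θ => lcgD 𝔹 m a (lcgB b0 c g) (lcgH h0 c q x g) (lcgB b0 c g') (lcgH h0 c q x g') θ + (g' - g) * Q)
      volume 0 1 := iD.add intervalIntegrable_const
  have key : (∫ θ in (0 : ℝ)..1, (g' - g) * lcgI 𝔹 m a b0 h0 c q x (g + θ * (g' - g)))
      ≤ ∫ θ in (0 : ℝ)..1, (lcgD 𝔹 m a (lcgB b0 c g) (lcgH h0 c q x g) (lcgB b0 c g') (lcgH h0 c q x g') θ + (g' - g) * Q) := by
    rw [intervalIntegral.integral_of_le zero_le_one, intervalIntegral.integral_of_le zero_le_one]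
    rw [intervalIntegrable_iff_integrableOn_Ioc_of_le zero_le_one] at iR
    refine integral_mono_of_nonneg ?_ iR ?_
    · refine (ae_restrict_iff' measurableSet_Ioc).2 (ae_of_all _ fun θ hθ => ?_)
      exact mul_nonneg (sub_nonneg.2 hgg) (lcg_I_nn hA hm hW (hb _ (hmem θ hθ)) (hh _ (hmem θ hθ)))
    · refine (ae_restrict_iff' measurableSet_Ioc).2 (ae_of_all _ fun θ hθ => ?_)
      exact lcg_I_le hA hm hW hgg (hb _ (hmem θ hθ)) (hh _ (hmem θ hθ))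
  rw [lcg_subst]
  refine key.trans (le_of_eq ?_)
  rw [intervalIntegral.integral_add iD intervalIntegrable_const, ← hftc, intervalIntegral.integral_const]
  simp only [sub_zero, one_smul]
  linarith

/-! ## the two families of (P3) -/

variable (F : LlFix) (𝔹 : LlBase) (p : LlPt)

/-- the weight of a dyadic parameter: `-∂_{γ_u} b = c_b λ c_1 u² φ(v/u)` -/
noncomputable def lcgCu (h : ℕ) (v : ℝ) : ℝ := F.cb * p.lam * F.c1 * ((2 : ℝ)⁻¹ ^ h) ^ 2 * F.phi (v / (2 : ℝ)⁻¹ ^ h)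

theorem lcg_G0_b (r : ℝ) : (p.wG0 r).b F 𝔹 = lcgB ((p.wG0 0).b F 𝔹) (p.cg F) r := by
  funext v
  have e1 : (p.wG0 r).b0 F 𝔹 = (p.wG0 0).b0 F 𝔹 := rfl
  have e2 : (p.wG0 r).G F v = p.G F v := rfl
  have e3 : (p.wG0 0).G F v = p.G F v := rfl
  have e4 : (p.wG0 r).U F = p.U F := rfl
  have e5 : (p.wG0 0).U F = p.U F := rfl
  have e6 : (p.wG0 r).dySum F v = (p.wG0 0).dySum F v := rfl
  have e7 : (p.wG0 r).lam = p.lam := rfl
  have e8 : (p.wG0 0).lam = p.lam := rfl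
  have e9 : (p.wG0 r).gam0 = r := rfl
  have e10 : (p.wG0 0).gam0 = 0 := rfl
  simp only [LlPt.b, LlPt.cg, lcgB, e1, e2, e3, e4, e5, e6, e7, e8, e9, e10]
  ring

theorem lcg_G0_h (r : ℝ) : (p.wG0 r).h F 𝔹 = lcgH ((p.wG0 0).h F 𝔹) (p.cg F) (p.q F 𝔹) p.x r := by
  funext v
  have hb := congrFun (lcg_G0_b F 𝔹 p r) v
  have e1 : (p.wG0 r).x = p.x := rfl
  have e2 : (p.wG0 0).x = p.x := rfl
  have e3 : (p.wG0 r).K F 𝔹 v = (p.wG0 0).K F 𝔹 v := rfl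
  have e4 : (p.wG0 r).q F 𝔹 v = p.q F 𝔹 v := rfl
  have e5 : (p.wG0 0).q F 𝔹 v = p.q F 𝔹 v := rfl
  have e6 : (p.wG0 r).Hlo F v = (p.wG0 0).Hlo F v := rfl
  have e7 : (p.wG0 r).Hlin F v = (p.wG0 0).Hlin F v := rfl
  have e8 : (p.wG0 r).He F 𝔹 v = (p.wG0 0).He F 𝔹 v := rfl
  have e9 : (p.wG0 r).chiL = (p.wG0 0).chiL := rfl
  have e10 : (p.wG0 r).chiE = (p.wG0 0).chiE := rfl
  simp only [LlPt.h, LlPt.hS, lcgH, e1, e2, e3, e4, e5, e6, e7, e8, e9, e10, hb, lcgB]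
  split_ifs
  · ring
  · ring

theorem lcg_aux_dy_fin (hx : 0 < p.x) : {k : ℕ | p.IsDy F k}.Finite := by
  obtain ⟨K, hK⟩ := exists_pow_lt_of_lt_one (show (0 : ℝ) < 16 * p.x by positivity) (show (2 : ℝ)⁻¹ < 1 by norm_num)
  refine (Set.finite_Iio K).subset fun k hk => ?_
  by_contra hn
  have h1 : K ≤ k := not_lt.1 hn
  have h2 : (2 : ℝ)⁻¹ ^ k ≤ (2 : ℝ)⁻¹ ^ K := pow_le_pow_of_le_one (by norm_num) (by norm_num) h1
  have h3 : 16 * p.x ≤ (2 : ℝ)⁻¹ ^ k := hk.1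
  linarith

/-- `dySum` is affine in each coordinate -/
theorem lcg_dy_upd (hx : 0 < p.x) (h : ℕ) (hh : p.IsDy F h) (r v : ℝ) :
    (p.wGu h r).dySum F v = (p.wGu h 0).dySum F v + r * (((2 : ℝ)⁻¹ ^ h) ^ 2 * F.phi (v / (2 : ℝ)⁻¹ ^ h)) := by
  classical
  have hfin := lcg_aux_dy_fin F p hx
  have e : ∀ s : ℝ, (p.wGu h s).dySum F v
      = ∑ᶠ k : ℕ, if p.IsDy F k then Function.update p.gu h s k * ((2 : ℝ)⁻¹ ^ k) ^ 2 * F.phi (v / (2 : ℝ)⁻¹ ^ k) else 0 := by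
    intro s
    unfold LlPt.dySum
    refine finsum_congr fun k => ?_
    have e1 : (p.wGu h s).IsDy F k = p.IsDy F k := rfl
    have e2 : (p.wGu h s).gu k = Function.update p.gu h s k := rfl
    by_cases hk : p.IsDy F k
    · rw [if_pos hk, if_pos (e1 ▸ hk), e2]
    · rw [if_neg hk, if_neg (e1 ▸ hk)]
  rw [e r, e 0]
  have hs : ∀ s : ℝ, Function.HasFiniteSupport
      (fun k : ℕ => if p.IsDy F k then Function.update p.gu h s k * ((2 : ℝ)⁻¹ ^ k) ^ 2 * F.phi (v / (2 : ℝ)⁻¹ ^ k) else 0) := by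
    intro s
    refine hfin.subset fun k hk => ?_
    by_contra hn
    exact hk (if_neg hn)
  have hs2 : Function.HasFiniteSupport
      (fun k : ℕ => if k = h then r * (((2 : ℝ)⁻¹ ^ h) ^ 2 * F.phi (v / (2 : ℝ)⁻¹ ^ h)) else 0) := by
    refine (Set.finite_singleton h).subset fun k hk => ?_
    by_contra hn
    exact hk (if_neg hn)
  have e3 : (∑ᶠ k : ℕ, if k = h then r * (((2 : ℝ)⁻¹ ^ h) ^ 2 * F.phi (v / (2 : ℝ)⁻¹ ^ h)) else 0)
      = r * (((2 : ℝ)⁻¹ ^ h) ^ 2 * F.phi (v / (2 : ℝ)⁻¹ ^ h)) := by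
    rw [finsum_eq_single _ h (fun k hk => if_neg hk), if_pos rfl]
  rw [← e3, ← finsum_add_distrib (hs 0) hs2]
  refine finsum_congr fun k => ?_
  by_cases hk : k = h
  · subst hk
    rw [if_pos hh, if_pos hh, if_pos rfl, Function.update_self, Function.update_self]
    ring
  · rw [if_neg hk, Function.update_of_ne hk, Function.update_of_ne hk, add_zero]

theorem lcg_Gu_b (hx : 0 < p.x) (h : ℕ) (hh : p.IsDy F h) (r : ℝ) : (p.wGu h r).b F 𝔹 = lcgB ((p.wGu h 0).b F 𝔹) (lcgCu F p h) r := by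
  funext v
  have hd := lcg_dy_upd F p hx h hh r v
  have e1 : (p.wGu h r).b0 F 𝔹 = (p.wGu h 0).b0 F 𝔹 := rfl
  have e2 : (p.wGu h r).G F v = (p.wGu h 0).G F v := rfl
  have e4 : (p.wGu h r).U F = (p.wGu h 0).U F := rfl
  have e7 : (p.wGu h r).lam = p.lam := rfl
  have e8 : (p.wGu h 0).lam = p.lam := rfl
  have e9 : (p.wGu h r).gam0 = (p.wGu h 0).gam0 := rfl
  simp only [LlPt.b, lcgCu, lcgB, e1, e2, e4, e7, e8, e9, hd]
  ring

theorem lcg_Gu_h (hx : 0 < p.x) (h : ℕ) (hh : p.IsDy F h) (r : ℝ) :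
    (p.wGu h r).h F 𝔹 = lcgH ((p.wGu h 0).h F 𝔹) (lcgCu F p h) (p.q F 𝔹) p.x r := by
  funext v
  have hb := congrFun (lcg_Gu_b F 𝔹 p hx h hh r) v
  have e1 : (p.wGu h r).x = p.x := rfl
  have e2 : (p.wGu h 0).x = p.x := rfl
  have e3 : (p.wGu h r).K F 𝔹 v = (p.wGu h 0).K F 𝔹 v := rfl
  have e4 : (p.wGu h r).q F 𝔹 v = p.q F 𝔹 v := rfl
  have e5 : (p.wGu h 0).q F 𝔹 v = p.q F 𝔹 v := rfl
  have e6 : (p.wGu h r).Hlo F v = (p.wGu h 0).Hlo F v := rfl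
  have e7 : (p.wGu h r).Hlin F v = (p.wGu h 0).Hlin F v := rfl
  have e8 : (p.wGu h r).He F 𝔹 v = (p.wGu h 0).He F 𝔹 v := rfl
  have e9 : (p.wGu h r).chiL = (p.wGu h 0).chiL := rfl
  have e10 : (p.wGu h r).chiE = (p.wGu h 0).chiE := rfl
  simp only [LlPt.h, LlPt.hS, lcgH, e1, e2, e3, e4, e5, e6, e7, e8, e9, e10, hb, lcgB]
  split_ifs
  · ring
  · ring

theorem lcg_aux_x_pos (hp : p.Ok F) : 0 < p.x := by
  unfold LlPt.x
  have : (0 : ℝ) < p.N := by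
    have := hp.N2
    positivity
  positivity

theorem lcg_aux_lam_nn (hp : p.Ok F) : 0 ≤ p.lam :=
  (Real.rpow_nonneg (lcg_aux_x_pos F p hp).le _).trans hp.lam_lo

theorem lcg_aux_a_pos (hp : p.Ok F) : 0 < p.a := by
  unfold LlPt.a
  split_ifs
  · norm_num
  · linarith [hp.ell1]

theorem lcg_aux_q_ms {a : ℝ} {q : ℝ → ℝ} (hqm : MonotoneOn q (Ioo 0 a)) : AEStronglyMeasurable q (volume.restrict (Ioc 0 a)) := by
  rw [← Measure.restrict_congr_set Ioo_ae_eq_Ioc]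
  exact (aemeasurable_restrict_of_monotoneOn measurableSet_Ioo hqm).aestronglyMeasurable

/-- the weights are admissible -/
theorem lcg_W_G0 (hF : F.Ok) (hp : p.Ok F) {Cq : ℝ} (hq : ∀ v ∈ Ioo 0 p.a, 0 ≤ p.q F 𝔹 v ∧ p.q F 𝔹 v ≤ Cq)
    (hqm : MonotoneOn (p.q F 𝔹) (Ioo 0 p.a)) : ∃ Cc : ℝ, LcgW p.a (p.cg F) (p.q F 𝔹) Cc Cq := by
  have hx := lcg_aux_x_pos F p hp
  have hl := lcg_aux_lam_nn F p hp
  have hk : 0 ≤ F.cb * p.lam * F.c1 := mul_nonneg (mul_nonneg hF.cb0.le hl) hF.c10.le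
  have hG0 : ∀ w, 0 ≤ F.G0 w := by
    intro w
    rcases le_total w 1 with h | h
    · rw [hF.G0_zero w h]
    · have := hF.G0_mono h
      rwa [hF.G0_zero 1 le_rfl] at this
  have hG1 : ∀ w, 0 ≤ w → 0 ≤ F.G1 w ∧ F.G1 w ≤ F.G1 2 := by
    intro w hw
    constructor
    · have := hF.G1_mono (show (0 : ℝ) ∈ Ici 0 from Set.mem_Ici.2 le_rfl) (show w ∈ Ici 0 from hw) hw
      rw [hF.G1_sq 0 ⟨le_rfl, zero_le_one⟩] at this
      simpa using this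
    · rcases le_total w 2 with h | h
      · exact hF.G1_mono (show w ∈ Ici 0 from hw) (show (2 : ℝ) ∈ Ici 0 by simp) h
      · exact (hF.G1_const w h).le
  refine ⟨F.cb * p.lam * F.c1 * ((p.x ^ 2 * F.G0 (F.vb / p.x) + F.vb ^ 2 * F.G1 2) + p.U F ^ 2), lcg_aux_a_pos F p hp, ?_, hq, ?_,
    lcg_aux_q_ms hqm⟩
  · intro v hv
    have hGv : 0 ≤ p.G F v ∧ p.G F v ≤ p.x ^ 2 * F.G0 (F.vb / p.x) + F.vb ^ 2 * F.G1 2 := by
      have t1 : 0 ≤ p.x ^ 2 * F.G0 (F.vb / p.x) := mul_nonneg (sq_nonneg _) (hG0 _)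
      have t2 : 0 ≤ F.vb ^ 2 * F.G1 2 := mul_nonneg (sq_nonneg _) (hG1 2 (by norm_num)).1
      unfold LlPt.G
      split_ifs with hvb
      · refine ⟨mul_nonneg (sq_nonneg _) (hG0 _), ?_⟩
        have : F.G0 (v / p.x) ≤ F.G0 (F.vb / p.x) := hF.G0_mono (div_le_div_of_nonneg_right hvb hx.le)
        have := mul_le_mul_of_nonneg_left this (sq_nonneg p.x)
        linarith
      · have hw : 0 ≤ v / F.vb := div_nonneg hv.1.le hF.vb0.le
        refine ⟨mul_nonneg (sq_nonneg _) (hG1 _ hw).1, ?_⟩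
        have := mul_le_mul_of_nonneg_left (hG1 _ hw).2 (sq_nonneg F.vb)
        linarith
    unfold LlPt.cg
    constructor
    · exact mul_nonneg hk (add_nonneg hGv.1 (sq_nonneg _))
    · exact mul_le_mul_of_nonneg_left (by linarith [hGv.2]) hk
  · have hm : Measurable (p.cg F) := by
      unfold LlPt.cg LlPt.G
      refine measurable_const.mul (Measurable.add ?_ measurable_const)
      refine Measurable.ite measurableSet_Iic ?_ ?_
      · exact measurable_const.mul (hF.G0_sm.continuous.measurable.comp (measurable_id.div_const _))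
      · exact measurable_const.mul (hF.G1_sm.continuous.measurable.comp (measurable_id.div_const _))
    exact hm.aestronglyMeasurable

theorem lcg_W_Gu (hF : F.Ok) (hp : p.Ok F) (h : ℕ) {Cq : ℝ} (hq : ∀ v ∈ Ioo 0 p.a, 0 ≤ p.q F 𝔹 v ∧ p.q F 𝔹 v ≤ Cq)
    (hqm : MonotoneOn (p.q F 𝔹) (Ioo 0 p.a)) : ∃ Cc : ℝ, LcgW p.a (lcgCu F p h) (p.q F 𝔹) Cc Cq := by
  have hl := lcg_aux_lam_nn F p hp
  have hk : 0 ≤ F.cb * p.lam * F.c1 * ((2 : ℝ)⁻¹ ^ h) ^ 2 :=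
    mul_nonneg (mul_nonneg (mul_nonneg hF.cb0.le hl) hF.c10.le) (sq_nonneg _)
  obtain ⟨M, hM⟩ := (isCompact_Icc (a := (1 / 2 : ℝ)) (b := 4)).exists_bound_of_continuousOn hF.phi_sm.continuous.continuousOn
  have hM0 : 0 ≤ M := (norm_nonneg _).trans (hM 1 ⟨by norm_num, by norm_num⟩)
  have hphi : ∀ w, F.phi w ≤ M := by
    intro w
    by_cases hw : w ∈ Icc (1 / 2 : ℝ) 4
    · exact (le_abs_self _).trans (hM w hw)
    · rw [hF.phi_supp w hw]; exact hM0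
  refine ⟨F.cb * p.lam * F.c1 * ((2 : ℝ)⁻¹ ^ h) ^ 2 * M, lcg_aux_a_pos F p hp, ?_, hq, ?_, lcg_aux_q_ms hqm⟩
  · intro v _
    unfold lcgCu
    exact ⟨mul_nonneg hk (hF.phi_nn _), mul_le_mul_of_nonneg_left (hphi _) hk⟩
  · have hm : Measurable (lcgCu F p h) := by
      unfold lcgCu
      exact measurable_const.mul (hF.phi_sm.continuous.measurable.comp (measurable_id.div_const _))
    exact hm.aestronglyMeasurable

/-- admissibility on the CLOSED interval (supplied by file I) -/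
def LlAdmC (𝔹 : LlBase) (F : LlFix) : Prop := LlUnif F fun p => GhClk1 p.a (p.b F 𝔹) ∧ GhClk1 p.a (p.h F 𝔹)

/-- what (P10) needs of `q` -/
def LlQReg (𝔹 : LlBase) (F : LlFix) : Prop :=
  ∃ C : ℝ, LlUnif F fun p => MonotoneOn (p.q F 𝔹) (Ioo 0 p.a) ∧ ∀ v ∈ Ioo 0 p.a, 0 ≤ p.q F 𝔹 v ∧ p.q F 𝔹 v ≤ C

variable {F 𝔹}

/-- **(P10)** -/
theorem lcg_p10 (hF : F.Ok) (hA : LlA1Seg 𝔹) (hadm : LlAdmC 𝔹 F) (hq : LlQReg 𝔹 F) : LlP10 𝔹 F := by
  obtain ⟨N1, h1⟩ := hadm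
  obtain ⟨C, N2, h2⟩ := hq
  refine ⟨max N1 N2, fun p hp hN m hm1 _ g g' hg hgg hg' => ?_⟩
  have hN1 : N1 ≤ p.N := (le_max_left _ _).trans hN
  have hN2 : N2 ≤ p.N := (le_max_right _ _).trans hN
  have hm : 1 ≤ m := by
    have := hp.N2
    omega
  have hx := lcg_aux_x_pos F p hp
  obtain ⟨hqm, hqr⟩ := h2 p hp hN2
  constructor
  · obtain ⟨Cc, hW⟩ := lcg_W_G0 F 𝔹 p hF hp hqr hqm
    have hOk : ∀ r ∈ Icc g g', (p.wG0 r).Ok F := fun r hr =>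
      ⟨hp.N2, hp.ell1, hp.ell2, hp.lam_lo, hp.lam_hi, ⟨hg.trans hr.1, hr.2.trans hg'⟩, hp.gu, hp.chiL, hp.chiE, hp.sm_fin⟩
    have hb : ∀ r ∈ Icc g g', GhClk1 p.a (lcgB ((p.wG0 0).b F 𝔹) (p.cg F) r) := fun r hr => by
      rw [← lcg_G0_b]; exact (h1 (p.wG0 r) (hOk r hr) hN1).1
    have hh : ∀ r ∈ Icc g g', GhClk1 p.a (lcgH ((p.wG0 0).h F 𝔹) (p.cg F) (p.q F 𝔹) p.x r) := fun r hr => by
      rw [← lcg_G0_h]; exact (h1 (p.wG0 r) (hOk r hr) hN1).2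
    have key := lcg_abs hA hm hW hgg hb hh
    have eI : ∀ r, (∫ v in (0 : ℝ)..p.a, (p.wG0 r).cg F v / 4 * (p.wG0 r).Aerr F 𝔹 m v)
        = lcgI 𝔹 m p.a ((p.wG0 0).b F 𝔹) ((p.wG0 0).h F 𝔹) (p.cg F) (p.q F 𝔹) p.x r := by
      intro r
      unfold lcgI LlPt.Aerr LlPt.B LlPt.S
      rw [lcg_G0_b, lcg_G0_h]
      rfl
    have eR : ∀ r, (p.wG0 r).fRest F 𝔹 m
        = 𝔹.f m p.a (lcgB ((p.wG0 0).b F 𝔹) (p.cg F) r) (lcgH ((p.wG0 0).h F 𝔹) (p.cg F) (p.q F 𝔹) p.x r)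
          - ∫ v in (0 : ℝ)..p.a, lcgB ((p.wG0 0).b F 𝔹) (p.cg F) r v * p.q F 𝔹 v ^ 2 / 4 := by
      intro r
      unfold LlPt.fRest LlPt.f0
      rw [lcg_G0_b, lcg_G0_h]
      rfl
    simp only [eI, eR]
    exact key
  · intro h hdy
    obtain ⟨Cc, hW⟩ := lcg_W_Gu F 𝔹 p hF hp h hqr hqm
    have hOk : ∀ r ∈ Icc g g', (p.wGu h r).Ok F := fun r hr =>
      ⟨hp.N2, hp.ell1, hp.ell2, hp.lam_lo, hp.lam_hi, hp.g0, fun k => by
        show Function.update p.gu h r k ∈ Icc (-4 : ℝ) 4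
        by_cases hk : k = h
        · subst hk
          rw [Function.update_self]
          exact ⟨hg.trans hr.1, hr.2.trans hg'⟩
        · rw [Function.update_of_ne hk]
          exact hp.gu k, hp.chiL, hp.chiE, hp.sm_fin⟩
    have hb : ∀ r ∈ Icc g g', GhClk1 p.a (lcgB ((p.wGu h 0).b F 𝔹) (lcgCu F p h) r) := fun r hr => by
      rw [← lcg_Gu_b F 𝔹 p hx h hdy]; exact (h1 (p.wGu h r) (hOk r hr) hN1).1
    have hh : ∀ r ∈ Icc g g', GhClk1 p.a (lcgH ((p.wGu h 0).h F 𝔹) (lcgCu F p h) (p.q F 𝔹) p.x r) := fun r hr => by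
      rw [← lcg_Gu_h F 𝔹 p hx h hdy]; exact (h1 (p.wGu h r) (hOk r hr) hN1).2
    have key := lcg_abs hA hm hW hgg hb hh
    have eI : ∀ r, (∫ v in (0 : ℝ)..p.a,
          F.cb * p.lam * F.c1 * ((2 : ℝ)⁻¹ ^ h) ^ 2 * F.phi (v / (2 : ℝ)⁻¹ ^ h) / 4 * (p.wGu h r).Aerr F 𝔹 m v)
        = lcgI 𝔹 m p.a ((p.wGu h 0).b F 𝔹) ((p.wGu h 0).h F 𝔹) (lcgCu F p h) (p.q F 𝔹) p.x r := by
      intro r
      unfold lcgI LlPt.Aerr LlPt.B LlPt.S
      rw [lcg_Gu_b F 𝔹 p hx h hdy, lcg_Gu_h F 𝔹 p hx h hdy]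
      rfl
    have eR : ∀ r, (p.wGu h r).fRest F 𝔹 m
        = 𝔹.f m p.a (lcgB ((p.wGu h 0).b F 𝔹) (lcgCu F p h) r) (lcgH ((p.wGu h 0).h F 𝔹) (lcgCu F p h) (p.q F 𝔹) p.x r)
          - ∫ v in (0 : ℝ)..p.a, lcgB ((p.wGu h 0).b F 𝔹) (lcgCu F p h) r v * p.q F 𝔹 v ^ 2 / 4 := by
      intro r
      unfold LlPt.fRest LlPt.f0
      rw [lcg_Gu_b F 𝔹 p hx h hdy, lcg_Gu_h F 𝔹 p hx h hdy]
      rfl
    simp only [eI, eR]
    exact key

/-! ## PRODUCERS (helper23): the instance of `LlA1Seg`, and (P10) from block CLK (`LceAll`, file E) -/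

theorem lla_isClock {a : ℝ} {c : ℝ → ℝ} (ha : 0 < a) (h : GhClk1 a c) : IsClock a c where
  mono := h.1.mono Ioo_subset_Icc_self
  nonneg := fun v hv => h.2.trans (h.1 ⟨le_rfl, ha.le⟩ ⟨hv.1.le, hv.2.le⟩ hv.1.le)
  bdd := ⟨c a, fun v hv => h.1 ⟨hv.1.le, hv.2.le⟩ ⟨ha.le, le_rfl⟩ hv.2.le⟩

/-- the speed along a segment, for a base which reads the clocks on `(0,a)` only -/
theorem lla_D_eq (𝔹 : LlBase) (hS : 𝔹.S = skPS) (hB : 𝔹.B = skPB) {m : ℕ} {a : ℝ} (ha : 0 < a) {b0 h0 b1 h1 : ℝ → ℝ}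
    (hb0 : IsClock a b0) (hh0 : IsClock a h0) (hb1 : IsClock a b1) (hh1 : IsClock a h1) {θ : ℝ} (hθ : θ ∈ Icc (0 : ℝ) 1) :
    lcgD 𝔹 m a b0 h0 b1 h1 θ = ckDPr m a (clkExt a b0) (clkExt a h0) (clkExt a b1) (clkExt a h1) θ := by
  have e1 : lcgSeg θ b0 b1 = clerp θ b0 b1 := rfl
  have e2 : lcgSeg θ h0 h1 = clerp θ h0 h1 := rfl
  unfold lcgD ckDPr LlBase.Bv LlBase.Sv
  rw [hS, hB, e1, e2]
  unfold skPB skPS
  rw [psi_ext_clerp ha hb0 hb1 hθ, psi_ext_clerp ha hh0 hh1 hθ, intervalIntegral.integral_of_le ha.le,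
    intervalIntegral.integral_of_le ha.le, intervalIntegral.integral_of_le ha.le, intervalIntegral.integral_of_le ha.le,
    integral_Ioc_eq_integral_Ioo, integral_Ioc_eq_integral_Ioo, integral_Ioc_eq_integral_Ioo, integral_Ioc_eq_integral_Ioo]
  congr 2
  · exact setIntegral_congr_fun measurableSet_Ioo fun v hv => by
      simp only [psi_ext_of_mem b1 hv, psi_ext_of_mem b0 hv]
  · exact setIntegral_congr_fun measurableSet_Ioo fun v hv => by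
      simp only [psi_ext_of_mem h1 hv, psi_ext_of_mem h0 hv]

/-- **THE INSTANCE of `LlA1Seg`** for every base with `pres, S, B = skPf, skPS, skPB` (Exit/PSysInst; ruling of 272 for `llBase`): `lla_a1seg_of llBase rfl rfl rfl`.
From `exit_clk_pr_deriv`, `exit_clk_SB`, `exit_clk_intble`. -/
theorem lla_a1seg_of (𝔹 : LlBase) (hf : 𝔹.pres = skPf) (hS : 𝔹.S = skPS) (hB : 𝔹.B = skPB) : LlA1Seg 𝔹 where
  S_nn := fun m a b h hm ha hb hh v hv => by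
    unfold LlBase.Sv; rw [hS]
    exact (skPSys m hm a ha).S_nonneg b h (lla_isClock ha hb) (lla_isClock ha hh) v hv
  SB := fun m a b h hm ha hb hh v hv => by
    unfold LlBase.Sv LlBase.Bv; rw [hS, hB]
    exact ⟨(skPSys m hm a ha).S_sq_le b h (lla_isClock ha hb) (lla_isClock ha hh) v hv,
      (skPSys m hm a ha).B_le b h (lla_isClock ha hb) (lla_isClock ha hh) v hv⟩
  S_int := fun m a b h hm ha hb hh => by
    have := (exit_clk_intble hm ha (psi_adm ha (lla_isClock ha hb) (lla_isClock ha hh))).1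
    have e : 𝔹.Sv m a b h = fun u => skCS m a (clkExt a b) (clkExt a h) (ghPosA u) := by
      funext u; unfold LlBase.Sv; rw [hS]; rfl
    rw [e]; exact this
  B_int := fun m a b h hm ha hb hh => by
    have := (exit_clk_intble hm ha (psi_adm ha (lla_isClock ha hb) (lla_isClock ha hh))).2.1
    have e : 𝔹.Bv m a b h = fun u => skCB m a (clkExt a b) (clkExt a h) (ghPosA u) := by
      funext u; unfold LlBase.Bv; rw [hB]; rfl
    rw [e]; exact this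
  ftc := by
    intro m a b0 h0 b1 h1 hm ha hb0 hh0 hb1 hh1
    have cb0 := lla_isClock ha hb0
    have ch0 := lla_isClock ha hh0
    have cb1 := lla_isClock ha hb1
    have ch1 := lla_isClock ha hh1
    obtain ⟨hd, hc⟩ := exit_clk_pr_deriv hm ha (psi_adm ha cb0 ch0) (psi_adm ha cb1 ch1)
    have hint : IntervalIntegrable (ckDPr m a (clkExt a b0) (clkExt a h0) (clkExt a b1) (clkExt a h1)) volume 0 1 :=
      hc.intervalIntegrable_of_Icc zero_le_one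
    have hcont : ContinuousOn (fun s => skCPr m a (ckSeg s (clkExt a b0) (clkExt a b1)) (ckSeg s (clkExt a h0) (clkExt a h1))) (Icc 0 1) :=
      fun θ hθ => (hd θ hθ).continuousWithinAt
    have hder : ∀ θ ∈ Ioo (0 : ℝ) 1, HasDerivAt (fun s => skCPr m a (ckSeg s (clkExt a b0) (clkExt a b1)) (ckSeg s (clkExt a h0) (clkExt a h1)))
        (ckDPr m a (clkExt a b0) (clkExt a h0) (clkExt a b1) (clkExt a h1) θ) θ :=
      fun θ hθ => (hd θ ⟨hθ.1.le, hθ.2.le⟩).hasDerivAt (Icc_mem_nhds hθ.1 hθ.2)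
    have key := intervalIntegral.integral_eq_sub_of_hasDerivAt_of_le zero_le_one hcont hder hint
    have eD : EqOn (lcgD 𝔹 m a b0 h0 b1 h1) (ckDPr m a (clkExt a b0) (clkExt a h0) (clkExt a b1) (clkExt a h1)) (uIcc 0 1) := by
      intro θ hθ
      rw [uIcc_of_le zero_le_one] at hθ
      exact lla_D_eq 𝔹 hS hB ha cb0 ch0 cb1 ch1 hθ
    have s0 : ∀ c0 c1 : ℝ → ℝ, ckSeg 0 c0 c1 = c0 := fun c0 c1 => by funext v; simp [ckSeg]
    have s1 : ∀ c0 c1 : ℝ → ℝ, ckSeg 1 c0 c1 = c1 := fun c0 c1 => by funext v; simp [ckSeg]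
    refine ⟨(intervalIntegrable_congr (fun θ hθ => (eD (uIoc_subset_uIcc hθ)).symm)).1 hint, ?_⟩
    rw [intervalIntegral.integral_congr eD, key]
    simp only [s0, s1]
    unfold LlBase.f
    rw [hf]
    rfl

section p10

variable {𝔹 : LlBase} {F : LlFix}

theorem lla_admC (h : LlAdm 𝔹 F) : LlAdmC 𝔹 F := by
  obtain ⟨c, C, hc, h⟩ := h
  refine h.mono ?_
  rintro p hp ⟨hb, hh, -, -, -, hbd, -, -⟩
  have ha : (0 : ℝ) ∈ Icc 0 p.a := ⟨le_rfl, by linarith [(lce_a_mem hp).1]⟩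
  obtain ⟨b1, -, b3, -, -⟩ := hbd 0 ha
  exact ⟨⟨hb, by linarith⟩, ⟨hh, b3⟩⟩

theorem lla_qreg (h : LlAdm 𝔹 F) {c C v0 : ℝ} (hc : 0 < c) (hR : LlRef 𝔹 F c C v0) : LlQReg 𝔹 F := by
  obtain ⟨c', C', -, h⟩ := h
  refine ⟨C * 4, (h.and hR).mono ?_⟩
  rintro p hp ⟨⟨-, -, -, -, hq, -, -, -⟩, hR⟩
  refine ⟨hq.mono Ioo_subset_Icc_self, fun v hv => ⟨?_, ?_⟩⟩
  · have := hR.q_lo v hv
    have h2 : 0 ≤ c * v := mul_nonneg hc.le hv.1.le
    linarith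
  · have h1 := hR.q_hi v hv
    have h0 := hR.q_lo v hv
    have h2 : 0 < c * v := mul_pos hc hv.1
    have hC : 0 ≤ C := by
      by_contra hneg
      have : C * v < 0 := mul_neg_of_neg_of_pos (not_le.1 hneg) hv.1
      linarith
    have h4 : v ≤ 4 := by linarith [hv.2, (lce_a_mem hp).2]
    have := mul_le_mul_of_nonneg_left h4 hC
    linarith

/-- **(P10)** for the fixed data of block CLK -/
theorem lla_p10 (hA : LlA1Seg 𝔹) (h : LceAll 𝔹 F) : LlP10 𝔹 F := by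
  obtain ⟨c, C, v0, hc, -, hR⟩ := h.ref
  exact lcg_p10 h.ok hA (lla_admC h.adm) (lla_qreg h.adm hc hR)

end p10

end Claimed.Agent.R286
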