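import Claimed.Agent.R286.LL.PathsClkE2

/-!
# Row 286 (S0533), LL Section 3, block CLK, file H: SUPPLIES ASKED BY LATER SECTIONS      (owner helper253; prefix `lch_`, `Lch`)

* `lch_LlGapB`   (GAP-B) of LL 06 (helper291): `1 - b(v) Γ'(t) ≥ 0` for `t ≥ K(v/4)/4`, `≥ -C λ v²` always.
* `lch_LlProfId` (PROF) of LL 06: the time distribution of the normalised direct clock is `A_λ`.
* `lch_LlEqui`   (EQUI) of LL 08/09 (helper75): equicontinuity of the clocks in the mass at fixed `N`, uniformly in the point (`lch_K_mod`: modulus of `A_λ⁻¹` by compactness; `lch_qbh`, `lch_He_up`, `lch_h_up`: pointwise).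
* `lch_k8`       (K8) of LL 08 (helper163: `LlK8`, body unfolded; proved by helper202): slopes of the scalar clock of the smoothed paths (`low`, `dens`, `slow`, wall at `M`); threshold on `v_b` from the base profile only.
* `lch_LlDirProf` (DIR-PROF), `lch_LlSeed` (SEED: `d = H_lo` on `[x, v_1]`) of LL 06/07 (helper159, helper79).
ALL PROVED (0 sorry).
TEX[LL:eq:P1..P11]
-/

set_option autoImplicit false

namespace Claimed.Agent.R286

open MeasureTheory Set Filter Topology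

/-! ## 1. (GAP-B) -/

section gapB

variable {D : Lck} {κ : LckC}

/-- `b(v) - b_∘ ≤ (3/2) c_b λ C_G v²` -/
theorem lch_b_up (h : D.Ok κ) (hs : D.Small κ) (v : ℝ) (hv : 0 ≤ v) : D.b v - D.b0 ≤ 3 / 2 * (D.cb * D.lam) * (κ.CG * v ^ 2) := by
  obtain ⟨-, r2⟩ := lck_b_range h hs v hv
  have hcl : 0 < D.cb * D.lam := mul_pos hs.cb0 h.lam0
  have hG := h.G_le v hv
  have : 3 / 2 * D.G v - D.U ^ 2 / 2 ≤ 3 / 2 * (κ.CG * v ^ 2) := by nlinarith [sq_nonneg D.U]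
  have := mul_le_mul_of_nonneg_left this hcl.le
  linarith

/-- always: `1 - b(v) Γ'(t) ≥ gap(t) - (3/2) c_b C_G / c · λ v²` -/
theorem lch_gap_low (h : D.Ok κ) (hs : D.Small κ) (v : ℝ) (hv : 0 ≤ v) (t : ℝ) (ht : 0 ≤ t) :
    D.gap t - 3 / 2 * D.cb * κ.CG / κ.c * D.lam * v ^ 2 ≤ 1 - D.b v * D.gp t := by
  have h1 := lch_b_up h hs v hv
  have h2 := h.gp_nn t ht
  have h3 := lck_gp_le' h t ht
  have hcl : 0 < D.cb * D.lam := mul_pos hs.cb0 h.lam0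
  have hX : 0 ≤ 3 / 2 * (D.cb * D.lam) * (κ.CG * v ^ 2) :=
    mul_nonneg (by linarith) (mul_nonneg (by linarith [h.CG1]) (sq_nonneg _))
  have h4 : (D.b v - D.b0) * D.gp t ≤ 3 / 2 * (D.cb * D.lam) * (κ.CG * v ^ 2) * (1 / κ.c) :=
    (mul_le_mul_of_nonneg_right h1 h2).trans (mul_le_mul_of_nonneg_left h3 hX)
  have e : 3 / 2 * D.cb * κ.CG / κ.c * D.lam * v ^ 2 = 3 / 2 * (D.cb * D.lam) * (κ.CG * v ^ 2) * (1 / κ.c) := by ring
  rw [e]
  simp only [Lck.gap]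
  nlinarith

/-- (GAP-B), abstract form -/
theorem lch_gapB (h : D.Ok κ) (hs : D.Small κ) (v : ℝ) (hv : v ∈ Ioo 0 D.a) :
    (∀ t : ℝ, D.K (v / 4) / 4 ≤ t → 0 ≤ 1 - D.b v * D.gp t) ∧
    (∀ t : ℝ, 0 ≤ t → -(3 / 2 * D.cb * κ.CG / κ.c * D.lam * v ^ 2) ≤ 1 - D.b v * D.gp t) := by
  have hc := h.c0
  have hk := lck_k_pos h
  have hk8 := lck_k_le h
  have hl := h.lam0
  constructor
  · intro t ht
    have hv2 : v / 4 ∈ Ioo 0 D.a := ⟨by linarith [hv.1], by linarith [hv.1, hv.2]⟩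
    have hK := lck_K_ge h (v / 4) hv2
    have ht1 : κ.k * v / 16 ≤ t := by linarith
    have hkv : 0 ≤ κ.k * v / 16 := by have := hv.1; positivity
    have ht0 : 0 ≤ t := le_trans hkv ht1
    have hg := h.gap_lo t ht0
    have hlow := lch_gap_low h hs v hv.1.le t ht0
    -- `min (t²) 1 ≥ (k v / 16)²`
    have hkv1 : κ.k * v / 16 ≤ 1 := by nlinarith [hv.2, h.a4, hv.1]
    have hmin : (κ.k * v / 16) ^ 2 ≤ min (t ^ 2) 1 := by
      refine le_min (pow_le_pow_left₀ hkv ht1 2) ?_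
      nlinarith
    have hg2 : κ.c * D.lam * (κ.k * v / 16) ^ 2 ≤ D.gap t :=
      le_trans (mul_le_mul_of_nonneg_left hmin (mul_pos hc hl).le) hg
    -- smallness
    have hal : κ.al ≤ κ.c * κ.k ^ 2 / 8 := min_le_left _ _
    have hcbs := hs.cbs
    have hC1 := h.C1
    have hcb := hs.cb0
    have hCG := h.CG1
    have h5 : 48 * D.cb * κ.CG ≤ κ.c * (κ.c * κ.k ^ 2 / 8) := by
      have a1 : 48 * D.cb * κ.CG ≤ 48 * D.cb * κ.CG * κ.C := by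
        have : 0 ≤ 48 * D.cb * κ.CG := by positivity
        nlinarith
      have a2 : κ.c * κ.al ≤ κ.c * (κ.c * κ.k ^ 2 / 8) := mul_le_mul_of_nonneg_left hal hc.le
      linarith
    have h6 : 3 / 2 * D.cb * κ.CG / κ.c ≤ κ.c * κ.k ^ 2 / 256 := by
      rw [div_le_iff₀ hc]
      nlinarith
    have h7 : 3 / 2 * D.cb * κ.CG / κ.c * D.lam * v ^ 2 ≤ κ.c * D.lam * (κ.k * v / 16) ^ 2 := by
      have : 3 / 2 * D.cb * κ.CG / κ.c * (D.lam * v ^ 2) ≤ κ.c * κ.k ^ 2 / 256 * (D.lam * v ^ 2) :=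
        mul_le_mul_of_nonneg_right h6 (mul_nonneg hl.le (sq_nonneg _))
      nlinarith
    linarith
  · intro t ht
    have hlow := lch_gap_low h hs v hv.1.le t ht
    have := lck_gap_nn h t ht
    linarith

end gapB

section exitH

variable {𝔹 : LlBase} {F : LlFix} {c C v0 CG CD cG : ℝ}

/-- **(GAP-B)** -/
theorem lch_LlGapB (h : LceFix 𝔹 F c C v0 CG CD cG) : LlGapB 𝔹 F := by
  refine ⟨3 / 2 * F.cb * h.kap.CG / h.kap.c, (lce_unif h).mono ?_⟩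
  rintro p hp ⟨-, hok, hs, -⟩ - v hv
  exact lch_gapB hok hs v hv

/-- **(PROF)** -/
theorem lch_LlProfId {ca Ca ξ1 : ℝ} (hF : F.Ok) (hb : LkkBase (𝔹.A0 F.T) (𝔹.xiS F.T) (𝔹.pTop F.T) ca Ca ξ1) (hz : F.z0 ≤ ξ1) :
    LlProfId 𝔹 F := by
  refine (lce_unif_prof hF hb hz).mono ?_
  rintro p hp ⟨hprof, -, -⟩ hsm s hs
  have hl : 0 < p.ell := lt_of_lt_of_le one_pos hp.ell1
  have ha : p.a / p.ell = 1 := by rw [lce_a_direct hsm]; exact div_self hl.ne'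
  rw [ha] at hprof
  have hmem := hprof.mem_Icc s hs
  have e : {w : ℝ | w ∈ Ioo (0 : ℝ) 1 ∧ p.xi F 𝔹 (p.ell * w) ≤ s} = Ioo 0 1 ∩ Iic (p.Aprof F 𝔹 s) := by
    ext w
    simp only [Set.mem_ofPred_eq, mem_inter_iff, mem_Iic]
    refine and_congr_right fun hw => ?_
    have : p.xi F 𝔹 (p.ell * w) = llInv (p.Aprof F 𝔹) w := by
      unfold LlPt.xi; rw [mul_div_cancel_left₀ _ hl.ne']
    rw [this]
    exact lpq_galois hprof w s hw.2.le hs
  rw [e]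
  rcases hmem.2.lt_or_eq with h1 | h1
  · have e2 : Ioo (0 : ℝ) 1 ∩ Iic (p.Aprof F 𝔹 s) = Ioc 0 (p.Aprof F 𝔹 s) := by
      ext w; simp only [mem_inter_iff, mem_Ioo, mem_Iic, mem_Ioc]
      constructor
      · rintro ⟨⟨a, -⟩, b⟩; exact ⟨a, b⟩
      · rintro ⟨a, b⟩; exact ⟨⟨a, lt_of_le_of_lt b h1⟩, b⟩
    rw [e2, Real.volume_Ioc, sub_zero, ENNReal.toReal_ofReal hmem.1]
  · have e2 : Ioo (0 : ℝ) 1 ∩ Iic (p.Aprof F 𝔹 s) = Ioo 0 1 := by
      rw [h1]; ext w; simp only [mem_inter_iff, mem_Ioo, mem_Iic]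
      exact ⟨fun a => a.1, fun a => ⟨a, a.2.le⟩⟩
    rw [e2, Real.volume_Ioo, h1]; simp

/-- **(DIR-PROF)** -/
theorem lch_LlDirProf {ca Ca ξ1 : ℝ} (hF : F.Ok) (hb : LkkBase (𝔹.A0 F.T) (𝔹.xiS F.T) (𝔹.pTop F.T) ca Ca ξ1) (hz : F.z0 ≤ ξ1) :
    LlDirProf 𝔹 F :=
  ⟨⟨hb.pT0, hb.pT1⟩, (lce_unif_prof hF hb hz).mono fun _ _ h => ⟨h.2.1, h.2.2⟩⟩

/-- **(SEED)** -/
theorem lch_LlSeed (h : LceFix 𝔹 F c C v0 CG CD cG) (hE : LceEdge 𝔹 F) : LlSeed 𝔹 F := by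
  have hV := lce_V1_pos hE
  have hVT := lce_V1_lt hE
  have hvb := h.ok.vb0
  refine ⟨min (4 * F.vb) (lceV1 𝔹 F.T / 2), lt_min (by linarith) (by linarith), (lce_unif_all h hE).mono ?_⟩
  rintro p hp ⟨-, -, -, -, hH, hr⟩ v hxv hv
  have hx := lce_x_pos hp.N2
  have hv0 : 0 < v := lt_of_lt_of_le hx hxv
  have hl : 0 < p.ell := lt_of_lt_of_le one_pos hp.ell1
  have hv1 : v ≤ 4 * F.vb := hv.trans (min_le_left _ _)
  have hv2 : v < lceV1 𝔹 F.T := lt_of_le_of_lt (hv.trans (min_le_right _ _)) (by linarith)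
  have hlin : p.Hlin F v = 0 := by
    unfold LlPt.Hlin
    rw [max_eq_left (by linarith [min_le_left v p.ell]), mul_zero]
  have hHe : p.chiE * p.He F 𝔹 v = 0 := by
    cases hsm : p.sm with
    | true => rw [(hp.sm_fin hsm).2, zero_mul]
    | false =>
      have hw : v / p.ell < 𝔹.pTop F.T := lt_of_le_of_lt (div_le_self hv0.le hp.ell1) (hv2.trans hVT)
      have hva : v ∈ Ioo 0 p.a := ⟨hv0, by
        have := (lce_a_mem hp).1
        have h1 := hH.pT1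
        linarith⟩
      have hξ : p.xi F 𝔹 v ≤ 𝔹.xiS F.T - p.Eb F 𝔹 := by
        by_contra hcon
        exact absurd ((hr hsm).ramp v hva (not_le.1 hcon)) (not_le.2 hv2)
      rw [lcc_He_zero hH v hw hξ, mul_zero]
  unfold LlPt.d LlPt.h
  rw [if_neg (not_lt.2 hxv), hlin, hHe]
  ring

end exitH

/-! ## 3. (EQUI): modulus of the scalar clock `K` -/

section kmod

/-- modulus of the generalised inverse from a lower bound on the increments of the profile -/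
theorem lch_inv_mod {A : ℝ → ℝ} {τ j η δ : ℝ} (hA : LpqProf A τ j)
    (hinc : ∀ ξ, 0 ≤ ξ → ξ + η < τ → δ ≤ A (ξ + η) - A ξ) (hη : 0 < η) (w w' : ℝ) (hww : w ≤ w') (hw' : w' ≤ j) (hd : w' - w < δ) :
    llInv A w' - llInv A w ≤ η := by
  by_contra hcon
  have hcon' : η < llInv A w' - llInv A w := not_le.1 hcon
  have h0 : 0 ≤ llInv A w := lpq_inv_nonneg A w
  have h1 : llInv A w + η < llInv A w' := by linarith
  have h2 : llInv A w' ≤ τ := lpq_inv_le_tau hA w' hw'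
  have h3 : A (llInv A w + η) < w' := lpq_lt_of_lt_inv w' _ (by linarith) h1
  have h4 : w ≤ A (llInv A w) := lpq_le_at_inv hA w (hww.trans hw')
  have := hinc _ h0 (by linarith)
  linarith

/-- the base profile increases by a definite amount on every interval of length `η` below `ξ_*` (compactness) -/
theorem lch_A0_mod (𝔹 : LlBase) (T : ℝ) (hb : LlBaseProfile 𝔹 T) (η : ℝ) (hη : 0 < η) :
    ∃ δ : ℝ, 0 < δ ∧ ∀ ξ, 0 ≤ ξ → ξ + η < 𝔹.xiS T → δ ≤ 𝔹.A0 T (ξ + η) - 𝔹.A0 T ξ := by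
  obtain ⟨a, ha0, haT, -, hder⟩ := hb.tower
  have hc0 : ContinuousOn (a 0) (Icc 0 (𝔹.xiS T)) := fun ξ hξ => (hder 0 ξ hξ).continuousWithinAt
  by_cases hne : η ≤ 𝔹.xiS T
  · have hcont : ContinuousOn (fun ξ => a 0 (ξ + η) - a 0 ξ) (Icc 0 (𝔹.xiS T - η)) := by
      refine ContinuousOn.sub ?_ (hc0.mono (Icc_subset_Icc le_rfl (by linarith)))
      refine hc0.comp (by fun_prop) ?_
      intro ξ hξ; exact ⟨by linarith [hξ.1], by linarith [hξ.2]⟩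
    obtain ⟨ξm, hm, hmin⟩ := isCompact_Icc.exists_isMinOn (nonempty_Icc.2 (by linarith)) hcont
    have hpos : 0 < a 0 (ξm + η) - a 0 ξm := by
      have h1 : a 0 ξm = 𝔹.A0 T ξm := (ha0 ξm ⟨hm.1, by linarith [hm.2]⟩).symm
      rcases (show ξm + η ≤ 𝔹.xiS T by linarith [hm.2]).lt_or_eq with h | h
      · rw [h1, ← ha0 (ξm + η) ⟨by linarith [hm.1], h⟩]
        exact sub_pos.2 (hb.strict ⟨hm.1, by linarith⟩ ⟨by linarith [hm.1], h.le⟩ (by linarith))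
      · rw [h, haT, h1]; exact sub_pos.2 (hb.lt_top ξm (by linarith))
    refine ⟨_, hpos, fun ξ h0 h1 => ?_⟩
    have := hmin (show ξ ∈ Icc 0 (𝔹.xiS T - η) from ⟨h0, by linarith⟩)
    rw [ha0 ξ ⟨h0, by linarith⟩, ha0 (ξ + η) ⟨by linarith, h1⟩]
    exact this
  · exact ⟨1, one_pos, fun ξ h0 h1 => by linarith⟩

/-- increments of the direct profile, uniformly in `λ` -/
theorem lch_dir_inc {A0 P : ℝ → ℝ} {ξs pT ca Ca ξ1 z0 LP lam η δ0 : ℝ} (hb : LkkBase A0 ξs pT ca Ca ξ1) (hP : LkkCut P z0 LP)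
    (hz : z0 ≤ ξ1) (hl0 : 0 ≤ lam) (hl : lam * LP ≤ ca / 2) (hη : 0 < η)
    (h0 : ∀ ξ, 0 ≤ ξ → ξ + η / 2 < ξs → δ0 ≤ A0 (ξ + η / 2) - A0 ξ) (ξ : ℝ) (hξ : 0 ≤ ξ) (hξ' : ξ + η < ξs) :
    min (ca * η / 4) δ0 ≤ lkkDir A0 P lam (ξ + η) - lkkDir A0 P lam ξ := by
  have hmono := lkk_dir_mono hb hP hz hl0 hl
  rcases le_total (ξ + η / 2) ξ1 with c | c
  · have a1 := lkk_dir_lo hb hP hz hl0 hl ξ (ξ + η / 2) hξ (by linarith) c
    have a2 := hmono (mem_Ici.2 (by linarith : (0 : ℝ) ≤ ξ + η / 2)) (mem_Ici.2 (by linarith : (0 : ℝ) ≤ ξ + η))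
      (by linarith : ξ + η / 2 ≤ ξ + η)
    have : min (ca * η / 4) δ0 ≤ ca * η / 4 := min_le_left _ _
    have e : ca / 2 * (ξ + η / 2 - ξ) = ca * η / 4 := by ring
    rw [e] at a1
    linarith
  · have a1 := hmono (mem_Ici.2 hξ) (mem_Ici.2 (by linarith : (0 : ℝ) ≤ ξ + η / 2)) (by linarith : ξ ≤ ξ + η / 2)
    have e1 : lkkDir A0 P lam (ξ + η / 2) = A0 (ξ + η / 2) := lkk_dir_far hb hP hz hl0 hl _ (hz.trans c)
    have e2 : lkkDir A0 P lam (ξ + η) = A0 (ξ + η) := lkk_dir_far hb hP hz hl0 hl _ (by linarith)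
    have a2 := h0 (ξ + η / 2) (by linarith) (by linarith)
    have e3 : ξ + η / 2 + η / 2 = ξ + η := by ring
    rw [e3] at a2
    have : min (ca * η / 4) δ0 ≤ δ0 := min_le_right _ _
    linarith

variable {𝔹 : LlBase} {F : LlFix}

/-- modulus of `K` at one point -/
theorem lch_K_point {p : LlPt} {τ η δ : ℝ} (hp : p.Ok F) (hA : LpqProf (p.Aprof F 𝔹) τ (p.a / p.ell))
    (hinc : ∀ ξ, 0 ≤ ξ → ξ + η < τ → δ ≤ p.Aprof F 𝔹 (ξ + η) - p.Aprof F 𝔹 ξ) (hη : 0 < η)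
    (v v' : ℝ) (hvv : v ≤ v') (hv' : v' ≤ p.a) (hd : v' - v < δ) :
    p.xi F 𝔹 v' - p.xi F 𝔹 v ≤ η ∧ p.K F 𝔹 v' - p.K F 𝔹 v ≤ η := by
  have hl : 0 < p.ell := lt_of_lt_of_le one_pos hp.ell1
  have h1 : v / p.ell ≤ v' / p.ell := div_le_div_of_nonneg_right hvv hl.le
  have h2 : v' / p.ell ≤ p.a / p.ell := div_le_div_of_nonneg_right hv' hl.le
  have h3 : v' / p.ell - v / p.ell < δ := by
    have : v' / p.ell - v / p.ell = (v' - v) / p.ell := by ring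
    rw [this]
    exact lt_of_le_of_lt (div_le_self (by linarith) hp.ell1) hd
  have h4 : p.xi F 𝔹 v' - p.xi F 𝔹 v ≤ η := lch_inv_mod hA hinc hη _ _ h1 h2 h3
  have h5 : 0 ≤ p.xi F 𝔹 v' - p.xi F 𝔹 v := sub_nonneg.2 (lpq_inv_mono hA _ _ h1 h2)
  refine ⟨h4, ?_⟩
  have h6 : (p.ell ^ 2)⁻¹ ≤ 1 := inv_le_one_of_one_le₀ (by nlinarith [hp.ell1])
  have h7 : 0 ≤ (p.ell ^ 2)⁻¹ := by positivity
  have e : p.K F 𝔹 v' - p.K F 𝔹 v = (p.ell ^ 2)⁻¹ * (p.xi F 𝔹 v' - p.xi F 𝔹 v) := by unfold LlPt.K; ring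
  rw [e]
  nlinarith

/-- **modulus of `ξ(v)` and `K(v)` at fixed `N`, uniformly in the point** -/
theorem lch_K_mod {ca Ca ξ1 : ℝ} (hF : F.Ok) (hB : LlBaseProfile 𝔹 F.T)
    (hb : LkkBase (𝔹.A0 F.T) (𝔹.xiS F.T) (𝔹.pTop F.T) ca Ca ξ1) (hz : F.z0 ≤ ξ1) :
    ∃ N0 : ℕ, ∀ N : ℕ, N0 ≤ N → ∀ η : ℝ, 0 < η → ∃ δ : ℝ, 0 < δ ∧ ∀ p : LlPt, p.Ok F → p.N = N →
      ∀ v v' : ℝ, v ≤ v' → v' ≤ p.a → v' - v ≤ δ → p.xi F 𝔹 v' - p.xi F 𝔹 v ≤ η ∧ p.K F 𝔹 v' - p.K F 𝔹 v ≤ η := by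
  have hca := hb.ca0
  obtain ⟨LP, hP⟩ := lkk_cut F hF
  obtain ⟨N1, hN1⟩ := lkk_lam_small hF (ε := ca / 2 / (LP + 1)) (by have := hP.LP0; positivity)
  obtain ⟨N2, hN2⟩ := lkk_M_large (𝔹.xiS F.T)
  refine ⟨max 2 (max N1 N2), fun N hN η hη => ?_⟩
  obtain ⟨δ0, hδ0, h0⟩ := lch_A0_mod 𝔹 F.T hB (η / 2) (by linarith)
  set om : ℝ := ((N : ℝ) ^ (-(1 / 6) : ℝ)) ^ (5 + 1 / 4 : ℝ) with hom
  have hN2' : 2 ≤ N := (le_max_left _ _).trans hN
  have hom0 : 0 < om := Real.rpow_pos_of_pos (Real.rpow_pos_of_pos (by exact_mod_cast (by omega : 0 < N)) _) _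
  have hδ : 0 < min (min (ca * η / 4) δ0) (om * η) := lt_min (lt_min (by positivity) hδ0) (by positivity)
  refine ⟨min (min (ca * η / 4) δ0) (om * η) / 2, by linarith, fun p hp hpN v v' hvv hv' hd => ?_⟩
  have hpN1 : N1 ≤ p.N := by rw [hpN]; exact ((le_max_left _ _).trans (le_max_right _ _)).trans hN
  have hpN2 : N2 ≤ p.N := by rw [hpN]; exact ((le_max_right _ _).trans (le_max_right _ _)).trans hN
  have hM := hN2 p hp.N2 hpN2
  have hl0 := (lkk_lam_pos hp).le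
  have hl : p.lam * LP ≤ ca / 2 := by
    have a1 := hN1 p hp hpN1
    have hLP := hP.LP0
    have a2 : p.lam * (LP + 1) ≤ ca / 2 := by rwa [le_div_iff₀ (by linarith)] at a1
    nlinarith
  have hprof := (lce_prof_point hb hP hz hp hl hM).1
  have hpom : p.om = om := by unfold LlPt.om LlPt.x; rw [hpN]
  refine lch_K_point (δ := min (min (ca * η / 4) δ0) (om * η)) hp hprof ?_ hη v v' hvv hv' (lt_of_le_of_lt hd (by linarith))
  intro ξ hξ hξ'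
  cases hsm : p.sm with
  | false =>
    have eA : p.Aprof F 𝔹 = lkkDir (𝔹.A0 F.T) F.P p.lam := by unfold LlPt.Aprof; rw [hsm]; rfl
    rw [hsm] at hξ'
    rw [eA]
    exact (min_le_left _ _).trans (lch_dir_inc hb hP hz hl0 hl hη h0 ξ hξ (by simpa using hξ'))
  | true =>
    have hell : 0 < p.ell := by linarith [hp.ell1]
    have ho := lkk_om_pos hp.N2
    have hJ : 1 + p.om * p.M ≤ 4 / p.ell := by
      rw [le_div_iff₀ hell]
      have h1 := lkk_omM hp.N2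
      have h2 := lkk_ell_le_two hp
      have h3 : 0 ≤ p.om * p.M := mul_nonneg ho.le (lkk_M_nonneg hp.N2)
      nlinarith
    have eA : p.Aprof F 𝔹 = lkkSm (𝔹.A0 F.T) F.P p.lam (𝔹.xiS F.T) (𝔹.pTop F.T) p.om p.M (4 / p.ell) := by
      unfold LlPt.Aprof; rw [hsm]; rfl
    rw [hsm] at hξ'
    rw [eA]
    have := lkk_sm_lo_glob hb hP hz hl0 hl ho hM hJ ξ (ξ + η) hξ (by linarith) (by simpa using hξ')
    refine (min_le_right _ _).trans ?_
    rw [← hpom]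
    have e : p.om * (ξ + η - ξ) = p.om * η := by ring
    rw [e] at this
    exact this

end kmod

/-! ## 4. (EQUI): the other clocks, at one point -/

section pmod

variable {𝔹 : LlBase} {F : LlFix} {p : LlPt}

/-- `q`, `b`, `h_*` in terms of the increments of `K` and of the mass -/
theorem lch_qbh {κ : LckC} {c C v0 : ℝ} (hF : F.Ok) (hB : LlBaseProfile 𝔹 F.T) (hp : p.Ok F) (hR : p.Ref F 𝔹 c C v0)
    (hok : (p.lck F 𝔹).Ok κ) (hs : (p.lck F 𝔹).Small κ) (v v' : ℝ) (hv : 0 ≤ v) (hvv : v ≤ v') (hv' : v' ≤ p.a) :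
    p.q F 𝔹 v' - p.q F 𝔹 v ≤ 1 / κ.c * (p.K F 𝔹 v' - p.K F 𝔹 v) ∧ p.b F 𝔹 v' - p.b F 𝔹 v ≤ 6 * κ.CG * F.cb * (v' - v) ∧
      p.hS F 𝔹 v' - p.hS F 𝔹 v ≤ p.K F 𝔹 v' - p.K F 𝔹 v := by
  have m1 : v ∈ Icc 0 p.a := ⟨hv, hvv.trans hv'⟩
  have m2 : v' ∈ Icc 0 p.a := ⟨hv.trans hvv, hv'⟩
  have hK := lce_K_mono hF hB hp m1 m2 hvv
  have ha4 := (lce_a_mem hp).2
  refine ⟨lce_Gam_lip hok _ _ (lce_K_nonneg v) hK, ?_, ?_⟩
  · refine (lce_b_incr hok hs v v' hv hvv).trans ?_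
    have hl0 : 0 < p.lam := hok.lam0
    have hl1 : p.lam ≤ 1 := hok.lam1
    have hcb : 0 < F.cb := hs.cb0
    have hCG : 1 ≤ κ.CG := hok.CG1
    have h1 : p.lam * v' ≤ 4 := by nlinarith [hv.trans hvv]
    have h2 : 0 ≤ 3 / 2 * κ.CG * F.cb * (v' - v) := by
      have : 0 ≤ v' - v := by linarith
      positivity
    calc 3 / 2 * κ.CG * F.cb * p.lam * v' * (v' - v) = 3 / 2 * κ.CG * F.cb * (v' - v) * (p.lam * v') := by ring
      _ ≤ 3 / 2 * κ.CG * F.cb * (v' - v) * 4 := mul_le_mul_of_nonneg_left h1 h2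
      _ = 6 * κ.CG * F.cb * (v' - v) := by ring
  · have hb1 := lce_b_mono' hok hs v v' hv hvv
    have hb0 : 0 ≤ p.b F 𝔹 v := by
      have := (lck_b_bd hok hs v hv (by linarith [hvv.trans hv'])).1
      have h2 : 0 < κ.c := hok.c0
      have h3 : κ.c / 2 ≤ p.b F 𝔹 v := this
      linarith
    have hq1 := lce_q_mono hF hB hp hR m1 m2 hvv
    have hq0 : 0 ≤ p.q F 𝔹 v := by
      have := lce_Gam_mono hR (mem_Ici.2 le_rfl) (mem_Ici.2 (lce_K_nonneg (p := p) (F := F) (𝔹 := 𝔹) v)) (lce_K_nonneg v)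
      rw [hR.gam_zero] at this
      exact this
    have : p.b F 𝔹 v * p.q F 𝔹 v ≤ p.b F 𝔹 v' * p.q F 𝔹 v' := mul_le_mul hb1 hq1 hq0 (hb0.trans hb1)
    unfold LlPt.hS
    linarith

/-- upper slope of `t ↦ t^(-1/2)` above `x⁴` -/
theorem lch_rs_up {x s t : ℝ} (hx : 0 < x) (hs : x ^ 4 ≤ s) (hst : s ≤ t) :
    s ^ (-(1 / 2) : ℝ) - t ^ (-(1 / 2) : ℝ) ≤ (t - s) / (2 * x ^ 6) := by
  have hs0 : 0 < s := lt_of_lt_of_le (by positivity) hs
  have ht : 0 < t := lt_of_lt_of_le hs0 hst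
  obtain ⟨a, ha, rfl⟩ : ∃ a : ℝ, 0 < a ∧ s = a ^ 2 := ⟨Real.sqrt s, Real.sqrt_pos.2 hs0, (Real.sq_sqrt hs0.le).symm⟩
  obtain ⟨b, hb, rfl⟩ : ∃ b : ℝ, 0 < b ∧ t = b ^ 2 := ⟨Real.sqrt t, Real.sqrt_pos.2 ht, (Real.sq_sqrt ht.le).symm⟩
  have hab : a ≤ b := by nlinarith
  have hxa : x ^ 2 ≤ a := by
    by_contra hcon
    have : a < x ^ 2 := not_le.1 hcon
    nlinarith [sq_nonneg x]
  have e1 : (a ^ 2) ^ (-(1 / 2) : ℝ) = a⁻¹ := by rw [lcc_rs_eq (by positivity), Real.sqrt_sq ha.le]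
  have e2 : (b ^ 2) ^ (-(1 / 2) : ℝ) = b⁻¹ := by rw [lcc_rs_eq (by positivity), Real.sqrt_sq hb.le]
  rw [e1, e2, le_div_iff₀ (by positivity)]
  have e3 : (a⁻¹ - b⁻¹) * (2 * x ^ 6) = (b - a) * (2 * x ^ 6) / (a * b) := by field_simp
  rw [e3, div_le_iff₀ (by positivity)]
  have hx2 : 0 < x ^ 2 := by positivity
  have h1 : x ^ 2 * x ^ 2 ≤ a * b := mul_le_mul hxa (hxa.trans hab) hx2.le ha.le
  have h6 : 2 * x ^ 6 ≤ (a + b) * (a * b) := by
    have h2 : 2 * x ^ 2 ≤ a + b := by linarith [hxa.trans hab]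
    calc 2 * x ^ 6 = (2 * x ^ 2) * (x ^ 2 * x ^ 2) := by ring
      _ ≤ (a + b) * (a * b) := mul_le_mul h2 h1 (by positivity) (by positivity)
  have h7 : 0 ≤ b - a := by linarith
  calc (b - a) * (2 * x ^ 6) ≤ (b - a) * ((a + b) * (a * b)) := mul_le_mul_of_nonneg_left h6 h7
    _ = (b ^ 2 - a ^ 2) * (a * b) := by ring

variable {E1 : ℝ}

/-- the plateau profile is `x⁻⁶`-Lipschitz -/
theorem lch_HePl_up (H : LccBase F 𝔹 p E1) (hx : 0 < p.x) (hxU : p.x ≤ p.Ut F)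
    (hamp : p.lam1 F * F.Ups (p.U F) * p.Ut F ^ 2 ≤ 1) (w w' : ℝ) (hw : 𝔹.pTop F.T ≤ w) (hww : w ≤ w') (hw' : w' ≤ 1) :
    p.HePl F 𝔹 w' - p.HePl F 𝔹 w ≤ (w' - w) / p.x ^ 6 := by
  have hP : p.x ^ 4 ≤ p.dPl F := pow_le_pow_left₀ hx.le hxU 4
  have hM : p.x ^ 4 ≤ p.dMi F 𝔹 := hP.trans (lcc_dPl_le_dMi H)
  have e1 := lch_rs_up (s := 1 - w' + p.dPl F) (t := 1 - w + p.dPl F) hx (by linarith) (by linarith)
  have e2 := lch_rs_up (s := w - 𝔹.pTop F.T + p.dMi F 𝔹) (t := w' - 𝔹.pTop F.T + p.dMi F 𝔹) hx (by linarith) (by linarith)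
  have a1 : 1 - w + p.dPl F - (1 - w' + p.dPl F) = w' - w := by ring
  have a2 : w' - 𝔹.pTop F.T + p.dMi F 𝔹 - (w - 𝔹.pTop F.T + p.dMi F 𝔹) = w' - w := by ring
  rw [a1] at e1
  rw [a2] at e2
  have hnn : 0 ≤ (w' - w) / p.x ^ 6 := div_nonneg (by linarith) (by positivity)
  have e3 : (w' - w) / (2 * p.x ^ 6) + (w' - w) / (2 * p.x ^ 6) = (w' - w) / p.x ^ 6 := by field_simp; ring
  have h0 := lcc_amp_nonneg H
  unfold LlPt.HePl
  rw [← mul_sub]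
  calc p.lam1 F * F.Ups (p.U F) * p.Ut F ^ 2 *
        ((1 - w' + p.dPl F) ^ (-(1 / 2) : ℝ) - (w' - 𝔹.pTop F.T + p.dMi F 𝔹) ^ (-(1 / 2) : ℝ) -
          ((1 - w + p.dPl F) ^ (-(1 / 2) : ℝ) - (w - 𝔹.pTop F.T + p.dMi F 𝔹) ^ (-(1 / 2) : ℝ)))
      ≤ p.lam1 F * F.Ups (p.U F) * p.Ut F ^ 2 * ((w' - w) / p.x ^ 6) := mul_le_mul_of_nonneg_left (by linarith) h0
    _ ≤ 1 * ((w' - w) / p.x ^ 6) := mul_le_mul_of_nonneg_right hamp hnn
    _ = _ := one_mul _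

/-- the ramp factor is monotone and `1/E`-Lipschitz -/
theorem lch_ramp_lip {E : ℝ} (hE : 0 < E) (c ξ ξ' : ℝ) (h : ξ ≤ ξ') :
    0 ≤ max 0 ((ξ' - c) / E) - max 0 ((ξ - c) / E) ∧ max 0 ((ξ' - c) / E) - max 0 ((ξ - c) / E) ≤ (ξ' - ξ) / E := by
  rw [lcc_ramp_eq hE, lcc_ramp_eq hE, ← sub_div]
  have h1 : max ξ c ≤ max ξ' c := max_le_max_right c h
  have h2 : max ξ' c - max ξ c ≤ ξ' - ξ := by
    rcases le_total ξ c with a | a
    · rw [max_eq_right a]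
      rcases le_total ξ' c with b | b
      · rw [max_eq_right b]; linarith
      · rw [max_eq_left b]; linarith
    · rw [max_eq_left a, max_eq_left (a.trans h)]
  exact ⟨div_nonneg (by linarith) hE.le, div_le_div_of_nonneg_right (by linarith) hE.le⟩

/-- **increments of the edge term**, from above -/
theorem lch_He_up (H : LccBase F 𝔹 p E1) (hl : 1 ≤ p.ell) (hx : 0 < p.x) (hxU : p.x ≤ p.Ut F) (hl1 : p.lam1 F ≤ 1)
    (hamp : p.lam1 F * F.Ups (p.U F) * p.Ut F ^ 2 ≤ 1) (v v' : ℝ) (hvv : v ≤ v') (hv' : v' ≤ p.ell)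
    (hmono : p.xi F 𝔹 v ≤ p.xi F 𝔹 v') (hle : v / p.ell < 𝔹.pTop F.T → p.xi F 𝔹 v ≤ 𝔹.xiS F.T)
    (hge : 𝔹.pTop F.T ≤ v' / p.ell → 𝔹.xiS F.T ≤ p.xi F 𝔹 v') :
    p.He F 𝔹 v' - p.He F 𝔹 v ≤ lceCR 𝔹 F.T * (p.xi F 𝔹 v' - p.xi F 𝔹 v) + (v' - v) / p.x ^ 6 := by
  have hl0 : 0 < p.ell := lt_of_lt_of_le one_pos hl
  have hE := lcc_Eb_pos H
  have hx6 : 0 < p.x ^ 6 := by positivity
  have hCR : 0 < lceCR 𝔹 F.T := by
    unfold lceCR
    have := lcc_rs_pos (t := 1 - 𝔹.pTop F.T) (by linarith [H.pT1])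
    linarith
  have hH0 : |p.HePl F 𝔹 (𝔹.pTop F.T)| ≤ lceCR 𝔹 F.T * p.Eb F 𝔹 := by
    refine (lcc_HePl_top H).trans ?_
    have : lceCR 𝔹 F.T * p.lam1 F ≤ lceCR 𝔹 F.T * 1 := mul_le_mul_of_nonneg_left hl1 hCR.le
    rw [mul_one] at this
    exact mul_le_mul_of_nonneg_right this hE.le
  have hww : v / p.ell ≤ v' / p.ell := div_le_div_of_nonneg_right hvv hl0.le
  have hw1 : v' / p.ell ≤ 1 := (div_le_one hl0).2 hv'
  have hdv : ∀ w0 : ℝ, v / p.ell ≤ w0 → (v' / p.ell - w0) / p.x ^ 6 ≤ (v' - v) / p.x ^ 6 := by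
    intro w0 hw0
    refine div_le_div_of_nonneg_right ?_ hx6.le
    have : v' / p.ell - v / p.ell = (v' - v) / p.ell := by ring
    have h2 : (v' - v) / p.ell ≤ v' - v := div_le_self (by linarith) hl
    linarith
  have t1 : 0 ≤ lceCR 𝔹 F.T * (p.xi F 𝔹 v' - p.xi F 𝔹 v) := mul_nonneg hCR.le (by linarith)
  have t2 : 0 ≤ (v' - v) / p.x ^ 6 := div_nonneg (by linarith) hx6.le
  -- a ramp increment times `H_e(p_top)`
  have key : ∀ r : ℝ, 0 ≤ r → r ≤ (p.xi F 𝔹 v' - p.xi F 𝔹 v) / p.Eb F 𝔹 →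
      r * p.HePl F 𝔹 (𝔹.pTop F.T) ≤ lceCR 𝔹 F.T * (p.xi F 𝔹 v' - p.xi F 𝔹 v) := by
    intro r hr0 hr
    calc r * p.HePl F 𝔹 (𝔹.pTop F.T) ≤ r * |p.HePl F 𝔹 (𝔹.pTop F.T)| := mul_le_mul_of_nonneg_left (le_abs_self _) hr0
      _ ≤ (p.xi F 𝔹 v' - p.xi F 𝔹 v) / p.Eb F 𝔹 * (lceCR 𝔹 F.T * p.Eb F 𝔹) :=
          mul_le_mul hr hH0 (abs_nonneg _) (div_nonneg (by linarith) hE.le)
      _ = lceCR 𝔹 F.T * (p.xi F 𝔹 v' - p.xi F 𝔹 v) := by field_simp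
  rcases lt_or_ge (v / p.ell) (𝔹.pTop F.T) with c1 | c1
  · rcases lt_or_ge (v' / p.ell) (𝔹.pTop F.T) with c2 | c2
    · rw [lcc_He_act v' c2, lcc_He_act v c1, ← sub_mul]
      obtain ⟨r0, r1⟩ := lch_ramp_lip hE (𝔹.xiS F.T - p.Eb F 𝔹) _ _ hmono
      linarith [key _ r0 r1]
    · rw [lcc_He_pl v' c2, lcc_He_act v c1]
      have h1 := lch_HePl_up H hx hxU hamp _ _ le_rfl c2 hw1
      have h2 := hdv _ c1.le
      have hξ := hge c2
      -- `1 - r(ξ(v))`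
      have c3 := hle c1
      obtain ⟨r0, r1⟩ := lch_ramp_lip hE (𝔹.xiS F.T - p.Eb F 𝔹) _ _ c3
      have e1 : max 0 ((𝔹.xiS F.T - (𝔹.xiS F.T - p.Eb F 𝔹)) / p.Eb F 𝔹) = 1 := by
        rw [sub_sub_cancel, div_self hE.ne', max_eq_right zero_le_one]
      rw [e1] at r0 r1
      have r2 : (𝔹.xiS F.T - p.xi F 𝔹 v) / p.Eb F 𝔹 ≤ (p.xi F 𝔹 v' - p.xi F 𝔹 v) / p.Eb F 𝔹 :=
        div_le_div_of_nonneg_right (by linarith) hE.le
      have := key _ r0 (r1.trans r2)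
      nlinarith
  · rw [lcc_He_pl v' (c1.trans hww), lcc_He_pl v c1]
    have h1 := lch_HePl_up H hx hxU hamp _ _ c1 hww hw1
    have h2 := hdv _ le_rfl
    linarith

/-- **increments of the field clock above the mask**, from above -/
theorem lch_h_up (hp : p.Ok F) (hl1 : p.lam1 F ≤ 1) (hl0 : 0 ≤ p.lam1 F) {dK dE : ℝ} (v v' : ℝ) (hxv : p.x ≤ v) (hvv : v ≤ v')
    (hS : p.hS F 𝔹 v' - p.hS F 𝔹 v ≤ dK) (hdE : 0 ≤ dE) (hHe : p.chiE = 0 ∨ p.He F 𝔹 v' - p.He F 𝔹 v ≤ dE) :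
    p.h F 𝔹 v' - p.h F 𝔹 v ≤ dK + (v' - v) / p.x + (v' - v) + dE := by
  have hx := lce_x_pos hp.N2
  have hx1 := lce_x_lt_one hp.N2
  have hU0 := lce_U_pos hp
  have hU1 : p.U F ≤ 1 := lce_U_le_one
  have hm0 : p.x ≤ min v p.ell := le_min hxv (by linarith [hp.ell1])
  have hmm : min v p.ell ≤ min v' p.ell := min_le_min_right _ hvv
  have hmd : min v' p.ell - min v p.ell ≤ v' - v := by
    rcases le_total v' p.ell with a | a
    · rw [min_eq_left a, min_eq_left (hvv.trans a)]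
    · rw [min_eq_right a]
      rcases le_total v p.ell with b | b
      · rw [min_eq_left b]; linarith
      · rw [min_eq_right b]; linarith
  have hd0 : 0 ≤ v' - v := by linarith
  have hLo : p.Hlo F v' - p.Hlo F v ≤ (v' - v) / p.x := by
    unfold LlPt.Hlo
    generalize min v p.ell = m at *
    generalize min v' p.ell = m' at *
    have hm : 0 < m := lt_of_lt_of_le hx hm0
    have hm' : 0 < m' := lt_of_lt_of_le hm hmm
    have e1 : Real.log (m' / p.x) - Real.log (m / p.x) = Real.log (m' / m) := by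
      rw [Real.log_div hm'.ne' hx.ne', Real.log_div hm.ne' hx.ne', Real.log_div hm'.ne' hm.ne']; ring
    have e2 : Real.log (m' / m) ≤ m' / m - 1 := Real.log_le_sub_one_of_pos (div_pos hm' hm)
    have e3 : m' / m - 1 = (m' - m) / m := by field_simp
    have e4 : (m' - m) / m ≤ (m' - m) / p.x := div_le_div_of_nonneg_left (by linarith) hx hm0
    have e5 : (m' - m) / p.x ≤ (v' - v) / p.x := div_le_div_of_nonneg_right hmd hx.le
    have e6 : 0 ≤ Real.log (m' / m) := Real.log_nonneg ((one_le_div hm).2 hmm)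
    have hamp0 : 0 ≤ p.lam1 F * p.U F ^ 3 := mul_nonneg hl0 (pow_pos hU0 3).le
    have hamp1 : p.lam1 F * p.U F ^ 3 ≤ 1 := by
      have : p.U F ^ 3 ≤ 1 := pow_le_one₀ hU0.le hU1
      nlinarith [pow_pos hU0 3]
    rw [← mul_sub, e1]
    calc p.lam1 F * p.U F ^ 3 * Real.log (m' / m) ≤ 1 * Real.log (m' / m) := mul_le_mul_of_nonneg_right hamp1 e6
      _ ≤ (v' - v) / p.x := by linarith
  have hLin : 0 ≤ p.Hlin F v' - p.Hlin F v ∧ p.Hlin F v' - p.Hlin F v ≤ v' - v := by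
    unfold LlPt.Hlin
    generalize min v p.ell = m at *
    generalize min v' p.ell = m' at *
    have h1 : max 0 (m - 4 * F.vb) ≤ max 0 (m' - 4 * F.vb) := max_le_max_left 0 (by linarith)
    have h2 : max 0 (m' - 4 * F.vb) - max 0 (m - 4 * F.vb) ≤ m' - m := by
      rcases le_total 0 (m - 4 * F.vb) with a | a
      · rw [max_eq_right a, max_eq_right (by linarith : 0 ≤ m' - 4 * F.vb)]; linarith
      · rw [max_eq_left a]
        rcases le_total 0 (m' - 4 * F.vb) with b | b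
        · rw [max_eq_right b]; linarith
        · rw [max_eq_left b]; linarith
    have hx3 : 0 < p.x ^ 3 := by positivity
    have hx31 : p.x ^ 3 ≤ 1 := pow_le_one₀ hx.le hx1.le
    rw [← mul_sub]
    refine ⟨mul_nonneg hx3.le (by linarith), ?_⟩
    calc p.x ^ 3 * (max 0 (m' - 4 * F.vb) - max 0 (m - 4 * F.vb)) ≤ 1 * (max 0 (m' - 4 * F.vb) - max 0 (m - 4 * F.vb)) :=
          mul_le_mul_of_nonneg_right hx31 (by linarith)
      _ ≤ v' - v := by linarith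
  have hcl := hp.chiL
  have hce := hp.chiE
  have t1 : p.chiL * (p.Hlin F v' - p.Hlin F v) ≤ v' - v := by nlinarith [hcl.1, hcl.2, hLin.1, hLin.2]
  have t2 : p.chiE * (p.He F 𝔹 v' - p.He F 𝔹 v) ≤ dE := by
    rcases hHe with h | h
    · rw [h, zero_mul]; exact hdE
    · calc p.chiE * (p.He F 𝔹 v' - p.He F 𝔹 v) ≤ p.chiE * dE := mul_le_mul_of_nonneg_left h hce.1
        _ ≤ 1 * dE := mul_le_mul_of_nonneg_right hce.2 hdE
        _ = dE := one_mul _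
  unfold LlPt.h
  rw [if_neg (not_lt.2 (hxv.trans hvv)), if_neg (not_lt.2 hxv)]
  nlinarith

end pmod

section exitH2

variable {𝔹 : LlBase} {F : LlFix} {c C v0 CG CD cG : ℝ}

/-- `ξ(v) ≥ ξ_*` on the plateau, closed at the terminal mass -/
theorem lch_xi_ge {p : LlPt} {c4 v1 : ℝ} (hp : p.Ok F) (hsm : p.sm = false) (hpT : 𝔹.pTop F.T ∈ Ioo (0 : ℝ) 1)
    (hA : LpqProf (p.Aprof F 𝔹) (𝔹.xiS F.T) (p.a / p.ell)) (hr : LccRamp F 𝔹 p c4 v1) (v : ℝ) (hv0 : 0 < v) (hva : v ≤ p.a)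
    (hw : 𝔹.pTop F.T ≤ v / p.ell) : 𝔹.xiS F.T ≤ p.xi F 𝔹 v := by
  have hl : 0 < p.ell := lt_of_lt_of_le one_pos hp.ell1
  have ha : p.a = p.ell := lce_a_direct hsm
  rcases hva.lt_or_eq with h | h
  · exact hr.xi_ge v ⟨hv0, h⟩ hw
  · have e0 : p.ell * ((𝔹.pTop F.T + 1) / 2) / p.ell = (𝔹.pTop F.T + 1) / 2 := mul_div_cancel_left₀ _ hl.ne'
    have hu : p.ell * ((𝔹.pTop F.T + 1) / 2) ∈ Ioo 0 p.a := by
      rw [ha]
      constructor
      · have := hpT.1; positivity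
      · have : (𝔹.pTop F.T + 1) / 2 < 1 := by linarith [hpT.2]
        nlinarith
    have h1 := hr.xi_ge _ hu (by rw [e0]; linarith [hpT.2])
    refine h1.trans ?_
    unfold LlPt.xi
    exact lpq_inv_mono hA _ _ (div_le_div_of_nonneg_right (by rw [h]; exact hu.2.le) hl.le) (by rw [h])

/-- **(EQUI)** -/
theorem lch_LlEqui (h : LceAll 𝔹 F) : LlEqui 𝔹 F := by
  obtain ⟨c, C, v0, CG, CD, cG, hfix⟩ := h.fix
  obtain ⟨ca, Ca, ξ1, hkk, hz1⟩ := h.prof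
  obtain ⟨Na, hNa⟩ := lce_unif_all hfix h.edge
  obtain ⟨Nb, hNb⟩ := lce_unif_prof h.ok hkk hz1
  obtain ⟨Nc, hNc⟩ := lch_K_mod h.ok h.edge.base hkk hz1
  obtain ⟨Nd, hNd⟩ := lce_unif_x F F.U0 h.ok.U00
  refine ⟨max 2 (max (max Na Nb) (max Nc Nd)), fun N hN η hη => ?_⟩
  have hN2 : 2 ≤ N := (le_max_left _ _).trans hN
  have hNa' : Na ≤ N := (((le_max_left _ _).trans (le_max_left _ _)).trans (le_max_right _ _)).trans hN
  have hNb' : Nb ≤ N := (((le_max_right _ _).trans (le_max_left _ _)).trans (le_max_right _ _)).trans hN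
  have hNc' : Nc ≤ N := (((le_max_left _ _).trans (le_max_right _ _)).trans (le_max_right _ _)).trans hN
  have hNd' : Nd ≤ N := (((le_max_right _ _).trans (le_max_right _ _)).trans (le_max_right _ _)).trans hN
  have hκc : 0 < hfix.kap.c := hfix.c0
  have hCG : 1 ≤ hfix.kap.CG := hfix.CG1
  have hcb : 0 < F.cb := h.ok.cb0
  have hCR := lce_CR_pos h.edge
  obtain ⟨A, hAd⟩ : ∃ A, A = 1 + 1 / hfix.kap.c + lceCR 𝔹 F.T := ⟨_, rfl⟩
  have hic : 0 < 1 / hfix.kap.c := by positivity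
  have hA1 : 1 ≤ A := by rw [hAd]; linarith
  have hA0 : 0 < A := by linarith
  obtain ⟨xN, hxd⟩ : ∃ xN : ℝ, xN = (N : ℝ) ^ (-(1 / 6) : ℝ) := ⟨_, rfl⟩
  have hx0 : 0 < xN := by rw [hxd]; exact Real.rpow_pos_of_pos (by exact_mod_cast (by omega : 0 < N)) _
  obtain ⟨B, hBd⟩ : ∃ B, B = 6 * hfix.kap.CG * F.cb + 1 / xN + 1 + 1 / xN ^ 6 := ⟨_, rfl⟩
  have hB0 : 0 < B := by rw [hBd]; positivity
  obtain ⟨δK, hδK, HK⟩ := hNc N hNc' (η / (2 * A)) (by positivity)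
  refine ⟨min δK (η / (2 * B)), lt_min hδK (by positivity), fun p hp hpN v v' hv hvv hv' hd => ?_⟩
  obtain ⟨hR, hok, hs, -, hH, hr⟩ := hNa p hp (by rw [hpN]; exact hNa')
  obtain ⟨hprof, -, -⟩ := hNb p hp (by rw [hpN]; exact hNb')
  have hxU0 : p.x ≤ F.U0 := hNd p hp (by rw [hpN]; exact hNd')
  have hpx : p.x = xN := by unfold LlPt.x; rw [hpN, hxd]
  obtain ⟨hξ, hK⟩ := HK p hp hpN v v' hvv hv' (hd.trans (min_le_left _ _))
  obtain ⟨hq, hb, hS⟩ := lch_qbh h.ok h.edge.base hp hR hok hs v v' hv hvv hv'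
  have hK0 : 0 ≤ p.K F 𝔹 v' - p.K F 𝔹 v :=
    sub_nonneg.2 (lce_K_mono h.ok h.edge.base hp ⟨hv, hvv.trans hv'⟩ ⟨hv.trans hvv, hv'⟩ hvv)
  have hdv : v' - v ≤ η / (2 * B) := hd.trans (min_le_right _ _)
  have hdv0 : 0 ≤ v' - v := by linarith
  -- the two budgets
  have bA : ∀ k : ℝ, 0 ≤ k → k ≤ A → k * (η / (2 * A)) ≤ η / 2 := by
    intro k _ hk
    calc k * (η / (2 * A)) ≤ A * (η / (2 * A)) := mul_le_mul_of_nonneg_right hk (by positivity)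
      _ = η / 2 := by field_simp
  have bB : ∀ k : ℝ, 0 ≤ k → k ≤ B → k * (v' - v) ≤ η / 2 := by
    intro k hk0 hk
    calc k * (v' - v) ≤ B * (η / (2 * B)) := mul_le_mul hk hdv hdv0 hB0.le
      _ = η / 2 := by field_simp
  have hηA : η / (2 * A) ≤ η / 2 := by simpa using bA 1 zero_le_one hA1
  have i1 : 0 < 1 / xN := by positivity
  have i6 : 0 < 1 / xN ^ 6 := by positivity
  have iG : 0 < 6 * hfix.kap.CG * F.cb := by positivity
  refine ⟨by linarith, ?_, ?_, by linarith, ?_⟩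
  · have := bA (1 / hfix.kap.c) hic.le (by rw [hAd]; linarith)
    have h2 : 1 / hfix.kap.c * (p.K F 𝔹 v' - p.K F 𝔹 v) ≤ 1 / hfix.kap.c * (η / (2 * A)) := mul_le_mul_of_nonneg_left hK hic.le
    linarith
  · have := bB (6 * hfix.kap.CG * F.cb) iG.le (by rw [hBd]; linarith)
    linarith
  · rintro (hlt | hge)
    · unfold LlPt.h
      rw [if_pos hlt, if_pos (lt_of_le_of_lt hvv hlt)]
      linarith
    · have hl0 : 0 < p.lam := hok.lam0
      have hl1 : p.lam ≤ 1 := hok.lam1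
      have hlam1 : p.lam1 F ≤ 1 := Real.rpow_le_one hl0.le hl1 (by linarith [h.ok.eta0])
      have hlam0 : 0 ≤ p.lam1 F := (Real.rpow_pos_of_pos hl0 _).le
      have hx := lce_x_pos hp.N2
      have hdE : 0 ≤ lceCR 𝔹 F.T * (η / (2 * A)) + (v' - v) / p.x ^ 6 :=
        add_nonneg (by positivity) (div_nonneg hdv0 (by positivity))
      have hHe : p.chiE = 0 ∨ p.He F 𝔹 v' - p.He F 𝔹 v ≤ lceCR 𝔹 F.T * (η / (2 * A)) + (v' - v) / p.x ^ 6 := by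
        cases hsm : p.sm with
        | true => exact Or.inl (hp.sm_fin hsm).2
        | false =>
          right
          have ha : p.a = p.ell := lce_a_direct hsm
          have hell : 0 < p.ell := lt_of_lt_of_le one_pos hp.ell1
          rw [hsm] at hprof
          have hprof' : LpqProf (p.Aprof F 𝔹) (𝔹.xiS F.T) (p.a / p.ell) := by simpa using hprof
          have hxU : p.x ≤ p.Ut F := le_min hxU0 (lce_x_le_U hp h.ok.pS0.le h.ok.sS0.le)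
          have hUt1 : p.Ut F ≤ 1 := (min_le_right _ _).trans lce_U_le_one
          have hamp : p.lam1 F * F.Ups (p.U F) * p.Ut F ^ 2 ≤ 1 := by
            refine (lcc_amp_le hH).trans ?_
            have : p.Ut F ^ 2 ≤ 1 := pow_le_one₀ hH.Ut0.le hUt1
            nlinarith [pow_pos hH.Ut0 2]
          have w1 : v / p.ell ≤ v' / p.ell := div_le_div_of_nonneg_right hvv hell.le
          have w2 : v' / p.ell ≤ p.a / p.ell := div_le_div_of_nonneg_right hv' hell.le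
          have hmono : p.xi F 𝔹 v ≤ p.xi F 𝔹 v' := lpq_inv_mono hprof' _ _ w1 w2
          have hup := lch_He_up hH hp.ell1 hx hxU hlam1 hamp v v' hvv (ha ▸ hv') hmono
            (fun _ => lpq_inv_le_tau hprof' _ (w1.trans w2))
            (lch_xi_ge hp hsm h.edge.base.pTop_mem hprof' (hr hsm) v' (lt_of_lt_of_le hx (hge.trans hvv)) hv')
          have : lceCR 𝔹 F.T * (p.xi F 𝔹 v' - p.xi F 𝔹 v) ≤ lceCR 𝔹 F.T * (η / (2 * A)) := mul_le_mul_of_nonneg_left hξ hCR.le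
          linarith
      have hup := lch_h_up hp hlam1 hlam0 v v' hge hvv (hS.trans hK) hdE hHe
      have b1 := bA (1 + lceCR 𝔹 F.T) (by linarith) (by rw [hAd]; linarith)
      have b2 := bB (1 / xN + 1 + 1 / xN ^ 6) (by linarith) (by rw [hBd]; linarith)
      rw [hpx] at hup
      have e : η / (2 * A) + (v' - v) / xN + (v' - v) + (lceCR 𝔹 F.T * (η / (2 * A)) + (v' - v) / xN ^ 6)
          = (1 + lceCR 𝔹 F.T) * (η / (2 * A)) + (1 / xN + 1 + 1 / xN ^ 6) * (v' - v) := by ring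
      rw [e] at hup
      linarith

end exitH2

set_option linter.unusedSectionVars false

/-! ## 5. (K8): the scalar clock of the smoothed paths, global slopes      (helper202) -/

section k8abs

variable {A0 P : ℝ → ℝ} {ξs pT ca Ca ξ1 z0 LP lam om M J : ℝ}
  (hb : LkkBase A0 ξs pT ca Ca ξ1) (hP : LkkCut P z0 LP) (hz : z0 ≤ ξ1) (hl0 : 0 ≤ lam) (hl : lam * LP ≤ ca / 2)
  (ho : 0 < om) (hsup : ∀ ξ, 0 ≤ ξ → ξ < ξs → pT - A0 ξ ≤ Ca * (ξs - ξ)) (hM1 : ξs + om ≤ M)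

include hb hP hz hl0 hl ho hsup

/-- the bracket of `Â` is Lipschitz (no jump at `ξ_*`: `p_top` is the left limit of `A_0`) -/
theorem lch_br_hi (ξ ξ' : ℝ) (h0 : 0 ≤ ξ) (h1 : ξ ≤ ξ') :
    lkkBr A0 P lam ξs pT om ξ' - lkkBr A0 P lam ξs pT om ξ ≤ (Ca + ca / 2 + 1 / om) * (ξ' - ξ) := by
  have hp1 := hb.pT1
  have hp0 := hb.pT0
  have hca := hb.ca0
  have hCa := hb.Ca0
  have hio : 0 < 1 / om := by positivity
  have ramp : ∀ η η', ξs ≤ η → η ≤ η' →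
      (1 - pT) * min 1 ((η' - ξs) / om) - (1 - pT) * min 1 ((η - ξs) / om) ≤ 1 / om * (η' - η) := by
    intro η η' hη hηη
    have e : (η' - ξs) / om = (η - ξs) / om + 1 / om * (η' - η) := by field_simp; ring
    have hd : 0 ≤ 1 / om * (η' - η) := mul_nonneg hio.le (by linarith)
    have m1 : min 1 ((η' - ξs) / om) ≤ min 1 ((η - ξs) / om) + 1 / om * (η' - η) := by
      rw [e]
      rcases le_total 1 ((η - ξs) / om) with c | c
      · rw [min_eq_left c]; exact (min_le_left _ _).trans (by linarith)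
      · rw [min_eq_right c]; exact min_le_right _ _
    have m2 : min 1 ((η - ξs) / om) ≤ min 1 ((η' - ξs) / om) := min_le_min_left _ (by rw [e]; linarith)
    have m3 : (1 - pT) * (min 1 ((η' - ξs) / om) - min 1 ((η - ξs) / om)) ≤ 1 * (min 1 ((η' - ξs) / om) - min 1 ((η - ξs) / om)) :=
      mul_le_mul_of_nonneg_right (by linarith) (by linarith)
    linarith
  unfold lkkBr
  by_cases c' : ξ' < ξs
  · rw [if_pos c', if_pos (lt_of_le_of_lt h1 c')]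
    refine (lkk_dir_hi hb hP hz hl0 hl ξ ξ' h0 h1 c').trans ?_
    exact mul_le_mul_of_nonneg_right (by linarith) (by linarith)
  · rw [if_neg c']
    rw [not_lt] at c'
    by_cases c : ξ < ξs
    · rw [if_pos c]
      have a1 := hsup ξ h0 c
      have a2 : A0 ξ ≤ lkkDir A0 P lam ξ := by
        unfold lkkDir
        have := mul_nonneg hl0 (hP.nn ξ h0)
        linarith
      have a3 := ramp ξs ξ' le_rfl c'
      rw [sub_self, zero_div, min_eq_right zero_le_one, mul_zero, sub_zero] at a3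
      have b1 : Ca * (ξs - ξ) ≤ (Ca + ca / 2 + 1 / om) * (ξs - ξ) :=
        mul_le_mul_of_nonneg_right (by linarith) (by linarith)
      have b2 : 1 / om * (ξ' - ξs) ≤ (Ca + ca / 2 + 1 / om) * (ξ' - ξs) :=
        mul_le_mul_of_nonneg_right (by linarith) (by linarith)
      have b3 : (Ca + ca / 2 + 1 / om) * (ξ' - ξ) = (Ca + ca / 2 + 1 / om) * (ξs - ξ) + (Ca + ca / 2 + 1 / om) * (ξ' - ξs) := by ring
      linarith
    · rw [if_neg c]
      rw [not_lt] at c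
      have a3 := ramp ξ ξ' c h1
      have b2 : 1 / om * (ξ' - ξ) ≤ (Ca + ca / 2 + 1 / om) * (ξ' - ξ) :=
        mul_le_mul_of_nonneg_right (by linarith) (by linarith)
      linarith

include hM1

omit hsup in
/-- with the terminal mass `1 + ω M` there is no jump at `M` -/
theorem lch_sm_eq (ξ : ℝ) (h : ξ ≤ M) :
    lkkSm A0 P lam ξs pT om M (1 + om * M) ξ = lkkBr A0 P lam ξs pT om ξ + om * ξ := by
  unfold lkkSm
  by_cases c : M ≤ ξ
  · have e : ξ = M := le_antisymm h c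
    rw [if_pos c, e]
    unfold lkkBr
    rw [if_neg (not_lt.2 (by linarith)), min_eq_left ((one_le_div ho).2 (by linarith))]
    ring
  · rw [if_neg c]

theorem lch_sm_hi_glob (ξ ξ' : ℝ) (h0 : 0 ≤ ξ) (h1 : ξ ≤ ξ') (h2 : ξ' ≤ M) :
    lkkSm A0 P lam ξs pT om M (1 + om * M) ξ' - lkkSm A0 P lam ξs pT om M (1 + om * M) ξ
      ≤ (Ca + ca / 2 + 1 / om + om) * (ξ' - ξ) := by
  rw [lch_sm_eq hb hP hz hl0 hl ho hM1 ξ' h2, lch_sm_eq hb hP hz hl0 hl ho hM1 ξ (h1.trans h2)]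
  have := lch_br_hi hb hP hz hl0 hl ho hsup ξ ξ' h0 h1
  have e : (Ca + ca / 2 + 1 / om + om) * (ξ' - ξ) = (Ca + ca / 2 + 1 / om) * (ξ' - ξ) + (om * ξ' - om * ξ) := by ring
  linarith

/-- the slope of `Â` is `≤ C/ω` below `M`: the inverse grows at least at the rate `ω/C` up to the level `1 + ω M` -/
theorem lch_sm_inv_lower (hJ : 1 + om * M ≤ J) (w w' : ℝ) (hw0 : 0 ≤ w) (hww : w ≤ w') (hw' : w' ≤ 1 + om * M) :
    w' - w ≤ (Ca + ca / 2 + 1 / om + om) *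
      (llInv (lkkSm A0 P lam ξs pT om M J) w' - llInv (lkkSm A0 P lam ξs pT om M J) w) := by
  have hM : ξs < M := by linarith
  rw [lkk_sm_inv_congr A0 P lam ξs pT om M (J := 1 + om * M) (J' := J) w' hw' (hw'.trans hJ),
    lkk_sm_inv_congr A0 P lam ξs pT om M (J := 1 + om * M) (J' := J) w (hww.trans hw') ((hww.trans hw').trans hJ)]
  have hA := lkk_sm_prof hb hP hz hl0 hl ho hM (le_refl (1 + om * M))
  exact lpq_inv_lip_lower hA _ M (lch_sm_hi_glob hb hP hz hl0 hl ho hsup hM1) hA.tau w w'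
    (by rw [lkk_sm_zero hb hP hz hl0 hl ho hM (le_refl (1 + om * M))]; exact hw0) hww (by rw [hA.top M le_rfl]; exact hw')

omit hsup in
/-- above the level `1 + ω M` the inverse sits at `M` -/
theorem lch_sm_inv_top (hJ : 1 + om * M ≤ J) (w : ℝ) (h1 : 1 + om * M ≤ w) (h2 : w ≤ J) :
    llInv (lkkSm A0 P lam ξs pT om M J) w = M := by
  have hM : ξs < M := by linarith
  have hA := lkk_sm_prof hb hP hz hl0 hl ho hM hJ
  refine le_antisymm (lpq_inv_le _ w M hA.tau (by rw [hA.top M le_rfl]; exact h2)) ?_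
  by_contra hcon
  push Not at hcon
  have a1 := lpq_le_at_inv hA w h2
  have a3 := lkk_br_le_one hb hP hz hl0 hl ho _ (lpq_inv_nonneg (lkkSm A0 P lam ξs pT om M J) w)
  obtain ⟨y, hy⟩ : ∃ y, y = llInv (lkkSm A0 P lam ξs pT om M J) w := ⟨_, rfl⟩
  rw [← hy] at a1 a3 hcon
  have a2 : lkkSm A0 P lam ξs pT om M J y = lkkBr A0 P lam ξs pT om y + om * y := by
    unfold lkkSm; rw [if_neg (not_le.2 hcon)]
  have a4 : om * y < om * M := mul_lt_mul_of_pos_left hcon ho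
  linarith

end k8abs

/-- from the inverse to the physical clock -/
theorem lch_K_of_inv {A : ℝ → ℝ} {ell Ch v v' : ℝ} (hl1 : 1 ≤ ell) (hl3 : ell ^ 3 ≤ 2) (hCh : 0 < Ch) (hvv : v ≤ v')
    (a1 : v' / ell - v / ell ≤ Ch * (llInv A (v' / ell) - llInv A (v / ell))) :
    1 / (2 * Ch) * (v' - v) ≤ lkkK A ell v' - lkkK A ell v := by
  have hl : 0 < ell := by linarith
  unfold lkkK
  rw [← mul_sub, ← sub_div] at *
  set d := llInv A (v' / ell) - llInv A (v / ell) with hd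
  have a2 : v' - v ≤ Ch * d * ell := by rwa [div_le_iff₀ hl] at a1
  have hd0 : 0 ≤ d := by
    have : 0 ≤ Ch * d * ell := le_trans (by linarith) a2
    by_contra hneg
    rw [not_le] at hneg
    have : Ch * d * ell < 0 := mul_neg_of_neg_of_pos (mul_neg_of_pos_of_neg hCh hneg) hl
    linarith
  rw [one_div, inv_mul_eq_div, div_le_iff₀ (by positivity)]
  have e : (ell ^ 2)⁻¹ * d * (2 * Ch) = (2 * (Ch * d)) / ell ^ 2 := by field_simp
  rw [e, le_div_iff₀ (by positivity)]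
  have a3 : (v' - v) * ell ^ 2 ≤ Ch * d * ell * ell ^ 2 := mul_le_mul_of_nonneg_right a2 (by positivity)
  have a4 : Ch * d * ell * ell ^ 2 = Ch * d * ell ^ 3 := by ring
  have a5 : Ch * d * ell ^ 3 ≤ Ch * d * 2 := mul_le_mul_of_nonneg_left hl3 (by positivity)
  linarith

/-- `p_top` is the left limit of `A_0` at `ξ_*` -/
theorem lch_pTop_sup {𝔹 : LlBase} {T ca Ca ξ1 : ℝ} (hb : LkkBase (𝔹.A0 T) (𝔹.xiS T) (𝔹.pTop T) ca Ca ξ1) (ξ : ℝ) (h0 : 0 ≤ ξ)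
    (h1 : ξ < 𝔹.xiS T) : 𝔹.pTop T - 𝔹.A0 T ξ ≤ Ca * (𝔹.xiS T - ξ) := by
  have key : 𝔹.pTop T ≤ 𝔹.A0 T ξ + Ca * (𝔹.xiS T - ξ) := by
    unfold LlBase.pTop
    refine csSup_le ⟨_, ξ, h1, rfl⟩ ?_
    rintro y ⟨η, hη, rfl⟩
    have hη' : η < 𝔹.xiS T := hη
    have hnn : 0 ≤ Ca * (𝔹.xiS T - ξ) := mul_nonneg hb.Ca0 (by linarith)
    rcases le_total η ξ with c | c
    · have := hb.mono c
      linarith
    · have a1 := hb.hi ξ η h0 c hη'
      have a2 : Ca * (η - ξ) ≤ Ca * (𝔹.xiS T - ξ) := mul_le_mul_of_nonneg_left (by linarith) hb.Ca0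
      linarith
  linarith

/-- **(K8) at one smoothed point** -/
theorem lch_k8_point {p : LlPt} {F : LlFix} {𝔹 : LlBase} {ca Ca ξ1 LP ξ2 : ℝ}
    (hb : LkkBase (𝔹.A0 F.T) (𝔹.xiS F.T) (𝔹.pTop F.T) ca Ca ξ1) (hP : LkkCut F.P F.z0 LP) (hz : F.z0 ≤ ξ1)
    (hp : p.Ok F) (hl : p.lam * LP ≤ ca / 2) (hM : 𝔹.xiS F.T + 1 ≤ p.M) (hsm : p.sm = true)
    (h20 : 0 ≤ ξ2) (h2s : ξ2 < 𝔹.xiS F.T) :
    (∀ v v', 0 < v → v ≤ v' → v' ≤ 𝔹.A0 F.T ξ2 → 1 / (2 * (Ca + ca / 2 + 2)) * (v' - v) ≤ p.K F 𝔹 v' - p.K F 𝔹 v) ∧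
    (∀ v v', 0 < v → v ≤ v' → v' ≤ 4 → 1 / (2 * (Ca + ca / 2 + 2)) * p.om * (p.K F 𝔹 v' - p.K F 𝔹 v) ≤ v' - v) ∧
    (∀ v v', 0 < v → v ≤ v' → v' ≤ p.ell * (1 + p.om * p.M) →
      1 / (2 * (Ca + ca / 2 + 2)) * p.om * (v' - v) ≤ p.K F 𝔹 v' - p.K F 𝔹 v) ∧
    (∀ v, p.ell * (1 + p.om * p.M) ≤ v → v ≤ 4 → p.ell ^ 2 * p.K F 𝔹 v = p.M) := by
  have hl0 := (lkk_lam_pos hp).le
  have hl1 := hp.ell1
  have hl3 := lkk_ell3 hp
  have hell : 0 < p.ell := by linarith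
  have ho := lkk_om_pos hp.N2
  have ho1 := lkk_om_le_one hp.N2
  have hca := hb.ca0
  have hCa := hb.Ca0
  have hJ : 1 + p.om * p.M ≤ 4 / p.ell := by
    rw [le_div_iff₀ hell]
    have h1 := lkk_omM hp.N2
    have h2 := lkk_ell_le_two hp
    have h3 : 0 ≤ p.om * p.M := mul_nonneg ho.le (lkk_M_nonneg hp.N2)
    nlinarith
  have hM1 : 𝔹.xiS F.T + p.om ≤ p.M := by linarith
  have hM' : 𝔹.xiS F.T < p.M := by linarith
  have hsup := lch_pTop_sup hb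
  have eA : p.Aprof F 𝔹 = lkkSm (𝔹.A0 F.T) F.P p.lam (𝔹.xiS F.T) (𝔹.pTop F.T) p.om p.M (4 / p.ell) := by
    unfold LlPt.Aprof; rw [hsm]; rfl
  have hA := lkk_sm_prof hb hP hz hl0 hl ho hM' hJ
  have hA0 := lkk_sm_zero hb hP hz hl0 hl ho hM' hJ
  obtain ⟨C2, hC2⟩ : ∃ C2, C2 = Ca + ca / 2 + 2 := ⟨_, rfl⟩
  have hC20 : 0 < C2 := by rw [hC2]; linarith
  rw [← hC2, lkk_K_eq, eA]
  obtain ⟨A, hAd⟩ : ∃ A, A = lkkSm (𝔹.A0 F.T) F.P p.lam (𝔹.xiS F.T) (𝔹.pTop F.T) p.om p.M (4 / p.ell) := ⟨_, rfl⟩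
  rw [← hAd] at hA hA0 ⊢
  have hdiv : ∀ v v' : ℝ, v ≤ v' → v / p.ell ≤ v' / p.ell := fun v v' h => div_le_div_of_nonneg_right h hell.le
  refine ⟨?_, ?_, ?_, ?_⟩
  · intro v v' h0 hvv hv'
    refine lch_K_of_inv hl1 hl3 hC20 hvv ?_
    refine lpq_inv_lip_lower hA C2 ξ2 ?_ h20 _ _ (by rw [hA0]; positivity) (hdiv _ _ hvv) ?_
    · intro ξ ξ' g0 g1 g2
      rw [hAd]
      refine (lkk_sm_hi hb hP hz hl0 hl ho hM' hJ ξ ξ' g0 g1 (lt_of_le_of_lt g2 h2s)).trans ?_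
      exact mul_le_mul_of_nonneg_right (by rw [hC2]; linarith) (by linarith)
    · have a1 : v' / p.ell ≤ v' := div_le_self (h0.le.trans hvv) hl1
      have a2 : 𝔹.A0 F.T ξ2 ≤ A ξ2 := by
        rw [hAd, lkk_sm_low hb hP hz hl0 hl ho hM' hJ ξ2 h2s]
        unfold lkkDir
        have b1 := mul_nonneg hl0 (hP.nn ξ2 h20)
        have b2 := mul_nonneg ho.le h20
        linarith
      linarith
  · intro v v' h0 hvv hv'
    have a1 := lkk_sm_inv_lip_glob hb hP hz hl0 hl ho hM' hJ (v / p.ell) (v' / p.ell) (hdiv _ _ hvv) (hdiv _ _ hv')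
    rw [← hAd] at a1
    have a2 := lpq_inv_mono hA (v / p.ell) (v' / p.ell) (hdiv _ _ hvv) (hdiv _ _ hv')
    have a3 : v' / p.ell - v / p.ell ≤ v' - v := by
      rw [← sub_div]; exact div_le_self (by linarith) hl1
    have a4 : (p.ell ^ 2)⁻¹ ≤ 1 := inv_le_one_of_one_le₀ (one_le_pow₀ hl1)
    have a40 : 0 < (p.ell ^ 2)⁻¹ := by positivity
    unfold lkkK
    rw [← mul_sub]
    obtain ⟨d, hd⟩ : ∃ d, d = llInv A (v' / p.ell) - llInv A (v / p.ell) := ⟨_, rfl⟩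
    rw [← hd] at a1 ⊢
    have hd0 : 0 ≤ d := by rw [hd]; linarith
    have c1 : 1 / (2 * C2) ≤ 1 := by
      rw [div_le_one (by positivity)]
      rw [hC2]; linarith
    have c0 : 0 < 1 / (2 * C2) := by positivity
    calc 1 / (2 * C2) * p.om * ((p.ell ^ 2)⁻¹ * d) = (1 / (2 * C2) * (p.ell ^ 2)⁻¹) * (p.om * d) := by ring
      _ ≤ 1 * (p.om * d) := by
          refine mul_le_mul_of_nonneg_right ?_ (mul_nonneg ho.le hd0)
          calc 1 / (2 * C2) * (p.ell ^ 2)⁻¹ ≤ 1 * 1 := mul_le_mul c1 a4 a40.le zero_le_one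
            _ = 1 := one_mul 1
      _ ≤ v' - v := by linarith
  · intro v v' h0 hvv hv'
    have hw' : v' / p.ell ≤ 1 + p.om * p.M := by rw [div_le_iff₀ hell, mul_comm]; exact hv'
    have a1 := lch_sm_inv_lower hb hP hz hl0 hl ho hsup hM1 hJ (v / p.ell) (v' / p.ell) (by positivity) (hdiv _ _ hvv) hw'
    rw [← hAd] at a1
    have hL : 0 < Ca + ca / 2 + 1 / p.om + p.om := by positivity
    have a2 := lch_K_of_inv hl1 hl3 hL hvv a1
    refine le_trans (mul_le_mul_of_nonneg_right ?_ (by linarith)) a2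
    rw [div_mul_eq_mul_div, one_mul, div_le_div_iff₀ (by positivity) (by positivity)]
    have e : p.om * (2 * (Ca + ca / 2 + 1 / p.om + p.om)) = 2 * ((Ca + ca / 2) * p.om + 1 + p.om ^ 2) := by
      field_simp
    rw [e, hC2]
    have b1 : (Ca + ca / 2) * p.om ≤ (Ca + ca / 2) * 1 := mul_le_mul_of_nonneg_left ho1 (by linarith)
    have b2 : p.om ^ 2 ≤ 1 := pow_le_one₀ ho.le ho1
    linarith
  · intro v h1 h2
    have hw : 1 + p.om * p.M ≤ v / p.ell := by rw [le_div_iff₀ hell, mul_comm]; exact h1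
    have a1 := lch_sm_inv_top hb hP hz hl0 hl ho hM1 hJ (v / p.ell) hw (hdiv _ _ h2)
    rw [← hAd] at a1
    unfold lkkK
    rw [a1, ← mul_assoc, mul_inv_cancel₀ (by positivity), one_mul]

/-- **(K8), EXIT** (the body is `LlK8 𝔹 F` of helper163, unfolded): the threshold on `v_b` depends on the base profile only -/
theorem lch_k8 (𝔹 : LlBase) (T : ℝ) (hB : LlBaseProfile 𝔹 T) :
    ∃ zb : ℝ, 0 < zb ∧ ∀ F : LlFix, LceAll 𝔹 F → F.T = T → F.vb ≤ zb →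
      ∃ c v1 : ℝ, 0 < c ∧ 2 * F.vb < v1 ∧ v1 ≤ 1 ∧ LlUnif F fun p => p.sm = true →
        (∀ v v', 0 < v → v ≤ v' → v' ≤ v1 → c * (v' - v) ≤ p.K F 𝔹 v' - p.K F 𝔹 v) ∧
        (∀ v v', 0 < v → v ≤ v' → v' ≤ 4 → c * p.om * (p.K F 𝔹 v' - p.K F 𝔹 v) ≤ v' - v) ∧
        (∀ v v', 0 < v → v ≤ v' → v' ≤ p.ell * (1 + p.om * p.M) → c * p.om * (v' - v) ≤ p.K F 𝔹 v' - p.K F 𝔹 v) ∧
        (∀ v, p.ell * (1 + p.om * p.M) ≤ v → v ≤ 4 → p.ell ^ 2 * p.K F 𝔹 v = p.M) := by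
  have hxs := hB.xi_pos
  have hA2 : 0 < 𝔹.A0 T (𝔹.xiS T / 2) := by
    have := hB.strict (a := 0) (b := 𝔹.xiS T / 2) ⟨le_rfl, hxs.le⟩ ⟨by linarith, by linarith⟩ (by linarith)
    rwa [hB.zero 0 le_rfl] at this
  refine ⟨min (1 / 4) (𝔹.A0 T (𝔹.xiS T / 2) / 4), lt_min (by norm_num) (by linarith), ?_⟩
  intro F h hT hvb
  subst hT
  obtain ⟨ca, Ca, ξ1, hb, hz⟩ := h.prof
  have hca := hb.ca0
  have hCa := hb.Ca0
  have hvb0 := h.ok.vb0
  have hv1 : F.vb ≤ 1 / 4 := hvb.trans (min_le_left _ _)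
  have hv2 : F.vb ≤ 𝔹.A0 F.T (𝔹.xiS F.T / 2) / 4 := hvb.trans (min_le_right _ _)
  refine ⟨1 / (2 * (Ca + ca / 2 + 2)), min 1 (𝔹.A0 F.T (𝔹.xiS F.T / 2)), by positivity, lt_min (by linarith) (by linarith),
    min_le_left _ _, ?_⟩
  obtain ⟨LP, hP⟩ := lkk_cut F h.ok
  obtain ⟨N1, hN1⟩ := lkk_lam_small h.ok (ε := ca / 2 / (LP + 1)) (by have := hP.LP0; positivity)
  obtain ⟨N2, hN2⟩ := lkk_M_large (𝔹.xiS F.T + 1)
  refine ⟨max N1 N2, fun p hp hN hsm => ?_⟩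
  have hl : p.lam * LP ≤ ca / 2 := by
    have a1 := hN1 p hp ((le_max_left _ _).trans hN)
    have hLP := hP.LP0
    have a2 : p.lam * (LP + 1) ≤ ca / 2 := by rwa [le_div_iff₀ (by linarith)] at a1
    have := lkk_lam_pos hp
    nlinarith
  obtain ⟨k1, k2, k3, k4⟩ := lch_k8_point (ξ2 := 𝔹.xiS F.T / 2) hb hP hz hp hl (hN2 p hp.N2 ((le_max_right _ _).trans hN)).le hsm
    (by linarith) (by linarith)
  exact ⟨fun v v' h0 hvv hv' => k1 v v' h0 hvv (hv'.trans (min_le_right _ _)), k2, k3, k4⟩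

/-! ## (SLOPE)      (helper258; ask of LL 08, helper78 `L8yClk`; 03 l.425-437) -/

section exitH3

variable {𝔹 : LlBase} {F : LlFix}

/-- `H_lo` is continuous at positive masses -/
theorem lch_Hlo_cont {p : LlPt} (hp : p.Ok F) {v : ℝ} (hv : 0 < v) : ContinuousAt (p.Hlo F) v := by
  have hx := lce_x_pos hp.N2
  have hell : 0 < p.ell := lt_of_lt_of_le one_pos hp.ell1
  unfold LlPt.Hlo
  refine continuousAt_const.mul (ContinuousAt.log ?_ (div_pos (lt_min hv hell) hx).ne')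
  exact ((continuous_id.min continuous_const).div_const _).continuousAt

/-- **(SLOPE)**: `h - H_lo` is nondecreasing above the mask (the ramp of `H_e` is paid by `h_*`).      The statement IS the text of the field `slope : LlSlope 𝔹 F` of `LlSec3` (next batch of 253/272): `slope := lch_LlSlope h`. -/
theorem lch_LlSlope (h : LceAll 𝔹 F) :
    LlUnif F fun p => ∀ v v' : ℝ, p.x ≤ v → v ≤ v' → v' ≤ p.a → p.Hlo F v' - p.Hlo F v ≤ p.h F 𝔹 v' - p.h F 𝔹 v := by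
  obtain ⟨c, C, v0, CG, CD, cG, hfix⟩ := h.fix
  refine ((lce_unif_all hfix h.edge).and h.admEnd).mono ?_
  rintro p hp ⟨⟨_, hok, hs, _, hH, hr⟩, _, hend, _⟩
  have hx := lce_x_pos hp.N2
  have hc4 := lce_C4_pos hok hs
  have hinc : ∀ v ∈ Ioo 0 p.a, ∀ v' ∈ Ioo 0 p.a, v ≤ v' →
      lceC4 hfix.kap F.cb * p.lam * v ^ 2 * (p.K F 𝔹 v' - p.K F 𝔹 v) ≤ p.hS F 𝔹 v' - p.hS F 𝔹 v := by
    intro v hv v' hv' hvv
    refine le_trans ?_ (lce_P4 hok hs v v' hv hv' hvv)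
    have hK : 0 ≤ p.K F 𝔹 v' - p.K F 𝔹 v := sub_nonneg.2 (hok.K_mono hv hv' hvv)
    refine mul_le_mul_of_nonneg_right ?_ hK
    have : 0 ≤ lceC4 hfix.kap F.cb * p.lam * p.U F ^ 2 := mul_nonneg (mul_nonneg hc4.le (lce_lam_pos hp).le) (sq_nonneg _)
    nlinarith
  have hE : p.chiE = 0 ∨ (LccBase F 𝔹 p (lceE1 (𝔹.xiS F.T)) ∧ LccRamp F 𝔹 p (lceC4 hfix.kap F.cb) (lceV1 𝔹 F.T)) := by
    cases hsm : p.sm
    · exact Or.inr ⟨hH, hr hsm⟩
    · exact Or.inl (hp.sm_fin hsm).2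
  -- inside the open interval
  have key : ∀ v v' : ℝ, p.x ≤ v → v ≤ v' → v' < p.a → p.Hlo F v' - p.Hlo F v ≤ p.h F 𝔹 v' - p.h F 𝔹 v := by
    intro v v' hxv hvv hv'
    have hv : v ∈ Ioo 0 p.a := ⟨lt_of_lt_of_le hx hxv, lt_of_le_of_lt hvv hv'⟩
    have hv2 : v' ∈ Ioo 0 p.a := ⟨lt_of_lt_of_le hv.1 hvv, hv'⟩
    have e1 := lcc_edge_paid hp hc4.le hinc hok.K_mono hE v v' hv hv2 hvv
    have e3 : p.chiL * p.Hlin F v ≤ p.chiL * p.Hlin F v' := by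
      refine mul_le_mul_of_nonneg_left ?_ hp.chiL.1
      unfold LlPt.Hlin
      refine mul_le_mul_of_nonneg_left ?_ (by positivity)
      exact max_le_max le_rfl (sub_le_sub_right (min_le_min_right _ hvv) _)
    unfold LlPt.h
    rw [if_neg (not_lt.2 hxv), if_neg (not_lt.2 (hxv.trans hvv))]
    nlinarith
  intro v v' hxv hvv hv'
  rcases lt_or_eq_of_le hv' with h1 | h1
  · exact key v v' hxv hvv h1
  · subst h1
    rcases lt_or_eq_of_le hvv with h2 | h2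
    · have ha0 : 0 < p.a := lt_of_lt_of_le hx (hxv.trans hvv)
      have t1 : Tendsto (fun y => p.Hlo F y - p.Hlo F v) (𝓝[<] p.a) (𝓝 (p.Hlo F p.a - p.Hlo F v)) :=
        ((lch_Hlo_cont hp ha0).tendsto.mono_left nhdsWithin_le_nhds).sub_const _
      have t2 : Tendsto (fun y => p.h F 𝔹 y - p.h F 𝔹 v) (𝓝[<] p.a) (𝓝 (p.h F 𝔹 p.a - p.h F 𝔹 v)) := hend.sub_const _
      refine le_of_tendsto_of_tendsto t1 t2 ?_
      filter_upwards [Ioo_mem_nhdsLT h2] with y hy using key v y hxv hy.1.le hy.2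
    · rw [h2]; simp

end exitH3

end Claimed.Agent.R286
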