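import Claimed.Agent.R286.Defs.GhBasic
import Claimed.Agent.R286.Defs.SkLem
import Claimed.Agent.R286.LL.PathsKit283
import Claimed.Agent.R286.Exit.ClkLim
import Claimed.Agent.R286.Exit.PSysInst

/-!
# Row 286 (S0533), LL Section 3, Prop. paths:switch: THE HARD FIELD JUMP, pressure side      (owner helper283, ordered by helper272; prefix `lph_`)

TEX[LL:paths:switch] 03-paths.tex l.560-610 (`f_hard = f_direct + (l - 4)(b_post/4 + h_post/2) + log 2 (1/l - 1/4) + O(e^{-c'M})`).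

* `lph_T_cmp`, `lph_F_cmp`   "every earlier power mean preserves a uniform additive comparison" (bases, terminal masses and tails may differ; only masses `≥ 0` are used).
* `lph_last`                 the last stage = the orthant bound `lpk_orth_log` after the matrix drivers are integrated out (`gh_l_T_congr`).
* `lph_hard_F`, `lph_hard_Pr`, `lph_hard_Pr_tilt`, `lph_hard_psi`      FINITE LEVEL on the names of `Defs/Sk.lean`; the error lies in `[l⁻¹ log Φ(l √D), 0]`, uniformly in `n`, `P`, `z`.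
* `lphExt l D c`, `lph_chain`, `lph_hard_CPr_of`, `lph_hard_CPr`, `lphTl`, `lph_hard_Cpsi`      PATH LEVEL on the names of `Defs/Clk.lean` (`skCPr`, net of finite chains): on every chain which contains `ghPosA l`
  the chain of the hard extension has the clocks of (chain of the direct clocks) ++ [(l,0,D)] (Lemma G `sk_stp_pr_clk` of `Brg/Step.lean`); then the limit.   `_of`: the two limits are hypotheses; otherwise `exit_clk_lim_pr`.
* `lph_jump_skPf`            = the body of the contract `LlHardJump 𝔹` (`LL/PathsSwB.lean`, helper281) for `𝔹.f = skPf` (canonical pressure of `Exit/PSysInst.lean`: clocks read on `(0,a)` only).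
  WARNING: with `𝔹.f = skCPr` the contract is FALSE (`skCPr` reads the value of the clock AT `v = a`, `IsClock` does not see it).
-/

set_option autoImplicit false

namespace Claimed.Agent.R286

open MeasureTheory ProbabilityTheory Filter Topology Set Function

section gen

variable {S ι : Type} [Fintype S] [Fintype ι]

/-- one stage keeps a uniform additive comparison -/
theorem lph_T_cmp {F G : (S → ℝ) → ℝ} (hF : GhNice F) (hG : GhNice G) (l : GhLv S ι) (hm : 0 ≤ l.m) {c : ℝ}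
    (h : ∀ z, F z ≤ G z + c) (z : S → ℝ) :
    ghT (ghStd ι) l.m (fun ξ => F (z + l.inc ξ)) ≤ ghT (ghStd ι) l.m (fun ξ => G (z + l.inc ξ)) + c := by
  unfold ghT
  by_cases h0 : l.m = 0
  · rw [if_pos h0, if_pos h0]
    have : ∫ ξ, (G (z + l.inc ξ) + c) ∂ghStd ι = ∫ ξ, G (z + l.inc ξ) ∂ghStd ι + c := by
      rw [integral_add (hG.integrable l z) (integrable_const c)]; simp
    rw [← this]
    exact integral_mono (hF.integrable l z) ((hG.integrable l z).add (integrable_const c)) fun ξ => h _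
  · rw [if_neg h0, if_neg h0]
    have hm' : 0 < l.m := lt_of_le_of_ne hm (Ne.symm h0)
    have h1 : ∫ ξ, Real.exp (l.m * F (z + l.inc ξ)) ∂ghStd ι ≤ Real.exp (l.m * c) * ∫ ξ, Real.exp (l.m * G (z + l.inc ξ)) ∂ghStd ι := by
      rw [← integral_const_mul]
      refine integral_mono (hF.integrable_exp l _ z) ((hG.integrable_exp l _ z).const_mul _) fun ξ => ?_
      simp only
      rw [← Real.exp_add]
      apply Real.exp_le_exp.2
      nlinarith [h (z + l.inc ξ)]
    have h2 := Real.log_le_log (hF.integral_exp_pos l _ z) h1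
    rw [Real.log_mul (Real.exp_pos _).ne' (hG.integral_exp_pos l _ z).ne', Real.log_exp] at h2
    have := mul_le_mul_of_nonneg_left h2 (inv_pos.2 hm').le
    rw [mul_add, ← mul_assoc, inv_mul_cancel₀ h0, one_mul] at this
    linarith

omit [Fintype S] [Fintype ι] in
theorem lph_nn_append {X Y : List (GhLv S ι)} (hX : GhNn X) (hY : GhNn Y) : GhNn (X ++ Y) := by
  intro l hl
  rcases List.mem_append.1 hl with h | h
  · exact hX l h
  · exact hY l h

/-- **a uniform additive comparison of two continuations is kept by all earlier stages** (bases, terminal masses and tails may differ) -/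
theorem lph_F_cmp {B B' : GhB S} (hB : B.Ok) (hB' : B'.Ok) {X Y : List (GhLv S ι)} (hX : GhNn X) (hY : GhNn Y) {c : ℝ}
    (h : ∀ z, ghF B X z ≤ ghF B' Y z + c) : ∀ pre : List (GhLv S ι), GhNn pre → ∀ z, ghF B (pre ++ X) z ≤ ghF B' (pre ++ Y) z + c
  | [], _, z => h z
  | l :: pre, hp, z => by
      have ih := lph_F_cmp hB hB' hX hY h pre hp.tail
      exact lph_T_cmp (gh_b_nice hB (lph_nn_append hp.tail hX)) (gh_b_nice hB' (lph_nn_append hp.tail hY)) l hp.head ih z

end gen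

/-! ## the last stage -/

/-- the field level on the field drivers alone -/
noncomputable def lphLv (n : ℕ) (l D : ℝ) : GhLv (SkCfg n) (Fin n) := ⟨l, fun σ i => Real.sqrt D * skSp σ i⟩

theorem lph_eqns_cite : True := by
  have := @lphLv.eq_1
  trivial

theorem lph_cov (n : ℕ) (l D : ℝ) (σ τ : SkCfg n) : ((⟨l, 0, D⟩ : SkInc).lv n).cov σ τ = (lphLv n l D).cov σ τ := by
  simp [GhLv.cov, SkInc.lv, ghLvF, lphLv, skPhi]

theorem lph_sp_sg {n : ℕ} (σ : SkCfg n) (i : Fin n) : skSp σ i = lpkSg (σ i) := rfl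

theorem lph_base_ok (n : ℕ) {a : ℝ} (ha : 0 < a) : (skBase n a).Ok := by
  refine ⟨fun s => by simp [skBase, ghUnif], ?_, ha⟩
  simp [skBase, ghUnif]

theorem lph_F0_Z (n : ℕ) {a : ℝ} (ha : 0 < a) (l D : ℝ) (z : SkCfg n → ℝ) (ξ : Fin n → ℝ) :
    ∑ σ, (skBase n a).w σ * Real.exp ((skBase n a).a * (z + (lphLv n l D).inc ξ) σ)
      = lpkZ (fun σ => Real.exp (a * (z σ - n * Real.log 2 / a))) (a * √D) ξ := by
  unfold lpkZ
  refine Finset.sum_congr rfl fun σ _ => ?_
  have hw : (skBase n a).w σ = Real.exp (-(n * Real.log 2)) := by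
    simp only [skBase, ghUnif, Fintype.card_pi, Fintype.card_bool, Finset.prod_const, Finset.card_univ, Fintype.card_fin]
    rw [Real.exp_neg, mul_comm, Real.exp_mul, Real.exp_log (by norm_num)]
    simp
  have ha' : (skBase n a).a = a := rfl
  rw [hw, ha', ← Real.exp_add, ← Real.exp_add]
  congr 1
  have e1 : (z + (lphLv n l D).inc ξ) σ = z σ + √D * lpkDot ξ σ := by
    simp only [Pi.add_apply, GhLv.inc, lphLv, lpkDot, Finset.mul_sum, lph_sp_sg]
    congr 1
    exact Finset.sum_congr rfl fun i _ => by ring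
  rw [e1]
  field_simp
  ring


theorem lph_w (n : ℕ) (a : ℝ) (σ : SkCfg n) : (skBase n a).w σ = Real.exp (-(n * Real.log 2)) := by
  simp only [skBase, ghUnif, Fintype.card_pi, Fintype.card_bool, Finset.prod_const, Finset.card_univ, Fintype.card_fin]
  rw [Real.exp_neg, mul_comm, Real.exp_mul, Real.exp_log (by norm_num)]
  simp

/-- the last stage as an orthant integral -/
theorem lph_last_eq (n : ℕ) {a l : ℝ} (ha : 0 < a) (hl : l ≠ 0) (D : ℝ) (z : SkCfg n → ℝ) :
    ghF (skBase n a) [(⟨l, 0, D⟩ : SkInc).lv n] z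
      = l⁻¹ * Real.log (∫ ξ, lpkZ (fun σ => Real.exp (a * (z σ - n * Real.log 2 / a))) (a * √D) ξ ^ (l / a) ∂(lpkGa (Fin n))) := by
  have hB := lph_base_ok n ha
  have e1 : ghF (skBase n a) [(⟨l, 0, D⟩ : SkInc).lv n] z
      = ghT (ghStd (Fin n)) l (fun ξ => ghF0 (skBase n a) (z + (lphLv n l D).inc ξ)) :=
    gh_l_T_congr ((⟨l, 0, D⟩ : SkInc).lv n) (lphLv n l D) (lph_cov n l D) l (fun y => ghF0 (skBase n a) (z + y))
      ((gh_b_nice0 hB).continuous.measurable.comp (measurable_const.add measurable_id))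
  rw [e1]
  unfold ghT
  rw [if_neg hl]
  congr 2
  refine integral_congr_ae (Filter.Eventually.of_forall fun ξ => ?_)
  simp only
  have hpos := gh_b_Z_pos hB (z + (lphLv n l D).inc ξ)
  unfold ghF0
  rw [lph_F0_Z n ha] at hpos ⊢
  rw [Real.rpow_def_of_pos hpos]
  congr 1
  have : (skBase n a).a = a := rfl
  rw [this]
  field_simp

theorem lph_log_sum (n : ℕ) {a l : ℝ} (ha : 0 < a) (hl : 0 < l) (z : SkCfg n → ℝ) :
    Real.log (∑ σ, Real.exp (l / a * a * (z σ - n * Real.log 2 / a))) = l * ghF0 (skBase n l) z + n * Real.log 2 * (1 - l / a) := by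
  have hB := lph_base_ok n hl
  have hpos := gh_b_Z_pos hB z
  have e : ∑ σ, Real.exp (l / a * a * (z σ - n * Real.log 2 / a))
      = Real.exp (n * Real.log 2 * (1 - l / a)) * ∑ σ, (skBase n l).w σ * Real.exp ((skBase n l).a * z σ) := by
    rw [Finset.mul_sum]
    refine Finset.sum_congr rfl fun σ _ => ?_
    rw [lph_w, ← Real.exp_add, ← Real.exp_add]
    congr 1
    have : (skBase n l).a = l := rfl
    rw [this]
    field_simp
    ring
  rw [e, Real.log_mul (Real.exp_pos _).ne' hpos.ne', Real.log_exp]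
  unfold ghF0
  have : (skBase n l).a = l := rfl
  rw [this, ← mul_assoc, mul_inv_cancel₀ hl.ne', one_mul]
  ring

/-- **the last stage**: a field jump of variance `D` at mass `l` in front of the terminal mass `a ≥ l` -/
theorem lph_last (n : ℕ) {a l D : ℝ} (hl : 0 < l) (hla : l ≤ a) (hD : 0 ≤ D) (z : SkCfg n → ℝ) :
    ghF (skBase n a) [(⟨l, 0, D⟩ : SkInc).lv n] z
      ≤ ghF (skBase n l) ([] : List (GhLv (SkCfg n) (SkDr n))) z + n * (Real.log 2 * (l⁻¹ - a⁻¹) + l * D / 2) ∧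
    ghF (skBase n l) ([] : List (GhLv (SkCfg n) (SkDr n))) z
      ≤ ghF (skBase n a) [(⟨l, 0, D⟩ : SkInc).lv n] z
        + -(n * (Real.log 2 * (l⁻¹ - a⁻¹) + l * D / 2) + n * (l⁻¹ * Real.log (lpkPhi (l * √D)))) := by
  have ha : 0 < a := hl.trans_le hla
  obtain ⟨hU, hL⟩ := lpk_orth_log (ι := Fin n) (fun σ => z σ - n * Real.log 2 / a) a (a * √D) (l / a) (div_pos hl ha) ((div_le_one ha).2 hla)
  rw [lph_log_sum n ha hl] at hU hL
  have eC : l / a * (a * √D) = l * √D := by field_simp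
  have eq2 : (l * √D) ^ 2 = l ^ 2 * D := by rw [mul_pow, Real.sq_sqrt hD]
  rw [eC, eq2] at hU hL
  simp only [Fintype.card_fin] at hU hL
  rw [lph_last_eq n ha hl.ne']
  have hli : 0 < l⁻¹ := inv_pos.2 hl
  have hU' := mul_le_mul_of_nonneg_left hU hli.le
  have hL' := mul_le_mul_of_nonneg_left hL hli.le
  have e0 : ghF (skBase n l) ([] : List (GhLv (SkCfg n) (SkDr n))) z = ghF0 (skBase n l) z := rfl
  rw [e0]
  have e3 : l⁻¹ * (l * ghF0 (skBase n l) z + n * Real.log 2 * (1 - l / a) + n * (l ^ 2 * D / 2))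
      = ghF0 (skBase n l) z + n * (Real.log 2 * (l⁻¹ - a⁻¹) + l * D / 2) := by
    field_simp
    ring
  constructor
  · rw [e3] at hU'
    exact hU'
  · rw [mul_add, e3] at hL'
    linarith

/-! ## the finite-level hard jump -/

theorem lph_nn_lvs (n : ℕ) {P : SkStp} (hP : ∀ e ∈ P, 0 ≤ e.m) : GhNn (skLvs n P) := by
  intro l hl
  obtain ⟨e, he, rfl⟩ := List.mem_map.1 hl
  exact hP e he

/-- **finite-level hard jump, continuations** (any revealed field `z`; the masses of `P` are only required to be `≥ 0`) -/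
theorem lph_hard_F (n : ℕ) {a l D : ℝ} (hl : 0 < l) (hla : l ≤ a) (hD : 0 ≤ D) (P : SkStp) (hP : ∀ e ∈ P, 0 ≤ e.m) (z : SkCfg n → ℝ) :
    skF n a (P ++ [⟨l, 0, D⟩]) z ≤ skF n l P z + n * (Real.log 2 * (l⁻¹ - a⁻¹) + l * D / 2) ∧
    skF n l P z + n * (Real.log 2 * (l⁻¹ - a⁻¹) + l * D / 2) + n * (l⁻¹ * Real.log (lpkPhi (l * √D))) ≤ skF n a (P ++ [⟨l, 0, D⟩]) z := by
  have ha : 0 < a := hl.trans_le hla
  have hBa := lph_base_ok n ha
  have hBl := lph_base_ok n hl
  have hX : GhNn [(⟨l, 0, D⟩ : SkInc).lv n] := by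
    intro x hx
    rw [List.mem_singleton] at hx
    rw [hx]
    exact hl.le
  have hN : GhNn ([] : List (GhLv (SkCfg n) (SkDr n))) := gh_b_nn_nil
  have h1 := lph_F_cmp hBa hBl hX hN (fun z => (lph_last n hl hla hD z).1) (skLvs n P) (lph_nn_lvs n hP) z
  have h2 := lph_F_cmp hBl hBa hN hX (fun z => (lph_last n hl hla hD z).2) (skLvs n P) (lph_nn_lvs n hP) z
  have e1 : skF n a (P ++ [⟨l, 0, D⟩]) z = ghF (skBase n a) (skLvs n P ++ [(⟨l, 0, D⟩ : SkInc).lv n]) z := by
    unfold skF skLvs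
    rw [List.map_append]
    rfl
  have e2 : skF n l P z = ghF (skBase n l) (skLvs n P ++ []) z := by
    unfold skF
    rw [List.append_nil]
  rw [e1, e2]
  constructor
  · exact h1
  · linarith

theorem lph_tot_B (P : SkStp) (l D : ℝ) : skTotB (P ++ [⟨l, 0, D⟩]) = skTotB P := by
  simp [skTotB]

theorem lph_tot_H (P : SkStp) (l D : ℝ) : skTotH (P ++ [⟨l, 0, D⟩]) = skTotH P + D := by
  simp [skTotH]

/-- **FINITE-LEVEL HARD JUMP** (LL Prop. paths:switch, 03 l.500-530), self corrected pressures: terminal mass `a`, the field clock jumps by `D` at the mass `l ≤ a`,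
nothing is revealed on `(l, a)`. -/
theorem lph_hard_Pr (n : ℕ) (hn : 0 < n) {a l D : ℝ} (hl : 0 < l) (hla : l ≤ a) (hD : 0 ≤ D) (P : SkStp) (hP : ∀ e ∈ P, 0 ≤ e.m) :
    ∃ e : ℝ, l⁻¹ * Real.log (lpkPhi (l * √D)) ≤ e ∧ e ≤ 0 ∧
      skPr n a (P ++ [⟨l, 0, D⟩]) = skPr n l P + (l - a) * (skTotB P / 4 + (skTotH P + D) / 2) + Real.log 2 * (l⁻¹ - a⁻¹) + e := by
  obtain ⟨hU, hL⟩ := lph_hard_F n hl hla hD P hP 0
  have hn' : (0 : ℝ) < n := Nat.cast_pos.2 hn
  refine ⟨(skF n a (P ++ [⟨l, 0, D⟩]) 0 - skF n l P 0) / n - (Real.log 2 * (l⁻¹ - a⁻¹) + l * D / 2), ?_, ?_, ?_⟩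
  · rw [le_sub_iff_add_le, le_div_iff₀ hn']
    nlinarith
  · rw [sub_nonpos, div_le_iff₀ hn']
    nlinarith
  · unfold skPr
    rw [lph_tot_B, lph_tot_H]
    field_simp
    ring

theorem lph_tilt_append (s : ℝ) {P : SkStp} (hP : P ≠ []) (Q : SkStp) : skTilt s (P ++ Q) = skTilt s P ++ Q := by
  cases P with
  | nil => exact absurd rfl hP
  | cons e P => rfl

theorem lph_tilt_tot (s : ℝ) (P : SkStp) : skTotB (skTilt s P) = skTotB P ∧ skTotH (skTilt s P) = skTotH P := by
  cases P with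
  | nil => exact ⟨rfl, rfl⟩
  | cons e P => exact ⟨rfl, rfl⟩

theorem lph_tilt_nn {s : ℝ} (hs : 0 ≤ s) {P : SkStp} (hP : ∀ e ∈ P, 0 ≤ e.m) : ∀ e ∈ skTilt s P, 0 ≤ e.m := by
  cases P with
  | nil => exact hP
  | cons e0 P =>
    intro e he
    rcases List.mem_cons.1 he with h | h
    · rw [h]; exact hs
    · exact hP e (List.mem_cons_of_mem _ h)

/-- the same with the first revelation tilted to the mass `s ≥ 0` -/
theorem lph_hard_Pr_tilt (n : ℕ) (hn : 0 < n) {a l D s : ℝ} (hl : 0 < l) (hla : l ≤ a) (hD : 0 ≤ D) (hs : 0 ≤ s) (P : SkStp) (hP0 : P ≠ [])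
    (hP : ∀ e ∈ P, 0 ≤ e.m) :
    ∃ e : ℝ, l⁻¹ * Real.log (lpkPhi (l * √D)) ≤ e ∧ e ≤ 0 ∧
      skPr n a (skTilt s (P ++ [⟨l, 0, D⟩])) = skPr n l (skTilt s P) + (l - a) * (skTotB P / 4 + (skTotH P + D) / 2) + Real.log 2 * (l⁻¹ - a⁻¹) + e := by
  have h := lph_hard_Pr n hn hl hla hD (skTilt s P) (lph_tilt_nn hs hP)
  rw [(lph_tilt_tot s P).1, (lph_tilt_tot s P).2] at h
  rw [lph_tilt_append s hP0]
  exact h

/-- consequence for the Laplace test `ψ_n(s)` of (A4): the hard jump changes it by at most `- l⁻¹ log Φ(l √D)` -/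
theorem lph_hard_psi (n : ℕ) (hn : 0 < n) {a l D s : ℝ} (hl : 0 < l) (hla : l ≤ a) (hD : 0 ≤ D) (hs : 0 ≤ s) (P : SkStp) (hP0 : P ≠ [])
    (hP : ∀ e ∈ P, 0 ≤ e.m) :
    |skPsi n a s (P ++ [⟨l, 0, D⟩]) - skPsi n l s P| ≤ -(l⁻¹ * Real.log (lpkPhi (l * √D))) := by
  obtain ⟨e1, h1, h1', E1⟩ := lph_hard_Pr n hn hl hla hD P hP
  obtain ⟨e2, h2, h2', E2⟩ := lph_hard_Pr_tilt n hn hl hla hD hs P hP0 hP
  unfold skPsi
  rw [E1, E2, abs_le]
  constructor <;> linarith

/-! ## the path level (`Defs/Clk.lean`) -/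

/-- the hard extension of a clock: frozen after the mass `l`, with an extra jump `D` at `l` -/
noncomputable def lphExt (l D : ℝ) (c : ℝ → ℝ) (u : ℝ) : ℝ := if u < l then c u else c l + D

theorem lph_eqns_cite2 : True := by
  have := @lphExt.eq_1
  trivial

theorem lph_ext_clk {l a D : ℝ} (hl : 0 < l) (hD : 0 ≤ D) {c : ℝ → ℝ} (hc : GhClk1 l c) : GhClk1 a (lphExt l D c) := by
  constructor
  · intro x hx y hy hxy
    unfold lphExt
    by_cases h1 : x < l
    · rw [if_pos h1]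
      by_cases h2 : y < l
      · rw [if_pos h2]
        exact hc.1 ⟨hx.1, h1.le⟩ ⟨hy.1, h2.le⟩ hxy
      · rw [if_neg h2]
        have := hc.1 ⟨hx.1, h1.le⟩ ⟨hl.le, le_rfl⟩ h1.le
        linarith
    · rw [if_neg h1, if_neg (fun h2 => h1 (lt_of_le_of_lt hxy h2))]
  · unfold lphExt
    rw [if_pos hl]
    exact hc.2

theorem lph_ext_clamp {l a D : ℝ} (hla : l ≤ a) (c : ℝ → ℝ) {v : ℝ} (hv : v < l) : ghClamp a (lphExt l D c) v = ghClamp l c v := by
  unfold ghClamp
  by_cases h0 : v < 0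
  · rw [if_pos h0, if_pos h0]
  · rw [if_neg h0, if_neg h0, min_eq_left (hv.le.trans hla), min_eq_left hv.le]
    unfold lphExt
    rw [if_pos hv]

/-- below the mass `l` the extension is read like the clock itself -/
theorem lph_ext_at {l a D : ℝ} (hl : 0 < l) (hla : l ≤ a) {c : ℝ → ℝ} (hc : GhClk1 l c) {p : GhPos} (hp : p.u < l) :
    ghAt a (lphExt l D c) p = ghAt l c p := by
  have hm := gh_os_clamp_mono hl.le hc
  have hev : ∀ᶠ v in 𝓝 p.u, ghClamp l c v = ghClamp a (lphExt l D c) v := by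
    filter_upwards [Iio_mem_nhds hp] with v hv using (lph_ext_clamp hla c hv).symm
  have h1 : leftLim (ghClamp a (lphExt l D c)) p.u = leftLim (ghClamp l c) p.u :=
    leftLim_eq_of_tendsto ((hm.tendsto_leftLim p.u).congr' (hev.filter_mono nhdsWithin_le_nhds))
  have h2 : rightLim (ghClamp a (lphExt l D c)) p.u = rightLim (ghClamp l c) p.u :=
    rightLim_eq_of_tendsto ((hm.tendsto_rightLim p.u).congr' (hev.filter_mono nhdsWithin_le_nhds))
  unfold ghAt
  rw [h1, h2]

theorem lph_ext_at_l {l a D : ℝ} (hl : 0 < l) (hla : l ≤ a) (c : ℝ → ℝ) : ghAt a (lphExt l D c) (ghPosA l) = c l + D := by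
  have e : lphExt l D c l = c l + D := by unfold lphExt; rw [if_neg (lt_irrefl l)]
  rw [← e]
  refine sk_stp_at_posA ?_ hl.le hla
  refine (tendsto_const_nhds (x := lphExt l D c l)).congr' ?_
  filter_upwards [self_mem_nhdsWithin] with v hv
  unfold lphExt
  rw [if_neg (lt_irrefl l), if_neg (not_lt.2 (le_of_lt hv))]

theorem lph_ext_top {l a D : ℝ} (hla : l ≤ a) (c : ℝ → ℝ) : lphExt l D c a = c l + D := by
  unfold lphExt
  rw [if_neg (not_lt.2 hla)]

/-- the largest value of `g` on the positions of mass `≤ u` -/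
theorem lph_max (g : GhPos → ℝ) (b0 u : ℝ) : ∀ ps : List GhPos, (∀ p ∈ ps, p.u ≤ u → b0 ≤ g p) →
    ∃ V, (∀ p ∈ ps, p.u ≤ u → g p ≤ V) ∧ ((∃ p ∈ ps, p.u ≤ u ∧ g p = V) ∨ b0 = V)
  | [], _ => ⟨b0, fun _ h => absurd h List.not_mem_nil, Or.inr rfl⟩
  | p :: ps, h => by
      obtain ⟨V, h1, h2⟩ := lph_max g b0 u ps fun q hq => h q (List.mem_cons_of_mem _ hq)
      by_cases hu : p.u ≤ u
      · rcases le_total (g p) V with hV | hV
        · refine ⟨V, fun q hq hqu => ?_, ?_⟩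
          · rcases List.mem_cons.1 hq with rfl | hq
            · exact hV
            · exact h1 q hq hqu
          · rcases h2 with ⟨q, hq, hqu, hqV⟩ | h2
            · exact Or.inl ⟨q, List.mem_cons_of_mem _ hq, hqu, hqV⟩
            · exact Or.inr h2
        · refine ⟨g p, fun q hq hqu => ?_, Or.inl ⟨p, List.mem_cons_self, hu, rfl⟩⟩
          rcases List.mem_cons.1 hq with rfl | hq
          · exact le_rfl
          · exact (h1 q hq hqu).trans hV
      · refine ⟨V, fun q hq hqu => ?_, ?_⟩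
        · rcases List.mem_cons.1 hq with rfl | hq
          · exact absurd hqu hu
          · exact h1 q hq hqu
        · rcases h2 with ⟨q, hq, hqu, hqV⟩ | h2
          · exact Or.inl ⟨q, List.mem_cons_of_mem _ hq, hqu, hqV⟩
          · exact Or.inr h2

/-- **the clock of the chain of the hard extension** = the clock of the chain of the direct clock + the jump `D` at `l` -/
theorem lph_clk_ext {l a D : ℝ} (hl : 0 < l) (hla : l ≤ a) (hD : 0 ≤ D) {c : ℝ → ℝ} (hc : GhClk1 l c) (o o' : ℝ → ℝ) (F : Finset GhPos)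
    (hF : ghPosA l ∈ F) (u : ℝ) :
    skClkB (skCStp a (lphExt l D c) o 0 0 (ghPs a F)) u = skClkB (skCStp l c o' 0 0 (ghPs l F)) u + (if l ≤ u then D else 0) := by
  have ha : 0 ≤ a := hl.le.trans hla
  have hcE : GhClk1 a (lphExt l D c) := lph_ext_clk hl hD hc
  have hokA : ∀ p ∈ ghPs a F, p.Ok a := fun p hp => (gh_os_ps_mem.1 hp).2
  have hokL : ∀ p ∈ ghPs l F, p.Ok l := fun p hp => (gh_os_ps_mem.1 hp).2
  by_cases hu : l ≤ u
  · rw [if_pos hu]
    have h1 := sk_stp_chain_clkB ha o hcE u (c l + D) (ghPs a F) 0 0 (gh_os_ps_pairwise a F) hokA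
      (fun p hp _ => ⟨gh_os_at_nonneg ha hcE (hokA p hp).2.2.1, by
        have := gh_os_at_le_top ha hcE (hokA p hp)
        rwa [gh_os_at_top a _ ha, lph_ext_top hla] at this⟩)
      (Or.inl ⟨ghPosA l, gh_os_ps_mem.2 ⟨hF, gh_os_posA_ok hl.le hla⟩, hu, lph_ext_at_l hl hla c⟩)
    have h2 := sk_stp_chain_clkB hl.le o' hc u (c l) (ghPs l F) 0 0 (gh_os_ps_pairwise l F) hokL
      (fun p hp _ => ⟨gh_os_at_nonneg hl.le hc (hokL p hp).2.2.1, by
        have := gh_os_at_le_top hl.le hc (hokL p hp)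
        rwa [gh_os_at_top l _ hl.le] at this⟩)
      (Or.inl ⟨ghPosA l, gh_os_ps_mem.2 ⟨hF, gh_os_posA_ok hl.le le_rfl⟩, hu, gh_os_at_top l c hl.le⟩)
    rw [h1, h2]
    ring
  · rw [if_neg hu, add_zero]
    have hu' : u < l := not_le.1 hu
    obtain ⟨V, hV1, hV2⟩ := lph_max (ghAt l c) 0 u (ghPs l F) fun p hp _ => gh_os_at_nonneg hl.le hc (hokL p hp).2.2.1
    have h2 := sk_stp_chain_clkB hl.le o' hc u V (ghPs l F) 0 0 (gh_os_ps_pairwise l F) hokL
      (fun p hp hpu => ⟨gh_os_at_nonneg hl.le hc (hokL p hp).2.2.1, hV1 p hp hpu⟩) hV2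
    have hmem : ∀ p, p.u ≤ u → (p ∈ ghPs a F ↔ p ∈ ghPs l F) := by
      intro p hpu
      rw [gh_os_ps_mem, gh_os_ps_mem]
      constructor
      · rintro ⟨h1, h2⟩
        exact ⟨h1, h2.1, (hpu.trans hu'.le), h2.2.2⟩
      · rintro ⟨h1, h2⟩
        exact ⟨h1, h2.1, h2.2.1.trans hla, h2.2.2⟩
    have h1 := sk_stp_chain_clkB ha o hcE u V (ghPs a F) 0 0 (gh_os_ps_pairwise a F) hokA
      (fun p hp hpu => by
        rw [lph_ext_at hl hla hc (lt_of_le_of_lt hpu hu')]
        have hp' := (hmem p hpu).1 hp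
        exact ⟨gh_os_at_nonneg hl.le hc (hokL p hp').2.2.1, hV1 p hp' hpu⟩)
      (by
        rcases hV2 with ⟨p, hp, hpu, hpV⟩ | h
        · exact Or.inl ⟨p, (hmem p hpu).2 hp, hpu, by rw [lph_ext_at hl hla hc (lt_of_le_of_lt hpu hu'), hpV]⟩
        · exact Or.inr h)
    rw [h1, h2]


theorem lph_clk_top {l : ℝ} (hl : 0 < l) {c : ℝ → ℝ} (hc : GhClk1 l c) (o' : ℝ → ℝ) (F : Finset GhPos) (hF : ghPosA l ∈ F) {u : ℝ} (hu : l ≤ u) :
    skClkB (skCStp l c o' 0 0 (ghPs l F)) u = c l := by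
  have hokL : ∀ p ∈ ghPs l F, p.Ok l := fun p hp => (gh_os_ps_mem.1 hp).2
  have h2 := sk_stp_chain_clkB hl.le o' hc u (c l) (ghPs l F) 0 0 (gh_os_ps_pairwise l F) hokL
    (fun p hp _ => ⟨gh_os_at_nonneg hl.le hc (hokL p hp).2.2.1, by
      have := gh_os_at_le_top hl.le hc (hokL p hp)
      rwa [gh_os_at_top l _ hl.le] at this⟩)
    (Or.inl ⟨ghPosA l, gh_os_ps_mem.2 ⟨hF, gh_os_posA_ok hl.le le_rfl⟩, hu, gh_os_at_top l c hl.le⟩)
  rw [h2, sub_zero]

theorem lph_clkB_append (P : SkStp) (e : SkInc) (u : ℝ) : skClkB (P ++ [e]) u = skClkB P u + (if e.m ≤ u then e.db else 0) := by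
  induction P with
  | nil => rw [List.nil_append, sk_stp_clkB_cons, sk_stp_clkB_nil]; ring
  | cons f P ih => rw [List.cons_append, sk_stp_clkB_cons, ih, sk_stp_clkB_cons]; ring

theorem lph_clkH_append (P : SkStp) (e : SkInc) (u : ℝ) : skClkH (P ++ [e]) u = skClkH P u + (if e.m ≤ u then e.dh else 0) := by
  induction P with
  | nil => rw [List.nil_append, sk_stp_clkH_cons, sk_stp_clkH_nil]; ring
  | cons f P ih => rw [List.cons_append, sk_stp_clkH_cons, ih, sk_stp_clkH_cons]; ring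

/-- on every chain which contains the position after the jump at `l`: the chain of the hard extension is the chain of the direct clocks followed by the hard jump -/
theorem lph_chain (n : ℕ) {l a D : ℝ} (hl : 0 < l) (hla : l ≤ a) (hD : 0 ≤ D) {b h : ℝ → ℝ} (hbh : CkAdm l b h) (F : Finset GhPos)
    (hF : ghPosA l ∈ F) :
    skPr n a (skCStp a (lphExt l 0 b) (lphExt l D h) 0 0 (ghPs a F)) = skPr n a (skCStp l b h 0 0 (ghPs l F) ++ [⟨l, 0, D⟩]) ∧
    skTotB (skCStp l b h 0 0 (ghPs l F)) = b l ∧ skTotH (skCStp l b h 0 0 (ghPs l F)) = h l ∧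
    ∀ e ∈ skCStp l b h 0 0 (ghPs l F), 0 ≤ e.m := by
  have ha : 0 < a := hl.trans_le hla
  have hbE : GhClk1 a (lphExt l 0 b) := lph_ext_clk hl le_rfl hbh.1
  have hhE : GhClk1 a (lphExt l D h) := lph_ext_clk hl hD hbh.2
  have hokA : ∀ p ∈ ghPs a F, p.Ok a := fun p hp => (gh_os_ps_mem.1 hp).2
  have hokL : ∀ p ∈ ghPs l F, p.Ok l := fun p hp => (gh_os_ps_mem.1 hp).2
  have hA : SkAdm a (skCStp a (lphExt l 0 b) (lphExt l D h) 0 0 (ghPs a F)) :=
    sk_stp_chain_adm ha.le hbE hhE _ 0 0 (gh_os_ps_pairwise a F) hokA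
      (fun p hp => gh_os_at_nonneg ha.le hbE (hokA p hp).2.2.1) (fun p hp => gh_os_at_nonneg ha.le hhE (hokA p hp).2.2.1)
  have hL : SkAdm l (skCStp l b h 0 0 (ghPs l F)) :=
    sk_stp_chain_adm hl.le hbh.1 hbh.2 _ 0 0 (gh_os_ps_pairwise l F) hokL
      (fun p hp => gh_os_at_nonneg hl.le hbh.1 (hokL p hp).2.2.1) (fun p hp => gh_os_at_nonneg hl.le hbh.2 (hokL p hp).2.2.1)
  have hLa : SkAdm a (skCStp l b h 0 0 (ghPs l F) ++ [⟨l, 0, D⟩]) := by
    constructor
    · rw [List.pairwise_append]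
      refine ⟨hL.1, List.pairwise_singleton _ _, fun e he f hf => ?_⟩
      rw [List.mem_singleton] at hf
      rw [hf]
      exact (hL.2 e he).2.1
    · intro e he
      rcases List.mem_append.1 he with he | he
      · have := hL.2 e he
        exact ⟨this.1, this.2.1.trans hla, this.2.2⟩
      · rw [List.mem_singleton] at he
        rw [he]
        exact ⟨hl.le, hla, le_rfl, hD⟩
  have hB : skClkB (skCStp a (lphExt l 0 b) (lphExt l D h) 0 0 (ghPs a F)) = skClkB (skCStp l b h 0 0 (ghPs l F) ++ [⟨l, 0, D⟩]) := by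
    funext u
    rw [lph_clk_ext hl hla le_rfl hbh.1 (lphExt l D h) h F hF u, lph_clkB_append]
  have hH : skClkH (skCStp a (lphExt l 0 b) (lphExt l D h) 0 0 (ghPs a F)) = skClkH (skCStp l b h 0 0 (ghPs l F) ++ [⟨l, 0, D⟩]) := by
    funext u
    rw [sk_stp_chain_swap, lph_clk_ext hl hla hD hbh.2 (lphExt l 0 b) b F hF u, lph_clkH_append, sk_stp_chain_swap]
  have hab := sk_stp_clk_above (skCStp l b h 0 0 (ghPs l F)) l fun e he => (hL.2 e he).2.1
  refine ⟨sk_stp_pr_clk n ha hA hLa hB hH, ?_, ?_, fun e he => (hL.2 e he).1⟩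
  · rw [← hab.1, lph_clk_top hl hbh.1 h F hF le_rfl]
  · rw [← hab.2, sk_stp_chain_swap, lph_clk_top hl hbh.2 b F hF le_rfl]

/-- **THE HARD JUMP AT THE PATH LEVEL**, from the existence of the two limits.   `b, h` = clocks on `[0,l]` (what they have at `l` is revealed at the mass `l`);
the extension to `[0,a]` freezes `b`, lets `h` jump by `D` at the mass `l`, and reveals nothing on `(l,a]`. -/
theorem lph_hard_CPr_of (n : ℕ) (hn : 0 < n) {l a D : ℝ} (hl : 0 < l) (hla : l ≤ a) (hD : 0 ≤ D) {b h : ℝ → ℝ} (hbh : CkAdm l b h)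
    (h1 : GhLimEx l fun ps => skPr n l (skCStp l b h 0 0 ps))
    (h2 : GhLimEx a fun ps => skPr n a (skCStp a (lphExt l 0 b) (lphExt l D h) 0 0 ps)) :
    ∃ e : ℝ, l⁻¹ * Real.log (lpkPhi (l * √D)) ≤ e ∧ e ≤ 0 ∧
      skCPr n a (lphExt l 0 b) (lphExt l D h) = skCPr n l b h + (l - a) * (b l / 4 + (h l + D) / 2) + Real.log 2 * (l⁻¹ - a⁻¹) + e := by
  have ht : Tendsto (fun F : Finset GhPos => skPr n a (skCStp a (lphExt l 0 b) (lphExt l D h) 0 0 (ghPs a F))
      - skPr n l (skCStp l b h 0 0 (ghPs l F)) - ((l - a) * (b l / 4 + (h l + D) / 2) + Real.log 2 * (l⁻¹ - a⁻¹))) atTop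
      (𝓝 (skCPr n a (lphExt l 0 b) (lphExt l D h) - skCPr n l b h - ((l - a) * (b l / 4 + (h l + D) / 2) + Real.log 2 * (l⁻¹ - a⁻¹)))) :=
    (Tendsto.sub h2 h1).sub_const _
  have hev : ∀ᶠ F : Finset GhPos in atTop, l⁻¹ * Real.log (lpkPhi (l * √D)) ≤ skPr n a (skCStp a (lphExt l 0 b) (lphExt l D h) 0 0 (ghPs a F))
      - skPr n l (skCStp l b h 0 0 (ghPs l F)) - ((l - a) * (b l / 4 + (h l + D) / 2) + Real.log 2 * (l⁻¹ - a⁻¹)) ∧
      skPr n a (skCStp a (lphExt l 0 b) (lphExt l D h) 0 0 (ghPs a F))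
      - skPr n l (skCStp l b h 0 0 (ghPs l F)) - ((l - a) * (b l / 4 + (h l + D) / 2) + Real.log 2 * (l⁻¹ - a⁻¹)) ≤ 0 := by
    filter_upwards [eventually_ge_atTop ({ghPosA l} : Finset GhPos)] with F hF
    obtain ⟨e1, e2, e3, e4⟩ := lph_chain n hl hla hD hbh F (hF (Finset.mem_singleton_self _))
    obtain ⟨e, he1, he2, he3⟩ := lph_hard_Pr n hn hl hla hD _ e4
    rw [e1, he3, e2, e3]
    constructor <;> linarith
  refine ⟨_, ge_of_tendsto ht (hev.mono fun F hF => hF.1), le_of_tendsto ht (hev.mono fun F hF => hF.2), ?_⟩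
  ring

/-- the same, the limits being provided by the exit `ClkLim` of the bridge -/
theorem lph_hard_CPr (n : ℕ) (hn : 0 < n) {l a D : ℝ} (hl : 0 < l) (hla : l ≤ a) (hD : 0 ≤ D) {b h : ℝ → ℝ} (hbh : CkAdm l b h) :
    CkAdm a (lphExt l 0 b) (lphExt l D h) ∧
    ∃ e : ℝ, l⁻¹ * Real.log (lpkPhi (l * √D)) ≤ e ∧ e ≤ 0 ∧
      skCPr n a (lphExt l 0 b) (lphExt l D h) = skCPr n l b h + (l - a) * (b l / 4 + (h l + D) / 2) + Real.log 2 * (l⁻¹ - a⁻¹) + e := by
  have hE : CkAdm a (lphExt l 0 b) (lphExt l D h) := ⟨lph_ext_clk hl le_rfl hbh.1, lph_ext_clk hl hD hbh.2⟩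
  exact ⟨hE, lph_hard_CPr_of n hn hl hla hD hbh (exit_clk_lim_pr hn hl hbh 0).2 (exit_clk_lim_pr hn (hl.trans_le hla) hE 0).2⟩


/-! ## the tilted initial revelation at the path level -/

/-- the matrix clock whose initial revelation is moved to the mass `s` (LL (A4); `LlBase.psi` of `PathsDefs`) -/
noncomputable def lphTl (s : ℝ) (b : ℝ → ℝ) (v : ℝ) : ℝ := if s ≤ v then b v else 0

theorem lph_eqns_cite3 : True := by
  have := @lphTl.eq_1
  trivial

theorem lph_tl_clk {l s : ℝ} {b : ℝ → ℝ} (hb : GhClk1 l b) : GhClk1 l (lphTl s b) := by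
  constructor
  · intro x hx y hy hxy
    unfold lphTl
    by_cases h1 : s ≤ x
    · rw [if_pos h1, if_pos (h1.trans hxy)]
      exact hb.1 hx hy hxy
    · rw [if_neg h1]
      by_cases h2 : s ≤ y
      · rw [if_pos h2]
        exact hb.2.trans (hb.1 ⟨le_rfl, hx.1.trans hx.2⟩ hy hy.1)
      · rw [if_neg h2]
  · unfold lphTl
    split_ifs
    · exact hb.2
    · exact le_rfl

theorem lph_tl_ext {l s : ℝ} (hsl : s ≤ l) (b : ℝ → ℝ) : lphExt l 0 (lphTl s b) = lphTl s (lphExt l 0 b) := by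
  funext v
  unfold lphExt lphTl
  by_cases h1 : v < l
  · simp only [if_pos h1]
  · simp only [if_neg h1, if_pos hsl, if_pos (hsl.trans (not_lt.1 h1))]

/-- **the Laplace test `ψ(s)` is not changed by the hard jump**, up to `- l⁻¹ log Φ(l √D)` (the explicit constants cancel) -/
theorem lph_hard_Cpsi (n : ℕ) (hn : 0 < n) {l a D s : ℝ} (hl : 0 < l) (hla : l ≤ a) (hD : 0 ≤ D) (hsl : s ≤ l) {b h : ℝ → ℝ} (hbh : CkAdm l b h) :
    |(skCPr n a (lphTl s (lphExt l 0 b)) (lphExt l D h) - skCPr n a (lphExt l 0 b) (lphExt l D h))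
        - (skCPr n l (lphTl s b) h - skCPr n l b h)| ≤ -(l⁻¹ * Real.log (lpkPhi (l * √D))) := by
  obtain ⟨-, e1, h1, h1', E1⟩ := lph_hard_CPr n hn hl hla hD hbh
  obtain ⟨-, e2, h2, h2', E2⟩ := lph_hard_CPr n hn hl hla hD (b := lphTl s b) ⟨lph_tl_clk hbh.1, hbh.2⟩
  rw [lph_tl_ext hsl] at E2
  have e : lphTl s b l = b l := by unfold lphTl; rw [if_pos hsl]
  rw [e] at E2
  rw [E1, E2, abs_le]
  constructor <;> linarith

/-! ## the contract `LlHardJump` (block SW of helper281) on the canonical pressure `skPf` of `Exit/PSysInst.lean` -/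

theorem lph_sup_eq {l cT : ℝ} (hl : 0 < l) {c : ℝ → ℝ} (hc : IsClock l c) (ht : Tendsto c (𝓝[<] l) (𝓝 cT)) : sSup (c '' Ioo 0 l) = cT :=
  tendsto_nhds_unique (hc.mono.tendsto_nhdsWithin_Ioo_left (nonempty_Ioo.2 hl) (psi_bdd hc)) ht

theorem lph_ext_l {l cT : ℝ} (hl : 0 < l) {c : ℝ → ℝ} (hc : IsClock l c) (ht : Tendsto c (𝓝[<] l) (𝓝 cT)) : clkExt l c l = cT := by
  unfold clkExt
  rw [if_neg (not_le.2 hl), if_neg (lt_irrefl l), lph_sup_eq hl hc ht]

/-- the extension "`c` below `l`, `cP` from `l` on", read on `(0,a)`, is the hard extension of `c` read on `(0,l)` -/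
theorem lph_ext_eq {l a cT cP : ℝ} (hl : 0 < l) (hla : l < a) {c : ℝ → ℝ} (hc : IsClock l c) (ht : Tendsto c (𝓝[<] l) (𝓝 cT)) (hP : cT ≤ cP) :
    clkExt a (fun v => if v < l then c v else cP) = lphExt l (cP - cT) (clkExt l c) := by
  have hsup := lph_sup_eq hl hc ht
  funext u
  unfold lphExt
  rw [lph_ext_l hl hc ht]
  by_cases h0 : u ≤ 0
  · rw [if_pos (lt_of_le_of_lt h0 hl)]
    unfold clkExt
    rw [if_pos h0, if_pos h0]
  · by_cases h1 : u < l
    · rw [if_pos h1]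
      unfold clkExt
      rw [if_neg h0, if_neg h0, if_pos (h1.trans hla), if_pos h1]
      simp only [if_pos h1]
    · rw [if_neg h1]
      unfold clkExt
      rw [if_neg h0]
      by_cases h2 : u < a
      · rw [if_pos h2]
        simp only [if_neg h1]
        ring
      · rw [if_neg h2]
        have : sSup ((fun v => if v < l then c v else cP) '' Ioo 0 a) = cP := by
          apply le_antisymm
          · apply csSup_le (Set.Nonempty.image _ (nonempty_Ioo.2 (hl.trans hla)))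
            rintro _ ⟨v, hv, rfl⟩
            simp only
            by_cases hvl : v < l
            · rw [if_pos hvl]
              refine le_trans ?_ hP
              rw [← hsup]
              exact le_csSup (psi_bdd hc) ⟨v, ⟨hv.1, hvl⟩, rfl⟩
            · rw [if_neg hvl]
          · refine le_csSup ⟨cP, ?_⟩ ⟨(l + a) / 2, ⟨by linarith, by linarith⟩, by simp only; rw [if_neg (by linarith)]⟩
            rintro _ ⟨v, hv, rfl⟩
            simp only
            by_cases hvl : v < l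
            · rw [if_pos hvl]
              refine le_trans ?_ hP
              rw [← hsup]
              exact le_csSup (psi_bdd hc) ⟨v, ⟨hv.1, hvl⟩, rfl⟩
            · rw [if_neg hvl]
        rw [this]; ring

/-- **`LlHardJump` for the canonical pressure `skPf`** (verbatim the body of `LlHardJump 𝔹` of `LL/PathsSwB.lean` with `𝔹.f = skPf`).
TEX[LL:paths:switch] l.561-600 -/
theorem lph_jump_skPf (m : ℕ) (l a : ℝ) (hm : 0 < m) (hl : 0 < l) (hla : l ≤ a) (b h : ℝ → ℝ) (bT hT hP : ℝ) (hb : IsClock l b) (hh : IsClock l h)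
    (hbT : Tendsto b (𝓝[<] l) (𝓝 bT)) (hhT : Tendsto h (𝓝[<] l) (𝓝 hT)) (hTP : hT ≤ hP)
    (hsm : Real.exp (-(l ^ 2 * (hP - hT) / 2)) ≤ 1 / 2) :
    |skPf m a (fun v => if v < l then b v else bT) (fun v => if v < l then h v else hP)
        - (skPf m l b h + (l - a) * (bT / 4 + hP / 2) + Real.log 2 * (1 / l - 1 / a))|
      ≤ 2 / l * Real.exp (-(l ^ 2 * (hP - hT) / 2)) := by
  have hpos : 0 ≤ 2 / l * Real.exp (-(l ^ 2 * (hP - hT) / 2)) := by positivity
  rcases hla.eq_or_lt with rfl | hla'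
  · have e1 : skPf m l (fun v => if v < l then b v else bT) (fun v => if v < l then h v else hP) = skPf m l b h := by
      unfold skPf
      rw [psi_ext_congr (c := fun v => if v < l then b v else bT) (c' := b) (fun v hv => if_pos hv.2),
        psi_ext_congr (c := fun v => if v < l then h v else hP) (c' := h) (fun v hv => if_pos hv.2)]
    rw [e1]
    simpa using hpos
  · have hD : 0 ≤ hP - hT := by linarith
    obtain ⟨-, e, he1, he2, hE⟩ := lph_hard_CPr m hm hl hla hD (b := clkExt l b) (h := clkExt l h) ⟨psi_ext_clk hl hb, psi_ext_clk hl hh⟩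
    have eb := lph_ext_eq hl hla' hb hbT le_rfl
    rw [sub_self] at eb
    have eh := lph_ext_eq hl hla' hh hhT hTP
    unfold skPf
    rw [eb, eh, hE, lph_ext_l hl hb hbT, lph_ext_l hl hh hhT]
    have eq2 : (l * √(hP - hT)) ^ 2 = l ^ 2 * (hP - hT) := by rw [mul_pow, Real.sq_sqrt hD]
    have h3 := lpk_log_phi (l * √(hP - hT)) (by positivity) (by rw [eq2]; exact hsm)
    rw [eq2] at h3
    have hli : 0 < l⁻¹ := inv_pos.2 hl
    have h4 := mul_le_mul_of_nonneg_left h3 hli.le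
    have e5 : 2 / l * Real.exp (-(l ^ 2 * (hP - hT) / 2)) = -(l⁻¹ * -(2 * Real.exp (-(l ^ 2 * (hP - hT) / 2)))) := by
      field_simp
    rw [e5, abs_le]
    constructor
    · have : skCPr m l (clkExt l b) (clkExt l h) + (l - a) * (bT / 4 + (hT + (hP - hT)) / 2) + Real.log 2 * (l⁻¹ - a⁻¹) + e
          - (skCPr m l (clkExt l b) (clkExt l h) + (l - a) * (bT / 4 + hP / 2) + Real.log 2 * (1 / l - 1 / a)) = e := by
        rw [one_div, one_div]; ring
      rw [this]; linarith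
    · have : skCPr m l (clkExt l b) (clkExt l h) + (l - a) * (bT / 4 + (hT + (hP - hT)) / 2) + Real.log 2 * (l⁻¹ - a⁻¹) + e
          - (skCPr m l (clkExt l b) (clkExt l h) + (l - a) * (bT / 4 + hP / 2) + Real.log 2 * (1 / l - 1 / a)) = e := by
        rw [one_div, one_div]; ring
      rw [this]
      have : 0 ≤ l⁻¹ * (2 * Real.exp (-(l ^ 2 * (hP - hT) / 2))) := by positivity
      linarith

end Claimed.Agent.R286
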