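import Claimed.Agent.R286.LL.PathsClkE2
import Claimed.Agent.R286.LL.PathsKk
import Claimed.Agent.R286.LL.PathsSwC

/-!
# Row 286 (S0533), LL Section 3: THE SUPPLY (HP) ASKED BY LL 07, node N15 (Lemma bud:high-primitive)      (owner helper8; prefix `hpi_`, exit `lhp_main`)

`lhp_main : LceAll 𝔹 F → 4 v_b ≤ p_top → LlHp 𝔹 F` = the field `hp` of `LlSec3` (`LL/PathsDefs.lean`); called by `ll3_asm` (`Exit/Plist.lean`).      CONSUMER: `exit_bud_hpstd` (`Bud/HpInst.lean`).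
CONDITION on the cut-offs: `4 v_b ≤ p_top` (the linear seed `H_lin = x³ (v - 4 v_b)_+` and the constancy of `b` must have started before the plateau): `ll3_asm` calls `lce_main` with `zM ≤ p_top/4`.

TeX: 03-paths.tex l.391-460 ((P4), (P6), (P7)).      Everything is POINTWISE in a direct point `p : LlPt`, in NORMALISED masses `w = v/ℓ` (normalised clock `ℓ² c(ℓ w)`): `LlPt.Hp`.
TOOLS (all proved): `lcc_*` (PathsClkC: `E_b`, `d_±`, `H_e`), `lcx_*` (PathsClkC2: `ξ(v)` on a direct path), `lce_*` (PathsClkE: `lce_base`, `lce_ramp`, `lce_unif`, `lce_P4`), `lcb_*` (PathsClkB: `G`, dyadic sum),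
`lkk_*`, `lpq_*` (PathsKk, PathsKit281: generalised inverses, `lkk_base`, `lkk_cut`, `lkk_dir_hi`, `lpq_inv_lip_lower`).
PROVERS: IN PLACE, claim by name (claim286).
-/

set_option autoImplicit false

namespace Claimed.Agent.R286

open MeasureTheory Set Filter Topology

noncomputable section

variable {𝔹 : LlBase} {F : LlFix}

/-- the smallness of the strength used by the K-kit, uniformly -/
theorem hpi_unif_lam {ca LP : ℝ} (hF : F.Ok) (hca : 0 < ca) (hLP : 0 ≤ LP) : LlUnif F fun p => p.lam * LP ≤ ca / 2 := by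
  obtain ⟨N1, hN1⟩ := lkk_lam_small hF (ε := ca / 2 / (LP + 1)) (by positivity)
  refine ⟨N1, fun p hp hN => ?_⟩
  have a1 := hN1 p hp hN
  have a2 : p.lam * (LP + 1) ≤ ca / 2 := by rwa [le_div_iff₀ (by linarith)] at a1
  have := lkk_lam_pos hp
  nlinarith

/-- on the plateau `ξ(v) = ξ_*` (`lcx_xi_pla`, `lcx_inv_le`) -/
theorem hpi_xi_pl (hA : LceAll 𝔹 F) : LlUnif F fun p => p.sm = false →
    ∀ w ∈ Icc (𝔹.pTop F.T) 1, p.xi F 𝔹 (p.ell * w) = 𝔹.xiS F.T := by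
  obtain ⟨ca, Ca, ξ1, hb, hz⟩ := hA.prof
  obtain ⟨LP, hP⟩ := lkk_cut F hA.ok
  refine (hpi_unif_lam hA.ok hb.ca0 hP.LP0).mono fun p hp hl hsm w hw => ?_
  have hl0 := (lkk_lam_pos hp).le
  have hell : 0 < p.ell := by linarith [hp.ell1]
  have hxS := hA.edge.base.xi_pos
  have e : p.ell * w / p.ell = w := by field_simp
  refine le_antisymm ?_ ?_
  · rw [lcx_xi_direct hsm, e]
    refine lcx_inv_le hxS.le ?_
    have h1 : p.Adir F 𝔹 (𝔹.xiS F.T) = 1 := (lkk_dir_prof hb hP hz hl0 hl).top _ le_rfl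
    rw [h1]; exact hw.2
  · exact lcx_xi_pla hsm hP.nn hl0 hxS (hb.top _ le_rfl) (fun ξ hξ => lkk_dir_lt_top hb hP hz hl0 hl ξ hξ.1 hξ.2)
      (by rw [e]; exact hw.1) (by rw [e]; exact hw.2)

/-- on the plateau `K`, `q`, `b`, `h_*` are constant (`hpi_xi_pl`; `lcb_G_const`, `lcb_dy_zero`: `2 v_b ≤ ℓ p_top`) -/
theorem hpi_const (hA : LceAll 𝔹 F) (hvb : 4 * F.vb ≤ 𝔹.pTop F.T) : LlUnif F fun p => p.sm = false →
    ∀ w ∈ Icc (𝔹.pTop F.T) 1, p.q F 𝔹 (p.ell * w) = p.q F 𝔹 (p.ell * 𝔹.pTop F.T) ∧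
      p.hS F 𝔹 (p.ell * w) = p.hS F 𝔹 (p.ell * 𝔹.pTop F.T) := by
  obtain ⟨c, C, v0, CG, CD, cG, hfix⟩ := hA.fix
  refine ((hpi_xi_pl hA).and (lce_unif hfix)).mono ?_
  rintro p hp ⟨hxi, -, hok, hs, -⟩ hsm w hw
  have hpT := hA.edge.base.pTop_mem
  have hell := hp.ell1
  have hvb0 := hA.ok.vb0
  have ha := lce_a_direct (p := p) hsm
  have hK : p.K F 𝔹 (p.ell * w) = p.K F 𝔹 (p.ell * 𝔹.pTop F.T) := by
    unfold LlPt.K
    rw [hxi hsm w hw, hxi hsm _ ⟨le_rfl, hpT.2.le⟩]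
  have hq : p.q F 𝔹 (p.ell * w) = p.q F 𝔹 (p.ell * 𝔹.pTop F.T) := by
    unfold LlPt.q
    rw [hK]
  have hbt : ∀ y ∈ Icc (𝔹.pTop F.T) 1, p.b F 𝔹 (p.ell * y) = p.b F 𝔹 p.a := by
    intro y hy
    refine lce_b_top hok hs _ (by nlinarith [hy.1]) (by rw [ha]; nlinarith [hy.2]) ?_
    show 2 * F.vb ≤ p.ell * y
    nlinarith [hy.1]
  refine ⟨hq, ?_⟩
  unfold LlPt.hS
  rw [hK, hq, hbt w hw, hbt _ ⟨le_rfl, hpT.2.le⟩]

/-- **plateau slope**: `h_*` constant (`hpi_const`), `H_lo` nondecreasing, `H_lin(ℓ w) = x³ (ℓ w - 4 v_b)` (`4 v_b ≤ p_top`), `H_e(ℓ w) = H_e^{pl}(w)` nondecreasing; `ℓ ≥ 1`; `x ≤ ℓ p_top` for large `N`.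
TEX[LL:eq:P6], TEX[LL:eq:P7] -/
theorem hpi_pl (hA : LceAll 𝔹 F) (hvb : 4 * F.vb ≤ 𝔹.pTop F.T) : LlUnif F fun p => p.sm = false →
    ∀ s t, 𝔹.pTop F.T ≤ s → s ≤ t → t ≤ 1 →
      p.chiL * p.x ^ 3 * (t - s) + p.chiE * (p.HePl F 𝔹 t - p.HePl F 𝔹 s)
        ≤ p.ell ^ 2 * p.h F 𝔹 (p.ell * t) - p.ell ^ 2 * p.h F 𝔹 (p.ell * s) := by
  have hpT := hA.edge.base.pTop_mem
  refine ((hpi_const hA hvb).and (lce_unif_x F (𝔹.pTop F.T) hpT.1)).mono ?_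
  rintro p hp ⟨hc, hx⟩ hsm s t hs hst ht
  have hell := hp.ell1
  have hl0 : 0 < p.ell := by linarith
  have hx0 := lce_x_pos hp.N2
  have hvb0 := hA.ok.vb0
  have H := lce_base hA.ok hA.edge hp
  have hcL := hp.chiL.1
  have hcE := hp.chiE.1
  have hs1 : s ≤ 1 := hst.trans ht
  have hts : 𝔹.pTop F.T ≤ t := hs.trans hst
  -- the value of the field clock on the plateau
  have hval : ∀ y ∈ Icc (𝔹.pTop F.T) 1, p.h F 𝔹 (p.ell * y)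
      = p.hS F 𝔹 (p.ell * 𝔹.pTop F.T) + p.lam1 F * p.U F ^ 3 * Real.log (p.ell * y / p.x)
        + p.chiL * (p.x ^ 3 * (p.ell * y - 4 * F.vb)) + p.chiE * p.HePl F 𝔹 y := by
    intro y hy
    have h1 : ¬ p.ell * y < p.x := by
      have : 𝔹.pTop F.T ≤ p.ell * y := by nlinarith [hy.1]
      linarith
    have h2 : min (p.ell * y) p.ell = p.ell * y := min_eq_left (by nlinarith [hy.2])
    have h3 : p.ell * y / p.ell = y := by field_simp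
    have h4 : max 0 (p.ell * y - 4 * F.vb) = p.ell * y - 4 * F.vb := max_eq_right (by nlinarith [hy.1])
    unfold LlPt.h
    rw [if_neg h1, (hc hsm y hy).2, lcc_He_pl _ (by rw [h3]; exact hy.1), h3]
    unfold LlPt.Hlo LlPt.Hlin
    rw [h2, h4]
  rw [hval t ⟨hts, ht⟩, hval s ⟨hs, hs1⟩]
  have hlog : Real.log (p.ell * s / p.x) ≤ Real.log (p.ell * t / p.x) := by
    refine Real.log_le_log (div_pos (mul_pos hl0 (by linarith [hpT.1])) hx0) ?_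
    exact div_le_div_of_nonneg_right (mul_le_mul_of_nonneg_left hst hl0.le) hx0.le
  have hamp : 0 ≤ p.lam1 F * p.U F ^ 3 := mul_nonneg (lcc_lam1_pos H).le (pow_nonneg (lce_U_pos hp).le 3)
  have hHe : p.HePl F 𝔹 s ≤ p.HePl F 𝔹 t := lcc_HePl_mono H ⟨hs, hs1⟩ ⟨hts, ht⟩ hst
  have a1 : 0 ≤ p.lam1 F * p.U F ^ 3 * (Real.log (p.ell * t / p.x) - Real.log (p.ell * s / p.x)) :=
    mul_nonneg hamp (by linarith)
  have a2 : 0 ≤ p.chiE * (p.HePl F 𝔹 t - p.HePl F 𝔹 s) := mul_nonneg hcE (by linarith)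
  have a3 : 0 ≤ p.chiL * p.x ^ 3 * (t - s) := mul_nonneg (mul_nonneg hcL (pow_nonneg hx0.le 3)) (by linarith)
  have hl2 : 1 ≤ p.ell ^ 2 := by nlinarith
  -- `X = h(ℓ t) - h(ℓ s)`
  obtain ⟨X, hX⟩ : ∃ X : ℝ, X = p.lam1 F * p.U F ^ 3 * (Real.log (p.ell * t / p.x) - Real.log (p.ell * s / p.x))
      + p.ell * (p.chiL * p.x ^ 3 * (t - s)) + p.chiE * (p.HePl F 𝔹 t - p.HePl F 𝔹 s) := ⟨_, rfl⟩
  have hX1 : p.chiL * p.x ^ 3 * (t - s) + p.chiE * (p.HePl F 𝔹 t - p.HePl F 𝔹 s) ≤ X := by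
    rw [hX]; nlinarith
  have hX0 : 0 ≤ X := by linarith
  have hX2 : X ≤ p.ell ^ 2 * X := by nlinarith
  calc p.chiL * p.x ^ 3 * (t - s) + p.chiE * (p.HePl F 𝔹 t - p.HePl F 𝔹 s) ≤ p.ell ^ 2 * X := hX1.trans hX2
    _ = _ := by rw [hX]; ring

/-- density `≤ L` on `[0, ξ_*)` and levels below `p_T = A(ξ_* -)`: the generalised inverse has slope `≥ 1/L` up to the level `p_T` INCLUDED -/
theorem hpi_inv_lo {A : ℝ → ℝ} {ξs pT L : ℝ} (hA : LpqProf A ξs 1) (hL : 0 ≤ L)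
    (hd : ∀ ξ ξ', 0 ≤ ξ → ξ ≤ ξ' → ξ' < ξs → A ξ' - A ξ ≤ L * (ξ' - ξ))
    (hsup : ∀ w < pT, ∃ R, 0 ≤ R ∧ R < ξs ∧ w ≤ A R) (hpT : pT ≤ 1) (w w' : ℝ) (hw0 : A 0 ≤ w) (hww : w ≤ w') (hw' : w' ≤ pT) :
    w' - w ≤ L * (llInv A w' - llInv A w) := by
  have key : ∀ w'', w ≤ w'' → w'' < pT → w'' - w ≤ L * (llInv A w'' - llInv A w) := by
    intro w'' h1 h2
    obtain ⟨R, hR0, hRs, hR⟩ := hsup w'' h2
    exact lpq_inv_lip_lower hA L R (fun ξ ξ' h0 h1 h2 => hd ξ ξ' h0 h1 (lt_of_le_of_lt h2 hRs)) hR0 w w'' hw0 h1 hR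
  rcases lt_or_eq_of_le hw' with h | h
  · exact key w' hww h
  · by_contra hcon
    push Not at hcon
    have hD : 0 ≤ llInv A w' - llInv A w := sub_nonneg.2 (lpq_inv_mono hA w w' hww (hw'.trans hpT))
    have hLD : 0 ≤ L * (llInv A w' - llInv A w) := mul_nonneg hL hD
    set w'' := (w + L * (llInv A w' - llInv A w) + w') / 2 with hw''
    have h1 : w ≤ w'' := by rw [hw'']; linarith
    have h2 : w'' < pT := by rw [hw'', ← h]; linarith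
    have h3 := key w'' h1 h2
    have h4 : llInv A w'' ≤ llInv A w' := lpq_inv_mono hA w'' w' (by rw [h]; exact h2.le) (hw'.trans hpT)
    have h5 : L * (llInv A w'' - llInv A w) ≤ L * (llInv A w' - llInv A w) := mul_le_mul_of_nonneg_left (by linarith) hL
    have h6 : w'' - w > L * (llInv A w' - llInv A w) := by rw [hw'']; linarith
    linarith

/-- **bounded active density**: `K(v') - K(v) ≥ cK (v' - v)` on the WHOLE active part `v' ≤ ℓ p_top` (`lkk_base`, `lkk_cut`, `lkk_dir_hi`, `lpq_inv_lip_lower` with `ξ1 ↑ ξ_*`; the end point by monotonicity) -/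
theorem hpi_K_lo (hA : LceAll 𝔹 F) : ∃ cK : ℝ, 0 < cK ∧ LlUnif F fun p => p.sm = false →
    ∀ v v', 0 < v → v ≤ v' → v' ≤ p.ell * 𝔹.pTop F.T → cK * (v' - v) ≤ p.K F 𝔹 v' - p.K F 𝔹 v := by
  obtain ⟨ca, Ca, ξ1, hb, hz⟩ := hA.prof
  obtain ⟨LP, hP⟩ := lkk_cut F hA.ok
  have hca := hb.ca0
  have hCa := hb.Ca0
  obtain ⟨N1, hN1⟩ := lkk_lam_small hA.ok (ε := ca / 2 / (LP + 1)) (by have := hP.LP0; positivity)
  have hL : 0 < Ca + ca / 2 := by linarith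
  refine ⟨1 / (2 * (Ca + ca / 2)), by positivity, N1, fun p hp hN hsm v v' hv hvv hv' => ?_⟩
  have hl0 : 0 ≤ p.lam := (lkk_lam_pos hp).le
  have hl : p.lam * LP ≤ ca / 2 := by
    have a1 := hN1 p hp hN
    have hLP := hP.LP0
    have a2 : p.lam * (LP + 1) ≤ ca / 2 := by rwa [le_div_iff₀ (by linarith)] at a1
    nlinarith
  have hell : 0 < p.ell := by linarith [hp.ell1]
  have hprof : LpqProf (p.Adir F 𝔹) (𝔹.xiS F.T) 1 := lkk_dir_prof hb hP hz hl0 hl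
  have hsup : ∀ w < 𝔹.pTop F.T, ∃ R, 0 ≤ R ∧ R < 𝔹.xiS F.T ∧ w ≤ p.Adir F 𝔹 R := by
    intro w hw
    have hne : ((𝔹.A0 F.T) '' Iio (𝔹.xiS F.T)).Nonempty := ⟨_, 0, hb.x10.trans hb.x1s, rfl⟩
    obtain ⟨y, ⟨R, hR, rfl⟩, hy⟩ := exists_lt_of_lt_csSup hne hw
    refine ⟨max R 0, le_max_right _ _, max_lt hR (hb.x10.trans hb.x1s), ?_⟩
    have h1 : 𝔹.A0 F.T R ≤ 𝔹.A0 F.T (max R 0) := hb.mono (le_max_left _ _)
    have h2 : 0 ≤ p.lam * F.P (max R 0) := mul_nonneg hl0 (hP.nn _ (le_max_right _ _))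
    unfold LlPt.Adir
    linarith
  have h0 : p.Adir F 𝔹 0 = 0 := lkk_dir_zero hb hP hz hl0 hl
  have key := hpi_inv_lo hprof hL.le (lkk_dir_hi hb hP hz hl0 hl) hsup hb.pT1.le (v / p.ell) (v' / p.ell)
    (by rw [h0]; positivity) (div_le_div_of_nonneg_right hvv hell.le) (by rw [div_le_iff₀ hell]; linarith)
  unfold LlPt.K
  rw [lcx_xi_direct hsm, lcx_xi_direct hsm, ← mul_sub]
  set D := llInv (p.Adir F 𝔹) (v' / p.ell) - llInv (p.Adir F 𝔹) (v / p.ell) with hD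
  have h3 := lkk_ell3 hp
  have e1 : v' / p.ell - v / p.ell = (v' - v) / p.ell := by ring
  rw [e1, div_le_iff₀ hell] at key
  -- `v' - v ≤ L D ℓ`, `ℓ³ ≤ 2`
  have hD0 : 0 ≤ D := sub_nonneg.2 (lpq_inv_mono hprof _ _ (div_le_div_of_nonneg_right hvv hell.le)
    (by rw [div_le_one hell]; nlinarith [hb.pT1, hb.pT0]))
  rw [div_mul_eq_mul_div, one_mul, div_le_iff₀ (by positivity)]
  have e2 : (p.ell ^ 2)⁻¹ * D * (2 * (Ca + ca / 2)) = (Ca + ca / 2) * D * (2 / p.ell ^ 2) := by field_simp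
  rw [e2]
  have h4 : p.ell ≤ 2 / p.ell ^ 2 := by
    rw [le_div_iff₀ (by positivity)]
    calc p.ell * p.ell ^ 2 = p.ell ^ 3 := by ring
      _ ≤ 2 := h3
  calc v' - v ≤ (Ca + ca / 2) * D * p.ell := key
    _ ≤ (Ca + ca / 2) * D * (2 / p.ell ^ 2) := mul_le_mul_of_nonneg_left h4 (mul_nonneg hL.le hD0)

/-- the ramp of `H_e` costs at most half of the gain of `h_*`: `lcc_hS_gain` with `c4`, `lcc_He_incr`, `lcc_HePl_top`, `LccRamp.small` with `c4/2` (`lce_ramp` holds for every constant) -/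
theorem hpi_half (hA : LceAll 𝔹 F) : LlUnif F fun p => p.sm = false →
    ∀ v ∈ Ioo 0 p.a, ∀ v' ∈ Ioo 0 p.a, v ≤ v' →
      (p.hS F 𝔹 v' - p.hS F 𝔹 v) / 2 ≤ p.hS F 𝔹 v' - p.hS F 𝔹 v + p.chiE * (p.He F 𝔹 v' - p.He F 𝔹 v) := by
  obtain ⟨c, C, v0, CG, CD, cG, hfix⟩ := hA.fix
  have hc4 := lce_kap_C4_pos hfix
  refine ((lce_unif hfix).and (lce_ramp hA.ok hA.edge (lceC4 hfix.kap F.cb / 2) (by linarith))).mono ?_
  rintro p hp ⟨⟨-, hok, hs, -⟩, hr⟩ hsm v hv v' hv' hvv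
  have R := hr hsm
  have H := lce_base hA.ok hA.edge hp
  have hell : 0 < p.ell := by linarith [hp.ell1]
  have hl := lce_lam_pos hp
  have hE := lcc_Eb_pos H
  have hv1 := lce_V1_pos hA.edge
  set c4 := lceC4 hfix.kap F.cb with hc4d
  have hinc : ∀ v ∈ Ioo 0 p.a, ∀ v' ∈ Ioo 0 p.a, v ≤ v' →
      c4 * p.lam * v ^ 2 * (p.K F 𝔹 v' - p.K F 𝔹 v) ≤ p.hS F 𝔹 v' - p.hS F 𝔹 v := by
    intro v hv v' hv' hvv
    refine le_trans ?_ (lce_P4 hok hs v v' hv hv' hvv)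
    have hK : 0 ≤ p.K F 𝔹 v' - p.K F 𝔹 v := sub_nonneg.2 (hok.K_mono hv hv' hvv)
    refine mul_le_mul_of_nonneg_right ?_ hK
    have : 0 ≤ c4 * p.lam * p.U F ^ 2 := mul_nonneg (mul_nonneg hc4.le hl.le) (sq_nonneg _)
    nlinarith
  have g1 := lcc_hS_gain hell hl.le hc4.le hv1 (𝔹.xiS F.T - p.Eb F 𝔹) hinc hok.K_mono R.ramp v v' hv hv' hvv
  have hxi : p.xi F 𝔹 v ≤ p.xi F 𝔹 v' := by
    have h1 : (p.ell ^ 2)⁻¹ * p.xi F 𝔹 v ≤ (p.ell ^ 2)⁻¹ * p.xi F 𝔹 v' := hok.K_mono hv hv' hvv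
    exact le_of_mul_le_mul_left h1 (by positivity)
  have ha := lce_a_direct hsm
  have g2 := lcc_He_incr H hell v v' hvv (by rw [div_le_one hell, ← ha]; exact hv'.2.le) hxi (R.xi_le v hv) (R.xi_ge v' hv')
  have g3 := lcc_HePl_top H
  have g4 := R.small
  set m := max 0 (p.xi F 𝔹 v' - max (p.xi F 𝔹 v) (𝔹.xiS F.T - p.Eb F 𝔹)) with hm
  have hm0 : 0 ≤ m := le_max_left _ _
  set CR := 1 + (1 - 𝔹.pTop F.T) ^ (-(1 / 2) : ℝ) with hCR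
  have g5 : |p.HePl F 𝔹 (𝔹.pTop F.T)| / p.Eb F 𝔹 ≤ CR * p.lam1 F := by rw [div_le_iff₀ hE]; exact g3
  have g6 : CR * p.lam1 F ≤ c4 * p.lam * lceV1 𝔹 F.T ^ 2 / (4 * p.ell ^ 2) / 2 := by
    rw [le_div_iff₀ two_pos, le_div_iff₀ (by positivity)]
    linarith
  have g7 : |p.HePl F 𝔹 (𝔹.pTop F.T)| / p.Eb F 𝔹 * m ≤ (p.hS F 𝔹 v' - p.hS F 𝔹 v) / 2 := by
    calc |p.HePl F 𝔹 (𝔹.pTop F.T)| / p.Eb F 𝔹 * m
        ≤ c4 * p.lam * lceV1 𝔹 F.T ^ 2 / (4 * p.ell ^ 2) / 2 * m := mul_le_mul_of_nonneg_right (g5.trans g6) hm0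
      _ = (c4 * p.lam * lceV1 𝔹 F.T ^ 2 / (4 * p.ell ^ 2) * m) / 2 := by ring
      _ ≤ _ := by linarith
  have hχ := hp.chiE
  have hS0 : 0 ≤ p.hS F 𝔹 v' - p.hS F 𝔹 v := le_trans (by positivity) g1
  have g8 : -((p.hS F 𝔹 v' - p.hS F 𝔹 v) / 2) ≤ p.chiE * (p.He F 𝔹 v' - p.He F 𝔹 v) := by
    have h1 : -((p.hS F 𝔹 v' - p.hS F 𝔹 v) / 2) ≤ p.He F 𝔹 v' - p.He F 𝔹 v := by linarith
    rcases le_total 0 (p.He F 𝔹 v' - p.He F 𝔹 v) with h | h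
    · have := mul_nonneg hχ.1 h; linarith
    · nlinarith [hχ.1, hχ.2]
  linarith

/-- **active slope**: (P4) `lce_P4`, `hpi_K_lo`, `hpi_half`, `H_lo`, `H_lin` nondecreasing.      TEX[LL:eq:P4] -/
theorem hpi_act (hA : LceAll 𝔹 F) : ∃ ca : ℝ, 0 < ca ∧ LlUnif F fun p => p.sm = false →
    ∀ s t, p.x / p.ell ≤ s → s ≤ t → t ≤ 𝔹.pTop F.T →
      ca * p.lam * s ^ 2 * (t - s) ≤ p.ell ^ 2 * p.h F 𝔹 (p.ell * t) - p.ell ^ 2 * p.h F 𝔹 (p.ell * s) := by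
  obtain ⟨c, C, v0, CG, CD, cG, hfix⟩ := hA.fix
  have hc4 := lce_kap_C4_pos hfix
  obtain ⟨cK, hcK, hKlo⟩ := hpi_K_lo hA
  refine ⟨lceC4 hfix.kap F.cb * cK / 2, by positivity, (((lce_unif hfix).and hKlo).and (hpi_half hA)).mono ?_⟩
  rintro p hp ⟨⟨⟨-, hok, hs, -⟩, hK⟩, hh⟩ hsm s t hs0 hst ht
  set c4 := lceC4 hfix.kap F.cb with hc4d
  have hx0 := lce_x_pos hp.N2
  have hell1 := hp.ell1
  have hell : 0 < p.ell := by linarith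
  have hl := lce_lam_pos hp
  have ha := lce_a_direct hsm
  have hpT := hA.edge.base.pTop_mem
  have hxs : p.x ≤ p.ell * s := by rwa [div_le_iff₀ hell, mul_comm] at hs0
  have hs00 : 0 < s := lt_of_lt_of_le (div_pos hx0 hell) hs0
  have hvv : p.ell * s ≤ p.ell * t := mul_le_mul_of_nonneg_left hst hell.le
  have hta : p.ell * t < p.a := by rw [ha]; exact mul_lt_of_lt_one_right hell (lt_of_le_of_lt ht hpT.2)
  have hv : p.ell * s ∈ Ioo 0 p.a := ⟨by positivity, lt_of_le_of_lt hvv hta⟩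
  have hv' : p.ell * t ∈ Ioo 0 p.a := ⟨lt_of_lt_of_le hv.1 hvv, hta⟩
  have hU : 0 ≤ p.U F := (lce_U_pos hp).le
  have hl1 : 0 ≤ p.lam1 F := Real.rpow_nonneg hl.le _
  have hLo : p.Hlo F (p.ell * s) ≤ p.Hlo F (p.ell * t) := by
    unfold LlPt.Hlo
    refine mul_le_mul_of_nonneg_left ?_ (by positivity)
    refine Real.log_le_log (div_pos (lt_min hv.1 hell) hx0) ?_
    exact div_le_div_of_nonneg_right (min_le_min_right _ hvv) hx0.le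
  have hLin : p.Hlin F (p.ell * s) ≤ p.Hlin F (p.ell * t) := by
    unfold LlPt.Hlin
    refine mul_le_mul_of_nonneg_left ?_ (by positivity)
    exact max_le_max le_rfl (sub_le_sub_right (min_le_min_right _ hvv) _)
  have e3 := mul_le_mul_of_nonneg_left hLin hp.chiL.1
  have g1 := hh hsm _ hv _ hv' hvv
  have g2 := lce_P4 hok hs _ _ hv hv' hvv
  have g3 := hK hsm _ _ hv.1 hvv (mul_le_mul_of_nonneg_left ht hell.le)
  have hKd : 0 ≤ p.K F 𝔹 (p.ell * t) - p.K F 𝔹 (p.ell * s) := sub_nonneg.2 (hok.K_mono hv hv' hvv)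
  have eh : ∀ w, p.x ≤ w → p.h F 𝔹 w = p.hS F 𝔹 w + p.Hlo F w + p.chiL * p.Hlin F w + p.chiE * p.He F 𝔹 w := fun w hw => by
    unfold LlPt.h
    rw [if_neg (not_lt.2 hw)]
  rw [eh _ hxs, eh _ (hxs.trans hvv), ← mul_sub]
  -- `Δh ≥ ΔhS / 2 ≥ c4 λ v² cK (v' - v) / 2`
  have g4 : c4 * p.lam * (p.ell * s) ^ 2 * (cK * (p.ell * t - p.ell * s)) ≤ p.hS F 𝔹 (p.ell * t) - p.hS F 𝔹 (p.ell * s) := by
    refine le_trans ?_ g2
    have a1 : c4 * p.lam * (p.ell * s) ^ 2 ≤ c4 * p.lam * ((p.ell * s) ^ 2 + p.U F ^ 2) :=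
      mul_le_mul_of_nonneg_left (by nlinarith [sq_nonneg (p.U F)]) (mul_nonneg hc4.le hl.le)
    exact mul_le_mul a1 g3 (mul_nonneg hcK.le (by linarith)) (by positivity)
  have g5 : c4 * p.lam * (p.ell * s) ^ 2 * (cK * (p.ell * t - p.ell * s)) / 2
      ≤ p.hS F 𝔹 (p.ell * t) + p.Hlo F (p.ell * t) + p.chiL * p.Hlin F (p.ell * t) + p.chiE * p.He F 𝔹 (p.ell * t)
        - (p.hS F 𝔹 (p.ell * s) + p.Hlo F (p.ell * s) + p.chiL * p.Hlin F (p.ell * s) + p.chiE * p.He F 𝔹 (p.ell * s)) := by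
    linarith
  have g6 : c4 * cK / 2 * p.lam * s ^ 2 * (t - s) ≤ c4 * p.lam * (p.ell * s) ^ 2 * (cK * (p.ell * t - p.ell * s)) / 2 := by
    have e : c4 * p.lam * (p.ell * s) ^ 2 * (cK * (p.ell * t - p.ell * s)) / 2 = c4 * cK / 2 * p.lam * s ^ 2 * (t - s) * p.ell ^ 3 := by ring
    rw [e]
    have h0 : 0 ≤ c4 * cK / 2 * p.lam * s ^ 2 * (t - s) := by
      have : 0 ≤ t - s := by linarith
      positivity
    exact le_mul_of_one_le_right h0 (one_le_pow₀ hell1)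
  have g7 := g6.trans g5
  have h0 : 0 ≤ c4 * cK / 2 * p.lam * s ^ 2 * (t - s) := by
    have : 0 ≤ t - s := by linarith
    positivity
  calc c4 * cK / 2 * p.lam * s ^ 2 * (t - s) ≤ 1 * _ := by rw [one_mul]; exact g7
    _ ≤ p.ell ^ 2 * _ := mul_le_mul_of_nonneg_right (one_le_pow₀ hell1) (h0.trans g7)

/-- `E_b, d_- → 0` with `Ũ`: `LccBase` with a small admissible `E1` (`a 0` of the tower is continuous at `ξ_*`, `a 0 ξ_* = p_top`; `lt_top`), `lcc_Eb`, `lcc_dMi_le` -/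
theorem hpi_dm_small (hA : LceAll 𝔹 F) (ε : ℝ) (hε : 0 < ε) :
    ∃ δ : ℝ, 0 < δ ∧ ∀ p : LlPt, p.Ok F → p.Ut F ≤ δ → p.dMi F 𝔹 ≤ ε ∧ p.Eb F 𝔹 ≤ ε := by
  have hB := hA.edge.base
  have hxS := hB.xi_pos
  obtain ⟨a, ha0, haT, -, hd⟩ := hB.tower
  have hc : ContinuousWithinAt (a 0) (Icc 0 (𝔹.xiS F.T)) (𝔹.xiS F.T) := (hd 0 _ ⟨hxS.le, le_rfl⟩).continuousWithinAt
  rw [Metric.continuousWithinAt_iff] at hc
  obtain ⟨η, hη, hcη⟩ := hc ε hε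
  obtain ⟨h10, h1x, h11⟩ := lce_E1 hA.edge
  set E1 := min (min ε (lceE1 (𝔹.xiS F.T))) (η / 2) with hE1
  have hE10 : 0 < E1 := lt_min (lt_min hε h10) (by linarith)
  have hE1ε : E1 ≤ ε := (min_le_left _ _).trans (min_le_left _ _)
  have hE1l : E1 ≤ lceE1 (𝔹.xiS F.T) := (min_le_left _ _).trans (min_le_right _ _)
  have hE1η : E1 < η := lt_of_le_of_lt (min_le_right _ _) (by linarith)
  have hE1x : E1 < 𝔹.xiS F.T := lt_of_le_of_lt hE1l h1x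
  have hg : 0 < 𝔹.pTop F.T - 𝔹.A0 F.T (𝔹.xiS F.T - E1) := by linarith [hB.lt_top (𝔹.xiS F.T - E1) (by linarith)]
  have hgε : 𝔹.pTop F.T - 𝔹.A0 F.T (𝔹.xiS F.T - E1) ≤ ε := by
    have h1 := hcη (x := 𝔹.xiS F.T - E1) ⟨by linarith, by linarith⟩ (by
      rw [Real.dist_eq, show 𝔹.xiS F.T - E1 - 𝔹.xiS F.T = -E1 by ring, abs_neg, abs_of_pos hE10]; exact hE1η)
    rw [Real.dist_eq, haT, ← ha0 _ ⟨by linarith, by linarith⟩] at h1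
    have := (abs_lt.1 h1).1
    linarith
  set g := 𝔹.pTop F.T - 𝔹.A0 F.T (𝔹.xiS F.T - E1) with hgd
  have hq : 0 < E1 ^ 2 * g := by positivity
  refine ⟨(E1 ^ 2 * g) ^ (1 / 4 : ℝ), Real.rpow_pos_of_pos hq _, fun p hp hU => ?_⟩
  have H0 := lce_base hA.ok hA.edge hp
  have hU4 : p.Ut F ^ 4 ≤ E1 ^ 2 * g := by
    calc p.Ut F ^ 4 ≤ ((E1 ^ 2 * g) ^ (1 / 4 : ℝ)) ^ 4 := pow_le_pow_left₀ H0.Ut0.le hU 4
      _ = E1 ^ 2 * g := by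
          rw [← Real.rpow_natCast, ← Real.rpow_mul hq.le]; norm_num
  have H : LccBase F 𝔹 p E1 :=
    { H0 with
      E10 := hE10
      E1x := hE1x
      E11 := hE1l.trans h11
      E1mem := by rw [div_le_iff₀ (pow_pos hE10 2)]; linarith }
  exact ⟨(lcc_dMi_le H).1.trans hgε, (lcc_Eb H).2.1.trans hE1ε⟩

/-- the reference varies by `O(E_b)` on the preceding active interval, for SMALL `Ũ` (so that `z0 < ξ_* - E_b`: there `A_λ = A_0`, strictly increasing):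
`ξ(ℓ w) ≥ ξ_* - E_b` for `w ≥ p_top - d_-` (`lcc_Eb`, `lcx_le_inv`, `lkk_dir_mono`), `Γ' ≤ 1/b_∘ ≤ 1/c` (`Ref.gap_lo`, `gam_ftc`), `E_b = Ũ²/√d_-` (`lcc_dMi_rs`) -/
theorem hpi_q_var (hA : LceAll 𝔹 F) : ∃ Cq δ0 : ℝ, 0 ≤ Cq ∧ 0 < δ0 ∧ LlUnif F fun p => p.sm = false → p.Ut F ≤ δ0 →
    ∀ w ∈ Icc (𝔹.pTop F.T - p.dMi F 𝔹) (𝔹.pTop F.T),
      p.q F 𝔹 (p.ell * 𝔹.pTop F.T) - p.q F 𝔹 (p.ell * w) ≤ Cq * p.Ut F ^ 2 / Real.sqrt (p.dMi F 𝔹) := by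
  obtain ⟨c, C, v0, hc, hv0, href⟩ := hA.ref
  obtain ⟨ca, Ca, ξ1, hb, hz⟩ := hA.prof
  have hB := hA.edge.base
  have hz0 := hA.edge.z0
  have hz00 := hA.ok.z00
  obtain ⟨δ0, hδ0, hdm⟩ := hpi_dm_small hA ((𝔹.xiS F.T - F.z0) / 2) (by linarith)
  refine ⟨1 / c, δ0, by positivity, hδ0, ((lsw_gamBasic 𝔹 F hc href).and (lce_unif_prof hA.ok hb hz)).mono ?_⟩
  rintro p hp ⟨⟨hGm, hGr, hGl⟩, -, hprof, -⟩ hsm hU w hw
  have H := lce_base hA.ok hA.edge hp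
  have hE := (hdm p hp hU).2
  have hE0 := lcc_Eb_pos H
  have hd0 := lcc_dMi_pos H
  obtain ⟨-, -, hEd⟩ := lcc_Eb H
  have hl : 0 < p.ell := by linarith [hp.ell1]
  have hq : ∀ v, p.q F 𝔹 v = p.GamN F 𝔹 (p.xi F 𝔹 v) := by
    intro v
    unfold LlPt.q LlPt.Gam LlPt.K
    congr 1
    field_simp
  have hxi : ∀ y, p.xi F 𝔹 (p.ell * y) = llInv (p.Adir F 𝔹) y := by
    intro y
    rw [lcx_xi_direct hsm]
    congr 1
    field_simp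
  rw [hq, hq, hxi, hxi]
  have hxS := hB.xi_pos
  have htop : p.Adir F 𝔹 (𝔹.xiS F.T) = 1 := hprof.top _ le_rfl
  have hfar : ∀ ξ, F.z0 ≤ ξ → p.Adir F 𝔹 ξ = 𝔹.A0 F.T ξ := by
    intro ξ h
    unfold LlPt.Adir
    rw [hA.ok.P_zero ξ h, mul_zero, add_zero]
  have key : ∀ y ∈ Icc (𝔹.pTop F.T - p.dMi F 𝔹) (𝔹.pTop F.T), llInv (p.Adir F 𝔹) y ∈ Icc (𝔹.xiS F.T - p.Eb F 𝔹) (𝔹.xiS F.T) := by
    intro y hy
    have hy1 : y ≤ p.Adir F 𝔹 (𝔹.xiS F.T) := by rw [htop]; exact hy.2.trans hB.pTop_mem.2.le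
    refine ⟨lcx_le_inv hxS.le hy1 ?_, lcx_inv_le hxS.le hy1⟩
    intro ξ h0 hwξ
    by_contra hcon
    push Not at hcon
    have hm : max ξ F.z0 < 𝔹.xiS F.T - p.Eb F 𝔹 := max_lt hcon (by linarith)
    have h3 : p.Adir F 𝔹 ξ ≤ p.Adir F 𝔹 (max ξ F.z0) := hprof.mono h0 (h0.trans (le_max_left _ _)) (le_max_left _ _)
    rw [hfar _ (le_max_right _ _)] at h3
    have h4 : 𝔹.A0 F.T (max ξ F.z0) < 𝔹.A0 F.T (𝔹.xiS F.T - p.Eb F 𝔹) :=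
      hB.strict ⟨h0.trans (le_max_left _ _), by linarith⟩ ⟨by linarith, by linarith⟩ hm
    linarith [hy.1]
  have k1 := key w hw
  have k2 := key (𝔹.pTop F.T) ⟨by linarith, le_rfl⟩
  have h5 := hGl _ (le_trans (by linarith) k2.1) _ (le_trans (by linarith) k1.1)
  have h6 : |llInv (p.Adir F 𝔹) (𝔹.pTop F.T) - llInv (p.Adir F 𝔹) w| ≤ p.Eb F 𝔹 := by
    rw [abs_le]
    constructor <;> linarith [k1.1, k1.2, k2.1, k2.2]
  have h7 : p.Eb F 𝔹 = p.Ut F ^ 2 / Real.sqrt (p.dMi F 𝔹) := by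
    rw [← lcc_dMi_rs H, lcc_rs_eq hd0.le, div_eq_mul_inv]
  calc p.GamN F 𝔹 (llInv (p.Adir F 𝔹) (𝔹.pTop F.T)) - p.GamN F 𝔹 (llInv (p.Adir F 𝔹) w) ≤ 1 / c * p.Eb F 𝔹 :=
        (le_abs_self _).trans (h5.trans (mul_le_mul_of_nonneg_left h6 (by positivity)))
    _ = 1 / c * p.Ut F ^ 2 / Real.sqrt (p.dMi F 𝔹) := by rw [h7]; ring

/-- glue -/
theorem hpi_pt (hA : LceAll 𝔹 F) (hvb : 4 * F.vb ≤ 𝔹.pTop F.T) :
    ∃ ca Cq δ0 : ℝ, 0 < ca ∧ 0 ≤ Cq ∧ 0 < δ0 ∧ LlUnif F fun p => p.sm = false → p.Ut F ≤ δ0 → p.Hp F 𝔹 ca Cq := by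
  obtain ⟨ca, hca, h1⟩ := hpi_act hA
  obtain ⟨Cq, δ0, hCq, hδ0, h2⟩ := hpi_q_var hA
  refine ⟨ca, Cq, δ0, hca, hCq, hδ0, (((h1.and h2).and (hpi_pl hA hvb)).and (hpi_const hA hvb)).mono ?_⟩
  rintro p hp ⟨⟨⟨a1, a2⟩, a3⟩, a4⟩ hsm hU
  have hB := lce_base hA.ok hA.edge hp
  exact ⟨lcc_dMi_pos hB, lcc_dPl_pos hB, a1 hsm, a3 hsm, fun w hw => (a4 hsm w hw).1, a2 hsm hU⟩

/-- **EXIT**: the field `hp` of `LlSec3`.      TEX[LL:eq:P4] TEX[LL:eq:P6] TEX[LL:eq:P7] -/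
theorem lhp_main (hA : LceAll 𝔹 F) (hvb : 4 * F.vb ≤ 𝔹.pTop F.T) : LlHp 𝔹 F :=
  ⟨hA.edge.base.pTop_mem, hpi_pt hA hvb, fun ε hε => by
    obtain ⟨δ, hδ, h⟩ := hpi_dm_small hA ε hε
    exact ⟨δ, hδ, fun p hp hU => (h p hp hU).1⟩⟩

end

end Claimed.Agent.R286
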