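import Claimed.Agent.R286.LL.PathsPkD
import Claimed.Agent.R286.LL.PathsSwC
import Claimed.Agent.R286.LL.PathsHard
import Claimed.Agent.R286.LL.PathsBase

/-!
# Row 286 (S0533), LL Section 3, block SW (Prop. 3.4, paths:switch), file D: THE SCALAR CONTRACTS OF `lsw_P11` DISCHARGED      (helper281; prefix `lsw_`)

`LlSmCmp 𝔹 F` (the smoothing paragraph of the proof of Lemma paths:lift, 03 l.157-161) is PROVED here from the mid-level scalar package `LppOk S` of helper121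
(`LL/PathsPk*.lean`):
* `|Γ̂_dir - Γ̂_sm| ≤ C ω^{1-ε}` on `[0,ξ_*]`: integrate `lpp_sm_M2` (leaf S5 of `PathsPkD`) with `gam`;
* `|1 - Γ̂_sm(M)| ≤ C e^{-cM}`, `c = p_top²/2`: `1 - u² ≤ sqrt(1 - u²)` and the field `dec`;
* `|b_∘^dir - b_∘^sm| ≤ C ω^{1-ε}`: `lpp_sm_M2` at `ξ = 0` and the two sided bound of `b_∘` in `LlRef`.
The link between the numbers-only base `𝔹` and the package `S` is asked only where it is used: `𝔹.scG = S.Gam`, `𝔹.scG1 = S.M2` on admissible profiles and times `ξ ≥ 0`.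
EXIT: `lsw_smCmp`, and `lsw_P11_pk` = Prop. 3.4 with the imports `LlBaseProfile`, `LppOk` + link, `LlRef`, `LlAdm`, `LlLipL1`, `LlHardJump`.
-/

set_option autoImplicit false

namespace Claimed.Agent.R286

open MeasureTheory Set Filter Topology

/-! ### 1. numbers -/

/-- `(ω (M²+1))^{1-ε/2} + e^{-c(M-R)} ≤ C ω^{1-ε}` -/
theorem lsw_num_sm (ε : ℝ) (h0 : 0 < ε) (h1 : ε ≤ 1 / 2) (c R : ℝ) (hc : 0 < c) :
    ∃ (C : ℝ) (N0 : ℕ), 0 ≤ C ∧ 2 ≤ N0 ∧ ∀ p : LlPt, N0 ≤ p.N →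
      (p.om * (p.M ^ 2 + 1)) ^ (1 - ε / 2) + Real.exp (-c * (p.M - R)) ≤ C * p.om ^ (1 - ε) := by
  obtain ⟨C6, hC6, h6⟩ := lsw_num_log 6 (21 / 4 * (ε / 2)) (by positivity)
  obtain ⟨x0, hx0, hx01, hE⟩ := lsw_num_exp c 6 hc
  obtain ⟨N1, hN1, hx1⟩ := lsw_x_small x0 hx0
  refine ⟨(C6 + 1) ^ (1 - ε / 2) + Real.exp (c * R), max N1 2, by positivity, le_max_right _ _, fun p hp => ?_⟩
  have hN2 : 2 ≤ p.N := (le_max_right _ _).trans hp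
  have hx : 0 < p.x := lsw_x_pos p (by omega)
  have hxl : p.x < 1 := lsw_x_lt_one p hN2
  have hxx : p.x < x0 := hx1 p ((le_max_left _ _).trans hp)
  have hom0 : 0 < p.om := Real.rpow_pos_of_pos hx _
  have hom1 : p.om ≤ 1 := Real.rpow_le_one hx.le hxl.le (by norm_num)
  -- the logarithm
  have hM2 : p.M ^ 2 = Real.log (1 / p.x) ^ 6 := by unfold LlPt.M; ring
  have hneg : p.x ^ (-(21 / 4 * (ε / 2))) = p.om ^ (-(ε / 2)) := by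
    unfold LlPt.om
    rw [← Real.rpow_mul hx.le]
    congr 1
    ring
  have hge1 : 1 ≤ p.om ^ (-(ε / 2)) := Real.one_le_rpow_of_pos_of_le_one_of_nonpos hom0 hom1 (by linarith)
  have hM3 : p.M ^ 2 + 1 ≤ (C6 + 1) * p.om ^ (-(ε / 2)) := by
    have := h6 p.x ⟨hx, hxl⟩
    rw [hneg, ← hM2] at this
    linarith
  have hX : p.om * (p.M ^ 2 + 1) ≤ (C6 + 1) * p.om ^ (1 - ε / 2) := by
    have e : p.om ^ (1 - ε / 2) = p.om * p.om ^ (-(ε / 2)) := by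
      rw [show (1 - ε / 2 : ℝ) = 1 + -(ε / 2) by ring, Real.rpow_add hom0, Real.rpow_one]
    rw [e]
    calc p.om * (p.M ^ 2 + 1) ≤ p.om * ((C6 + 1) * p.om ^ (-(ε / 2))) := mul_le_mul_of_nonneg_left hM3 hom0.le
      _ = (C6 + 1) * (p.om * p.om ^ (-(ε / 2))) := by ring
  have hX0 : 0 ≤ p.om * (p.M ^ 2 + 1) := by positivity
  have hXp : (p.om * (p.M ^ 2 + 1)) ^ (1 - ε / 2) ≤ (C6 + 1) ^ (1 - ε / 2) * p.om ^ (1 - ε) := by
    calc (p.om * (p.M ^ 2 + 1)) ^ (1 - ε / 2) ≤ ((C6 + 1) * p.om ^ (1 - ε / 2)) ^ (1 - ε / 2) :=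
          Real.rpow_le_rpow hX0 hX (by linarith)
      _ = (C6 + 1) ^ (1 - ε / 2) * p.om ^ ((1 - ε / 2) * (1 - ε / 2)) := by
          rw [Real.mul_rpow (by positivity) (Real.rpow_nonneg hom0.le _), ← Real.rpow_mul hom0.le]
      _ ≤ (C6 + 1) ^ (1 - ε / 2) * p.om ^ (1 - ε) := by
          refine mul_le_mul_of_nonneg_left ?_ (by positivity)
          exact lsw_x_rpow_le hom0 hom1 (by nlinarith [sq_nonneg ε])
  -- the exponential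
  have hexp : Real.exp (-c * (p.M - R)) ≤ Real.exp (c * R) * p.om ^ (1 - ε) := by
    have e1 : Real.exp (-c * (p.M - R)) = Real.exp (c * R) * Real.exp (-c * Real.log (1 / p.x) ^ 3) := by
      rw [← Real.exp_add]; unfold LlPt.M; congr 1; ring
    rw [e1]
    refine mul_le_mul_of_nonneg_left ?_ (Real.exp_pos _).le
    calc Real.exp (-c * Real.log (1 / p.x) ^ 3) ≤ p.x ^ (6 : ℝ) := hE p.x ⟨hx, hxx⟩
      _ ≤ p.x ^ (5 + 1 / 4 : ℝ) := lsw_x_rpow_le hx hxl.le (by norm_num)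
      _ = p.om ^ (1 : ℝ) := by rw [Real.rpow_one]; rfl
      _ ≤ p.om ^ (1 - ε) := lsw_x_rpow_le hom0 hom1 (by linarith)
  linarith

/-! ### 2. the package -/

/-- a mass profile of the inverse kit with terminal mass `1` is admissible for the package -/
theorem lsw_adm_of_prof {A : ℝ → ℝ} {τ : ℝ} (h : LpqProf A τ 1) : LppAdm A 1 where
  j1 := le_rfl
  j4 := by norm_num
  mono := h.mono
  nn := fun ξ hξ => h.nn.trans (h.mono (mem_Ici.2 le_rfl) (mem_Ici.2 hξ) hξ)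
  le := fun ξ hξ => by
    have := h.mono (mem_Ici.2 hξ) (mem_Ici.2 (hξ.trans (le_max_left ξ τ))) (le_max_left ξ τ)
    rwa [h.top _ (le_max_right ξ τ)] at this
  top := ⟨τ, h.top⟩

/-- the responses of two models whose `Γ'` are `E`-close up to the time `ξ` -/
theorem lsw_gam_diff {S : LppMod} (hS : LppOk S) {T ξs : ℝ} {A0 : ℝ → ℝ} (hb : LppBase S T A0 ξs) {A A' : ℝ → ℝ} {j j' : ℝ}
    (hA : LppAdm A j) (hA' : LppAdm A' j') {ξ E : ℝ} (hξ : 0 ≤ ξ) (h : ∀ r ∈ Icc 0 ξ, |S.M2 A' j' r - S.M2 A j r| ≤ E) :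
    |S.Gam A' j' ξ - S.Gam A j ξ| ≤ E * ξ := by
  have i1 : IntervalIntegrable (S.M2 A j) volume 0 ξ :=
    ((lpp_M2_cont hS hb hA).mono (by rw [uIcc_of_le hξ]; exact Icc_subset_Ici_self)).intervalIntegrable
  have i2 : IntervalIntegrable (S.M2 A' j') volume 0 ξ :=
    ((lpp_M2_cont hS hb hA').mono (by rw [uIcc_of_le hξ]; exact Icc_subset_Ici_self)).intervalIntegrable
  rw [hS.gam A j hA ξ hξ, hS.gam A' j' hA' ξ hξ, ← intervalIntegral.integral_sub i2 i1]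
  have := intervalIntegral.norm_integral_le_of_norm_le_const (a := (0 : ℝ)) (b := ξ) (C := E)
    (f := fun r => S.M2 A' j' r - S.M2 A j r) (fun r hr => by
      rw [uIoc_of_le hξ] at hr
      exact h r ⟨hr.1.le, hr.2⟩)
  rwa [Real.norm_eq_abs, sub_zero, abs_of_nonneg hξ] at this

/-- `0 ≤ 1 - Γ(t) ≤ exp(-a_0² (t - s)/2)` while the mass is at least `a_0` on `[s,t]` -/
theorem lsw_one_sub_gam {S : LppMod} (hS : LppOk S) {A : ℝ → ℝ} {j : ℝ} (hA : LppAdm A j) {s t a0 : ℝ} (hs : 0 ≤ s) (hst : s ≤ t)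
    (ha : 0 ≤ a0) (hlow : ∀ r ∈ Icc s t, a0 ≤ A r) :
    0 ≤ 1 - S.Gam A j t ∧ 1 - S.Gam A j t ≤ Real.exp (-(a0 ^ 2 * (t - s) / 2)) := by
  have ht0 : 0 ≤ t := hs.trans hst
  have hq : ∀ z, 0 < 1 - S.vk 1 A j t z ^ 2 := by
    intro z
    obtain ⟨h1, _, h3⟩ := hS.hess A j hA t ht0 z
    have hj : 0 < j := by linarith [hA.j1]
    by_contra hcon
    push Not at hcon
    have := mul_nonpos_of_nonneg_of_nonpos hj.le hcon
    linarith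
  have hc1 : LppCls (fun z => S.vk 1 A j t z ^ 2) :=
    LppCls.of_bdd ((lpp_vk_cont hS hA ht0 1).pow 2) (C := 1) (fun z => by
      rw [abs_of_nonneg (sq_nonneg _)]; linarith [hq z])
  have hone : LppCls (fun _ : ℝ => (1 : ℝ)) := LppCls.of_bdd continuous_const (C := 1) (fun _ => by simp)
  have hcs : LppCls (fun z => Real.sqrt (1 - S.vk 1 A j t z ^ 2)) :=
    LppCls.of_bdd (Real.continuous_sqrt.comp (continuous_const.sub ((lpp_vk_cont hS hA ht0 1).pow 2))) (C := 1) (fun z => by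
      rw [abs_of_nonneg (Real.sqrt_nonneg _)]
      exact Real.sqrt_le_one.2 (by linarith [sq_nonneg (S.vk 1 A j t z)]))
  have e : 1 - S.Gam A j t = S.Ex A j t (fun z => 1 - S.vk 1 A j t z ^ 2) := by
    rw [lpp_ex_sub hS hA ht0 hone hc1, hS.ex_one A j hA t ht0]; rfl
  rw [e]
  refine ⟨lpp_ex_nonneg hS hA ht0 (hone.sub hc1) fun z => (hq z).le, ?_⟩
  refine (hS.ex_mono A j hA t ht0 _ _ (hone.sub hc1) hcs fun z => ?_).trans (hS.dec A j hA s t a0 hs hst ha hlow)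
  obtain ⟨q, hq'⟩ : ∃ q : ℝ, q = 1 - S.vk 1 A j t z ^ 2 := ⟨_, rfl⟩
  have hq0 : 0 < q := by rw [hq']; exact hq z
  have hq1 : q ≤ 1 := by rw [hq']; linarith [sq_nonneg (S.vk 1 A j t z)]
  rw [← hq']
  have h7 : Real.sqrt q ≤ 1 := Real.sqrt_le_one.2 hq1
  have h8 := Real.mul_self_sqrt hq0.le
  have h9 := mul_le_mul_of_nonneg_left h7 (Real.sqrt_nonneg q)
  linarith

/-! ### 3. the contract `LlSmCmp` -/

/-- the two profiles in the notation of the package -/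
theorem lsw_Adir_eq (p : LlPt) (F : LlFix) (𝔹 : LlBase) : p.Adir F 𝔹 = fun ξ => 𝔹.A0 F.T ξ + p.lam * F.P ξ := rfl

theorem lsw_Asm_eq (p : LlPt) (F : LlFix) (𝔹 : LlBase) :
    p.Asm F 𝔹 = lppSm (𝔹.A0 F.T) F.P (𝔹.xiS F.T) (𝔹.pTop F.T) p.lam p.om p.M (4 / p.ell) := rfl

/-- **the smoothing paragraph of Lemma paths:lift** (03 l.157-161) in the form used by Prop. 3.4 -/
theorem lsw_smCmp {S : LppMod} (hS : LppOk S) (𝔹 : LlBase) (F : LlFix) (hF : F.Ok) (hbp : LlBaseProfile 𝔹 F.T)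
    (hb : LppBase S F.T (𝔹.A0 F.T) (𝔹.xiS F.T)) (hz : F.z0 < 𝔹.xiS F.T)
    (hG : ∀ A j, LppAdm A j → ∀ ξ, 0 ≤ ξ → 𝔹.scG A j ξ = S.Gam A j ξ)
    (hG1 : ∀ A j, LppAdm A j → ∀ ξ, 0 ≤ ξ → 𝔹.scG1 A j ξ = S.M2 A j ξ)
    (hprof : LlDirProf 𝔹 F) {c C v0 : ℝ} (hc : 0 < c) (href : LlRef 𝔹 F c C v0) : LlSmCmp 𝔹 F := by
  have ht : LppTop (𝔹.A0 F.T) (𝔹.xiS F.T) (𝔹.pTop F.T) :=
    ⟨hbp.pTop_mem.1, hbp.pTop_mem.2, fun ξ hξ => (hbp.lt_top ξ hξ.2).le⟩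
  have hxs : 0 < 𝔹.xiS F.T := hbp.xi_pos
  have hpT := ht.pos
  refine ⟨𝔹.pTop F.T ^ 2 / 2, by positivity, fun ε hε => ?_⟩
  obtain ⟨ε', hε'⟩ : ∃ ε' : ℝ, ε' = min ε (1 / 2) := ⟨_, rfl⟩
  have he0 : 0 < ε' := by rw [hε']; exact lt_min hε (by norm_num)
  have he1 : ε' ≤ 1 / 2 := by rw [hε']; exact min_le_right _ _
  have hee : ε' ≤ ε := by rw [hε']; exact min_le_left _ _
  obtain ⟨C5, c5, hC5, hc5, H5⟩ := lpp_sm_M2 hS hb ht (𝔹.xiS F.T) le_rfl (1 - ε' / 2) (by linarith) (by linarith)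
  obtain ⟨Cn, Nn, hCn, hNn, Hn⟩ := lsw_num_sm ε' he0 he1 c5 (𝔹.xiS F.T) hc5
  obtain ⟨-, N1, H1⟩ := hprof
  obtain ⟨N2, H2⟩ := href
  obtain ⟨C3, N3, hC3, -, H3⟩ := lsw_omM
  obtain ⟨N4, -, H4⟩ := lsw_x_small (1 / (C3 + 1)) (by positivity)
  obtain ⟨N5, -, H5'⟩ := lsw_M_large (𝔹.xiS F.T + 1)
  refine ⟨C5 * Cn * 𝔹.xiS F.T + Real.exp (𝔹.pTop F.T ^ 2 * 𝔹.xiS F.T / 2) + 4 * C ^ 2 * (C5 * Cn),
    max (max (max Nn N1) (max N2 N3)) (max N4 N5), fun p hp hN hsm => ?_⟩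
  have hNn' : Nn ≤ p.N := ((le_max_left _ _).trans ((le_max_left _ _).trans (le_max_left _ _))).trans hN
  have hN1' : N1 ≤ p.N := ((le_max_right _ _).trans ((le_max_left _ _).trans (le_max_left _ _))).trans hN
  have hN2' : N2 ≤ p.N := ((le_max_left _ _).trans ((le_max_right _ _).trans (le_max_left _ _))).trans hN
  have hN3' : N3 ≤ p.N := ((le_max_right _ _).trans ((le_max_right _ _).trans (le_max_left _ _))).trans hN
  have hN4' : N4 ≤ p.N := ((le_max_left _ _).trans (le_max_right _ _)).trans hN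
  have hN5' : N5 ≤ p.N := ((le_max_right _ _).trans (le_max_right _ _)).trans hN
  have hx : 0 < p.x := lsw_x_pos p (by have := hp.N2; omega)
  have hxl : p.x < 1 := lsw_x_lt_one p hp.N2
  have hom0 : 0 < p.om := Real.rpow_pos_of_pos hx _
  have hl0 : 0 < p.lam := lt_of_lt_of_le (Real.rpow_pos_of_pos hx _) hp.lam_lo
  obtain ⟨h31, h32, hom1⟩ := H3 p hN3'
  have hell0 : 0 < p.ell := by linarith [hp.ell1]
  have hell2 : p.ell ≤ 2 := lsw_ell_le_two hp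
  have hX1 : p.om * (p.M ^ 2 + 1) ≤ 1 := by
    have h1 : p.x ^ (5 + 1 / 8 : ℝ) ≤ p.x ^ (1 : ℝ) := lsw_x_rpow_le hx hxl.le (by norm_num)
    rw [Real.rpow_one] at h1
    have h2 : C3 * p.x ^ (5 + 1 / 8 : ℝ) ≤ C3 * (1 / (C3 + 1)) := mul_le_mul_of_nonneg_left (h1.trans (H4 p hN4').le) hC3
    have h3 : C3 * (1 / (C3 + 1)) ≤ 1 := by
      rw [mul_one_div, div_le_one (by positivity)]; linarith
    have e : p.om * (p.M ^ 2 + 1) = p.om * p.M ^ 2 + p.om := by ring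
    linarith
  have hM : 𝔹.xiS F.T + 1 ≤ p.M := H5' p hN5'
  have hj1 : 1 + p.om * p.M ≤ 4 / p.ell := by
    have : 2 ≤ 4 / p.ell := by rw [le_div_iff₀ hell0]; linarith
    linarith
  have hj4 : 4 / p.ell ≤ 4 := by rw [div_le_iff₀ hell0]; linarith [hp.ell1]
  have hD : LppAdm (fun ξ => 𝔹.A0 F.T ξ + p.lam * F.P ξ) 1 := lsw_adm_of_prof (H1 p hp hN1').1
  have hAs : LppAdm (lppSm (𝔹.A0 F.T) F.P (𝔹.xiS F.T) (𝔹.pTop F.T) p.lam p.om p.M (4 / p.ell)) (4 / p.ell) :=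
    lpp_sm_adm hb ht hF.z00 hz hF.lppCut hl0.le hD hom0 hom1 hM hj1 hj4
  -- the size of the error
  obtain ⟨E, hE⟩ : ∃ E : ℝ, E = C5 * Cn * p.om ^ (1 - ε) := ⟨_, rfl⟩
  have hpw : p.om ^ (1 - ε') ≤ p.om ^ (1 - ε) := lsw_x_rpow_le hom0 hom1 (by linarith)
  have hpw0 : 0 ≤ p.om ^ (1 - ε) := Real.rpow_nonneg hom0.le _
  have hM2 : ∀ ξ ∈ Icc 0 (𝔹.xiS F.T),
      |S.M2 (lppSm (𝔹.A0 F.T) F.P (𝔹.xiS F.T) (𝔹.pTop F.T) p.lam p.om p.M (4 / p.ell)) (4 / p.ell) ξ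
        - S.M2 (fun ξ => 𝔹.A0 F.T ξ + p.lam * F.P ξ) 1 ξ| ≤ E := by
    intro ξ hξ
    refine (H5 F.z0 F.P hF.z00 hz hF.lppCut p.lam p.om p.M (4 / p.ell) hl0.le hD hom0 hX1 hM hj1 hj4 ξ hξ).trans ?_
    rw [hE, mul_assoc]
    refine mul_le_mul_of_nonneg_left ?_ hC5
    exact (Hn p hNn').trans (mul_le_mul_of_nonneg_left hpw hCn)
  have hE0 : 0 ≤ E := by rw [hE]; positivity
  have hexp0 : 0 ≤ Real.exp (𝔹.pTop F.T ^ 2 * 𝔹.xiS F.T / 2) := (Real.exp_pos _).le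
  have hC2 : 0 ≤ 4 * C ^ 2 * (C5 * Cn) := by positivity
  have hCx : 0 ≤ C5 * Cn * 𝔹.xiS F.T := by positivity
  -- the objects
  have eGs : ∀ ξ, 0 ≤ ξ → p.GamN F 𝔹 ξ
      = S.Gam (lppSm (𝔹.A0 F.T) F.P (𝔹.xiS F.T) (𝔹.pTop F.T) p.lam p.om p.M (4 / p.ell)) (4 / p.ell) ξ := by
    intro ξ hξ
    have ej : p.j = 4 / p.ell := by unfold LlPt.j; rw [if_pos hsm]
    unfold LlPt.GamN
    rw [lsw_sm_Aprof p F 𝔹 hsm, ej, lsw_Asm_eq]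
    exact hG _ _ hAs ξ hξ
  have eGd : ∀ ξ, 0 ≤ ξ → p.toDir.GamN F 𝔹 ξ = S.Gam (fun ξ => 𝔹.A0 F.T ξ + p.lam * F.P ξ) 1 ξ := by
    intro ξ hξ
    have ej : p.toDir.j = 1 := by unfold LlPt.j; rfl
    unfold LlPt.GamN
    rw [lsw_dir_Aprof, ej, lsw_Adir_eq]
    exact hG _ _ hD ξ hξ
  have eg1s : p.Gam1 F 𝔹 0 = p.ell ^ 2
      * S.M2 (lppSm (𝔹.A0 F.T) F.P (𝔹.xiS F.T) (𝔹.pTop F.T) p.lam p.om p.M (4 / p.ell)) (4 / p.ell) 0 := by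
    have ej : p.j = 4 / p.ell := by unfold LlPt.j; rw [if_pos hsm]
    unfold LlPt.Gam1 LlPt.Gam1N
    rw [lsw_sm_Aprof p F 𝔹 hsm, ej, lsw_Asm_eq, mul_zero, hG1 _ _ hAs 0 le_rfl]
  have eg1d : p.toDir.Gam1 F 𝔹 0 = p.ell ^ 2 * S.M2 (fun ξ => 𝔹.A0 F.T ξ + p.lam * F.P ξ) 1 0 := by
    have ej : p.toDir.j = 1 := by unfold LlPt.j; rfl
    have el : p.toDir.ell = p.ell := rfl
    unfold LlPt.Gam1 LlPt.Gam1N
    rw [lsw_dir_Aprof, ej, lsw_Adir_eq, el, mul_zero, hG1 _ _ hD 0 le_rfl]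
  refine ⟨fun ξ hξ => ?_, ?_, ?_⟩
  · rw [eGs ξ hξ.1, eGd ξ hξ.1, abs_sub_comm]
    have h1 := lsw_gam_diff hS hb hD hAs hξ.1 (E := E) fun r hr => hM2 r ⟨hr.1, hr.2.trans hξ.2⟩
    have h2 : E * ξ ≤ E * 𝔹.xiS F.T := mul_le_mul_of_nonneg_left hξ.2 hE0
    have h3 : E * 𝔹.xiS F.T = C5 * Cn * 𝔹.xiS F.T * p.om ^ (1 - ε) := by rw [hE]; ring
    have h4 : 0 ≤ Real.exp (𝔹.pTop F.T ^ 2 * 𝔹.xiS F.T / 2) * p.om ^ (1 - ε) := mul_nonneg hexp0 hpw0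
    have h5 : 0 ≤ 4 * C ^ 2 * (C5 * Cn) * p.om ^ (1 - ε) := mul_nonneg hC2 hpw0
    rw [add_mul, add_mul]
    linarith
  · have hM0 : 0 ≤ p.M := by linarith
    rw [eGs p.M hM0]
    obtain ⟨h1, h2⟩ := lsw_one_sub_gam hS hAs hxs.le (by linarith : 𝔹.xiS F.T ≤ p.M) hpT.le
      (fun r hr => lpp_sm_low hb ht hF.z00 hz hF.lppCut hl0.le hD hom0 hom1 hM hj1 hj4 r hr.1)
    rw [abs_of_nonneg h1]
    have e : Real.exp (-(𝔹.pTop F.T ^ 2 * (p.M - 𝔹.xiS F.T) / 2))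
        = Real.exp (𝔹.pTop F.T ^ 2 * 𝔹.xiS F.T / 2) * Real.exp (-(𝔹.pTop F.T ^ 2 / 2) * p.M) := by
      rw [← Real.exp_add]; congr 1; ring
    rw [e] at h2
    have h3 : 0 ≤ Real.exp (-(𝔹.pTop F.T ^ 2 / 2) * p.M) := (Real.exp_pos _).le
    have h4 : 0 ≤ C5 * Cn * 𝔹.xiS F.T * Real.exp (-(𝔹.pTop F.T ^ 2 / 2) * p.M) := mul_nonneg hCx h3
    have h5 : 0 ≤ 4 * C ^ 2 * (C5 * Cn) * Real.exp (-(𝔹.pTop F.T ^ 2 / 2) * p.M) := mul_nonneg hC2 h3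
    rw [add_mul, add_mul]
    linarith
  · have Rs := H2 p hp hN2'
    have Rd := H2 p.toDir (lsw_toDir_ok hp) hN2'
    have gs0 := Rs.g1_pos 0 le_rfl
    have gd0 := Rd.g1_pos 0 le_rfl
    have bs : p.b0 F 𝔹 = 1 / p.Gam1 F 𝔹 0 := rfl
    have bd : p.toDir.b0 F 𝔹 = 1 / p.toDir.Gam1 F 𝔹 0 := rfl
    have e : p.toDir.b0 F 𝔹 - p.b0 F 𝔹 = (p.Gam1 F 𝔹 0 - p.toDir.Gam1 F 𝔹 0) * (p.toDir.b0 F 𝔹 * p.b0 F 𝔹) := by
      rw [bs, bd]; field_simp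
    have hbs0 : 0 ≤ p.b0 F 𝔹 := hc.le.trans Rs.b0_lo
    have hbd0 : 0 ≤ p.toDir.b0 F 𝔹 := hc.le.trans Rd.b0_lo
    have hprod : p.toDir.b0 F 𝔹 * p.b0 F 𝔹 ≤ C ^ 2 := by
      rw [sq]; exact mul_le_mul Rd.b0_hi Rs.b0_hi hbs0 (hbd0.trans Rd.b0_hi)
    have hg : |p.Gam1 F 𝔹 0 - p.toDir.Gam1 F 𝔹 0| ≤ 4 * E := by
      rw [eg1s, eg1d, ← mul_sub, abs_mul, abs_of_nonneg (sq_nonneg _)]
      have h1 : p.ell ^ 2 ≤ 4 := by
        have := pow_le_pow_left₀ hell0.le hell2 2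
        linarith
      exact mul_le_mul h1 (hM2 0 ⟨le_rfl, hxs.le⟩) (abs_nonneg _) (by norm_num)
    rw [e, abs_mul, abs_of_nonneg (mul_nonneg hbd0 hbs0)]
    have h1 : |p.Gam1 F 𝔹 0 - p.toDir.Gam1 F 𝔹 0| * (p.toDir.b0 F 𝔹 * p.b0 F 𝔹) ≤ 4 * E * C ^ 2 :=
      mul_le_mul hg hprod (mul_nonneg hbd0 hbs0) (by positivity)
    have h3 : 4 * E * C ^ 2 = 4 * C ^ 2 * (C5 * Cn) * p.om ^ (1 - ε) := by rw [hE]; ring
    have h4 : 0 ≤ Real.exp (𝔹.pTop F.T ^ 2 * 𝔹.xiS F.T / 2) * p.om ^ (1 - ε) := mul_nonneg hexp0 hpw0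
    have h5 : 0 ≤ C5 * Cn * 𝔹.xiS F.T * p.om ^ (1 - ε) := mul_nonneg hCx hpw0
    rw [add_mul, add_mul]
    linarith

/-! ### 4. EXIT -/

/-- **Prop. 3.4 (paths:switch)** with the scalar contracts discharged.      IMPORTS: Lemma paths:base-profile (`LlBaseProfile`, `LppBase`), the scalar package `LppOk S` and its link with `𝔹`,
(P2) `LlRef`, admissibility `LlAdm`, and the two facts on the pressures `LlLipL1`, `LlHardJump`.      ORDER OF THE CONSTANTS: `zb` depends on `𝔹, T` only. -/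
theorem lsw_P11_pk {S : LppMod} (hS : LppOk S) (𝔹 : LlBase) (T : ℝ) (hbp : LlBaseProfile 𝔹 T)
    (hb : LppBase S T (𝔹.A0 T) (𝔹.xiS T))
    (hG : ∀ A j, LppAdm A j → ∀ ξ, 0 ≤ ξ → 𝔹.scG A j ξ = S.Gam A j ξ)
    (hG1 : ∀ A j, LppAdm A j → ∀ ξ, 0 ≤ ξ → 𝔹.scG1 A j ξ = S.M2 A j ξ)
    (hL : LlLipL1 𝔹) (hJ : LlHardJump 𝔹) :
    ∃ zb : ℝ, 0 < zb ∧ ∀ F : LlFix, F.Ok → F.T = T → F.z0 ≤ zb → 4 * F.vb ≤ 1 →
      ∀ c C v0 : ℝ, 0 < c → 0 < v0 → LlRef 𝔹 F c C v0 → LlAdm 𝔹 F → LlP11 𝔹 F := by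
  obtain ⟨zb, hzb, H⟩ := lsw_dirProf 𝔹 T hbp
  have hxs := hbp.xi_pos
  refine ⟨min zb (𝔹.xiS T / 2), lt_min hzb (by linarith), fun F hF hT hz hvb c C v0 hc hv0 href hadm => ?_⟩
  have hprof := H F hF hT (hz.trans (min_le_left _ _))
  subst hT
  have hz' : F.z0 < 𝔹.xiS F.T := lt_of_le_of_lt (hz.trans (min_le_right _ _)) (by linarith)
  exact lsw_P11 𝔹 F hF hvb hprof hc hv0 href (lsw_smCmp hS 𝔹 F hF hbp hb hz' hG hG1 hprof hc href) hadm hL hJ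

/-! ### 5. INST[LlLipL1], INST[LlHardJump]: the two contracts on the pressure layer AT THE SK BASE `llBase` (helper3) -/

/-- **INST[LlLipL1]**: (A1) line 1 = PE Lemma 2.2 for `llBase.f = skPf` (clocks read on `(0,a)`), from `exit_clk_pr_lip` -/
theorem lsw_lipL1_llBase : LlLipL1 llBase := by
  intro m a hm ha b h b' h' hb hh hb' hh'
  have h1 := exit_clk_pr_lip (n := m) hm ha (psi_adm ha hb' hh') (psi_adm ha hb hh)
  rw [llb_int ha, llb_int ha, intervalIntegral.integral_of_le ha.le, intervalIntegral.integral_of_le ha.le,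
    integral_Ioc_eq_integral_Ioo, integral_Ioc_eq_integral_Ioo] at h1
  exact h1

/-- **INST[LlHardJump]**: the hard field jump for `llBase.f = skPf` = `lph_jump_skPf` (helper283) -/
theorem lsw_hardJump_llBase : LlHardJump llBase :=
  fun m l a hm hl hla b h bT hT hP hb hh hbT hhT hTP hsm => lph_jump_skPf m l a hm hl hla b h bT hT hP hb hh hbT hhT hTP hsm

/-- **Prop. 3.4 (paths:switch) at `llBase`**: only the scalar package, its link, (P2) and admissibility are left as imports -/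
theorem lsw_P11_llBase {S : LppMod} (hS : LppOk S) (T : ℝ) (hbp : LlBaseProfile llBase T)
    (hb : LppBase S T (llBase.A0 T) (llBase.xiS T))
    (hG : ∀ A j, LppAdm A j → ∀ ξ, 0 ≤ ξ → llBase.scG A j ξ = S.Gam A j ξ)
    (hG1 : ∀ A j, LppAdm A j → ∀ ξ, 0 ≤ ξ → llBase.scG1 A j ξ = S.M2 A j ξ) :
    ∃ zb : ℝ, 0 < zb ∧ ∀ F : LlFix, F.Ok → F.T = T → F.z0 ≤ zb → 4 * F.vb ≤ 1 →
      ∀ c C v0 : ℝ, 0 < c → 0 < v0 → LlRef llBase F c C v0 → LlAdm llBase F → LlP11 llBase F :=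
  lsw_P11_pk hS llBase T hbp hb hG hG1 lsw_lipL1_llBase lsw_hardJump_llBase

end Claimed.Agent.R286
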