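import Claimed.Agent.R286.Exit.LppBaseInst
import Claimed.Agent.R286.LL.PathsSwD

/-!
# Row 286 (S0533), LL Section 3: THE ADAPTER  `lpp_lift_dir / lpp_lift_sm` + `lkk_point`  ⇒  `LlPt.Ref`  ⇒  `LlRef`  ⇒  glue `LlRefExit`      (owner helper281 by ruling of 136/82; q-half: helper202; prefix `lrf_`, `Lrf`)
TEX[LL:paths:lift]      Plan: `origin/helper121:notes/R286/LL03_REF_handover_121.md` sec. 3.

Notation at a point `p`: `A = p.Aprof F 𝔹`, `j = p.j`, `ℓ = p.ell`, `m(ξ) = S.M2 A j ξ = Γ̂'(ξ)`, `Γ̂ = S.Gam A j`, `ξ(v) = p.xi F 𝔹 v = ℓ² K(v)`.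
* §0 `lrf_ex_pos`  a positive continuous test has a positive expectation (abstract functional: `f ≥ μ (1 - z²/r²)` + `mom2`);
* §1 dictionary `LlPt` ↔ package (`LppLink`);
* §2 `LrfPt` = hypotheses at one point (lift, K-kit, smallness);   facts on `m` and `Γ̂`;
* §3 the fields `b0_*, v2, g1_*, gam_*, gap_*`;
* §4 the q-half (`q_lo, q_hi, q_slope`);
* §5 `lrf_point : p.Ref F 𝔹 c C v0`;   §6 scales;   §7 EXIT `lrf_ref`;   §8 glue `ll3_refexit`.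
-/

set_option autoImplicit false

namespace Claimed.Agent.R286

open MeasureTheory Set Filter Topology

/-! ## 0. positivity of the abstract expectation -/

/-- a continuous, everywhere positive test function of the class has a positive expectation -/
theorem lrf_ex_pos {S : LppMod} (hS : LppOk S) {A : ℝ → ℝ} {j ξ : ℝ} (hA : LppAdm A j) (hξ : 0 ≤ ξ) {f : ℝ → ℝ} (hf : LppCls f)
    (hpos : ∀ z, 0 < f z) : 0 < S.Ex A j ξ f := by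
  obtain ⟨C2, hC2⟩ := hS.mom2 ξ
  have hc : Continuous f := hf.1
  have hmom := hC2 A j hA ξ ⟨hξ, le_rfl⟩
  set R2 : ℝ := 2 * (|C2| * ξ) + 1 with hR2
  have hR20 : 0 < R2 := by positivity
  have hmomR : S.Ex A j ξ (fun z => z ^ 2) ≤ R2 / 2 := by
    have h1 : C2 * ξ ≤ |C2| * ξ := mul_le_mul_of_nonneg_right (le_abs_self _) hξ
    linarith
  obtain ⟨y, -, hymin⟩ := (isCompact_Icc (a := -Real.sqrt R2) (b := Real.sqrt R2)).exists_isMinOn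
    (nonempty_Icc.2 (by linarith [Real.sqrt_nonneg R2])) hc.continuousOn
  set m : ℝ := f y with hm
  have hm0 : 0 < m := hpos y
  have hlow : ∀ z, m * 1 + (-(m / R2)) * z ^ 2 ≤ f z := by
    intro z
    by_cases hz : z ^ 2 ≤ R2
    · have hzI : z ∈ Icc (-Real.sqrt R2) (Real.sqrt R2) := abs_le.1 (Real.abs_le_sqrt hz)
      have h1 : m ≤ f z := hymin hzI
      have h2 : 0 ≤ m / R2 * z ^ 2 := by positivity
      linarith
    · push Not at hz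
      have h1 : m ≤ m / R2 * z ^ 2 := by
        rw [div_mul_eq_mul_div, le_div_iff₀ hR20]
        exact mul_le_mul_of_nonneg_left hz.le hm0.le
      linarith [hpos z]
  have hcl1 : LppCls (fun _ : ℝ => m * 1) := LppCls.of_bdd continuous_const (C := |m * 1|) fun _ => le_rfl
  have hcl2 : LppCls (fun z : ℝ => (-(m / R2)) * z ^ 2) := LppCls.sq.smul _
  have hE := hS.ex_mono A j hA ξ hξ _ _ (hcl1.add hcl2) hf hlow
  rw [hS.ex_add A j hA ξ hξ _ _ hcl1 hcl2, hS.ex_smul A j hA ξ hξ _ _ LppCls.sq, lpp_ex_const hS hA hξ] at hE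
  have h3 : m / R2 * S.Ex A j ξ (fun z => z ^ 2) ≤ m / R2 * (R2 / 2) := mul_le_mul_of_nonneg_left hmomR (by positivity)
  have h4 : m / R2 * (R2 / 2) = m / 2 := by field_simp
  linarith
/-! ## 1. dictionary -/

section dict

variable {S : LppMod} {𝔹 : LlBase} (hl : LppLink 𝔹 S) (p : LlPt) (F : LlFix)

include hl

theorem lrf_Gam1N (ξ : ℝ) : p.Gam1N F 𝔹 ξ = S.M2 (p.Aprof F 𝔹) p.j ξ := by
  unfold LlPt.Gam1N; rw [hl.G1]

theorem lrf_GamN (ξ : ℝ) : p.GamN F 𝔹 ξ = S.Gam (p.Aprof F 𝔹) p.j ξ := by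
  unfold LlPt.GamN; rw [hl.G]

theorem lrf_Gam1 (t : ℝ) : p.Gam1 F 𝔹 t = p.ell ^ 2 * S.M2 (p.Aprof F 𝔹) p.j (p.ell ^ 2 * t) := by
  unfold LlPt.Gam1; rw [lrf_Gam1N hl]

theorem lrf_Gam (t : ℝ) : p.Gam F 𝔹 t = S.Gam (p.Aprof F 𝔹) p.j (p.ell ^ 2 * t) := by
  unfold LlPt.Gam; rw [lrf_GamN hl]

theorem lrf_b0 : p.b0 F 𝔹 = 1 / (p.ell ^ 2 * S.M2 (p.Aprof F 𝔹) p.j 0) := by
  unfold LlPt.b0; rw [lrf_Gam1 hl, mul_zero]

theorem lrf_q (hell : p.ell ≠ 0) (v : ℝ) : p.q F 𝔹 v = S.Gam (p.Aprof F 𝔹) p.j (p.xi F 𝔹 v) := by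
  unfold LlPt.q; rw [lrf_Gam hl]; unfold LlPt.K
  rw [← mul_assoc, mul_inv_cancel₀ (pow_ne_zero 2 hell), one_mul]

end dict

theorem lrf_xi_K (p : LlPt) (F : LlFix) (𝔹 : LlBase) (hell : p.ell ≠ 0) (v : ℝ) : p.xi F 𝔹 v = p.ell ^ 2 * p.K F 𝔹 v := by
  unfold LlPt.K
  rw [← mul_assoc, mul_inv_cancel₀ (pow_ne_zero 2 hell), one_mul]

/-- `1 ≤ ℓ² ≤ 2` -/
theorem lrf_ell2 {p : LlPt} {F : LlFix} (hp : p.Ok F) : 1 ≤ p.ell ^ 2 ∧ p.ell ^ 2 ≤ 2 := by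
  have h1 := hp.ell1
  have h3 := lkk_ell3 hp
  constructor
  · exact one_le_pow₀ h1
  · exact (pow_le_pow_right₀ h1 (by norm_num)).trans h3

/-! ## 2. hypotheses at one point; `m = Γ̂'` and `Γ̂` -/

/-- what the adapter uses at one point -/
structure LrfPt (S : LppMod) (𝔹 : LlBase) (F : LlFix) (p : LlPt) (cL CL cK CK vK : ℝ) : Prop where
  ok : p.Ok F
  T1 : 1 < F.T
  xs : 0 < 𝔹.xiS F.T
  cL0 : 0 < cL
  CL0 : 0 ≤ CL
  cK0 : 0 < cK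
  CK0 : 0 < CK
  vK0 : 0 < vK
  /-- the regular range stays on the active side -/
  vKs : 2 * CK * vK ≤ 𝔹.xiS F.T
  lift : LppLiftAll S F.T (𝔹.xiS F.T) cL CL p.lam (p.Aprof F 𝔹) p.j
  kref : p.KRef F 𝔹 cK CK vK
  small : CL * p.lam * (1 + 𝔹.xiS F.T ^ 2) ≤ 1 / (2 * F.T)

section pt

variable {S : LppMod} (hS : LppOk S) {𝔹 : LlBase} (hl : LppLink 𝔹 S) {F : LlFix} {p : LlPt} {cL CL cK CK vK : ℝ}
  (hb : LppBase S F.T (𝔹.A0 F.T) (𝔹.xiS F.T)) (h : LrfPt S 𝔹 F p cL CL cK CK vK)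

include hS h

/-- `1/(2T) ≤ m(0) ≤ 3/(2T)` -/
theorem lrf_m0 : 1 / (2 * F.T) ≤ S.M2 (p.Aprof F 𝔹) p.j 0 ∧ S.M2 (p.Aprof F 𝔹) p.j 0 ≤ 3 / (2 * F.T) := by
  have hT : 0 < F.T := by linarith [h.T1]
  have hlam : 0 < p.lam := lkk_lam_pos h.ok
  have h1 := abs_le.1 h.lift.m0
  have h2 : CL * p.lam ≤ CL * p.lam * (1 + 𝔹.xiS F.T ^ 2) := by
    have : 0 ≤ CL * p.lam := mul_nonneg h.CL0 hlam.le
    nlinarith [sq_nonneg (𝔹.xiS F.T)]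
  have h3 := h.small
  have e1 : 1 / F.T = 1 / (2 * F.T) + 1 / (2 * F.T) := by field_simp; norm_num
  have e2 : 3 / (2 * F.T) = 1 / (2 * F.T) + 1 / (2 * F.T) + 1 / (2 * F.T) := by field_simp; norm_num
  constructor <;> linarith
/-- `0 < m(ξ) ≤ m(0)` -/
theorem lrf_m_pos (ξ : ℝ) (hξ : 0 ≤ ξ) :
    0 < S.M2 (p.Aprof F 𝔹) p.j ξ ∧ S.M2 (p.Aprof F 𝔹) p.j ξ ≤ S.M2 (p.Aprof F 𝔹) p.j 0 := by
  have hlam : 0 < p.lam := lkk_lam_pos h.ok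
  have hA := h.lift.adm
  constructor
  · obtain ⟨C, hC⟩ := hS.bd 2 (by norm_num)
    have hc2 : LppCls (fun z => S.vk 2 (p.Aprof F 𝔹) p.j ξ z ^ 2) :=
      LppCls.of_bdd ((lpp_vk_cont hS hA hξ 2).pow 2) (C := C ^ 2) (fun z => by
        rw [sq (S.vk 2 (p.Aprof F 𝔹) p.j ξ z)]
        exact lpp_aux_m2 (hC _ _ hA ξ hξ z) (hC _ _ hA ξ hξ z))
    exact lrf_ex_pos hS hA hξ hc2 fun z => pow_pos (hS.hess _ _ hA ξ hξ z).1 2
  · have h1 := h.lift.lo ξ hξ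
    have h2 : 0 ≤ cL * p.lam * min (ξ ^ 2) 1 := by
      have := h.cL0
      positivity
    linarith
/-- `|m(ξ) - 1/T| ≤ C_L λ (1 + ξ_*²)` on the active side -/
theorem lrf_m_near (ξ : ℝ) (hξ : ξ ∈ Icc 0 (𝔹.xiS F.T)) :
    |S.M2 (p.Aprof F 𝔹) p.j ξ - 1 / F.T| ≤ CL * p.lam * (1 + 𝔹.xiS F.T ^ 2) := by
  have hlam : 0 < p.lam := lkk_lam_pos h.ok
  have h0 := abs_le.1 h.lift.m0
  have h1 := h.lift.hi ξ hξ
  have h2 := (lrf_m_pos hS h ξ hξ.1).2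
  have hCl : 0 ≤ CL * p.lam := mul_nonneg h.CL0 hlam.le
  have h3 : CL * p.lam * ξ ^ 2 ≤ CL * p.lam * 𝔹.xiS F.T ^ 2 :=
    mul_le_mul_of_nonneg_left (pow_le_pow_left₀ hξ.1 hξ.2 2) hCl
  have h4 : 0 ≤ CL * p.lam * 𝔹.xiS F.T ^ 2 := by positivity
  rw [abs_le]
  constructor <;> nlinarith
include hb

/-- `Γ̂` is nondecreasing -/
theorem lrf_G_mono : MonotoneOn (S.Gam (p.Aprof F 𝔹) p.j) (Ici 0) := by
  have hA := h.lift.adm
  have hc := lpp_M2_cont hS hb hA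
  have hint : ∀ a b : ℝ, 0 ≤ a → 0 ≤ b → IntervalIntegrable (S.M2 (p.Aprof F 𝔹) p.j) volume a b := fun a b ha hb' =>
    (hc.mono (fun x hx => mem_Ici.2 ((le_min ha hb').trans hx.1))).intervalIntegrable
  intro ξ h0 ξ' h0' hle
  have h0 : (0 : ℝ) ≤ ξ := h0
  have h0' : (0 : ℝ) ≤ ξ' := h0'
  rw [hS.gam _ _ hA ξ h0, hS.gam _ _ hA ξ' h0', ← sub_nonneg,
    intervalIntegral.integral_interval_sub_left (hint 0 ξ' le_rfl h0') (hint 0 ξ le_rfl h0)]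
  exact intervalIntegral.integral_nonneg hle fun r hr => (lrf_m_pos hS h r (h0.trans hr.1)).1.le
/-- `0 ≤ Γ̂(ξ) ≤ 3 ξ / (2T)` -/
theorem lrf_G_le (ξ : ℝ) (hξ : 0 ≤ ξ) : 0 ≤ S.Gam (p.Aprof F 𝔹) p.j ξ ∧ S.Gam (p.Aprof F 𝔹) p.j ξ ≤ 3 / (2 * F.T) * ξ := by
  have hA := h.lift.adm
  have hc := lpp_M2_cont hS hb hA
  have hint : IntervalIntegrable (S.M2 (p.Aprof F 𝔹) p.j) volume 0 ξ :=
    (hc.mono (fun x hx => mem_Ici.2 ((le_min le_rfl hξ).trans hx.1))).intervalIntegrable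
  rw [hS.gam _ _ hA ξ hξ]
  refine ⟨intervalIntegral.integral_nonneg hξ fun r hr => (lrf_m_pos hS h r hr.1).1.le, ?_⟩
  have := intervalIntegral.integral_mono_on hξ hint (intervalIntegrable_const (c := 3 / (2 * F.T)))
    fun r hr => (lrf_m_pos hS h r hr.1).2.trans (lrf_m0 hS h).2
  rw [intervalIntegral.integral_const, sub_zero, smul_eq_mul, mul_comm] at this
  exact this
/-- `|Γ̂(ξ) - ξ/T| ≤ C_L λ (1 + ξ_*²) ξ` on the active side; in particular `Γ̂(ξ) ≥ ξ/(2T)` -/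
theorem lrf_G_near (ξ : ℝ) (hξ : ξ ∈ Icc 0 (𝔹.xiS F.T)) :
    |S.Gam (p.Aprof F 𝔹) p.j ξ - ξ / F.T| ≤ CL * p.lam * (1 + 𝔹.xiS F.T ^ 2) * ξ ∧ ξ / (2 * F.T) ≤ S.Gam (p.Aprof F 𝔹) p.j ξ := by
  have hA := h.lift.adm
  have hT : 0 < F.T := by linarith [h.T1]
  have hc := lpp_M2_cont hS hb hA
  have hint : IntervalIntegrable (S.M2 (p.Aprof F 𝔹) p.j) volume 0 ξ :=
    (hc.mono (fun x hx => mem_Ici.2 ((le_min le_rfl hξ.1).trans hx.1))).intervalIntegrable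
  have e : S.Gam (p.Aprof F 𝔹) p.j ξ - ξ / F.T = ∫ r in (0 : ℝ)..ξ, (S.M2 (p.Aprof F 𝔹) p.j r - 1 / F.T) := by
    rw [hS.gam _ _ hA ξ hξ.1, intervalIntegral.integral_sub hint intervalIntegrable_const, intervalIntegral.integral_const]
    simp only [sub_zero, smul_eq_mul]
    ring
  have key : |S.Gam (p.Aprof F 𝔹) p.j ξ - ξ / F.T| ≤ CL * p.lam * (1 + 𝔹.xiS F.T ^ 2) * ξ := by
    rw [e]
    have := intervalIntegral.norm_integral_le_of_norm_le_const (a := (0 : ℝ)) (b := ξ)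
      (C := CL * p.lam * (1 + 𝔹.xiS F.T ^ 2)) (f := fun r => S.M2 (p.Aprof F 𝔹) p.j r - 1 / F.T) (fun r hr => by
        rw [uIoc_of_le hξ.1] at hr
        exact lrf_m_near hS h r ⟨hr.1.le, hr.2.trans hξ.2⟩)
    rwa [Real.norm_eq_abs, sub_zero, abs_of_nonneg hξ.1] at this
  refine ⟨key, ?_⟩
  have h1 := (abs_le.1 key).1
  have h2 : CL * p.lam * (1 + 𝔹.xiS F.T ^ 2) * ξ ≤ 1 / (2 * F.T) * ξ := mul_le_mul_of_nonneg_right h.small hξ.1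
  have e1 : ξ / F.T = 1 / (2 * F.T) * ξ + ξ / (2 * F.T) := by field_simp; ring
  linarith
/-! ## 4. the q-half      (helper202) -/

include hl

/-- `ξ(v) = ℓ² K(v) ∈ [c_K v, 2 C_K v]` in the regular range, which stays on the active side -/
theorem lrf_xi_rg (v : ℝ) (h0 : 0 < v) (hv : v ≤ vK) :
    cK * v ≤ p.xi F 𝔹 v ∧ p.xi F 𝔹 v ≤ 2 * CK * v ∧ p.xi F 𝔹 v ≤ 𝔹.xiS F.T := by
  have hell : p.ell ≠ 0 := by have := h.ok.ell1; positivity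
  obtain ⟨e1, e2⟩ := lrf_ell2 h.ok
  have k1 := h.kref.K_lo0 v h0 hv
  have k2 := h.kref.K_hi0 v h0 hv
  have hcK := h.cK0
  have hCK := h.CK0
  have hK0 : 0 ≤ p.K F 𝔹 v := (mul_nonneg hcK.le h0.le).trans k1
  rw [lrf_xi_K p F 𝔹 hell v]
  have a1 : p.K F 𝔹 v ≤ p.ell ^ 2 * p.K F 𝔹 v := by nlinarith
  have a2 : p.ell ^ 2 * p.K F 𝔹 v ≤ 2 * (CK * v) := mul_le_mul e2 k2 hK0 (by norm_num)
  have a3 : 2 * (CK * v) ≤ 2 * (CK * vK) := by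
    have := mul_le_mul_of_nonneg_left hv hCK.le
    linarith
  have a4 := h.vKs
  refine ⟨k1.trans a1, by linarith, by linarith⟩

/-- `q ≤ (3 C_K / T) v` in the regular range, `q ≤ 1` everywhere -/
theorem lrf_q_hi (v : ℝ) (hv : v ∈ Ioo 0 p.a) : p.q F 𝔹 v ≤ max (3 * CK / F.T) (1 / vK) * v := by
  have hell : p.ell ≠ 0 := by have := h.ok.ell1; positivity
  have hT : 0 < F.T := by linarith [h.T1]
  have hA := h.lift.adm
  have hvK := h.vK0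
  rw [lrf_q hl p F hell v]
  have hx0 : 0 ≤ p.xi F 𝔹 v := lpq_inv_nonneg _ _
  rcases le_total v vK with hc | hc
  · obtain ⟨-, x2, -⟩ := lrf_xi_rg hS hl hb h v hv.1 hc
    have g := (lrf_G_le hS hb h _ hx0).2
    have g2 : 3 / (2 * F.T) * p.xi F 𝔹 v ≤ 3 / (2 * F.T) * (2 * CK * v) := mul_le_mul_of_nonneg_left x2 (by positivity)
    have e : 3 / (2 * F.T) * (2 * CK * v) = 3 * CK / F.T * v := by field_simp
    have g3 : 3 * CK / F.T * v ≤ max (3 * CK / F.T) (1 / vK) * v := mul_le_mul_of_nonneg_right (le_max_left _ _) hv.1.le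
    linarith
  · -- `Γ̂ ≤ 1` : `u² ≤ 1` from `hess`
    have hu : ∀ z, S.vk 1 (p.Aprof F 𝔹) p.j (p.xi F 𝔹 v) z ^ 2 ≤ 1 := by
      intro z
      obtain ⟨h1, -, h3⟩ := hS.hess _ _ hA _ hx0 z
      have hj : 0 < p.j := by linarith [hA.j1]
      by_contra hcon
      push Not at hcon
      have := mul_neg_of_pos_of_neg hj (show 1 - S.vk 1 (p.Aprof F 𝔹) p.j (p.xi F 𝔹 v) z ^ 2 < 0 by linarith)
      linarith
    have hcls : LppCls (fun z => S.vk 1 (p.Aprof F 𝔹) p.j (p.xi F 𝔹 v) z ^ 2) :=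
      LppCls.of_bdd ((lpp_vk_cont hS hA hx0 1).pow 2) (C := 1) fun z => by
        rw [abs_of_nonneg (sq_nonneg _)]; exact hu z
    have hone : LppCls (fun _ : ℝ => (1 : ℝ)) := LppCls.of_bdd continuous_const (C := 1) (fun _ => by simp)
    have g := hS.ex_mono _ _ hA _ hx0 _ _ hcls hone hu
    rw [hS.ex_one _ _ hA _ hx0] at g
    have g1 : S.Gam (p.Aprof F 𝔹) p.j (p.xi F 𝔹 v) ≤ 1 := g
    have g2 : 1 ≤ 1 / vK * v := by rw [one_div, inv_mul_eq_div, le_div_iff₀ hvK]; linarith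
    have g3 : 1 / vK * v ≤ max (3 * CK / F.T) (1 / vK) * v := mul_le_mul_of_nonneg_right (le_max_right _ _) hv.1.le
    linarith

/-- `q ≥ c_K v / (2T)` in the regular range, then monotonicity (`a ≤ 4`) -/
theorem lrf_q_lo (v : ℝ) (hv : v ∈ Ioo 0 p.a) : min (cK / (2 * F.T)) (cK * vK / (8 * F.T)) * v ≤ p.q F 𝔹 v := by
  have hell : p.ell ≠ 0 := by have := h.ok.ell1; positivity
  have hT : 0 < F.T := by linarith [h.T1]
  have hvK := h.vK0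
  have hcK := h.cK0
  have ha4 : p.a ≤ 4 := by
    have := lkk_ell_le_two h.ok
    unfold LlPt.a
    cases p.sm
    · simp only [Bool.false_eq_true, if_false]; linarith
    · simp
  have LO : ∀ u, 0 < u → u ≤ vK → cK / (2 * F.T) * u ≤ S.Gam (p.Aprof F 𝔹) p.j (p.xi F 𝔹 u) := by
    intro u h0 hu
    obtain ⟨x1, -, x3⟩ := lrf_xi_rg hS hl hb h u h0 hu
    have g := (lrf_G_near hS hb h (p.xi F 𝔹 u) ⟨lpq_inv_nonneg _ _, x3⟩).2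
    have g2 : cK * u / (2 * F.T) ≤ p.xi F 𝔹 u / (2 * F.T) := div_le_div_of_nonneg_right x1 (by positivity)
    have e : cK / (2 * F.T) * u = cK * u / (2 * F.T) := by ring
    linarith
  rw [lrf_q hl p F hell v]
  rcases le_total v vK with hc | hc
  · exact (mul_le_mul_of_nonneg_right (min_le_left _ _) hv.1.le).trans (LO v hv.1 hc)
  · have hmem : vK ∈ Ioo 0 p.a := ⟨hvK, lt_of_le_of_lt hc hv.2⟩
    have k := h.kref.K_mono hmem hv hc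
    have x : p.xi F 𝔹 vK ≤ p.xi F 𝔹 v := by
      rw [lrf_xi_K p F 𝔹 hell, lrf_xi_K p F 𝔹 hell]
      exact mul_le_mul_of_nonneg_left k (by positivity)
    have m := lrf_G_mono hS hb h (mem_Ici.2 (lpq_inv_nonneg _ _)) (mem_Ici.2 (lpq_inv_nonneg _ _)) x
    have g := LO vK hvK le_rfl
    have g2 : min (cK / (2 * F.T)) (cK * vK / (8 * F.T)) * v ≤ cK * vK / (8 * F.T) * v :=
      mul_le_mul_of_nonneg_right (min_le_right _ _) hv.1.le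
    have g3 : cK * vK / (8 * F.T) * v ≤ cK * vK / (8 * F.T) * 4 :=
      mul_le_mul_of_nonneg_left (hv.2.le.trans ha4) (by positivity)
    have e : cK * vK / (8 * F.T) * 4 = cK / (2 * F.T) * vK := by field_simp; ring
    have m' : S.Gam (p.Aprof F 𝔹) p.j (p.xi F 𝔹 vK) ≤ S.Gam (p.Aprof F 𝔹) p.j (p.xi F 𝔹 v) := m
    linarith

/-- the slope of `q` at `0`.   `hinv`, `hnear` = the profile near zero (produced in §6 from the K-kit), `hT2` = Taylor of `A_0` (`lrf_taylor`). -/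
theorem lrf_q_slope {ξ1 C2 : ℝ} (hκ : 0 < 𝔹.kapT F.T) (hC2 : 0 ≤ C2)
    (hinv : ∀ v, 0 < v → v ≤ vK → p.Aprof F 𝔹 (p.xi F 𝔹 v) = v / p.ell ∧ p.xi F 𝔹 v ≤ ξ1)
    (hnear : ∀ ξ ∈ Icc 0 ξ1, 𝔹.A0 F.T ξ ≤ p.Aprof F 𝔹 ξ ∧ p.Aprof F 𝔹 ξ ≤ 𝔹.A0 F.T ξ + 2 * p.lam * ξ)
    (hT2 : ∀ ξ ∈ Icc 0 ξ1, |𝔹.A0 F.T ξ - 𝔹.kapT F.T / F.T * ξ| ≤ C2 * ξ ^ 2)
    (v : ℝ) (h0 : 0 < v) (hv : v ≤ vK) :
    |p.q F 𝔹 v - v / (p.ell * 𝔹.kapT F.T)|
      ≤ (2 * CK * (CL * (1 + 𝔹.xiS F.T ^ 2)) + 4 * CK / 𝔹.kapT F.T + 4 * C2 * CK ^ 2 / 𝔹.kapT F.T) * v * (v + p.lam) := by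
  have hell : p.ell ≠ 0 := by have := h.ok.ell1; positivity
  have hT : 0 < F.T := by linarith [h.T1]
  have hlam : 0 < p.lam := lkk_lam_pos h.ok
  have hCK := h.CK0
  have hCL := h.CL0
  obtain ⟨-, x2, x3⟩ := lrf_xi_rg hS hl hb h v h0 hv
  obtain ⟨i1, i2⟩ := hinv v h0 hv
  rw [lrf_q hl p F hell v, ← div_div]
  obtain ⟨ξ, hξ⟩ : ∃ ξ, ξ = p.xi F 𝔹 v := ⟨_, rfl⟩
  obtain ⟨w, hw⟩ : ∃ w, w = v / p.ell := ⟨_, rfl⟩
  obtain ⟨κ, hκe⟩ : ∃ κ, κ = 𝔹.kapT F.T := ⟨_, rfl⟩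
  obtain ⟨E, hE⟩ : ∃ E, E = CL * (1 + 𝔹.xiS F.T ^ 2) := ⟨_, rfl⟩
  have hE0 : 0 ≤ E := by rw [hE]; positivity
  have f0 : 0 ≤ ξ := by rw [hξ]; exact lpq_inv_nonneg _ _
  rw [← hξ] at x2 x3 i1 i2 ⊢
  rw [← hw] at i1 ⊢
  have g := (lrf_G_near hS hb h ξ ⟨f0, x3⟩).1
  have eg : CL * p.lam * (1 + 𝔹.xiS F.T ^ 2) * ξ = E * p.lam * ξ := by rw [hE]; ring
  rw [eg] at g
  have n := hnear ξ ⟨f0, i2⟩
  have t2 := abs_le.1 (hT2 ξ ⟨f0, i2⟩)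
  rw [i1] at n
  rw [← hκe] at hκ t2 ⊢
  rw [← hE]
  have hlx : 0 ≤ p.lam * ξ := by positivity
  have s : |w - κ / F.T * ξ| ≤ C2 * ξ ^ 2 + 2 * p.lam * ξ := by
    rw [abs_le]; constructor <;> nlinarith [n.1, n.2, t2.1, t2.2]
  have e1 : ξ / F.T - w / κ = -((w - κ / F.T * ξ) / κ) := by field_simp; ring
  have s2 : |ξ / F.T - w / κ| ≤ (C2 * ξ ^ 2 + 2 * p.lam * ξ) / κ := by
    rw [e1, abs_neg, abs_div, abs_of_pos hκ]
    exact div_le_div_of_nonneg_right s hκ.le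
  have t := abs_add_le (S.Gam (p.Aprof F 𝔹) p.j ξ - ξ / F.T) (ξ / F.T - w / κ)
  have e2 : S.Gam (p.Aprof F 𝔹) p.j ξ - ξ / F.T + (ξ / F.T - w / κ) = S.Gam (p.Aprof F 𝔹) p.j ξ - w / κ := by ring
  rw [e2] at t
  have b1 : E * p.lam * ξ ≤ E * p.lam * (2 * CK * v) := mul_le_mul_of_nonneg_left x2 (by positivity)
  have b2 : C2 * ξ ^ 2 + 2 * p.lam * ξ ≤ C2 * (2 * CK * v) ^ 2 + 2 * p.lam * (2 * CK * v) := by
    have h5 := mul_le_mul_of_nonneg_left (pow_le_pow_left₀ f0 x2 2) hC2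
    have h6 := mul_le_mul_of_nonneg_left x2 (show 0 ≤ 2 * p.lam by positivity)
    linarith
  have b3 : (C2 * ξ ^ 2 + 2 * p.lam * ξ) / κ ≤ (C2 * (2 * CK * v) ^ 2 + 2 * p.lam * (2 * CK * v)) / κ :=
    div_le_div_of_nonneg_right b2 hκ.le
  have fin : E * p.lam * (2 * CK * v) + (C2 * (2 * CK * v) ^ 2 + 2 * p.lam * (2 * CK * v)) / κ
      ≤ (2 * CK * E + 4 * CK / κ + 4 * C2 * CK ^ 2 / κ) * v * (v + p.lam) := by
    have e3 : (2 * CK * E + 4 * CK / κ + 4 * C2 * CK ^ 2 / κ) * v * (v + p.lam)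
        - (E * p.lam * (2 * CK * v) + (C2 * (2 * CK * v) ^ 2 + 2 * p.lam * (2 * CK * v)) / κ)
        = 2 * CK * E * v ^ 2 + 4 * CK / κ * v ^ 2 + 4 * C2 * CK ^ 2 / κ * (v * p.lam) := by
      field_simp
      ring
    have p1 : 0 ≤ 2 * CK * E * v ^ 2 := by positivity
    have p2 : 0 ≤ 4 * CK / κ * v ^ 2 := by positivity
    have p3 : 0 ≤ 4 * C2 * CK ^ 2 / κ * (v * p.lam) := by positivity
    linarith
  linarith

end pt

/-- Taylor expansion of the base profile at `0`:   `|A_0(ξ) - κ_T ξ / T| ≤ C_2 ξ²` on `[0, ξ_*)`.   HINT: `hb.tower`: `a 0 0 = A_0 0 = 0`, `a 1 0 = κ_T/T`, `a 2` continuous on the compact `[0,ξ_*]`, two mean value inequalities. -/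
theorem lrf_taylor (𝔹 : LlBase) (T : ℝ) (hb : LlBaseProfile 𝔹 T) :
    ∃ C2 : ℝ, 0 ≤ C2 ∧ ∀ ξ ∈ Ico 0 (𝔹.xiS T), |𝔹.A0 T ξ - 𝔹.kapT T / T * ξ| ≤ C2 * ξ ^ 2 := by
  obtain ⟨a, ha0, -, ha1, hd⟩ := hb.tower
  have hxs := hb.xi_pos
  have hc2 : ContinuousOn (a 2) (Icc 0 (𝔹.xiS T)) := fun ξ hξ => (hd 2 ξ hξ).continuousWithinAt
  obtain ⟨C, hC⟩ := isCompact_Icc.exists_bound_of_continuousOn hc2
  have hC0 : 0 ≤ C := (norm_nonneg _).trans (hC 0 ⟨le_rfl, hxs.le⟩)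
  refine ⟨C, hC0, fun ξ hξ => ?_⟩
  have hξI : ξ ∈ Icc 0 (𝔹.xiS T) := ⟨hξ.1, hξ.2.le⟩
  have h0I : (0 : ℝ) ∈ Icc 0 (𝔹.xiS T) := ⟨le_rfl, hxs.le⟩
  -- first mean value inequality
  have h1 : ∀ y ∈ Icc 0 (𝔹.xiS T), |a 1 y - a 1 0| ≤ C * y := by
    intro y hy
    have := Convex.norm_image_sub_le_of_norm_hasDerivWithin_le (f := a 1) (f' := a 2) (fun x hx => hd 1 x hx) hC
      (convex_Icc _ _) h0I hy
    simpa [Real.norm_eq_abs, abs_of_nonneg hy.1] using this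
  -- second one, on `[0,ξ]`
  have hsub : Icc 0 ξ ⊆ Icc 0 (𝔹.xiS T) := Icc_subset_Icc le_rfl hξ.2.le
  have h2 : ∀ y ∈ Icc 0 ξ, HasDerivWithinAt (fun y => a 0 y - a 1 0 * y) (a 1 y - a 1 0) (Icc 0 ξ) y := by
    intro y hy
    have e1 := (hd 0 y (hsub hy)).mono hsub
    have e2 : HasDerivWithinAt (fun y : ℝ => a 1 0 * y) (a 1 0) (Icc 0 ξ) y := by
      simpa using ((hasDerivAt_id y).const_mul (a 1 0)).hasDerivWithinAt
    exact e1.sub e2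
  have h3 : ∀ y ∈ Icc 0 ξ, ‖a 1 y - a 1 0‖ ≤ C * ξ := by
    intro y hy
    rw [Real.norm_eq_abs]
    exact (h1 y (hsub hy)).trans (mul_le_mul_of_nonneg_left hy.2 hC0)
  have h4 := Convex.norm_image_sub_le_of_norm_hasDerivWithin_le h2 h3 (convex_Icc _ _) (⟨le_rfl, hξ.1⟩ : (0:ℝ) ∈ Icc 0 ξ)
    (⟨hξ.1, le_rfl⟩ : ξ ∈ Icc 0 ξ)
  have e0 : a 0 0 = 0 := by rw [← ha0 0 ⟨le_rfl, hxs⟩]; exact hb.zero 0 le_rfl
  rw [ha0 ξ hξ, ← ha1]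
  simp only [e0, mul_zero, sub_zero, Real.norm_eq_abs, abs_of_nonneg hξ.1] at h4
  calc |a 0 ξ - a 1 0 * ξ| ≤ C * ξ * ξ := h4
    _ = C * ξ ^ 2 := by ring

/-! ## 3. the fields `b0_*`, `v2`, `g1_*`, `gam_*`, `gap_*` -/

section fields

variable {S : LppMod} (hS : LppOk S) {𝔹 : LlBase} (hl : LppLink 𝔹 S) {F : LlFix} {p : LlPt} {cL CL cK CK vK : ℝ}
  (hb : LppBase S F.T (𝔹.A0 F.T) (𝔹.xiS F.T)) (h : LrfPt S 𝔹 F p cL CL cK CK vK)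

include hS hl h

theorem lrf_b0_rg : F.T / 3 ≤ p.b0 F 𝔹 ∧ p.b0 F 𝔹 ≤ 2 * F.T := by
  have hT : 0 < F.T := by linarith [h.T1]
  obtain ⟨m1, m2⟩ := lrf_m0 hS h
  obtain ⟨l1, l2⟩ := lrf_ell2 h.ok
  have hm0 : 0 < S.M2 (p.Aprof F 𝔹) p.j 0 := lt_of_lt_of_le (by positivity) m1
  have hd : 0 < p.ell ^ 2 * S.M2 (p.Aprof F 𝔹) p.j 0 := by positivity
  rw [lrf_b0 hl]
  constructor
  · rw [le_div_iff₀ hd]
    have h1 : p.ell ^ 2 * S.M2 (p.Aprof F 𝔹) p.j 0 ≤ 2 * (3 / (2 * F.T)) := mul_le_mul l2 m2 hm0.le (by norm_num)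
    calc F.T / 3 * (p.ell ^ 2 * S.M2 (p.Aprof F 𝔹) p.j 0) ≤ F.T / 3 * (2 * (3 / (2 * F.T))) :=
          mul_le_mul_of_nonneg_left h1 (by positivity)
      _ = 1 := by field_simp
  · rw [div_le_iff₀ hd]
    have h1 : 1 * (1 / (2 * F.T)) ≤ p.ell ^ 2 * S.M2 (p.Aprof F 𝔹) p.j 0 := mul_le_mul l1 m1 (by positivity) (by positivity)
    calc (1 : ℝ) = 2 * F.T * (1 * (1 / (2 * F.T))) := by field_simp
      _ ≤ 2 * F.T * (p.ell ^ 2 * S.M2 (p.Aprof F 𝔹) p.j 0) := mul_le_mul_of_nonneg_left h1 (by positivity)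

theorem lrf_b0_T : |p.ell ^ 2 * p.b0 F 𝔹 - F.T| ≤ 2 * F.T ^ 2 * CL * p.lam := by
  have hT : 0 < F.T := by linarith [h.T1]
  obtain ⟨m1, -⟩ := lrf_m0 hS h
  obtain ⟨l1, -⟩ := lrf_ell2 h.ok
  have hm0 : 0 < S.M2 (p.Aprof F 𝔹) p.j 0 := lt_of_lt_of_le (by positivity) m1
  have hl2 : p.ell ≠ 0 := by linarith [h.ok.ell1]
  have e : p.ell ^ 2 * p.b0 F 𝔹 - F.T = -(F.T * (S.M2 (p.Aprof F 𝔹) p.j 0 - 1 / F.T)) / S.M2 (p.Aprof F 𝔹) p.j 0 := by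
    rw [lrf_b0 hl]; field_simp; ring
  rw [e, abs_div, abs_neg, abs_mul, abs_of_pos hT, abs_of_pos hm0, div_le_iff₀ hm0]
  have h1 := h.lift.m0
  have hlam : 0 < p.lam := lkk_lam_pos h.ok
  have hCl : 0 ≤ CL * p.lam := mul_nonneg h.CL0 hlam.le
  calc F.T * |S.M2 (p.Aprof F 𝔹) p.j 0 - 1 / F.T| ≤ F.T * (CL * p.lam) := mul_le_mul_of_nonneg_left h1 hT.le
    _ = 2 * F.T ^ 2 * CL * p.lam * (1 / (2 * F.T)) := by field_simp
    _ ≤ 2 * F.T ^ 2 * CL * p.lam * S.M2 (p.Aprof F 𝔹) p.j 0 := by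
        refine mul_le_mul_of_nonneg_left m1 ?_
        have : 0 ≤ 2 * F.T ^ 2 * (CL * p.lam) := by positivity
        linarith

theorem lrf_v2 : iteratedDeriv 2 (fun z => p.V F 𝔹 0 z) 0 ^ 2 = p.Gam1 F 𝔹 0 := by
  have hA := h.lift.adm
  have hell : p.ell ≠ 0 := by linarith [h.ok.ell1]
  have e0 : (fun z => p.V F 𝔹 0 z) = fun z => p.ell⁻¹ * S.vk 0 (p.Aprof F 𝔹) p.j 0 (p.ell * z) := by
    funext z
    unfold LlPt.V LppMod.vk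
    rw [hl.V, mul_zero, iteratedDeriv_zero]
  have hlin : ∀ z : ℝ, HasDerivAt (fun z : ℝ => p.ell * z) p.ell z := fun z => by
    simpa using (hasDerivAt_id z).const_mul p.ell
  have d1 : ∀ z, HasDerivAt (fun z => p.ell⁻¹ * S.vk 0 (p.Aprof F 𝔹) p.j 0 (p.ell * z))
      (S.vk 1 (p.Aprof F 𝔹) p.j 0 (p.ell * z)) z := by
    intro z
    have := ((lpp_vk_hasDerivAt hS hA le_rfl 0 (p.ell * z)).comp z (hlin z)).const_mul p.ell⁻¹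
    exact this.congr_deriv (by rw [mul_comm (S.vk (0 + 1) _ _ _ _), ← mul_assoc, inv_mul_cancel₀ hell, one_mul])
  have d2 : ∀ z, HasDerivAt (fun z => S.vk 1 (p.Aprof F 𝔹) p.j 0 (p.ell * z))
      (S.vk 2 (p.Aprof F 𝔹) p.j 0 (p.ell * z) * p.ell) z := fun z =>
    (lpp_vk_hasDerivAt hS hA le_rfl 1 (p.ell * z)).comp z (hlin z)
  have e1 : deriv (fun z => p.ell⁻¹ * S.vk 0 (p.Aprof F 𝔹) p.j 0 (p.ell * z))
      = fun z => S.vk 1 (p.Aprof F 𝔹) p.j 0 (p.ell * z) := funext fun z => (d1 z).deriv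
  obtain ⟨C, hC⟩ := hS.bd 2 (by norm_num)
  have hc2 : LppCls (fun z => S.vk 2 (p.Aprof F 𝔹) p.j 0 z ^ 2) :=
    LppCls.of_bdd ((lpp_vk_cont hS hA le_rfl 2).pow 2) (C := C ^ 2) (fun z => by
      rw [sq (S.vk 2 (p.Aprof F 𝔹) p.j 0 z)]
      exact lpp_aux_m2 (hC _ _ hA 0 le_rfl z) (hC _ _ hA 0 le_rfl z))
  have e2 : S.M2 (p.Aprof F 𝔹) p.j 0 = S.vk 2 (p.Aprof F 𝔹) p.j 0 0 ^ 2 := hS.ex_zero _ _ hA _ hc2
  rw [e0, iteratedDeriv_succ, iteratedDeriv_one, e1, (d2 0).deriv, lrf_Gam1 hl, mul_zero, mul_zero, e2]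
  ring

theorem lrf_g1_pos (t : ℝ) (ht : 0 ≤ t) : 0 < p.Gam1 F 𝔹 t := by
  obtain ⟨l1, -⟩ := lrf_ell2 h.ok
  rw [lrf_Gam1 hl]
  exact mul_pos (by linarith) (lrf_m_pos hS h _ (by positivity)).1

theorem lrf_gam_zero : p.Gam F 𝔹 0 = 0 := by
  rw [lrf_Gam hl, mul_zero, hS.gam _ _ h.lift.adm 0 le_rfl, intervalIntegral.integral_same]

theorem lrf_gam_le (t : ℝ) (ht : 0 ≤ t) : p.Gam F 𝔹 t ≤ 1 := by
  obtain ⟨l1, -⟩ := lrf_ell2 h.ok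
  have hA := h.lift.adm
  have h0 : 0 ≤ p.ell ^ 2 * t := by positivity
  rw [lrf_Gam hl]
  have := (lsw_one_sub_gam hS hA h0 le_rfl le_rfl (fun r hr => hA.nn r (h0.trans hr.1))).1
  linarith

theorem lrf_gap_eq (t : ℝ) : p.gap F 𝔹 t
    = (S.M2 (p.Aprof F 𝔹) p.j 0 - S.M2 (p.Aprof F 𝔹) p.j (p.ell ^ 2 * t)) / S.M2 (p.Aprof F 𝔹) p.j 0 := by
  have hT : 0 < F.T := by linarith [h.T1]
  obtain ⟨m1, -⟩ := lrf_m0 hS h
  obtain ⟨l1, -⟩ := lrf_ell2 h.ok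
  have hm0 : 0 < S.M2 (p.Aprof F 𝔹) p.j 0 := lt_of_lt_of_le (by positivity) m1
  have hl2 : p.ell ≠ 0 := by linarith [h.ok.ell1]
  unfold LlPt.gap
  rw [lrf_b0 hl, lrf_Gam1 hl]
  field_simp

theorem lrf_gap_lo (t : ℝ) (ht : 0 ≤ t) : cL * (2 * F.T / 3) * p.lam * min (t ^ 2) 1 ≤ p.gap F 𝔹 t := by
  have hT : 0 < F.T := by linarith [h.T1]
  obtain ⟨m1, m2⟩ := lrf_m0 hS h
  obtain ⟨l1, -⟩ := lrf_ell2 h.ok
  have hm0 : 0 < S.M2 (p.Aprof F 𝔹) p.j 0 := lt_of_lt_of_le (by positivity) m1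
  have hlam : 0 < p.lam := lkk_lam_pos h.ok
  have hcL := h.cL0
  rw [lrf_gap_eq hS hl h, le_div_iff₀ hm0]
  have h1 := h.lift.lo (p.ell ^ 2 * t) (by positivity)
  have h2 : min (t ^ 2) 1 ≤ min ((p.ell ^ 2 * t) ^ 2) 1 := by
    refine min_le_min_right _ (pow_le_pow_left₀ ht ?_ 2)
    nlinarith
  have hmin : 0 ≤ min (t ^ 2) 1 := by positivity
  calc cL * (2 * F.T / 3) * p.lam * min (t ^ 2) 1 * S.M2 (p.Aprof F 𝔹) p.j 0
      ≤ cL * (2 * F.T / 3) * p.lam * min (t ^ 2) 1 * (3 / (2 * F.T)) := mul_le_mul_of_nonneg_left m2 (by positivity)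
    _ = cL * p.lam * min (t ^ 2) 1 := by field_simp
    _ ≤ cL * p.lam * min ((p.ell ^ 2 * t) ^ 2) 1 := mul_le_mul_of_nonneg_left h2 (by positivity)
    _ ≤ _ := h1

theorem lrf_gap_hi (t : ℝ) (ht : 0 ≤ t) (hts : p.ell ^ 2 * t ≤ 𝔹.xiS F.T) : p.gap F 𝔹 t ≤ 8 * F.T * CL * p.lam * t ^ 2 := by
  have hT : 0 < F.T := by linarith [h.T1]
  obtain ⟨m1, m2⟩ := lrf_m0 hS h
  obtain ⟨l1, l2⟩ := lrf_ell2 h.ok
  have hm0 : 0 < S.M2 (p.Aprof F 𝔹) p.j 0 := lt_of_lt_of_le (by positivity) m1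
  have hlam : 0 < p.lam := lkk_lam_pos h.ok
  have hCl : 0 ≤ CL * p.lam := mul_nonneg h.CL0 hlam.le
  rw [lrf_gap_eq hS hl h, div_le_iff₀ hm0]
  have h1 := h.lift.hi (p.ell ^ 2 * t) ⟨by positivity, hts⟩
  have h2 : (p.ell ^ 2 * t) ^ 2 ≤ 4 * t ^ 2 := by
    have : (p.ell ^ 2 * t) ^ 2 ≤ (2 * t) ^ 2 := pow_le_pow_left₀ (by positivity) (mul_le_mul_of_nonneg_right l2 ht) 2
    linarith [this, (by ring : (2 * t) ^ 2 = 4 * t ^ 2)]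
  calc _ ≤ CL * p.lam * (p.ell ^ 2 * t) ^ 2 := h1
    _ ≤ CL * p.lam * (4 * t ^ 2) := mul_le_mul_of_nonneg_left h2 hCl
    _ = 8 * F.T * (CL * p.lam) * t ^ 2 * (1 / (2 * F.T)) := by field_simp; ring
    _ ≤ 8 * F.T * (CL * p.lam) * t ^ 2 * S.M2 (p.Aprof F 𝔹) p.j 0 := mul_le_mul_of_nonneg_left m1 (by positivity)
    _ = 8 * F.T * CL * p.lam * t ^ 2 * S.M2 (p.Aprof F 𝔹) p.j 0 := by ring

include hb

theorem lrf_g1_cont : ContinuousOn (p.Gam1 F 𝔹) (Ici 0) := by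
  obtain ⟨l1, -⟩ := lrf_ell2 h.ok
  have e : p.Gam1 F 𝔹 = fun t => p.ell ^ 2 * S.M2 (p.Aprof F 𝔹) p.j (p.ell ^ 2 * t) := funext (lrf_Gam1 hl p F)
  rw [e]
  refine continuousOn_const.mul ((lpp_M2_cont hS hb h.lift.adm).comp (by fun_prop) fun t ht => ?_)
  have ht : (0 : ℝ) ≤ t := ht
  exact mem_Ici.2 (by positivity)

theorem lrf_gam_ftc (t t' : ℝ) (h0 : 0 ≤ t) (hle : t ≤ t') :
    p.Gam F 𝔹 t' - p.Gam F 𝔹 t = ∫ s in t..t', p.Gam1 F 𝔹 s := by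
  obtain ⟨l1, -⟩ := lrf_ell2 h.ok
  have hA := h.lift.adm
  have hc := lpp_M2_cont hS hb hA
  have hint : ∀ a b : ℝ, 0 ≤ a → 0 ≤ b → IntervalIntegrable (S.M2 (p.Aprof F 𝔹) p.j) volume a b := fun a b ha hb' =>
    (hc.mono (fun x hx => mem_Ici.2 ((le_min ha hb').trans hx.1))).intervalIntegrable
  have a0 : 0 ≤ p.ell ^ 2 * t := by positivity
  have a1 : 0 ≤ p.ell ^ 2 * t' := by have := h0.trans hle; positivity
  have e : p.Gam1 F 𝔹 = fun t => p.ell ^ 2 * S.M2 (p.Aprof F 𝔹) p.j (p.ell ^ 2 * t) := funext (lrf_Gam1 hl p F)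
  rw [lrf_Gam hl, lrf_Gam hl, hS.gam _ _ hA _ a0, hS.gam _ _ hA _ a1,
    intervalIntegral.integral_interval_sub_left (hint _ _ le_rfl a1) (hint _ _ le_rfl a0), e,
    intervalIntegral.integral_const_mul, intervalIntegral.mul_integral_comp_mul_left]

end fields

/-! ## 5. `LlPt.Ref` at one point -/

/-- the constant of `q_slope` -/
noncomputable def lrfCs (CL CK C2 ξs κ : ℝ) : ℝ := 2 * CK * (CL * (1 + ξs ^ 2)) + 4 * CK / κ + 4 * C2 * CK ^ 2 / κ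

theorem lrf_eqns_cite : True := by
  have := @lrfCs.eq_1
  trivial

/-- **(P2) at one point**, constants `c, C` below / above the explicit ones -/
theorem lrf_point {S : LppMod} (hS : LppOk S) {𝔹 : LlBase} (hl : LppLink 𝔹 S) {F : LlFix} {p : LlPt} {cL CL cK CK vK : ℝ}
    (hb : LppBase S F.T (𝔹.A0 F.T) (𝔹.xiS F.T)) (h : LrfPt S 𝔹 F p cL CL cK CK vK) {ξ1 C2 : ℝ} (hκ : 0 < 𝔹.kapT F.T) (hC2 : 0 ≤ C2)
    (hinv : ∀ v, 0 < v → v ≤ vK → p.Aprof F 𝔹 (p.xi F 𝔹 v) = v / p.ell ∧ p.xi F 𝔹 v ≤ ξ1)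
    (hnear : ∀ ξ ∈ Icc 0 ξ1, 𝔹.A0 F.T ξ ≤ p.Aprof F 𝔹 ξ ∧ p.Aprof F 𝔹 ξ ≤ 𝔹.A0 F.T ξ + 2 * p.lam * ξ)
    (hT2 : ∀ ξ ∈ Icc 0 ξ1, |𝔹.A0 F.T ξ - 𝔹.kapT F.T / F.T * ξ| ≤ C2 * ξ ^ 2)
    {c C : ℝ} (c1 : c ≤ F.T / 3) (c2 : c ≤ cL * (2 * F.T / 3)) (c3 : c ≤ cK) (c4 : c ≤ min (cK / (2 * F.T)) (cK * vK / (8 * F.T)))
    (C1 : 2 * F.T ≤ C) (C2' : 2 * F.T ^ 2 * CL ≤ C) (C3 : 8 * F.T * CL ≤ C) (C4 : CK ≤ C) (C5 : max (3 * CK / F.T) (1 / vK) ≤ C)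
    (C6 : lrfCs CL CK C2 (𝔹.xiS F.T) (𝔹.kapT F.T) ≤ C) : p.Ref F 𝔹 c C vK := by
  have hlam : 0 < p.lam := lkk_lam_pos h.ok
  exact
  { b0_lo := c1.trans (lrf_b0_rg hS hl h).1
    b0_hi := (lrf_b0_rg hS hl h).2.trans C1
    b0_T := (lrf_b0_T hS hl h).trans (mul_le_mul_of_nonneg_right C2' hlam.le)
    v2 := lrf_v2 hS hl h
    g1_cont := lrf_g1_cont hS hl hb h
    g1_pos := lrf_g1_pos hS hl h
    gam_zero := lrf_gam_zero hS hl h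
    gam_ftc := lrf_gam_ftc hS hl hb h
    gam_le := lrf_gam_le hS hl h
    gap_lo := fun t ht => by
      refine le_trans ?_ (lrf_gap_lo hS hl h t ht)
      have hmin : 0 ≤ min (t ^ 2) 1 := by positivity
      exact mul_le_mul_of_nonneg_right (mul_le_mul_of_nonneg_right c2 hlam.le) hmin
    gap_hi := fun t ht hts => by
      refine (lrf_gap_hi hS hl h t ht hts).trans ?_
      exact mul_le_mul_of_nonneg_right (mul_le_mul_of_nonneg_right C3 hlam.le) (by positivity)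
    K_mono := h.kref.K_mono
    K_lo := fun v v' h0 hvv hv' => (mul_le_mul_of_nonneg_right c3 (by linarith)).trans (h.kref.K_lo v v' h0 hvv hv')
    K_hi := fun v v' h0 hvv hv' => (h.kref.K_hi v v' h0 hvv hv').trans (mul_le_mul_of_nonneg_right C4 (by linarith))
    K_lo0 := fun v h0 hv => (mul_le_mul_of_nonneg_right c3 h0.le).trans (h.kref.K_lo0 v h0 hv)
    K_hi0 := fun v h0 hv => (h.kref.K_hi0 v h0 hv).trans (mul_le_mul_of_nonneg_right C4 h0.le)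
    K_top := h.kref.K_top
    q_lo := fun v hv => (mul_le_mul_of_nonneg_right c4 hv.1.le).trans (lrf_q_lo hS hl hb h v hv)
    q_hi := fun v hv => (lrf_q_hi hS hl hb h v hv).trans (mul_le_mul_of_nonneg_right C5 hv.1.le)
    q_slope := fun v h0 hv => by
      refine (lrf_q_slope hS hl hb h hκ hC2 hinv hnear hT2 v h0 hv).trans ?_
      have : 0 ≤ v + p.lam := by linarith
      exact mul_le_mul_of_nonneg_right (mul_le_mul_of_nonneg_right C6 h0.le) this }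

/-- (P2) is monotone in its constants -/
theorem LlPt.Ref.lrf_mono {p : LlPt} {F : LlFix} {𝔹 : LlBase} {c C v0 c' C' v0' : ℝ} (h : p.Ref F 𝔹 c C v0) (hlam : 0 ≤ p.lam)
    (hc : c' ≤ c) (hC : C ≤ C') (hv : v0' ≤ v0) : p.Ref F 𝔹 c' C' v0' :=
  { b0_lo := hc.trans h.b0_lo
    b0_hi := h.b0_hi.trans hC
    b0_T := h.b0_T.trans (mul_le_mul_of_nonneg_right hC hlam)
    v2 := h.v2
    g1_cont := h.g1_cont
    g1_pos := h.g1_pos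
    gam_zero := h.gam_zero
    gam_ftc := h.gam_ftc
    gam_le := h.gam_le
    gap_lo := fun t ht => by
      refine le_trans ?_ (h.gap_lo t ht)
      have hmin : 0 ≤ min (t ^ 2) 1 := by positivity
      exact mul_le_mul_of_nonneg_right (mul_le_mul_of_nonneg_right hc hlam) hmin
    gap_hi := fun t ht hts => (h.gap_hi t ht hts).trans
      (mul_le_mul_of_nonneg_right (mul_le_mul_of_nonneg_right hC hlam) (by positivity))
    K_mono := h.K_mono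
    K_lo := fun v v' h0 hvv hv' => (mul_le_mul_of_nonneg_right hc (by linarith)).trans (h.K_lo v v' h0 hvv (hv'.trans hv))
    K_hi := fun v v' h0 hvv hv' => (h.K_hi v v' h0 hvv (hv'.trans hv)).trans (mul_le_mul_of_nonneg_right hC (by linarith))
    K_lo0 := fun v h0 hv' => (mul_le_mul_of_nonneg_right hc h0.le).trans (h.K_lo0 v h0 (hv'.trans hv))
    K_hi0 := fun v h0 hv' => (h.K_hi0 v h0 (hv'.trans hv)).trans (mul_le_mul_of_nonneg_right hC h0.le)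
    K_top := h.K_top
    q_lo := fun v hv' => (mul_le_mul_of_nonneg_right hc hv'.1.le).trans (h.q_lo v hv')
    q_hi := fun v hv' => (h.q_hi v hv').trans (mul_le_mul_of_nonneg_right hC hv'.1.le)
    q_slope := fun v h0 hv' => (h.q_slope v h0 (hv'.trans hv)).trans
      (mul_le_mul_of_nonneg_right (mul_le_mul_of_nonneg_right hC h0.le) (by linarith)) }

theorem LlRef.lrf_mono {𝔹 : LlBase} {F : LlFix} {c C v0 c' C' v0' : ℝ} (h : LlRef 𝔹 F c C v0)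
    (hc : c' ≤ c) (hC : C ≤ C') (hv : v0' ≤ v0) : LlRef 𝔹 F c' C' v0' := by
  obtain ⟨N0, H⟩ := h
  exact ⟨N0, fun p hp hN => (H p hp hN).lrf_mono (lkk_lam_pos hp).le hc hC hv⟩

/-- the K-kit is monotone in the regular range -/
theorem LlPt.KRef.lrf_mono {p : LlPt} {F : LlFix} {𝔹 : LlBase} {c C v0 v0' : ℝ} (h : p.KRef F 𝔹 c C v0) (hv : v0' ≤ v0) :
    p.KRef F 𝔹 c C v0' :=
  ⟨h.K_mono, fun v v' h0 hvv hv' => h.K_lo v v' h0 hvv (hv'.trans hv), fun v v' h0 hvv hv' => h.K_hi v v' h0 hvv (hv'.trans hv),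
    fun v h0 hv' => h.K_lo0 v h0 (hv'.trans hv), fun v h0 hv' => h.K_hi0 v h0 (hv'.trans hv), h.K_top⟩

/-- the lift is monotone in its constants -/
theorem LppLiftAll.lrf_mono {S : LppMod} {T ξs c C lam c' C' : ℝ} {A : ℝ → ℝ} {j : ℝ} (h : LppLiftAll S T ξs c C lam A j) (hlam : 0 ≤ lam)
    (hc : c' ≤ c) (hC : C ≤ C') : LppLiftAll S T ξs c' C' lam A j :=
  ⟨h.adm, h.m0.trans (mul_le_mul_of_nonneg_right hC hlam),
    fun ξ hξ => le_trans (mul_le_mul_of_nonneg_right (mul_le_mul_of_nonneg_right hc hlam) (by positivity)) (h.lo ξ hξ),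
    fun ξ hξ => (h.hi ξ hξ).trans (mul_le_mul_of_nonneg_right (mul_le_mul_of_nonneg_right hC hlam) (by positivity))⟩

/-! ## 6. scales; the profile near zero -/

/-- the smallness condition of `lpp_lift_sm` holds with `x` (hence with `λ = x^{p_*}`, `p_* ≤ 1`) on the right -/
theorem lrf_scale (κ cM R1 : ℝ) (hκ : 0 < κ) (hcM : 0 < cM) : ∃ N0 : ℕ, 2 ≤ N0 ∧ ∀ p : LlPt, N0 ≤ p.N →
    (p.om * (p.M ^ 2 + 1)) ^ (1 / 2 : ℝ) + Real.exp (-cM * (p.M - R1)) ≤ κ * p.x := by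
  obtain ⟨C3, N3, hC3, -, H3⟩ := lsw_omM
  obtain ⟨N4, -, H4⟩ := lsw_expM cM R1 hcM
  obtain ⟨N5, -, H5⟩ := lsw_x_small (κ / (C3 ^ (1 / 2 : ℝ) + 1)) (by positivity)
  refine ⟨max (max N3 N4) (max N5 2), (le_max_right _ _).trans (le_max_right _ _), fun p hN => ?_⟩
  have hN3 : N3 ≤ p.N := ((le_max_left _ _).trans (le_max_left _ _)).trans hN
  have hN4 : N4 ≤ p.N := ((le_max_right _ _).trans (le_max_left _ _)).trans hN
  have hN5 : N5 ≤ p.N := ((le_max_left _ _).trans (le_max_right _ _)).trans hN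
  have hN2 : 2 ≤ p.N := ((le_max_right _ _).trans (le_max_right _ _)).trans hN
  have hx : 0 < p.x := lsw_x_pos p (by omega)
  have hx1 : p.x < 1 := lsw_x_lt_one p hN2
  have hom : 0 < p.om := lkk_om_pos hN2
  have hX0 : 0 ≤ p.om * (p.M ^ 2 + 1) := by positivity
  have hX : p.om * (p.M ^ 2 + 1) ≤ C3 * p.x ^ (5 + 1 / 8 : ℝ) := by
    have := (H3 p hN3).1
    linarith [(by ring : p.om * (p.M ^ 2 + 1) = p.om * p.M ^ 2 + p.om)]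
  have e2 : p.x ^ (2 : ℝ) = p.x * p.x := by rw [Real.rpow_two, sq]
  have h1 : (p.om * (p.M ^ 2 + 1)) ^ (1 / 2 : ℝ) ≤ C3 ^ (1 / 2 : ℝ) * (p.x * p.x) := by
    calc (p.om * (p.M ^ 2 + 1)) ^ (1 / 2 : ℝ) ≤ (C3 * p.x ^ (5 + 1 / 8 : ℝ)) ^ (1 / 2 : ℝ) :=
          Real.rpow_le_rpow hX0 hX (by norm_num)
      _ = C3 ^ (1 / 2 : ℝ) * p.x ^ ((5 + 1 / 8 : ℝ) * (1 / 2)) := by
          rw [Real.mul_rpow hC3 (Real.rpow_nonneg hx.le _), ← Real.rpow_mul hx.le]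
      _ ≤ C3 ^ (1 / 2 : ℝ) * p.x ^ (2 : ℝ) :=
          mul_le_mul_of_nonneg_left (lsw_x_rpow_le hx hx1.le (by norm_num)) (Real.rpow_nonneg hC3 _)
      _ = _ := by rw [e2]
  have h2 : Real.exp (-cM * (p.M - R1)) ≤ p.x * p.x := by
    calc _ ≤ p.x ^ (5 + 1 / 8 : ℝ) := (H4 p hN4).1
      _ ≤ p.x ^ (2 : ℝ) := lsw_x_rpow_le hx hx1.le (by norm_num)
      _ = _ := e2
  have h3 : (C3 ^ (1 / 2 : ℝ) + 1) * p.x ≤ κ := by
    have := (H5 p hN5).le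
    rwa [le_div_iff₀ (by positivity), mul_comm] at this
  calc _ ≤ (C3 ^ (1 / 2 : ℝ) + 1) * p.x * p.x := by linarith [(by ring : (C3 ^ (1 / 2 : ℝ) + 1) * p.x * p.x
        = C3 ^ (1 / 2 : ℝ) * (p.x * p.x) + p.x * p.x)]
    _ ≤ κ * p.x := mul_le_mul_of_nonneg_right h3 hx.le

/-- at a smoothed point (final strength, `p_* ≤ 1`): `x ≤ λ`, `ω ≤ λ` -/
theorem lrf_sm_lam {p : LlPt} {F : LlFix} (hp : p.Ok F) (hpS : F.pS ≤ 1) (hsm : p.sm = true) : p.x ≤ p.lam ∧ p.om ≤ p.lam := by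
  have hx := lkk_x_pos hp.N2
  have hx1 := lkk_x_lt_one hp.N2
  have h1 : p.x ≤ p.lam := by
    rw [(hp.sm_fin hsm).1]
    calc p.x = p.x ^ (1 : ℝ) := (Real.rpow_one _).symm
      _ ≤ p.x ^ F.pS := lsw_x_rpow_le hx hx1.le hpS
  refine ⟨h1, (lkk_om_le hp.N2).trans (le_trans ?_ h1)⟩
  calc p.x ^ 3 ≤ p.x ^ 1 := pow_le_pow_of_le_one hx.le hx1.le (by norm_num)
    _ = p.x := pow_one _

/-- `1 + ω M ≤ 4/ℓ` -/
theorem lrf_J {p : LlPt} {F : LlFix} (hp : p.Ok F) : 1 + p.om * p.M ≤ 4 / p.ell := by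
  have hell : 0 < p.ell := by linarith [hp.ell1]
  rw [le_div_iff₀ hell]
  have h1 := lkk_omM hp.N2
  have h2 := lkk_ell_le_two hp
  have h3 : 0 ≤ p.om * p.M := mul_nonneg (lkk_om_pos hp.N2).le (lkk_M_nonneg hp.N2)
  nlinarith

/-- abstract: in the regular range the level `v/ℓ` is attained, before `ξ_1` -/
theorem lrf_inv_abs {A : ℝ → ℝ} {τ J cl Ch ξ1 ell v0 : ℝ} (hA : LpqProf A τ J) (hA0 : A 0 = 0) (hcl : 0 < cl) (h1 : 0 ≤ ξ1)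
    (lo : ∀ ξ ξ', 0 ≤ ξ → ξ ≤ ξ' → ξ' ≤ ξ1 → cl * (ξ' - ξ) ≤ A ξ' - A ξ)
    (hi : ∀ ξ ξ', 0 ≤ ξ → ξ ≤ ξ' → ξ' ≤ ξ1 → A ξ' - A ξ ≤ Ch * (ξ' - ξ))
    (hl1 : 1 ≤ ell) (hv0 : v0 ≤ cl * ξ1) (v : ℝ) (h0 : 0 < v) (hv : v ≤ v0) :
    A (llInv A (v / ell)) = v / ell ∧ llInv A (v / ell) ≤ ξ1 := by
  have hlev := lkk_level hA hA0 hcl h1 lo hl1 hv0 v h0.le hv
  have hell : 0 < ell := by linarith
  exact ⟨lpq_at_inv_eq hA Ch ξ1 hi h1 (v / ell) (by rw [hA0]; positivity) hlev, lpq_inv_le A _ ξ1 h1 hlev⟩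

/-- the profile in use near zero -/
theorem lrf_prof_point {p : LlPt} {F : LlFix} {𝔹 : LlBase} {ca Ca ξ1 LP : ℝ}
    (hb : LkkBase (𝔹.A0 F.T) (𝔹.xiS F.T) (𝔹.pTop F.T) ca Ca ξ1) (hP : LkkCut F.P F.z0 LP) (hz : F.z0 ≤ ξ1)
    (hp : p.Ok F) (hl : p.lam * LP ≤ ca / 2) (hM : 𝔹.xiS F.T < p.M) (hom : p.sm = true → p.om ≤ p.lam) :
    (∀ v, 0 < v → v ≤ lkkV0 ca ξ1 → p.Aprof F 𝔹 (p.xi F 𝔹 v) = v / p.ell ∧ p.xi F 𝔹 v ≤ ξ1) ∧
    (∀ ξ ∈ Icc 0 ξ1, 𝔹.A0 F.T ξ ≤ p.Aprof F 𝔹 ξ ∧ p.Aprof F 𝔹 ξ ≤ 𝔹.A0 F.T ξ + 2 * p.lam * ξ) := by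
  have hl0 := (lkk_lam_pos hp).le
  have hell : 0 < p.ell := by linarith [hp.ell1]
  have ho := lkk_om_pos hp.N2
  have hcl : 0 < ca / 2 := by linarith [hb.ca0]
  have hv0 : lkkV0 ca ξ1 ≤ ca / 2 * ξ1 := min_le_right _ _
  have hJ : 1 + p.om * p.M ≤ 4 / p.ell := by
    rw [le_div_iff₀ hell]
    have h1 := lkk_omM hp.N2
    have h2 := lkk_ell_le_two hp
    have h3 : 0 ≤ p.om * p.M := mul_nonneg ho.le (lkk_M_nonneg hp.N2)
    nlinarith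
  have hPb : ∀ ξ, 0 ≤ ξ → 0 ≤ p.lam * F.P ξ ∧ p.lam * F.P ξ ≤ p.lam * ξ := fun ξ hξ =>
    ⟨mul_nonneg hl0 (hP.nn ξ hξ), mul_le_mul_of_nonneg_left (hP.le ξ hξ) hl0⟩
  cases hsm : p.sm with
  | false =>
    have eA : p.Aprof F 𝔹 = lkkDir (𝔹.A0 F.T) F.P p.lam := by unfold LlPt.Aprof; rw [hsm]; rfl
    constructor
    · intro v h0 hv
      unfold LlPt.xi
      rw [eA]
      exact lrf_inv_abs (lkk_dir_prof hb hP hz hl0 hl) (lkk_dir_zero hb hP hz hl0 hl) hcl hb.x10.le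
        (lkk_dir_lo hb hP hz hl0 hl) (fun ξ ξ' a0 a1 a2 => lkk_dir_hi hb hP hz hl0 hl ξ ξ' a0 a1 (lt_of_le_of_lt a2 hb.x1s))
        hp.ell1 hv0 v h0 hv
    · intro ξ hξ
      rw [eA]
      unfold lkkDir
      have := hPb ξ hξ.1
      have h2 : 0 ≤ p.lam * ξ := mul_nonneg hl0 hξ.1
      constructor <;> linarith
  | true =>
    have eA : p.Aprof F 𝔹 = lkkSm (𝔹.A0 F.T) F.P p.lam (𝔹.xiS F.T) (𝔹.pTop F.T) p.om p.M (4 / p.ell) := by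
      unfold LlPt.Aprof; rw [hsm]; rfl
    constructor
    · intro v h0 hv
      unfold LlPt.xi
      rw [eA]
      exact lrf_inv_abs (lkk_sm_prof hb hP hz hl0 hl ho hM hJ) (lkk_sm_zero hb hP hz hl0 hl ho hM hJ) hcl hb.x10.le
        (lkk_sm_lo hb hP hz hl0 hl ho hM hJ)
        (fun ξ ξ' a0 a1 a2 => lkk_sm_hi hb hP hz hl0 hl ho hM hJ ξ ξ' a0 a1 (lt_of_le_of_lt a2 hb.x1s))
        hp.ell1 hv0 v h0 hv
    · intro ξ hξ
      rw [eA, lkk_sm_low hb hP hz hl0 hl ho hM hJ ξ (lt_of_le_of_lt hξ.2 hb.x1s)]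
      unfold lkkDir
      have := hPb ξ hξ.1
      have h2 : 0 ≤ p.om * ξ := mul_nonneg ho.le hξ.1
      have h3 : p.om * ξ ≤ p.lam * ξ := mul_le_mul_of_nonneg_right (hom hsm) hξ.1
      constructor <;> linarith

/-! ## 7. EXIT: (P2) uniformly -/

/-- **Lemma paths:lift** in the vocabulary of `PathsDefs`.      ORDER OF THE CONSTANTS as in `LlRefExit`: `zb` (depends on `𝔹, S, T`), `z0`, then `c, C, v0`, then `F`, then `N0`. -/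
theorem lrf_ref {S : LppMod} (hS : LppOk S) {𝔹 : LlBase} (hl : LppLink 𝔹 S) {T : ℝ} (hT : 1 < T) (hbp : LlBaseProfile 𝔹 T) :
    ∃ zb : ℝ, 0 < zb ∧ ∀ z0, 0 < z0 → z0 ≤ zb → ∃ c C v0 : ℝ, 0 < c ∧ c ≤ 1 ∧ 1 ≤ C ∧ 0 < v0 ∧ v0 ≤ 1 / 2 ∧
      ∀ F : LlFix, F.Ok → F.T = T → F.z0 = z0 → F.pS ≤ 1 → LlRef 𝔹 F c C v0 := by
  have hb := lpp_base_of_profile 𝔹 S hl.G hT hbp
  have ht : LppTop (𝔹.A0 T) (𝔹.xiS T) (𝔹.pTop T) :=
    ⟨hbp.pTop_mem.1, hbp.pTop_mem.2, fun ξ hξ => (hbp.lt_top ξ hξ.2).le⟩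
  have hT0 : 0 < T := by linarith
  have hxs := hbp.xi_pos
  have hκT := hbp.kap_pos
  obtain ⟨ca, Ca, ξ1, hkk⟩ := lkk_base 𝔹 T hbp
  obtain ⟨z1d, hz1d, -, -, Hd⟩ := lpp_lift_dir hS hb
  obtain ⟨z1s, R1, cM, hz1s, -, -, hR1, hcM, Hs⟩ := lpp_lift_sm hS hb ht
  obtain ⟨C2, hC2, hT2⟩ := lrf_taylor 𝔹 T hbp
  refine ⟨min (min z1d z1s) ξ1, lt_min (lt_min hz1d hz1s) hkk.x10, fun z0 hz0 hzb => ?_⟩
  obtain ⟨cd, Cd, hcd, Hd⟩ := Hd z0 hz0 ((hzb.trans (min_le_left _ _)).trans (min_le_left _ _))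
  obtain ⟨cs, Cs, κ, hcs, hκ, Hs⟩ := Hs z0 hz0 ((hzb.trans (min_le_left _ _)).trans (min_le_right _ _))
  obtain ⟨cL, hcL⟩ : ∃ cL : ℝ, cL = min cd cs := ⟨_, rfl⟩
  obtain ⟨CL, hCL⟩ : ∃ CL : ℝ, CL = max (max Cd Cs) 0 := ⟨_, rfl⟩
  have hcL0 : 0 < cL := by rw [hcL]; exact lt_min hcd hcs
  have hCL0 : 0 ≤ CL := by rw [hCL]; exact le_max_right _ _
  obtain ⟨cK, hcK⟩ : ∃ cK : ℝ, cK = lkkC1 ca Ca := ⟨_, rfl⟩
  obtain ⟨CK, hCK⟩ : ∃ CK : ℝ, CK = lkkC2 ca := ⟨_, rfl⟩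
  have hca := hkk.ca0
  have hCa := hkk.Ca0
  have hcK0 : 0 < cK := by rw [hcK]; exact lt_min one_pos (by positivity)
  have hCK1 : 1 ≤ CK := by rw [hCK]; exact le_max_left _ _
  have hCK0 : 0 < CK := by linarith
  obtain ⟨vK, hvK⟩ : ∃ vK : ℝ, vK = min (lkkV0 ca ξ1) (𝔹.xiS T / (2 * CK)) := ⟨_, rfl⟩
  have hV0 : 0 < lkkV0 ca ξ1 := lt_min (by norm_num) (by have := hkk.x10; positivity)
  have hvK0 : 0 < vK := by rw [hvK]; exact lt_min hV0 (by positivity)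
  have hvK1 : vK ≤ lkkV0 ca ξ1 := by rw [hvK]; exact min_le_left _ _
  have hvK2 : vK ≤ 1 / 2 := hvK1.trans (min_le_left _ _)
  have hvKs : 2 * CK * vK ≤ 𝔹.xiS T := by
    have : vK ≤ 𝔹.xiS T / (2 * CK) := by rw [hvK]; exact min_le_right _ _
    rwa [le_div_iff₀ (by positivity), mul_comm] at this
  refine ⟨min 1 (min (T / 3) (min (cL * (2 * T / 3)) (min cK (min (cK / (2 * T)) (cK * vK / (8 * T)))))),
    max 1 (max (2 * T) (max (2 * T ^ 2 * CL) (max (8 * T * CL) (max CK (max (max (3 * CK / T) (1 / vK))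
      (lrfCs CL CK C2 (𝔹.xiS T) (𝔹.kapT T))))))), vK, by positivity, min_le_left _ _, le_max_left _ _, hvK0, hvK2, ?_⟩
  intro F hF hFT hFz hpS
  subst hFT
  subst hFz
  obtain ⟨LP, hP⟩ := lkk_cut F hF
  have hLP := hP.LP0
  obtain ⟨l0d, hl0d, Hd⟩ := Hd F.P hF.lppCut
  obtain ⟨l0s, hl0s, Hs⟩ := Hs F.P hF.lppCut
  obtain ⟨N1, HN1⟩ := lkk_lam_small hF (ε := min (min l0d l0s) (min (ca / 2 / (LP + 1))
    (1 / (2 * F.T) / (CL * (1 + 𝔹.xiS F.T ^ 2) + 1)))) (by positivity)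
  obtain ⟨N2, HN2⟩ := lkk_M_large (R1 + 1)
  obtain ⟨N3, -, HN3⟩ := lrf_scale κ cM R1 hκ hcM
  refine ⟨max N1 (max N2 N3), fun p hp hN => ?_⟩
  have hlam := lkk_lam_pos hp
  have hlam1 := HN1 p hp ((le_max_left _ _).trans hN)
  have hMR : R1 + 1 < p.M := HN2 p hp.N2 (((le_max_left _ _).trans (le_max_right _ _)).trans hN)
  have hsc := HN3 p (((le_max_right _ _).trans (le_max_right _ _)).trans hN)
  have hld : p.lam ≤ l0d := (hlam1.trans (min_le_left _ _)).trans (min_le_left _ _)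
  have hls : p.lam ≤ l0s := (hlam1.trans (min_le_left _ _)).trans (min_le_right _ _)
  have hlLP : p.lam * LP ≤ ca / 2 := by
    have a1 : p.lam ≤ ca / 2 / (LP + 1) := (hlam1.trans (min_le_right _ _)).trans (min_le_left _ _)
    have a2 : p.lam * (LP + 1) ≤ ca / 2 := by rwa [le_div_iff₀ (by linarith)] at a1
    exact (mul_le_mul_of_nonneg_left (by linarith) hlam.le).trans a2
  have hsmall : CL * p.lam * (1 + 𝔹.xiS F.T ^ 2) ≤ 1 / (2 * F.T) := by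
    have a1 : p.lam ≤ 1 / (2 * F.T) / (CL * (1 + 𝔹.xiS F.T ^ 2) + 1) := (hlam1.trans (min_le_right _ _)).trans (min_le_right _ _)
    have a2 : p.lam * (CL * (1 + 𝔹.xiS F.T ^ 2) + 1) ≤ 1 / (2 * F.T) := by rwa [le_div_iff₀ (by positivity)] at a1
    have a3 : CL * p.lam * (1 + 𝔹.xiS F.T ^ 2) = p.lam * (CL * (1 + 𝔹.xiS F.T ^ 2)) := by ring
    rw [a3]
    exact (mul_le_mul_of_nonneg_left (by linarith) hlam.le).trans a2
  have hM : 𝔹.xiS F.T < p.M := by linarith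
  have hz1 : F.z0 ≤ ξ1 := hzb.trans (min_le_right _ _)
  have hell : 0 < p.ell := by linarith [hp.ell1]
  have ho := lkk_om_pos hp.N2
  have hlift : LppLiftAll S F.T (𝔹.xiS F.T) cL CL p.lam (p.Aprof F 𝔹) p.j := by
    cases hsm : p.sm with
    | false =>
      have eA : p.Aprof F 𝔹 = fun ξ => 𝔹.A0 F.T ξ + p.lam * F.P ξ := by unfold LlPt.Aprof; rw [hsm]; rfl
      have ej : p.j = 1 := by unfold LlPt.j; rw [hsm]; rfl
      rw [eA, ej]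
      exact (Hd p.lam hlam hld).lrf_mono hlam.le (by rw [hcL]; exact min_le_left _ _)
        (by rw [hCL]; exact (le_max_left _ _).trans (le_max_left _ _))
    | true =>
      have eA : p.Aprof F 𝔹 = lppSm (𝔹.A0 F.T) F.P (𝔹.xiS F.T) (𝔹.pTop F.T) p.lam p.om p.M (4 / p.ell) := by
        unfold LlPt.Aprof; rw [hsm]; rfl
      have ej : p.j = 4 / p.ell := by unfold LlPt.j; rw [hsm]; rfl
      have hJ : 1 + p.om * p.M ≤ 4 / p.ell := lrf_J hp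
      have hJ4 : 4 / p.ell ≤ 4 := by rw [div_le_iff₀ hell]; linarith [hp.ell1]
      rw [eA, ej]
      exact (Hs p.lam p.om p.M (4 / p.ell) hlam hls ho hMR.le hJ hJ4
        (hsc.trans (mul_le_mul_of_nonneg_left (lrf_sm_lam hp hpS hsm).1 hκ.le))).lrf_mono hlam.le
        (by rw [hcL]; exact min_le_right _ _) (by rw [hCL]; exact (le_max_right _ _).trans (le_max_left _ _))
  have hkref : p.KRef F 𝔹 cK CK vK := by
    rw [hcK, hCK]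
    exact (lkk_point hkk hP hz1 hp hlLP hM).lrf_mono hvK1
  have hpt : LrfPt S 𝔹 F p cL CL cK CK vK :=
    ⟨hp, hT, hxs, hcL0, hCL0, hcK0, hCK0, hvK0, hvKs, hlift, hkref, hsmall⟩
  obtain ⟨hinv, hnear⟩ := lrf_prof_point hkk hP hz1 hp hlLP hM fun hsm => (lrf_sm_lam hp hpS hsm).2
  refine lrf_point hS hl hb hpt hκT hC2 (fun v h0 hv => hinv v h0 (hv.trans hvK1)) hnear
    (fun ξ hξ => hT2 ξ ⟨hξ.1, lt_of_le_of_lt hξ.2 hkk.x1s⟩) ?_ ?_ ?_ ?_ ?_ ?_ ?_ ?_ ?_ ?_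
  · exact (min_le_right _ _).trans (min_le_left _ _)
  · exact (min_le_right _ _).trans ((min_le_right _ _).trans (min_le_left _ _))
  · exact (min_le_right _ _).trans ((min_le_right _ _).trans ((min_le_right _ _).trans (min_le_left _ _)))
  · exact (min_le_right _ _).trans ((min_le_right _ _).trans ((min_le_right _ _).trans (min_le_right _ _)))
  · exact (le_max_left _ _).trans (le_max_right _ _)
  · exact (le_max_left _ _).trans ((le_max_right _ _).trans (le_max_right _ _))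
  · exact (le_max_left _ _).trans ((le_max_right _ _).trans ((le_max_right _ _).trans (le_max_right _ _)))
  · exact (le_max_left _ _).trans ((le_max_right _ _).trans ((le_max_right _ _).trans ((le_max_right _ _).trans (le_max_right _ _))))
  · exact (le_max_left _ _).trans ((le_max_right _ _).trans ((le_max_right _ _).trans ((le_max_right _ _).trans
      ((le_max_right _ _).trans (le_max_right _ _)))))
  · exact (le_max_right _ _).trans ((le_max_right _ _).trans ((le_max_right _ _).trans ((le_max_right _ _).trans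
      ((le_max_right _ _).trans (le_max_right _ _)))))

/-! ## 8. glue of `LlRefExit` -/

/-- the size regularity is monotone in the regular ranges -/
theorem LlPt.RegT.lrf_mono {p : LlPt} {F : LlFix} {𝔹 : LlBase} {c C v0 ξ0 v0' ξ0' : ℝ} {R0 : ℕ} {θ θ' : ℝ}
    (h : p.RegT F 𝔹 c C v0 ξ0 R0 θ θ') (hv : v0' ≤ v0) (hξ : ξ0' ≤ ξ0) : p.RegT F 𝔹 c C v0' ξ0' R0 θ θ' :=
  { h with
    gap0 := fun ξ hx => h.gap0 ξ ⟨hx.1, hx.2.trans hξ⟩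
    K0 := fun v h0 hv' => h.K0 v h0 (hv'.trans hv)
    q0 := fun v h0 hv' => h.q0 v h0 (hv'.trans hv) }

theorem LlRegT.lrf_mono {𝔹 : LlBase} {F : LlFix} {c C v0 ξ0 v0' ξ0' : ℝ} {R0 : ℕ} (h : LlRegT 𝔹 F c C v0 ξ0 R0)
    (hv : v0' ≤ v0) (hξ : ξ0' ≤ ξ0) : LlRegT 𝔹 F c C v0' ξ0' R0 := by
  obtain ⟨N0, H⟩ := h
  exact ⟨N0, fun p hp hN hsm θ hθ θ' hθ' => (H p hp hN hsm θ hθ θ' hθ').lrf_mono hv hξ⟩

/-- the strength regularity is monotone in its constants -/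
theorem LlRegL.lrf_mono {𝔹 : LlBase} {F : LlFix} {C C' ξ0 ξ0' : ℝ} (h : LlRegL 𝔹 F C ξ0) (hC : C ≤ C') (hξ : ξ0' ≤ ξ0) :
    LlRegL 𝔹 F C' ξ0' := by
  obtain ⟨N0, hN0⟩ := h
  refine ⟨N0, fun p hp hN hsm l' h1 h2 => ?_⟩
  have h := hN0 p hp hN hsm l' h1 h2
  have hd : 0 ≤ |l' - p.lam| := abs_nonneg _
  have hCd : C * |l' - p.lam| ≤ C' * |l' - p.lam| := mul_le_mul_of_nonneg_right hC hd
  exact ⟨h.b0.trans hCd, fun v hv => (h.K v hv).trans (mul_le_mul_of_nonneg_right hCd hv.1.le), h.K_far,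
    fun v hv => (h.q v hv).trans (mul_le_mul_of_nonneg_right hCd (le_min hv.1.le zero_le_one)),
    fun ξ hx => (h.gap0 ξ ⟨hx.1, hx.2.trans hξ⟩).trans (mul_le_mul_of_nonneg_right hCd (sq_nonneg ξ)),
    fun ξ hx => (h.gap ξ hx).trans hCd⟩

/-- **glue of the scalar half of Section 3**: (P2) (`lrf_ref`) + the two regularity statements in the exit form of `lrg_main` (`LL/PathsReg.lean`; the hypothesis `F.pS ≤ 1` is offered to it). -/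
theorem lrf_refexit {𝔹 : LlBase} {T : ℝ}
    (hRef : ∃ zb : ℝ, 0 < zb ∧ ∀ z0, 0 < z0 → z0 ≤ zb → ∃ c C v0 : ℝ, 0 < c ∧ c ≤ 1 ∧ 1 ≤ C ∧ 0 < v0 ∧ v0 ≤ 1 / 2 ∧
      ∀ F : LlFix, F.Ok → F.T = T → F.z0 = z0 → F.pS ≤ 1 → LlRef 𝔹 F c C v0)
    (hReg : ∃ zb : ℝ, 0 < zb ∧ ∀ z0, 0 < z0 → z0 ≤ zb → ∃ C v0 ξ0 : ℝ, 1 ≤ C ∧ 0 < v0 ∧ v0 ≤ 1 / 2 ∧ 0 < ξ0 ∧
      ∀ F : LlFix, F.Ok → F.T = T → F.z0 = z0 → F.pS ≤ 1 →
        LlRegL 𝔹 F C ξ0 ∧ ∀ R0 : ℕ, ∃ c' C' : ℝ, 0 < c' ∧ LlRegT 𝔹 F c' C' v0 ξ0 R0) : LlRefExit 𝔹 T := by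
  obtain ⟨za, hza, Ha⟩ := hRef
  obtain ⟨zb, hzb, Hb⟩ := hReg
  refine ⟨min za zb, lt_min hza hzb, fun z0 hz0 hz => ?_⟩
  obtain ⟨c, C, v0, hc, hc1, hC1, hv0, hv01, Ha⟩ := Ha z0 hz0 (hz.trans (min_le_left _ _))
  obtain ⟨C', v0', ξ0, hC1', hv0', -, hξ0, Hb⟩ := Hb z0 hz0 (hz.trans (min_le_right _ _))
  refine ⟨c, max C C', min v0 v0', ξ0, hc, hc1, hC1.trans (le_max_left _ _), lt_min hv0 hv0', (min_le_left _ _).trans hv01, hξ0,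
    fun F hF hT hz0 hpS => ?_⟩
  obtain ⟨hL, hTT⟩ := Hb F hF hT hz0 hpS
  refine ⟨(Ha F hF hT hz0 hpS).lrf_mono le_rfl (le_max_left _ _) (min_le_left _ _), hL.lrf_mono (le_max_right _ _) le_rfl, fun R0 => ?_⟩
  obtain ⟨c', C'', hc', h⟩ := hTT R0
  exact ⟨c', C'', hc', h.lrf_mono (min_le_right _ _) le_rfl⟩

end Claimed.Agent.R286
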