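import Claimed.Agent.R286.LL.PathsReg
import Claimed.Agent.R286.LL.PathsSwD

/-!
# Row 286 (S0533), LL Section 3: LEMMA paths:parameter-regularity, SMOOTHED REFERENCE (`LlRegT`)
(architect and prover helper236, on the sections 0-5 of `LL/PathsReg.lean` of helper267; head of LL 03 helper272; prefix `lrt_`, `Lrt`)

TEX[LL:paths:parameter-regularity]#195-368      TWO SIZES `ℓ = e^{θ/6}`, `ℓ' = e^{θ'/6}` of the smoothed profile `Â` (terminal masses `4/ℓ`, `4/ℓ'`, the SAME profile below `M`).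
* §1 `lrt_T_l1` : (P2b) in real parameters (hypotheses `LrgTH`): `∫_0^4 (|K'-K| + |q'-q|) ≤ C M |ℓ'-ℓ|` (no inverse power of `ω`).
* §2 normal forms of `(p.wTh θ).b0, gapN, K, q, Aprof, j` on a smoothed path.
* §3 `lrt_point` : the nine fields of `LlPt.RegT` at one point from `LrgTH` + the jets.
* §4 the size coordinate (`lrt_exp_*`), the lower bound of the masses after `ξ_*`, scales.
* §5 EXIT `lrt_main` (order of the constants of `LlRefExit`: `zb` → `z0` → `v0, ξ0` → `F` → `R0` → `c', C'` → `N0`), monotonicity `LlRegT.lrt_mono`.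
-/

set_option autoImplicit false
set_option linter.unusedSectionVars false
set_option linter.unusedVariables false

namespace Claimed.Agent.R286

open MeasureTheory Set Filter Topology

/-! ## 1. (P2b) in real parameters -/

section smT

variable {S : LppMod} {T ξs pT ca Ca ξ1 z0 LP lam om M B CA CU Cd : ℝ} {A0 P : ℝ → ℝ} {ell ell' δ m : ℝ}
  (h : LrgTH S T ξs pT ca Ca ξ1 z0 LP lam om M B CA CU Cd A0 P ell ell' δ m)

include h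

/-- the normalised time is integrable in the mass -/
theorem lrt_X_int : IntervalIntegrable (fun v => llInv (lkkSm A0 P lam ξs pT om M (4 / ell)) (v / ell)) volume 0 4 := by
  have hel : 0 < ell := by linarith [h.h1]
  have hA := lkk_sm_prof h.hk h.hPk h.hz h.hl0 h.hl h.ho h.hM h.hJ
  refine MonotoneOn.intervalIntegrable fun v hv v' hv' hvv => ?_
  rw [uIcc_of_le (by norm_num)] at hv hv'
  exact lpq_inv_mono hA _ _ (div_le_div_of_nonneg_right hvv hel.le) (div_le_div_of_nonneg_right hv'.2 hel.le)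

theorem lrt_X'_int : IntervalIntegrable (fun v => llInv (lkkSm A0 P lam ξs pT om M (4 / ell')) (v / ell')) volume 0 4 := by
  have hel : 0 < ell' := by linarith [h.h1']
  have hA := lkk_sm_prof h.hk h.hPk h.hz h.hl0 h.hl h.ho h.hM h.hJ'
  refine MonotoneOn.intervalIntegrable fun v hv v' hv' hvv => ?_
  rw [uIcc_of_le (by norm_num)] at hv hv'
  exact lpq_inv_mono hA _ _ (div_le_div_of_nonneg_right hvv hel.le) (div_le_div_of_nonneg_right hv'.2 hel.le)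

/-- the constant of `lrg_T_q` -/
noncomputable def lrtCg (B CU Cd M : ℝ) : ℝ := 2 * B * CU + Cd * (9 * B ^ 3) * ((B + 4 * CU) * M)

/-- field `l1` -/
theorem lrt_T_l1 :
    ∫ v in (0 : ℝ)..4,
      (|(ell' ^ 2)⁻¹ * llInv (lkkSm A0 P lam ξs pT om M (4 / ell')) (v / ell')
          - (ell ^ 2)⁻¹ * llInv (lkkSm A0 P lam ξs pT om M (4 / ell)) (v / ell)|
        + |S.Gam (lkkSm A0 P lam ξs pT om M (4 / ell')) (4 / ell') (llInv (lkkSm A0 P lam ξs pT om M (4 / ell')) (v / ell'))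
          - S.Gam (lkkSm A0 P lam ξs pT om M (4 / ell)) (4 / ell) (llInv (lkkSm A0 P lam ξs pT om M (4 / ell)) (v / ell))|)
      ≤ (8 * M + (1 + B ^ 2) * (4 * M) + 16 * lrtCg B CU Cd M) * |ell' - ell| := by
  have hB0 : 0 ≤ B := by linarith [h.hB.one]
  have hCU0 := h.hCU0
  have hCd0 := h.hCd0
  have hM0 : 0 ≤ M := (h.hb.xs.trans h.hM).le
  have hd := abs_nonneg (ell' - ell)
  have hCg : 0 ≤ lrtCg B CU Cd M := by unfold lrtCg; positivity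
  by_cases hi : IntervalIntegrable (fun v : ℝ =>
      (|(ell' ^ 2)⁻¹ * llInv (lkkSm A0 P lam ξs pT om M (4 / ell')) (v / ell')
          - (ell ^ 2)⁻¹ * llInv (lkkSm A0 P lam ξs pT om M (4 / ell)) (v / ell)|
        + |S.Gam (lkkSm A0 P lam ξs pT om M (4 / ell')) (4 / ell') (llInv (lkkSm A0 P lam ξs pT om M (4 / ell')) (v / ell'))
          - S.Gam (lkkSm A0 P lam ξs pT om M (4 / ell)) (4 / ell) (llInv (lkkSm A0 P lam ξs pT om M (4 / ell)) (v / ell))|)) volume 0 4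
  swap
  · rw [intervalIntegral.integral_undef hi]
    positivity
  have hD : IntervalIntegrable (fun v : ℝ => |llInv (lkkSm A0 P lam ξs pT om M (4 / ell')) (v / ell')
      - llInv (lkkSm A0 P lam ξs pT om M (4 / ell)) (v / ell)|) volume 0 4 := ((lrt_X'_int h).sub (lrt_X_int h)).abs
  have hmaj : IntervalIntegrable (fun v : ℝ => (2 * M + 4 * lrtCg B CU Cd M) * |ell' - ell|
      + (1 + B ^ 2) * |llInv (lkkSm A0 P lam ξs pT om M (4 / ell')) (v / ell')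
      - llInv (lkkSm A0 P lam ξs pT om M (4 / ell)) (v / ell)|) volume 0 4 :=
    (intervalIntegrable_const).add (hD.const_mul _)
  refine (intervalIntegral.integral_mono_on (by norm_num) hi hmaj fun v hv => ?_).trans ?_
  · have a1 := lkk_K_diff_alg (X := llInv (lkkSm A0 P lam ξs pT om M (4 / ell)) (v / ell)) h.h1 h.h1'
      (lpq_inv_nonneg (lkkSm A0 P lam ξs pT om M (4 / ell')) (v / ell'))
    have a2 := lrg_T_X'_le h v hv.2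
    have a3 := lrg_T_q h v hv.1 hv.2
    have a4 : 2 * |ell' - ell| * llInv (lkkSm A0 P lam ξs pT om M (4 / ell')) (v / ell') ≤ 2 * |ell' - ell| * M :=
      mul_le_mul_of_nonneg_left a2 (by positivity)
    unfold lrtCg
    nlinarith
  · rw [intervalIntegral.integral_add intervalIntegrable_const (hD.const_mul _), intervalIntegral.integral_const,
      intervalIntegral.integral_const_mul]
    have a1 := lkk_sm_xi_l1 h.hk h.hPk h.hz h.hl0 h.hl h.ho h.hM h.h1 h.h1' h.hJ h.hJ'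
    have a2 : (1 + B ^ 2) * ∫ v in (0 : ℝ)..4, |llInv (lkkSm A0 P lam ξs pT om M (4 / ell')) (v / ell')
        - llInv (lkkSm A0 P lam ξs pT om M (4 / ell)) (v / ell)| ≤ (1 + B ^ 2) * (4 * M * |ell' - ell|) :=
      mul_le_mul_of_nonneg_left a1 (by positivity)
    rw [smul_eq_mul]
    nlinarith

/-- field `gamN` -/
theorem lrt_T_gamN (ξ : ℝ) (hξ : ξ ∈ Icc 0 M) :
    |S.Gam (lkkSm A0 P lam ξs pT om M (4 / ell')) (4 / ell') ξ - S.Gam (lkkSm A0 P lam ξs pT om M (4 / ell)) (4 / ell) ξ|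
      ≤ lrtCg B CU Cd M * (4 * |ell' - ell|) := by
  have hB0 : 0 ≤ B := by linarith [h.hB.one]
  have hCU0 := h.hCU0
  have hCd0 := h.hCd0
  have hM0 : 0 ≤ M := (h.hb.xs.trans h.hM).le
  have hA := h.hA
  have hA' := h.hA'
  rw [lrg_sm_cap] at hA hA'
  have a2 := lrg_glip h.hS h.hB hM0 hA hA' h.hCU h.hCd ξ hξ.1
  rw [← lrg_sm_cap, ← lrg_sm_cap] at a2
  refine a2.trans ?_
  unfold lrtCg
  refine mul_le_mul ?_ (lrg_T_dj h) (abs_nonneg _) (by positivity)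
  have : Cd * (9 * B ^ 3) * ((B + 4 * CU) * ξ) ≤ Cd * (9 * B ^ 3) * ((B + 4 * CU) * M) :=
    mul_le_mul_of_nonneg_left (mul_le_mul_of_nonneg_left hξ.2 (by positivity)) (by positivity)
  linarith

end smT

/-! ## 2. normal forms on a smoothed path -/

section nf

variable (p : LlPt) (F : LlFix) (𝔹 : LlBase) {S : LppMod}

/-- the smoothed profile at the size `ℓ` -/
noncomputable def lrtA (ell : ℝ) : ℝ → ℝ := lkkSm (𝔹.A0 F.T) F.P p.lam (𝔹.xiS F.T) (𝔹.pTop F.T) p.om p.M (4 / ell)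

theorem lrt_ell (θ : ℝ) : (p.wTh θ).ell = Real.exp (θ / 6) := rfl

theorem lrt_Aprof (h : p.sm = true) (θ : ℝ) : (p.wTh θ).Aprof F 𝔹 = lrtA p F 𝔹 (Real.exp (θ / 6)) := by
  have h' : (p.wTh θ).sm = true := h
  unfold LlPt.Aprof
  rw [if_pos h']
  rfl

theorem lrt_j (h : p.sm = true) (θ : ℝ) : (p.wTh θ).j = 4 / Real.exp (θ / 6) := by
  have h' : (p.wTh θ).sm = true := h
  unfold LlPt.j
  rw [if_pos h']
  rfl

theorem lrt_Gam1N (hL : LppLink 𝔹 S) (h : p.sm = true) (θ ξ : ℝ) :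
    (p.wTh θ).Gam1N F 𝔹 ξ = S.M2 (lrtA p F 𝔹 (Real.exp (θ / 6))) (4 / Real.exp (θ / 6)) ξ := by
  unfold LlPt.Gam1N
  rw [lrt_Aprof p F 𝔹 h, lrt_j p h, hL.G1]

theorem lrt_GamN (hL : LppLink 𝔹 S) (h : p.sm = true) (θ ξ : ℝ) :
    (p.wTh θ).GamN F 𝔹 ξ = S.Gam (lrtA p F 𝔹 (Real.exp (θ / 6))) (4 / Real.exp (θ / 6)) ξ := by
  unfold LlPt.GamN
  rw [lrt_Aprof p F 𝔹 h, lrt_j p h, hL.G]

theorem lrt_gapN (hL : LppLink 𝔹 S) (h : p.sm = true) (θ ξ : ℝ) :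
    (p.wTh θ).gapN F 𝔹 ξ = 1 - S.M2 (lrtA p F 𝔹 (Real.exp (θ / 6))) (4 / Real.exp (θ / 6)) ξ
      / S.M2 (lrtA p F 𝔹 (Real.exp (θ / 6))) (4 / Real.exp (θ / 6)) 0 := by
  unfold LlPt.gapN
  rw [lrt_Gam1N p F 𝔹 hL h, lrt_Gam1N p F 𝔹 hL h]

theorem lrt_b0 (hL : LppLink 𝔹 S) (h : p.sm = true) (θ : ℝ) :
    (p.wTh θ).ell ^ 2 * (p.wTh θ).b0 F 𝔹 = Real.exp (θ / 6) ^ 2
      * (1 / (Real.exp (θ / 6) ^ 2 * S.M2 (lrtA p F 𝔹 (Real.exp (θ / 6))) (4 / Real.exp (θ / 6)) 0)) := by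
  unfold LlPt.b0 LlPt.Gam1
  rw [lrt_Gam1N p F 𝔹 hL h, lrt_ell, mul_zero]

theorem lrt_xi (h : p.sm = true) (θ v : ℝ) :
    (p.wTh θ).xi F 𝔹 v = llInv (lrtA p F 𝔹 (Real.exp (θ / 6))) (v / Real.exp (θ / 6)) := by
  unfold LlPt.xi
  rw [lrt_Aprof p F 𝔹 h, lrt_ell]

theorem lrt_K (h : p.sm = true) (θ v : ℝ) :
    (p.wTh θ).K F 𝔹 v = (Real.exp (θ / 6) ^ 2)⁻¹ * llInv (lrtA p F 𝔹 (Real.exp (θ / 6))) (v / Real.exp (θ / 6)) := by
  unfold LlPt.K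
  rw [lrt_xi p F 𝔹 h, lrt_ell]

theorem lrt_q (hL : LppLink 𝔹 S) (h : p.sm = true) (θ v : ℝ) :
    (p.wTh θ).q F 𝔹 v = S.Gam (lrtA p F 𝔹 (Real.exp (θ / 6))) (4 / Real.exp (θ / 6))
      (llInv (lrtA p F 𝔹 (Real.exp (θ / 6))) (v / Real.exp (θ / 6))) := by
  have hne : Real.exp (θ / 6) ^ 2 ≠ 0 := pow_ne_zero 2 (Real.exp_pos _).ne'
  unfold LlPt.q LlPt.Gam LlPt.GamN
  rw [lrt_K p F 𝔹 h, lrt_Aprof p F 𝔹 h, lrt_j p h, lrt_ell, hL.G, ← mul_assoc, mul_inv_cancel₀ hne, one_mul]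

theorem lrt_jet (hL : LppLink 𝔹 S) (h : p.sm = true) (θ : ℝ) (r : ℕ) :
    iteratedDeriv r (𝔹.scV ((p.wTh θ).Aprof F 𝔹) (p.wTh θ).j 0) 0
      = S.vk r (lrtA p F 𝔹 (Real.exp (θ / 6))) (4 / Real.exp (θ / 6)) 0 0 := by
  rw [lrt_Aprof p F 𝔹 h, lrt_j p h, hL.V]
  rfl

end nf

/-! ## 3. the nine fields at one point -/

/-- the constant of `LlPt.RegT` -/
noncomputable def lrtC (B CA CU Cd ca ξ1 m D : ℝ) : ℝ :=
  D * lrgE2 B (CA + 2) ξ1 0 1 / m ^ 2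
    + D * (lrgE B (CA + 2) ξ1 0 1 / 2 / m + (B ^ 3 + 2 * (CA + 2) * B ^ 3) / 2 * lrgE2 B (CA + 2) ξ1 0 1 / m ^ 2)
    + D + 6 / ca + 2 / ca * (B ^ 2 + D * lrgE2 B (CA + 2) ξ1 0 1) + 10
    + (4 * B ^ 2 + 4 * (2 * B * CU + Cd * (9 * B ^ 3) * ((B + 4 * CU) * 3)))
    + (8 + (1 + B ^ 2) * 4 + 16 * lrtCg B CU Cd 1)

theorem lrt_point {p : LlPt} {F : LlFix} {𝔹 : LlBase} {S : LppMod} (hL : LppLink 𝔹 S) (hsm : p.sm = true)
    {ca Ca ξ1 LP B CA CU Cd δ m D c θ θ' : ℝ} {R0 : ℕ}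
    (h : LrgTH S F.T (𝔹.xiS F.T) (𝔹.pTop F.T) ca Ca ξ1 F.z0 LP p.lam p.om p.M B CA CU Cd (𝔹.A0 F.T) F.P
      (Real.exp (θ / 6)) (Real.exp (θ' / 6)) δ m)
    (hjet : ∀ r : ℕ, 1 ≤ r → r ≤ R0 →
      |S.vk r (lrtA p F 𝔹 (Real.exp (θ' / 6))) (4 / Real.exp (θ' / 6)) 0 0
        - S.vk r (lrtA p F 𝔹 (Real.exp (θ / 6))) (4 / Real.exp (θ / 6)) 0 0| ≤ δ)
    (hD : 0 ≤ D) (hc : 0 ≤ c) (hδ : δ ≤ D * Real.exp (-c * p.M) * |θ' - θ|)
    (hell : |Real.exp (θ' / 6) - Real.exp (θ / 6)| ≤ |θ' - θ|) (hM1 : 1 ≤ p.M) :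
    p.RegT F 𝔹 c (lrtC B CA CU Cd ca ξ1 m D) (lkkV0 ca ξ1) ξ1 R0 θ θ' := by
  have hB0 : 0 ≤ B := by linarith [h.hB.one]
  have hCA0 := h.hCA0
  have hCU0 := h.hCU0
  have hCd0 := h.hCd0
  have hca := h.hk.ca0
  have hx1 := h.hk.x10
  have hm := h.hm
  have hd := abs_nonneg (θ' - θ)
  have hE2 : 0 ≤ lrgE2 B (CA + 2) ξ1 0 1 := lrgE2_nonneg hB0 (by linarith) hx1.le le_rfl (by norm_num)
  have hE : 0 ≤ lrgE B (CA + 2) ξ1 0 1 := lrgE_nonneg hB0 (by linarith) hx1.le le_rfl (by norm_num)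
  have hCg : 0 ≤ lrtCg B CU Cd 1 := by unfold lrtCg; positivity
  have he0 : 0 < Real.exp (-c * p.M) := Real.exp_pos _
  have he1 : Real.exp (-c * p.M) ≤ 1 := by
    rw [Real.exp_le_one_iff]
    have : 0 ≤ c * p.M := mul_nonneg hc (by linarith)
    linarith
  -- the eight summands of the constant
  obtain ⟨t1, ht1⟩ : ∃ t, t = D * lrgE2 B (CA + 2) ξ1 0 1 / m ^ 2 := ⟨_, rfl⟩
  obtain ⟨t2, ht2⟩ : ∃ t, t = D * (lrgE B (CA + 2) ξ1 0 1 / 2 / m + (B ^ 3 + 2 * (CA + 2) * B ^ 3) / 2 * lrgE2 B (CA + 2) ξ1 0 1 / m ^ 2) := ⟨_, rfl⟩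
  obtain ⟨t5, ht5⟩ : ∃ t, t = 2 / ca * (B ^ 2 + D * lrgE2 B (CA + 2) ξ1 0 1) := ⟨_, rfl⟩
  obtain ⟨t7, ht7⟩ : ∃ t, t = 4 * B ^ 2 + 4 * (2 * B * CU + Cd * (9 * B ^ 3) * ((B + 4 * CU) * 3)) := ⟨_, rfl⟩
  obtain ⟨t8, ht8⟩ : ∃ t, t = 8 + (1 + B ^ 2) * 4 + 16 * lrtCg B CU Cd 1 := ⟨_, rfl⟩
  have p1 : 0 ≤ t1 := by rw [ht1]; positivity
  have p2 : 0 ≤ t2 := by rw [ht2]; positivity
  have p4 : 0 ≤ 6 / ca := by positivity
  have p5 : 0 ≤ t5 := by rw [ht5]; positivity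
  have p7 : 0 ≤ t7 := by rw [ht7]; positivity
  have p8 : 0 ≤ t8 := by rw [ht8]; positivity
  obtain ⟨C, hC⟩ : ∃ C, C = lrtC B CA CU Cd ca ξ1 m D := ⟨_, rfl⟩
  have eC : C = t1 + t2 + D + 6 / ca + t5 + 10 + t7 + t8 := by rw [hC, ht1, ht2, ht5, ht7, ht8]; rfl
  rw [← hC]
  have hv0 : ∀ v, v ≤ lkkV0 ca ξ1 → v ≤ ca / 2 * ξ1 ∧ v ≤ 4 := fun v hv =>
    ⟨hv.trans (min_le_right _ _), (hv.trans (min_le_left _ _)).trans (by norm_num)⟩
  have hX : 0 ≤ Real.exp (-c * p.M) * |θ' - θ| := by positivity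
  refine ⟨?_, ?_, ?_, ?_, ?_, ?_, ?_, ?_, ?_⟩
  · -- b0
    rw [lrt_b0 p F 𝔹 hL hsm, lrt_b0 p F 𝔹 hL hsm]
    refine (lrg_T_b0 h).trans ?_
    have a1 : δ * lrgE2 B (CA + 2) ξ1 0 1 / m ^ 2 ≤ (D * Real.exp (-c * p.M) * |θ' - θ|) * lrgE2 B (CA + 2) ξ1 0 1 / m ^ 2 :=
      div_le_div_of_nonneg_right (mul_le_mul_of_nonneg_right hδ hE2) (by positivity)
    have e : (D * Real.exp (-c * p.M) * |θ' - θ|) * lrgE2 B (CA + 2) ξ1 0 1 / m ^ 2 = t1 * (Real.exp (-c * p.M) * |θ' - θ|) := by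
      rw [ht1]; ring
    rw [mul_assoc]
    refine (a1.trans (le_of_eq e)).trans (mul_le_mul_of_nonneg_right ?_ hX)
    linarith
  · -- gap0
    intro ξ hξ
    rw [lrt_gapN p F 𝔹 hL hsm, lrt_gapN p F 𝔹 hL hsm]
    refine (lrg_T_gap0 h ξ hξ).trans ?_
    have hq : 0 ≤ lrgE B (CA + 2) ξ1 0 1 / 2 / m + (B ^ 3 + 2 * (CA + 2) * B ^ 3) / 2 * lrgE2 B (CA + 2) ξ1 0 1 / m ^ 2 := by positivity
    have a1 := mul_le_mul_of_nonneg_right (mul_le_mul_of_nonneg_right hδ hq) (sq_nonneg ξ)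
    refine a1.trans ?_
    have e : D * Real.exp (-c * p.M) * |θ' - θ| * (lrgE B (CA + 2) ξ1 0 1 / 2 / m + (B ^ 3 + 2 * (CA + 2) * B ^ 3) / 2 * lrgE2 B (CA + 2) ξ1 0 1 / m ^ 2) * ξ ^ 2
        = t2 * (Real.exp (-c * p.M) * ξ ^ 2 * |θ' - θ|) := by rw [ht2]; ring
    have e2 : C * Real.exp (-c * p.M) * ξ ^ 2 * |θ' - θ| = C * (Real.exp (-c * p.M) * ξ ^ 2 * |θ' - θ|) := by ring
    rw [e, e2]
    refine mul_le_mul_of_nonneg_right ?_ (by positivity)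
    linarith
  · -- jets
    intro r h1 hr
    rw [lrt_jet p F 𝔹 hL hsm, lrt_jet p F 𝔹 hL hsm]
    refine ((hjet r h1 hr).trans hδ).trans ?_
    rw [mul_assoc, mul_assoc]
    refine mul_le_mul_of_nonneg_right ?_ hX
    linarith
  · -- gamN
    intro ξ hξ
    rw [lrt_GamN p F 𝔹 hL hsm, lrt_GamN p F 𝔹 hL hsm]
    refine (lrt_T_gamN h ξ hξ).trans ?_
    have hM0 : 0 ≤ p.M := by linarith
    have a0 : lrtCg B CU Cd p.M ≤ lrtCg B CU Cd 1 * (1 + p.M) := by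
      unfold lrtCg
      have c1 : 0 ≤ 2 * B * CU * p.M := by positivity
      have c2 : 0 ≤ Cd * (9 * B ^ 3) * ((B + 4 * CU) * 1) := by positivity
      linarith
    have a1 : 0 ≤ lrtCg B CU Cd p.M := by unfold lrtCg; positivity
    have a2 : 4 * |Real.exp (θ' / 6) - Real.exp (θ / 6)| ≤ 4 * |θ' - θ| := mul_le_mul_of_nonneg_left hell (by norm_num)
    have a3 : 0 ≤ 4 * |Real.exp (θ' / 6) - Real.exp (θ / 6)| := by positivity
    have a4 : 0 ≤ lrtCg B CU Cd 1 * (1 + p.M) := by positivity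
    refine (mul_le_mul a0 a2 a3 a4).trans ?_
    have e : lrtCg B CU Cd 1 * (1 + p.M) * (4 * |θ' - θ|) = 4 * lrtCg B CU Cd 1 * ((1 + p.M) * |θ' - θ|) := by ring
    have e2 : C * (1 + p.M) * |θ' - θ| = C * ((1 + p.M) * |θ' - θ|) := by ring
    have a5 : 0 ≤ (1 + p.M) * |θ' - θ| := by positivity
    rw [e, e2]
    refine mul_le_mul_of_nonneg_right ?_ a5
    have : 0 ≤ B ^ 2 := by positivity
    linarith
  · -- K0
    intro v h0 hv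
    rw [lrt_K p F 𝔹 hsm, lrt_K p F 𝔹 hsm]
    refine (lrg_T_K0 h v h0.le (hv0 v hv).1 (hv0 v hv).2).trans ?_
    have a1 : 6 / ca * v * |Real.exp (θ' / 6) - Real.exp (θ / 6)| ≤ 6 / ca * v * |θ' - θ| :=
      mul_le_mul_of_nonneg_left hell (by positivity)
    refine a1.trans ?_
    rw [mul_assoc, mul_assoc]
    refine mul_le_mul_of_nonneg_right ?_ (by positivity)
    linarith
  · -- q0
    intro v h0 hv
    rw [lrt_q p F 𝔹 hL hsm, lrt_q p F 𝔹 hL hsm]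
    refine (lrg_T_q0 h v h0.le (hv0 v hv).1 (hv0 v hv).2).trans ?_
    have a1 : δ ≤ D * |θ' - θ| := by
      refine hδ.trans ?_
      have : D * Real.exp (-c * p.M) ≤ D * 1 := mul_le_mul_of_nonneg_left he1 hD
      rw [mul_one] at this
      exact mul_le_mul_of_nonneg_right this hd
    have a2 : B ^ 2 * |Real.exp (θ' / 6) - Real.exp (θ / 6)| + δ * lrgE2 B (CA + 2) ξ1 0 1
        ≤ (B ^ 2 + D * lrgE2 B (CA + 2) ξ1 0 1) * |θ' - θ| := by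
      have b1 := mul_le_mul_of_nonneg_left hell (by positivity : 0 ≤ B ^ 2)
      have b2 := mul_le_mul_of_nonneg_right a1 hE2
      nlinarith
    have a3 := mul_le_mul_of_nonneg_left a2 (by positivity : 0 ≤ 2 / ca * v)
    refine a3.trans ?_
    have e : 2 / ca * v * ((B ^ 2 + D * lrgE2 B (CA + 2) ξ1 0 1) * |θ' - θ|) = t5 * (v * |θ' - θ|) := by rw [ht5]; ring
    rw [e, mul_assoc]
    refine mul_le_mul_of_nonneg_right ?_ (by positivity)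
    linarith
  · -- Kpt
    intro v hv
    rw [lrt_K p F 𝔹 hsm, lrt_K p F 𝔹 hsm]
    refine (lrg_T_Kpt h v hv.1.le hv.2.le).trans ?_
    have ho := h.ho
    have a1 : 10 / p.om * |Real.exp (θ' / 6) - Real.exp (θ / 6)| ≤ 10 / p.om * |θ' - θ| :=
      mul_le_mul_of_nonneg_left hell (by positivity)
    refine a1.trans (mul_le_mul_of_nonneg_right (div_le_div_of_nonneg_right ?_ ho.le) hd)
    linarith
  · -- qpt
    intro v hv
    rw [lrt_q p F 𝔹 hL hsm, lrt_q p F 𝔹 hL hsm]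
    refine (lrg_T_qpt h v hv.1.le hv.2.le).trans ?_
    rw [← ht7]
    have ho := h.ho
    have a1 : t7 / p.om * |Real.exp (θ' / 6) - Real.exp (θ / 6)| ≤ t7 / p.om * |θ' - θ| :=
      mul_le_mul_of_nonneg_left hell (by positivity)
    refine a1.trans (mul_le_mul_of_nonneg_right (div_le_div_of_nonneg_right ?_ ho.le) hd)
    linarith
  · -- l1
    have e : ∀ v : ℝ, |(p.wTh θ').K F 𝔹 v - (p.wTh θ).K F 𝔹 v| + |(p.wTh θ').q F 𝔹 v - (p.wTh θ).q F 𝔹 v|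
        = |(Real.exp (θ' / 6) ^ 2)⁻¹ * llInv (lrtA p F 𝔹 (Real.exp (θ' / 6))) (v / Real.exp (θ' / 6))
            - (Real.exp (θ / 6) ^ 2)⁻¹ * llInv (lrtA p F 𝔹 (Real.exp (θ / 6))) (v / Real.exp (θ / 6))|
          + |S.Gam (lrtA p F 𝔹 (Real.exp (θ' / 6))) (4 / Real.exp (θ' / 6)) (llInv (lrtA p F 𝔹 (Real.exp (θ' / 6))) (v / Real.exp (θ' / 6)))
            - S.Gam (lrtA p F 𝔹 (Real.exp (θ / 6))) (4 / Real.exp (θ / 6)) (llInv (lrtA p F 𝔹 (Real.exp (θ / 6))) (v / Real.exp (θ / 6)))| := by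
      intro v
      rw [lrt_K p F 𝔹 hsm, lrt_K p F 𝔹 hsm, lrt_q p F 𝔹 hL hsm, lrt_q p F 𝔹 hL hsm]
    simp only [e]
    refine (lrt_T_l1 h).trans ?_
    have hM0 : 0 ≤ p.M := by linarith
    have hMM : p.M ≤ p.M ^ 2 := by nlinarith
    have a0 : lrtCg B CU Cd p.M ≤ lrtCg B CU Cd 1 * p.M := by
      unfold lrtCg
      have : 2 * B * CU * 1 ≤ 2 * B * CU * p.M := mul_le_mul_of_nonneg_left hM1 (by positivity)
      linarith
    have a1 : 8 * p.M + (1 + B ^ 2) * (4 * p.M) + 16 * lrtCg B CU Cd p.M ≤ t8 * p.M ^ 2 := by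
      have : 8 * p.M + (1 + B ^ 2) * (4 * p.M) + 16 * lrtCg B CU Cd p.M ≤ t8 * p.M := by rw [ht8]; linarith
      exact this.trans (mul_le_mul_of_nonneg_left hMM p8)
    have a2 : 0 ≤ 8 * p.M + (1 + B ^ 2) * (4 * p.M) + 16 * lrtCg B CU Cd p.M := by
      have : 0 ≤ lrtCg B CU Cd p.M := by unfold lrtCg; positivity
      positivity
    refine (mul_le_mul a1 hell (abs_nonneg _) (by positivity)).trans ?_
    refine mul_le_mul_of_nonneg_right (mul_le_mul_of_nonneg_right ?_ (by positivity)) hd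
    linarith

/-! ## 4. the size coordinate, the masses after `ξ_*`, scales -/

theorem lrt_exp_one_le {θ : ℝ} (h : 0 ≤ θ) : 1 ≤ Real.exp (θ / 6) := Real.one_le_exp (by linarith)

theorem lrt_exp_le_two {θ : ℝ} (h0 : 0 ≤ θ) (h : θ ≤ Real.log 2) : Real.exp (θ / 6) ≤ 2 := by
  have h1 : θ / 6 ≤ Real.log 2 := by linarith
  calc Real.exp (θ / 6) ≤ Real.exp (Real.log 2) := Real.exp_le_exp.2 h1
    _ = 2 := Real.exp_log (by norm_num)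

/-- `θ ↦ e^{θ/6}` is `1`-Lipschitz on `[0, log 2]` -/
theorem lrt_exp_lip {θ θ' : ℝ} (h : θ ∈ Icc 0 (Real.log 2)) (h' : θ' ∈ Icc 0 (Real.log 2)) :
    |Real.exp (θ' / 6) - Real.exp (θ / 6)| ≤ |θ' - θ| := by
  wlog hle : θ ≤ θ' generalizing θ θ'
  · have := this h' h (le_of_not_ge hle)
    rwa [abs_sub_comm, abs_sub_comm θ θ'] at this
  have a0 : Real.exp (θ / 6) ≤ Real.exp (θ' / 6) := Real.exp_le_exp.2 (by linarith)
  rw [abs_of_nonneg (by linarith), abs_of_nonneg (by linarith)]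
  have a1 := Real.add_one_le_exp (θ / 6 - θ' / 6)
  have a2 : Real.exp (θ / 6) = Real.exp (θ' / 6) * Real.exp (θ / 6 - θ' / 6) := by
    rw [← Real.exp_add]; congr 1; ring
  have a3 := lrt_exp_le_two h'.1 h'.2
  have a4 := Real.exp_pos (θ' / 6)
  have a5 : Real.exp (θ' / 6) * (θ / 6 - θ' / 6 + 1) ≤ Real.exp (θ / 6) := by
    rw [a2]; exact mul_le_mul_of_nonneg_left a1 a4.le
  nlinarith

/-- the masses of `Â` are at least `p_top` after `ξ_*` -/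
theorem lrt_hat_low {A0 P : ℝ → ℝ} {lam ξs pT om : ℝ} (hx : 0 ≤ ξs) (hp : pT ≤ 1) (ho : 0 < om) (r : ℝ) (hr : ξs ≤ r) :
    pT ≤ lrgHat A0 P lam ξs pT om r := by
  unfold lrgHat lkkBr
  rw [if_neg (not_lt.2 hr)]
  have a1 : 0 ≤ min 1 ((r - ξs) / om) := le_min zero_le_one (div_nonneg (by linarith) ho.le)
  have a2 : 0 ≤ (1 - pT) * min 1 ((r - ξs) / om) := mul_nonneg (by linarith) a1
  have a3 : 0 ≤ om * r := mul_nonneg ho.le (hx.trans hr)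
  linarith

/-- the scales of (P1) -/
theorem lrt_scales (c R ε : ℝ) (hc : 0 < c) (hε : 0 < ε) : ∃ N0 : ℕ, 2 ≤ N0 ∧ ∀ p : LlPt, N0 ≤ p.N →
    p.om * (p.M ^ 2 + 1) ≤ 1 ∧ R + 1 ≤ p.M ∧ (p.om * (p.M ^ 2 + 1)) ^ (3 / 4 : ℝ) + Real.exp (-c * (p.M - R)) ≤ ε := by
  obtain ⟨Cn, Nn, hCn, hNn, Hn⟩ := lsw_num_sm (1 / 2) (by norm_num) le_rfl c R hc
  obtain ⟨C3, N3, hC3, -, H3⟩ := lsw_omM
  obtain ⟨N4, -, H4⟩ := lsw_x_small (1 / (C3 + 1)) (by positivity)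
  obtain ⟨N5, -, H5⟩ := lsw_M_large (R + 1)
  obtain ⟨N6, -, H6⟩ := lsw_x_small (ε / (Cn + 1)) (by positivity)
  refine ⟨max (max Nn N3) (max N4 (max N5 N6)), hNn.trans ((le_max_left _ _).trans (le_max_left _ _)), fun p hN => ?_⟩
  have hNn' : Nn ≤ p.N := ((le_max_left _ _).trans (le_max_left _ _)).trans hN
  have hN3' : N3 ≤ p.N := ((le_max_right _ _).trans (le_max_left _ _)).trans hN
  have hN4' : N4 ≤ p.N := ((le_max_left _ _).trans (le_max_right _ _)).trans hN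
  have hN5' : N5 ≤ p.N := ((le_max_left _ _).trans ((le_max_right _ _).trans (le_max_right _ _))).trans hN
  have hN6' : N6 ≤ p.N := ((le_max_right _ _).trans ((le_max_right _ _).trans (le_max_right _ _))).trans hN
  have hN2 : 2 ≤ p.N := hNn.trans hNn'
  have hx : 0 < p.x := lkk_x_pos hN2
  have hxl : p.x < 1 := lkk_x_lt_one hN2
  have hom0 : 0 < p.om := lkk_om_pos hN2
  obtain ⟨h31, -, -⟩ := H3 p hN3'
  refine ⟨?_, H5 p hN5', ?_⟩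
  · have h1 : p.x ^ (5 + 1 / 8 : ℝ) ≤ p.x ^ (1 : ℝ) := lsw_x_rpow_le hx hxl.le (by norm_num)
    rw [Real.rpow_one] at h1
    have h2 : C3 * p.x ^ (5 + 1 / 8 : ℝ) ≤ C3 * (1 / (C3 + 1)) := mul_le_mul_of_nonneg_left (h1.trans (H4 p hN4').le) hC3
    have h3 : C3 * (1 / (C3 + 1)) ≤ 1 := by
      rw [mul_one_div, div_le_one (by positivity)]; linarith
    have e : p.om * (p.M ^ 2 + 1) = p.om * p.M ^ 2 + p.om := by ring
    linarith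
  · have h1 := Hn p hNn'
    have e1 : (1 - 1 / 2 / 2 : ℝ) = 3 / 4 := by norm_num
    have e2 : (1 - 1 / 2 : ℝ) = 1 / 2 := by norm_num
    rw [e1, e2] at h1
    refine h1.trans ?_
    have h2 : p.om ≤ p.x ^ 2 := by
      refine (lkk_om_le hN2).trans ?_
      have : p.x ^ 3 = p.x ^ 2 * p.x := by ring
      rw [this]
      exact mul_le_of_le_one_right (by positivity) hxl.le
    have h3 : p.om ^ (1 / 2 : ℝ) ≤ p.x := by
      calc p.om ^ (1 / 2 : ℝ) ≤ (p.x ^ 2) ^ (1 / 2 : ℝ) := Real.rpow_le_rpow hom0.le h2 (by norm_num)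
        _ = p.x := by rw [← Real.sqrt_eq_rpow, Real.sqrt_sq hx.le]
    have h4 := (H6 p hN6').le
    rw [le_div_iff₀ (by positivity)] at h4
    have h5 : Cn * p.om ^ (1 / 2 : ℝ) ≤ Cn * p.x := mul_le_mul_of_nonneg_left h3 hCn
    nlinarith

/-! ## 5. EXIT -/

/-- the ranges `v0`, `ξ0` may be shrunk: for the glue of `LlRefExit` -/
theorem LlPt.RegT.lrt_mono {p : LlPt} {F : LlFix} {𝔹 : LlBase} {c C v0 v0' ξ0 ξ0' : ℝ} {R0 : ℕ} {θ θ' : ℝ}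
    (h : p.RegT F 𝔹 c C v0 ξ0 R0 θ θ') (hv : v0' ≤ v0) (hξ : ξ0' ≤ ξ0) : p.RegT F 𝔹 c C v0' ξ0' R0 θ θ' :=
  ⟨h.b0, fun ξ hx => h.gap0 ξ ⟨hx.1, hx.2.trans hξ⟩, h.jet, h.gamN, fun v h0 h1 => h.K0 v h0 (h1.trans hv),
    fun v h0 h1 => h.q0 v h0 (h1.trans hv), h.Kpt, h.qpt, h.l1⟩

theorem LlRegT.lrt_mono {𝔹 : LlBase} {F : LlFix} {c C v0 v0' ξ0 ξ0' : ℝ} {R0 : ℕ} (h : LlRegT 𝔹 F c C v0 ξ0 R0)
    (hv : v0' ≤ v0) (hξ : ξ0' ≤ ξ0) : LlRegT 𝔹 F c C v0' ξ0' R0 := by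
  obtain ⟨N0, hN0⟩ := h
  exact ⟨N0, fun p hp hN hsm θ hθ θ' hθ' => (hN0 p hp hN hsm θ hθ θ' hθ').lrt_mono hv hξ⟩

/-- **EXIT: Lemma paths:parameter-regularity, smoothed reference, Lipschitz form.**   TEX[LL:paths:parameter-regularity]
ORDER OF THE CONSTANTS: `zb` (depends on `𝔹, S, T`) → `z0` → `v0, ξ0` → the remaining data `F` → `R0` → `c', C'` → `N0` (inside `LlRegT`). -/
theorem lrt_main {𝔹 : LlBase} {S : LppMod} {T : ℝ} (hL : LppLink 𝔹 S) (hS : LppOk S) (hS2 : LppOk2 S)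
    (hb : LlBaseProfile 𝔹 T) (hbase : LppBase S T (𝔹.A0 T) (𝔹.xiS T)) :
    ∃ zb : ℝ, 0 < zb ∧ ∀ z0, 0 < z0 → z0 ≤ zb → ∃ v0 ξ0 : ℝ, 0 < v0 ∧ v0 ≤ 1 / 2 ∧ 0 < ξ0 ∧
      ∀ F : LlFix, F.Ok → F.T = T → F.z0 = z0 → ∀ R0 : ℕ, ∃ c' C' : ℝ, 0 < c' ∧ LlRegT 𝔹 F c' C' v0 ξ0 R0 := by
  obtain ⟨ca, Ca, ξ1, hk⟩ := lkk_base 𝔹 T hb
  obtain ⟨z1, hz1, -, hz1s, hlift⟩ := lpp_lift_dir hS hbase
  obtain ⟨B, hB⟩ := lpp_B_exists hS ξ1
  obtain ⟨CA, hCA⟩ := hbase.lin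
  obtain ⟨CU, hCU⟩ := hS2.jU 1 le_rfl
  obtain ⟨Cd, hCd⟩ := hS2.duh
  have ht : LppTop (𝔹.A0 T) (𝔹.xiS T) (𝔹.pTop T) :=
    ⟨hb.pTop_mem.1, hb.pTop_mem.2, fun ξ hξ => (hb.lt_top ξ hξ.2).le⟩
  obtain ⟨C5, c5, hC5, hc5, H5⟩ := lpp_sm_M2 hS hbase ht (𝔹.xiS T) le_rfl (3 / 4) (by norm_num) (by norm_num)
  have hT0 : 0 < T := by linarith [hbase.T1]
  have hxs : 0 < 𝔹.xiS T := hbase.xs
  have hca := hk.ca0
  have hx1 := hk.x10
  refine ⟨min z1 ξ1, lt_min hz1 hx1, fun z0 hz0 hzb => ?_⟩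
  obtain ⟨c, CL, hc, hl⟩ := hlift z0 hz0 (hzb.trans (min_le_left _ _))
  refine ⟨lkkV0 ca ξ1, ξ1, lt_min (by norm_num) (by positivity), min_le_left _ _, hx1, fun F hFok hFT hFz R0 => ?_⟩
  subst hFT
  subst hFz
  obtain ⟨C1, c1, hC1, hc1, HJ⟩ := lrg_jE_unif hS2 (𝔹.pTop F.T) ht.pos (max 4 R0)
  obtain ⟨LP, hP⟩ := lkk_cut F hFok
  obtain ⟨l0, hl0, hlift2⟩ := hl F.P hFok.lppCut
  have hLP := hP.LP0
  have hε : 0 < min (min l0 1) (min (1 / (2 * F.T * (|CL| + 1))) (ca / 2 / (LP + 1))) := by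
    refine lt_min (lt_min hl0 one_pos) (lt_min ?_ ?_)
    · have := abs_nonneg CL; positivity
    · positivity
  obtain ⟨N1, hN1⟩ := lkk_lam_small hFok hε
  obtain ⟨N2, -, hN2⟩ := lrt_scales c5 (𝔹.xiS F.T) (1 / (4 * F.T * (C5 + 1))) hc5 (by positivity)
  refine ⟨c1, lrtC B |CA| |CU| |Cd| ca ξ1 (1 / (4 * F.T)) (4 * C1 * Real.exp (c1 * 𝔹.xiS F.T)), hc1, max N1 N2,
    fun p hp hN hsm θ hθ θ' hθ' => ?_⟩
  have hlam := lkk_lam_pos hp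
  have hle := hN1 p hp ((le_max_left _ _).trans hN)
  obtain ⟨s1, s2, s3⟩ := hN2 p ((le_max_right _ _).trans hN)
  have b1 : p.lam ≤ l0 := hle.trans ((min_le_left _ _).trans (min_le_left _ _))
  have b2 : p.lam ≤ 1 := hle.trans ((min_le_left _ _).trans (min_le_right _ _))
  have b3 : p.lam ≤ 1 / (2 * F.T * (|CL| + 1)) := hle.trans ((min_le_right _ _).trans (min_le_left _ _))
  have b4 : p.lam ≤ ca / 2 / (LP + 1) := hle.trans ((min_le_right _ _).trans (min_le_right _ _))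
  have Lf := hlift2 p.lam hlam b1
  have hD : LppAdm (fun ξ => 𝔹.A0 F.T ξ + p.lam * F.P ξ) 1 := Lf.adm
  have hCL0 := abs_nonneg CL
  have hlLP : p.lam * LP ≤ ca / 2 := by
    rw [le_div_iff₀ (by linarith)] at b4
    nlinarith
  have hmd : 1 / (2 * F.T) ≤ S.M2 (fun ξ => 𝔹.A0 F.T ξ + p.lam * F.P ξ) 1 0 := by
    have b5 : |CL| * p.lam ≤ 1 / (2 * F.T) := by
      rw [le_div_iff₀ (by positivity)] at b3 ⊢
      nlinarith
    have b6 : CL * p.lam ≤ |CL| * p.lam := mul_le_mul_of_nonneg_right (le_abs_self _) hlam.le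
    have := (abs_le.1 Lf.m0).1
    have e : 1 / F.T = 1 / (2 * F.T) + 1 / (2 * F.T) := by field_simp; norm_num
    linarith
  have ho := lkk_om_pos hp.N2
  have ho1 := lkk_om_le_one hp.N2
  have hz1' : F.z0 ≤ ξ1 := hzb.trans (min_le_right _ _)
  have hzs : F.z0 < 𝔹.xiS F.T := hz1'.trans_lt hk.x1s
  have hM : 𝔹.xiS F.T < p.M := by linarith
  have hM1 : 1 ≤ p.M := by linarith
  -- everything that is used of one size
  have one : ∀ θ ∈ Icc 0 (Real.log 2), 1 ≤ Real.exp (θ / 6) ∧ 1 + p.om * p.M ≤ 4 / Real.exp (θ / 6) ∧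
      LppAdm (lkkSm (𝔹.A0 F.T) F.P p.lam (𝔹.xiS F.T) (𝔹.pTop F.T) p.om p.M (4 / Real.exp (θ / 6))) (4 / Real.exp (θ / 6)) ∧
      1 / (4 * F.T) ≤ S.M2 (lkkSm (𝔹.A0 F.T) F.P p.lam (𝔹.xiS F.T) (𝔹.pTop F.T) p.om p.M (4 / Real.exp (θ / 6)))
        (4 / Real.exp (θ / 6)) 0 := by
    intro θ hθ
    have e1 := lrt_exp_one_le hθ.1
    have e2 := lrt_exp_le_two hθ.1 hθ.2
    have e0 := Real.exp_pos (θ / 6)
    have hj1 : 1 + p.om * p.M ≤ 4 / Real.exp (θ / 6) := by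
      have h2 : 2 ≤ 4 / Real.exp (θ / 6) := by rw [le_div_iff₀ e0]; linarith
      have := lkk_omM hp.N2
      linarith
    have hj4 : 4 / Real.exp (θ / 6) ≤ 4 := div_le_self (by norm_num) e1
    have hAs := lpp_sm_adm hbase ht hFok.z00 hzs hFok.lppCut hlam.le hD ho ho1 s2 hj1 hj4
    have h5 := H5 F.z0 F.P hFok.z00 hzs hFok.lppCut p.lam p.om p.M (4 / Real.exp (θ / 6)) hlam.le hD ho s1 s2 hj1 hj4
      0 ⟨le_rfl, hxs.le⟩
    refine ⟨e1, hj1, hAs, ?_⟩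
    rw [lrg_sm_lpp]
    have h6 : C5 * ((p.om * (p.M ^ 2 + 1)) ^ (3 / 4 : ℝ) + Real.exp (-c5 * (p.M - 𝔹.xiS F.T))) ≤ 1 / (4 * F.T) := by
      refine (mul_le_mul_of_nonneg_left s3 hC5).trans ?_
      rw [mul_one_div, div_le_div_iff₀ (by positivity) (by positivity)]
      nlinarith
    have h7 := (abs_le.1 (h5.trans h6)).1
    have e : 1 / (2 * F.T) = 1 / (4 * F.T) + 1 / (4 * F.T) := by field_simp; norm_num
    linarith
  obtain ⟨u1, u2, u3, u4⟩ := one θ hθ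
  obtain ⟨u1', u2', u3', u4'⟩ := one θ' hθ'
  obtain ⟨δ, hδd⟩ : ∃ δ, δ = C1 * Real.exp (-c1 * (p.M - 𝔹.xiS F.T)) * |4 / Real.exp (θ' / 6) - 4 / Real.exp (θ / 6)| := ⟨_, rfl⟩
  have hδ0 : 0 ≤ δ := by rw [hδd]; positivity
  have hJ : ∀ k : ℕ, 1 ≤ k → k ≤ max 4 R0 → ∀ ξ ∈ Icc 0 (𝔹.xiS F.T), ∀ z,
      |S.vk k (lkkSm (𝔹.A0 F.T) F.P p.lam (𝔹.xiS F.T) (𝔹.pTop F.T) p.om p.M (4 / Real.exp (θ' / 6))) (4 / Real.exp (θ' / 6)) ξ z
        - S.vk k (lkkSm (𝔹.A0 F.T) F.P p.lam (𝔹.xiS F.T) (𝔹.pTop F.T) p.om p.M (4 / Real.exp (θ / 6))) (4 / Real.exp (θ / 6)) ξ z|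
        ≤ δ := by
    intro k h1 hk2 ξ hξ z
    have hA := u3
    have hA' := u3'
    rw [lrg_sm_cap] at hA hA'
    rw [lrg_sm_cap, lrg_sm_cap, hδd]
    exact HJ k h1 hk2 _ p.M _ _ (𝔹.xiS F.T) hxs.le hM.le hA hA'
      (fun r hr => lrt_hat_low hxs.le ht.lt.le ho r hr.1) ξ hξ z
  have hCA' : ∀ ξ ∈ Icc 0 (𝔹.xiS F.T), 𝔹.A0 F.T ξ ≤ |CA| * ξ := fun ξ hξ =>
    (hCA ξ hξ).trans (mul_le_mul_of_nonneg_right (le_abs_self _) hξ.1)
  have h : LrgTH S F.T (𝔹.xiS F.T) (𝔹.pTop F.T) ca Ca ξ1 F.z0 LP p.lam p.om p.M B |CA| |CU| |Cd| (𝔹.A0 F.T) F.P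
      (Real.exp (θ / 6)) (Real.exp (θ' / 6)) δ (1 / (4 * F.T)) :=
    { hS := hS, hb := hbase, hk := hk, hPk := hP, hz := hz1', hl0 := hlam.le, hl := hlLP, hl1 := b2, ho := ho, ho1 := ho1,
      hM := hM, hB := hB, hCA0 := abs_nonneg _, hCA := hCA', hCU0 := abs_nonneg _, hCU := hCU.abs, hCd0 := abs_nonneg _,
      hCd := hCd.abs, h1 := u1, h1' := u1', hJ := u2, hJ' := u2', hA := u3, hA' := u3', hδ0 := hδ0,
      hδ := fun k h2 h4 ξ hξ z => hJ k (by omega) (h4.trans (le_max_left _ _)) ξ ⟨hξ.1, hξ.2.trans hk.x1s.le⟩ z,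
      hm := by positivity, hm0 := u4, hm0' := u4' }
  have hell := lrt_exp_lip hθ hθ'
  refine lrt_point hL hsm h (fun r h1 hr => hJ r h1 (hr.trans (le_max_right _ _)) 0 ⟨le_rfl, hxs.le⟩ 0) (by positivity) hc1.le
    ?_ hell hM1
  have a1 := (lrg_T_dj h).trans (mul_le_mul_of_nonneg_left hell (by norm_num : (0 : ℝ) ≤ 4))
  have e : Real.exp (-c1 * (p.M - 𝔹.xiS F.T)) = Real.exp (c1 * 𝔹.xiS F.T) * Real.exp (-c1 * p.M) := by
    rw [← Real.exp_add]; congr 1; ring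
  rw [hδd, e]
  have a2 := mul_le_mul_of_nonneg_left a1 (by positivity : 0 ≤ C1 * (Real.exp (c1 * 𝔹.xiS F.T) * Real.exp (-c1 * p.M)))
  refine a2.trans (le_of_eq ?_)
  ring

theorem lrt_eqns_cite : True := by
  have := @lrtCg.eq_1
  have := @lrtA.eq_1
  have := @lrtC.eq_1
  trivial

end Claimed.Agent.R286
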