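import Mathlib

/-!
# Row 286 (S0533), LL Section 3, block CLK (head helper253), file A: ABSTRACT CLOCKS `b`, `h_* = K - b q`: monotonicity, (P4), (P5)      (owner helper253; prefix `lck_`, `Lck`)

LL 03-paths.tex l.356-392.   Vocabulary-free: an abstract scalar reference (`K`, `Gam`, `gp = Γ'`, `b0 = b_∘`) with the lift (P2), abstract cut-offs `G`, `Dy`.
* `Lck`       the data;   `Lck.b`, `Lck.q`, `Lck.hS`, `Lck.gap`
* `LckC`      the constants of the reference (`c ≤ 1 ≤ C`, regular range `v0`, `vb`, `CG`, `CD`)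
* `Lck.Ok`    hypotheses on the reference and the cut-offs;   `Lck.Small` smallness of `c1`, `cb` (ORDER: `LckC` first, then `c1`, then `cb`)
* EXITS (ALL PROVED): `lck_b_incr`, `lck_b_range`, `lck_b_bd`, `lck_P4`, `lck_hS_mono`, `lck_hS_nonneg`, `lck_hS_small`, `lck_int_weak`, `lck_int_strong`, `lck_P5`.   TEX[LL:paths:parameter-regularity] (running text (P3)-(P5) after it)
-/

set_option autoImplicit false

namespace Claimed.Agent.R286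

open MeasureTheory Set

/-- abstract data of the clock construction -/
structure Lck where
  a : ℝ
  lam : ℝ
  U : ℝ
  b0 : ℝ
  cb : ℝ
  c1 : ℝ
  g0 : ℝ
  K : ℝ → ℝ
  Gam : ℝ → ℝ
  gp : ℝ → ℝ
  G : ℝ → ℝ
  Dy : ℝ → ℝ

/-- the constants of the reference -/
structure LckC where
  c : ℝ
  C : ℝ
  v0 : ℝ
  vb : ℝ
  CG : ℝ
  CD : ℝ

namespace Lck

variable (D : Lck)

/-- `q(v) = Γ(K(v))` -/
def q (v : ℝ) : ℝ := D.Gam (D.K v)

/-- (P3) -/
def b (v : ℝ) : ℝ := D.b0 + D.cb * D.lam * (D.G v - D.U ^ 2 - D.c1 * D.g0 * (D.G v + D.U ^ 2) - D.c1 * D.Dy v)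

/-- `h_* = K - b q` -/
def hS (v : ℝ) : ℝ := D.K v - D.b v * D.q v

/-- the scalar gap `1 - b_∘ Γ'(t)` -/
def gap (t : ℝ) : ℝ := 1 - D.b0 * D.gp t

/-- hypotheses on the reference and on the cut-offs -/
structure Ok (κ : LckC) : Prop where
  c0 : 0 < κ.c
  c1 : κ.c ≤ 1
  C1 : 1 ≤ κ.C
  v00 : 0 < κ.v0
  v01 : κ.v0 ≤ 1 / 2
  vb0 : 0 < κ.vb
  vb1 : 2 * κ.vb ≤ κ.v0
  CG1 : 1 ≤ κ.CG
  CD0 : 0 ≤ κ.CD
  a1 : 1 ≤ D.a
  a4 : D.a ≤ 4
  lam0 : 0 < D.lam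
  lam1 : D.lam ≤ 1
  U0 : 0 < D.U
  U1 : D.U ≤ 1
  b0_lo : κ.c ≤ D.b0
  b0_hi : D.b0 ≤ κ.C
  g0 : D.g0 ∈ Icc (-4 : ℝ) 4
  gp_cont : ContinuousOn D.gp (Ici 0)
  gp_nn : ∀ t, 0 ≤ t → 0 ≤ D.gp t
  gam_zero : D.Gam 0 = 0
  gam_ftc : ∀ t t', 0 ≤ t → t ≤ t' → D.Gam t' - D.Gam t = ∫ s in t..t', D.gp s
  gap_lo : ∀ t, 0 ≤ t → κ.c * D.lam * min (t ^ 2) 1 ≤ D.gap t
  gap_hi : ∀ t, 0 ≤ t → t ≤ D.K κ.v0 → D.gap t ≤ κ.C * D.lam * t ^ 2
  K_mono : MonotoneOn D.K (Ioo 0 D.a)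
  K_lo : ∀ v v', 0 < v → v ≤ v' → v' ≤ κ.v0 → κ.c * (v' - v) ≤ D.K v' - D.K v
  K_lo0 : ∀ v, 0 < v → v ≤ κ.v0 → κ.c * v ≤ D.K v
  K_hi0 : ∀ v, 0 < v → v ≤ κ.v0 → D.K v ≤ κ.C * v
  q_hi : ∀ v ∈ Ioo 0 D.a, D.q v ≤ κ.C * v
  G_mono : Monotone D.G
  G_zero : D.G 0 = 0
  G_const : ∀ v, 2 * κ.vb ≤ v → D.G v = D.G (2 * κ.vb)
  G_le : ∀ v, 0 ≤ v → D.G v ≤ κ.CG * v ^ 2
  G_incr : ∀ v v', 0 ≤ v → v ≤ v' → D.G v' - D.G v ≤ κ.CG * v' * (v' - v)
  Dy_zero : D.Dy 0 = 0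
  Dy_incr : ∀ v v', 0 ≤ v → v ≤ v' → |D.Dy v' - D.Dy v| ≤ κ.CD * (D.G v' - D.G v)

/-- `k = c v0 / 4`: `K v ≥ k v` on the whole interval -/
noncomputable def _root_.Claimed.Agent.R286.LckC.k (κ : LckC) : ℝ := κ.c * κ.v0 / 4

/-- `α = min (c k^2 / 8) (1/68)` : the `v^2` margin (already with the halved time of (P5)) -/
noncomputable def _root_.Claimed.Agent.R286.LckC.al (κ : LckC) : ℝ := min (κ.c * κ.k ^ 2 / 8) (1 / 68)

/-- smallness of `c1` (after `κ`) and of `cb` (after `κ`) -/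
structure Small (κ : LckC) : Prop where
  c10 : 0 < D.c1
  c1s : D.c1 * (4 + κ.CD) ≤ 1 / 2
  cb0 : 0 < D.cb
  cbs : 48 * D.cb * κ.CG * κ.C ≤ κ.c * κ.al

/-- `β = min (cb / (4 C)) (1/68)` : the `U^2` margin -/
noncomputable def be (κ : LckC) : ℝ := min (D.cb / (4 * κ.C)) (1 / 68)

end Lck

variable {D : Lck} {κ : LckC}

/-! ## proofs (all closed) -/

theorem lck_G_nn (h : D.Ok κ) (v : ℝ) (hv : 0 ≤ v) : 0 ≤ D.G v := by
  have := h.G_mono hv; rwa [h.G_zero] at this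

/-- increments of `b` -/
theorem lck_b_incr (h : D.Ok κ) (hs : D.Small κ) (v v' : ℝ) (hv : 0 ≤ v) (hvv : v ≤ v') :
    D.cb * D.lam / 2 * (D.G v' - D.G v) ≤ D.b v' - D.b v ∧ D.b v' - D.b v ≤ 3 / 2 * (D.cb * D.lam) * (D.G v' - D.G v) := by
  have hG : 0 ≤ D.G v' - D.G v := sub_nonneg.2 (h.G_mono hvv)
  have hDy := abs_le.1 (h.Dy_incr v v' hv hvv)
  obtain ⟨hg1, hg2⟩ := h.g0
  have hcl : 0 < D.cb * D.lam := mul_pos hs.cb0 h.lam0
  have e : D.b v' - D.b v = D.cb * D.lam * ((D.G v' - D.G v) - D.c1 * D.g0 * (D.G v' - D.G v) - D.c1 * (D.Dy v' - D.Dy v)) := by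
    simp only [Lck.b]; ring
  generalize D.G v' - D.G v = dG at *
  generalize D.Dy v' - D.Dy v = dD at *
  have hc1 := hs.c10
  have hcd : 0 ≤ D.c1 * dG := mul_nonneg hc1.le hG
  have a1 : D.c1 * D.g0 * dG ≤ 4 * (D.c1 * dG) := by nlinarith
  have a2 : -(4 * (D.c1 * dG)) ≤ D.c1 * D.g0 * dG := by nlinarith
  have a3 : D.c1 * dD ≤ κ.CD * (D.c1 * dG) := by nlinarith [hDy.2]
  have a4 : -(κ.CD * (D.c1 * dG)) ≤ D.c1 * dD := by nlinarith [hDy.1]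
  have a5 : (4 + κ.CD) * (D.c1 * dG) ≤ dG / 2 := by nlinarith [hs.c1s]
  rw [e]
  constructor
  · have : dG / 2 ≤ dG - D.c1 * D.g0 * dG - D.c1 * dD := by linarith
    nlinarith
  · have : dG - D.c1 * D.g0 * dG - D.c1 * dD ≤ 3 / 2 * dG := by linarith
    nlinarith

theorem lck_k_pos (h : D.Ok κ) : 0 < κ.k := by
  have := mul_pos h.c0 h.v00
  simp only [LckC.k]; linarith

theorem lck_k_le (h : D.Ok κ) : κ.k ≤ 1 / 8 := by
  have : κ.c * κ.v0 ≤ 1 * (1 / 2) := mul_le_mul h.c1 h.v01 h.v00.le zero_le_one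
  simp only [LckC.k]; linarith

theorem lck_al_pos (h : D.Ok κ) : 0 < κ.al := by
  have hk := lck_k_pos h
  have := mul_pos h.c0 (pow_pos hk 2)
  simp only [LckC.al]
  exact lt_min (by linarith) (by norm_num)

theorem lck_al_le (κ : LckC) : κ.al ≤ 1 / 68 := min_le_right _ _

theorem lck_al_le' (κ : LckC) : κ.al ≤ κ.c * κ.k ^ 2 / 8 := min_le_left _ _

theorem lck_be_pos (h : D.Ok κ) (hs : D.Small κ) : 0 < D.be κ := by
  have hC : 0 < κ.C := lt_of_lt_of_le one_pos h.C1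
  simp only [Lck.be]
  exact lt_min (div_pos hs.cb0 (by linarith)) (by norm_num)

theorem lck_be_le (D : Lck) (κ : LckC) : D.be κ ≤ 1 / 68 := min_le_right _ _

theorem lck_be_le' (D : Lck) (κ : LckC) : D.be κ ≤ D.cb / (4 * κ.C) := min_le_left _ _

/-- `cb CG ≤ c α / 48` -/
theorem lck_cbCG (h : D.Ok κ) (hs : D.Small κ) : 48 * (D.cb * κ.CG) ≤ κ.c * κ.al := by
  have h1 : 0 ≤ D.cb * κ.CG := mul_nonneg hs.cb0.le (by linarith [h.CG1])
  have := hs.cbs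
  nlinarith [h.C1]

theorem lck_cb (h : D.Ok κ) (hs : D.Small κ) : 48 * D.cb ≤ κ.c * κ.al := by
  have := lck_cbCG h hs
  nlinarith [h.CG1, hs.cb0]

theorem lck_cb_le (h : D.Ok κ) (hs : D.Small κ) : D.cb ≤ κ.c / 3264 := by
  have := lck_cb h hs
  have := lck_al_le κ
  nlinarith [h.c0]

/-- `(3/2) cb CG / c ≤ α / 32` -/
theorem lck_loss (h : D.Ok κ) (hs : D.Small κ) : 3 / 2 * (D.cb * κ.CG / κ.c) ≤ κ.al / 32 := by
  have := lck_cbCG h hs
  have hc := h.c0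
  have : D.cb * κ.CG / κ.c ≤ κ.al / 48 := by
    rw [div_le_iff₀ hc]; linarith
  linarith

theorem lck_lamU (h : D.Ok κ) : 0 ≤ D.lam * D.U ^ 2 ∧ D.lam * D.U ^ 2 ≤ 1 := by
  have h1 : D.U ^ 2 ≤ 1 := pow_le_one₀ h.U0.le h.U1
  have h0 : 0 ≤ D.U ^ 2 := sq_nonneg _
  exact ⟨mul_nonneg h.lam0.le h0, by nlinarith [h.lam0, h.lam1]⟩

/-- range of `b - b_∘` -/
theorem lck_b_range (h : D.Ok κ) (hs : D.Small κ) (v : ℝ) (hv : 0 ≤ v) :
    D.cb * D.lam * (D.G v / 2 - 3 / 2 * D.U ^ 2) ≤ D.b v - D.b0 ∧ D.b v - D.b0 ≤ D.cb * D.lam * (3 / 2 * D.G v - D.U ^ 2 / 2) := by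
  have hG : 0 ≤ D.G v := lck_G_nn h v hv
  have hDy := h.Dy_incr 0 v le_rfl hv
  rw [h.Dy_zero, h.G_zero, sub_zero, sub_zero] at hDy
  have hDy := abs_le.1 hDy
  obtain ⟨hg1, hg2⟩ := h.g0
  have hcl : 0 < D.cb * D.lam := mul_pos hs.cb0 h.lam0
  have e : D.b v - D.b0 = D.cb * D.lam * (D.G v - D.U ^ 2 - D.c1 * D.g0 * (D.G v + D.U ^ 2) - D.c1 * D.Dy v) := by
    simp only [Lck.b]; ring
  have hU : 0 ≤ D.U ^ 2 := sq_nonneg _
  generalize D.G v = dG at *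
  generalize D.Dy v = dD at *
  generalize D.U ^ 2 = U2 at *
  have hc1 := hs.c10
  have hcd : 0 ≤ D.c1 * dG := mul_nonneg hc1.le hG
  have hcu : 0 ≤ D.c1 * U2 := mul_nonneg hc1.le hU
  have a1 : D.c1 * D.g0 * (dG + U2) ≤ 4 * (D.c1 * dG + D.c1 * U2) := by nlinarith
  have a2 : -(4 * (D.c1 * dG + D.c1 * U2)) ≤ D.c1 * D.g0 * (dG + U2) := by nlinarith
  have a3 : D.c1 * dD ≤ κ.CD * (D.c1 * dG) := by nlinarith [hDy.2]
  have a4 : -(κ.CD * (D.c1 * dG)) ≤ D.c1 * dD := by nlinarith [hDy.1]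
  have a5 : (4 + κ.CD) * (D.c1 * dG) ≤ dG / 2 := by nlinarith [hs.c1s]
  have a6 : 4 * (D.c1 * U2) ≤ U2 / 2 := by nlinarith [hs.c1s, h.CD0, mul_nonneg h.CD0 hcu]
  rw [e]
  constructor
  · have : dG / 2 - 3 / 2 * U2 ≤ dG - U2 - D.c1 * D.g0 * (dG + U2) - D.c1 * dD := by linarith
    nlinarith
  · have : dG - U2 - D.c1 * D.g0 * (dG + U2) - D.c1 * dD ≤ 3 / 2 * dG - U2 / 2 := by linarith
    nlinarith

theorem lck_b_bd (h : D.Ok κ) (hs : D.Small κ) (v : ℝ) (hv : 0 ≤ v) (hv4 : v ≤ 4) : κ.c / 2 ≤ D.b v ∧ D.b v ≤ 2 * κ.C := by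
  obtain ⟨r1, r2⟩ := lck_b_range h hs v hv
  have hG : 0 ≤ D.G v := lck_G_nn h v hv
  have hG2 : D.G v ≤ κ.CG * 16 := by
    have := h.G_le v hv
    have h16 : v ^ 2 ≤ 16 := by nlinarith
    nlinarith [h.CG1]
  obtain ⟨u0, u1⟩ := lck_lamU h
  have hcb := lck_cb_le h hs
  have hcbCG := lck_cbCG h hs
  have hal := lck_al_le κ
  have hcl : 0 < D.cb * D.lam := mul_pos hs.cb0 h.lam0
  constructor
  · have : -(3 / 2 * D.cb) ≤ D.cb * D.lam * (D.G v / 2 - 3 / 2 * D.U ^ 2) := by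
      have e : D.cb * D.lam * (D.G v / 2 - 3 / 2 * D.U ^ 2) = D.cb * D.lam * D.G v / 2 - 3 / 2 * D.cb * (D.lam * D.U ^ 2) := by ring
      rw [e]
      have : 0 ≤ D.cb * D.lam * D.G v := mul_nonneg hcl.le hG
      nlinarith [hs.cb0]
    linarith [h.b0_lo, h.c0]
  · have : D.cb * D.lam * (3 / 2 * D.G v - D.U ^ 2 / 2) ≤ 24 * (D.cb * κ.CG) := by
      have e : D.cb * D.lam * (3 / 2 * D.G v - D.U ^ 2 / 2) = 3 / 2 * (D.cb * D.lam * D.G v) - D.cb * (D.lam * D.U ^ 2) / 2 := by ring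
      rw [e]
      have h1 : D.cb * D.lam * D.G v ≤ D.cb * 1 * (κ.CG * 16) :=
        mul_le_mul (mul_le_mul_of_nonneg_left h.lam1 hs.cb0.le) hG2 hG (by linarith [hs.cb0])
      have h2 : 0 ≤ D.cb * (D.lam * D.U ^ 2) := mul_nonneg hs.cb0.le u0
      linarith
    have h3 : κ.c * κ.al ≤ 1 := by nlinarith [h.c0, h.c1, lck_al_pos h]
    linarith [h.b0_hi, h.C1]

theorem lck_v0_mem (h : D.Ok κ) : κ.v0 ∈ Ioo 0 D.a := ⟨h.v00, by linarith [h.v01, h.a1]⟩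

theorem lck_K_ge (h : D.Ok κ) (v : ℝ) (hv : v ∈ Ioo 0 D.a) : κ.k * v ≤ D.K v := by
  have hc := h.c0
  have hv0 := h.v00
  rcases le_total v κ.v0 with hle | hle
  · have := h.K_lo0 v hv.1 hle
    have hk : κ.k ≤ κ.c := by
      simp only [LckC.k]; nlinarith [h.v01]
    nlinarith [hv.1]
  · have h1 := h.K_mono (lck_v0_mem h) hv hle
    have h2 := h.K_lo0 κ.v0 hv0 le_rfl
    have h3 : v ≤ 4 := by linarith [hv.2, h.a4]
    have : κ.k * v ≤ κ.c * κ.v0 := by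
      simp only [LckC.k]; nlinarith [mul_pos hc hv0]
    linarith

theorem lck_K_nn (h : D.Ok κ) (v : ℝ) (hv : v ∈ Ioo 0 D.a) : 0 ≤ D.K v :=
  le_trans (mul_nonneg (lck_k_pos h).le hv.1.le) (lck_K_ge h v hv)

theorem lck_gap_nn (h : D.Ok κ) (t : ℝ) (ht : 0 ≤ t) : 0 ≤ D.gap t :=
  le_trans (mul_nonneg (mul_nonneg h.c0.le h.lam0.le) (le_min (sq_nonneg _) zero_le_one)) (h.gap_lo t ht)

theorem lck_gp_le (h : D.Ok κ) (t : ℝ) (ht : 0 ≤ t) : D.b0 * D.gp t ≤ 1 := by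
  have := lck_gap_nn h t ht
  simp only [Lck.gap] at this; linarith

theorem lck_gp_le' (h : D.Ok κ) (t : ℝ) (ht : 0 ≤ t) : D.gp t ≤ 1 / κ.c := by
  have h1 := lck_gp_le h t ht
  have h2 := h.gp_nn t ht
  rw [le_div_iff₀ h.c0]
  nlinarith [h.b0_lo]

/-- the basic splitting: `1 - b(v) Γ'(t) ≥ gap(t) + (cb λ U^2 / 2) Γ'(t) - (3/2)(cb CG / c) λ v^2` -/
theorem lck_int_core (h : D.Ok κ) (hs : D.Small κ) (v : ℝ) (hv : 0 ≤ v) (t : ℝ) (ht : 0 ≤ t) :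
    D.gap t + D.cb * D.lam * D.U ^ 2 / 2 * D.gp t - 3 / 2 * (D.cb * κ.CG / κ.c) * D.lam * v ^ 2 ≤ 1 - D.b v * D.gp t := by
  obtain ⟨-, r2⟩ := lck_b_range h hs v hv
  have hP := h.gp_nn t ht
  have hP' := lck_gp_le' h t ht
  have hG := lck_G_nn h v hv
  have hG2 := h.G_le v hv
  have hcl : 0 < D.cb * D.lam := mul_pos hs.cb0 h.lam0
  have e : 1 - D.b v * D.gp t = D.gap t - (D.b v - D.b0) * D.gp t := by simp only [Lck.gap]; ring
  have h1 : (D.b v - D.b0) * D.gp t ≤ D.cb * D.lam * (3 / 2 * D.G v - D.U ^ 2 / 2) * D.gp t :=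
    mul_le_mul_of_nonneg_right r2 hP
  have h2 : D.G v * D.gp t ≤ (κ.CG * v ^ 2) * (1 / κ.c) := mul_le_mul hG2 hP' hP (le_trans hG hG2)
  have h3 : D.cb * D.lam * (D.G v * D.gp t) ≤ D.cb * D.lam * ((κ.CG * v ^ 2) * (1 / κ.c)) :=
    mul_le_mul_of_nonneg_left h2 hcl.le
  have e2 : D.cb * D.lam * (3 / 2 * D.G v - D.U ^ 2 / 2) * D.gp t = 3 / 2 * (D.cb * D.lam * (D.G v * D.gp t)) - D.cb * D.lam * D.U ^ 2 / 2 * D.gp t := by ring
  have e3 : 3 / 2 * (D.cb * κ.CG / κ.c) * D.lam * v ^ 2 = 3 / 2 * (D.cb * D.lam * ((κ.CG * v ^ 2) * (1 / κ.c))) := by ring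
  rw [e, e3]; linarith

/-- the `U^2` gain: either `Γ'(t)` is large, or the gap is `≥ 1/2` -/
theorem lck_int_alt (h : D.Ok κ) (hs : D.Small κ) (t : ℝ) (ht : 0 ≤ t) :
    (D.be κ * D.lam * D.U ^ 2 ≤ D.cb * D.lam * D.U ^ 2 / 2 * D.gp t) ∨ (1 / 2 ≤ D.gap t) := by
  rcases le_total (1 / 2) (D.b0 * D.gp t) with hc | hc
  · left
    have hC : 0 < κ.C := lt_of_lt_of_le one_pos h.C1
    have hP := h.gp_nn t ht
    have h1 : 1 / (2 * κ.C) ≤ D.gp t := by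
      rw [div_le_iff₀ (by linarith)]
      nlinarith [h.b0_hi]
    obtain ⟨u0, -⟩ := lck_lamU h
    have h2 : D.be κ ≤ D.cb / 2 * D.gp t := by
      refine le_trans (lck_be_le' D κ) ?_
      have : D.cb / (4 * κ.C) = D.cb / 2 * (1 / (2 * κ.C)) := by field_simp; ring
      rw [this]
      exact mul_le_mul_of_nonneg_left h1 (by linarith [hs.cb0])
    have := mul_le_mul_of_nonneg_right h2 u0
    nlinarith
  · right
    simp only [Lck.gap]; linarith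

theorem lck_int_weak (h : D.Ok κ) (hs : D.Small κ) (v : ℝ) (hv : v ∈ Ioo 0 D.a) (t : ℝ) (ht : 0 ≤ t) :
    D.be κ * D.lam * D.U ^ 2 - 3 / 2 * (D.cb * κ.CG / κ.c) * D.lam * v ^ 2 ≤ 1 - D.b v * D.gp t := by
  have hcore := lck_int_core h hs v hv.1.le t ht
  obtain ⟨u0, u1⟩ := lck_lamU h
  rcases lck_int_alt h hs t ht with ha | ha
  · have := lck_gap_nn h t ht
    linarith
  · have h1 : 0 ≤ D.cb * D.lam * D.U ^ 2 / 2 * D.gp t := by
      have := mul_nonneg (mul_nonneg hs.cb0.le u0) (h.gp_nn t ht)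
      nlinarith
    have h2 : D.be κ * D.lam * D.U ^ 2 ≤ 1 / 2 := by
      have := lck_be_le D κ
      have := lck_be_pos h hs
      nlinarith
    linarith

theorem lck_int_strong (h : D.Ok κ) (hs : D.Small κ) (v : ℝ) (hv : v ∈ Ioo 0 D.a) (t : ℝ) (ht : D.K v / 2 ≤ t) :
    κ.al * D.lam * v ^ 2 + D.be κ * D.lam * D.U ^ 2 ≤ 1 - D.b v * D.gp t := by
  have hK := lck_K_ge h v hv
  have hk := lck_k_pos h
  have hk8 := lck_k_le h
  have hkv : 0 ≤ κ.k * v := mul_nonneg hk.le hv.1.le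
  have ht0 : 0 ≤ t := by linarith
  have hv4 : v ≤ 4 := by linarith [hv.2, h.a4]
  have hcore := lck_int_core h hs v hv.1.le t ht0
  obtain ⟨u0, u1⟩ := lck_lamU h
  have hloss := lck_loss h hs
  have hal := lck_al_pos h
  have hlv : 0 ≤ D.lam * v ^ 2 := mul_nonneg h.lam0.le (sq_nonneg _)
  have hL : 3 / 2 * (D.cb * κ.CG / κ.c) * D.lam * v ^ 2 ≤ κ.al / 32 * (D.lam * v ^ 2) := by
    have := mul_le_mul_of_nonneg_right hloss hlv
    nlinarith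
  rcases lck_int_alt h hs t ht0 with ha | ha
  · have hgap := h.gap_lo t ht0
    have hmin : (κ.k * v) ^ 2 / 4 ≤ min (t ^ 2) 1 := by
      refine le_min ?_ ?_
      · have : κ.k * v / 2 ≤ t := by linarith
        nlinarith
      · have : κ.k * v ≤ 1 / 2 := by nlinarith
        nlinarith
    have h2 : κ.c * D.lam * ((κ.k * v) ^ 2 / 4) ≤ D.gap t :=
      le_trans (mul_le_mul_of_nonneg_left hmin (mul_nonneg h.c0.le h.lam0.le)) hgap
    have h3 : 2 * κ.al * (D.lam * v ^ 2) ≤ κ.c * D.lam * ((κ.k * v) ^ 2 / 4) := by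
      have := mul_le_mul_of_nonneg_right (lck_al_le' κ) hlv
      nlinarith
    nlinarith
  · have h1 : 0 ≤ D.cb * D.lam * D.U ^ 2 / 2 * D.gp t := by
      have := mul_nonneg (mul_nonneg hs.cb0.le u0) (h.gp_nn t ht0)
      nlinarith
    have h2 : D.be κ * D.lam * D.U ^ 2 ≤ 1 / 68 := by
      have := lck_be_le D κ
      have := lck_be_pos h hs
      nlinarith
    have h3 : D.lam * v ^ 2 ≤ 16 := by nlinarith [h.lam0, h.lam1, hv.1]
    have h4 : κ.al * (D.lam * v ^ 2) ≤ 16 / 68 := by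
      have := lck_al_le κ
      nlinarith
    nlinarith

theorem lck_gp_ii (h : D.Ok κ) (s t : ℝ) (hs0 : 0 ≤ s) (ht0 : 0 ≤ t) : IntervalIntegrable D.gp volume s t := by
  refine ContinuousOn.intervalIntegrable (h.gp_cont.mono ?_)
  intro x hx
  rcases le_total s t with hst | hst
  · rw [uIcc_of_le hst] at hx; exact le_trans hs0 hx.1
  · rw [uIcc_of_ge hst] at hx; exact le_trans ht0 hx.1

theorem lck_int_eq (h : D.Ok κ) (β s t : ℝ) (hs0 : 0 ≤ s) (hst : s ≤ t) :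
    (∫ x in s..t, (1 - β * D.gp x)) = (t - s) - β * (D.Gam t - D.Gam s) := by
  have hi := lck_gp_ii h s t hs0 (le_trans hs0 hst)
  rw [intervalIntegral.integral_sub (by simp) (hi.const_mul β), intervalIntegral.integral_const_mul,
    h.gam_ftc s t hs0 hst]
  simp

theorem lck_hS_formula (h : D.Ok κ) (v v' : ℝ) (hv : v ∈ Ioo 0 D.a) (hv' : v' ∈ Ioo 0 D.a) (hvv : v ≤ v') :
    D.hS v' - D.hS v = (∫ t in D.K v..D.K v', (1 - D.b v * D.gp t)) - (D.b v' - D.b v) * D.q v' := by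
  rw [lck_int_eq h _ _ _ (lck_K_nn h v hv) (h.K_mono hv hv' hvv)]
  simp only [Lck.hS, Lck.q]; ring

/-- increments of `G` against increments of `K` -/
theorem lck_G_K (h : D.Ok κ) (v v' : ℝ) (hv : v ∈ Ioo 0 D.a) (hv' : v' ∈ Ioo 0 D.a) (hvv : v ≤ v') :
    κ.c * (D.G v' - D.G v) ≤ κ.CG * v' * (D.K v' - D.K v) := by
  have hCG : 0 < κ.CG := lt_of_lt_of_le one_pos h.CG1
  have hKm := h.K_mono hv hv' hvv
  have hcoef : 0 ≤ κ.CG * v' := mul_nonneg hCG.le hv'.1.le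
  rcases le_total v' κ.v0 with h1 | h1
  · have a1 := h.G_incr v v' hv.1.le hvv
    have a2 := h.K_lo v v' hv.1 hvv h1
    have a3 := mul_le_mul_of_nonneg_left a2 hcoef
    nlinarith [h.c0]
  · have e1 : D.G v' = D.G κ.v0 := by
      rw [h.G_const v' (le_trans h.vb1 h1), h.G_const κ.v0 h.vb1]
    rcases le_total v κ.v0 with h2 | h2
    · have a1 := h.G_incr v κ.v0 hv.1.le h2
      have a2 := h.K_lo v κ.v0 hv.1 h2 le_rfl
      have a4 := h.K_mono (lck_v0_mem h) hv' h1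
      have a5 : κ.c * (κ.v0 - v) ≤ D.K v' - D.K v := by linarith
      have a6 : 0 ≤ κ.v0 - v := by linarith
      rw [e1]
      have b1 : κ.c * (D.G κ.v0 - D.G v) ≤ κ.c * (κ.CG * κ.v0 * (κ.v0 - v)) := mul_le_mul_of_nonneg_left a1 h.c0.le
      have b2 : κ.CG * κ.v0 * (κ.c * (κ.v0 - v)) ≤ κ.CG * v' * (κ.c * (κ.v0 - v)) :=
        mul_le_mul_of_nonneg_right (mul_le_mul_of_nonneg_left h1 hCG.le) (mul_nonneg h.c0.le a6)
      have b3 := mul_le_mul_of_nonneg_left a5 hcoef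
      nlinarith
    · have e2 : D.G v = D.G κ.v0 := by
        rw [h.G_const v (le_trans h.vb1 h2), h.G_const κ.v0 h.vb1]
      rw [e1, e2, sub_self, mul_zero]
      exact mul_nonneg hcoef (by linarith)

theorem lck_P4_step (h : D.Ok κ) (hs : D.Small κ) (v v' : ℝ) (hv : v ∈ Ioo 0 D.a) (hv' : v' ∈ Ioo 0 D.a) (hvv : v ≤ v') (h2 : v' ≤ 2 * v) :
    (κ.al / 2 * D.lam * v ^ 2 + D.be κ * D.lam * D.U ^ 2) * (D.K v' - D.K v) ≤ D.hS v' - D.hS v := by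
  rw [lck_hS_formula h v v' hv hv' hvv]
  have hKm := h.K_mono hv hv' hvv
  have hK0 := lck_K_nn h v hv
  have hC : 0 < κ.C := lt_of_lt_of_le one_pos h.C1
  have hCG : 0 < κ.CG := lt_of_lt_of_le one_pos h.CG1
  -- the integral
  have hI : (κ.al * D.lam * v ^ 2 + D.be κ * D.lam * D.U ^ 2) * (D.K v' - D.K v) ≤ ∫ t in D.K v..D.K v', (1 - D.b v * D.gp t) := by
    have hi : IntervalIntegrable (fun t => 1 - D.b v * D.gp t) volume (D.K v) (D.K v') :=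
      (by simp : IntervalIntegrable (fun _ : ℝ => (1 : ℝ)) volume (D.K v) (D.K v')).sub ((lck_gp_ii h _ _ hK0 (le_trans hK0 hKm)).const_mul _)
    have := intervalIntegral.integral_mono_on (μ := volume) hKm (by simp : IntervalIntegrable (fun _ : ℝ => κ.al * D.lam * v ^ 2 + D.be κ * D.lam * D.U ^ 2) volume (D.K v) (D.K v')) hi
      (fun t ht => lck_int_strong h hs v hv t (by linarith [ht.1]))
    rw [intervalIntegral.integral_const, smul_eq_mul] at this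
    linarith
  -- the loss
  obtain ⟨b1, b2⟩ := lck_b_incr h hs v v' hv.1.le hvv
  have hG : 0 ≤ D.G v' - D.G v := sub_nonneg.2 (h.G_mono hvv)
  have hcl : 0 < D.cb * D.lam := mul_pos hs.cb0 h.lam0
  have hb0 : 0 ≤ D.b v' - D.b v := le_trans (mul_nonneg (by linarith) hG) b1
  have hq := h.q_hi v' hv'
  have l1 : (D.b v' - D.b v) * D.q v' ≤ (D.b v' - D.b v) * (κ.C * v') := mul_le_mul_of_nonneg_left hq hb0
  have hCv : 0 ≤ κ.C * v' := mul_nonneg hC.le hv'.1.le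
  have l2 : (D.b v' - D.b v) * (κ.C * v') ≤ 3 / 2 * (D.cb * D.lam) * (D.G v' - D.G v) * (κ.C * v') := mul_le_mul_of_nonneg_right b2 hCv
  have hGK := lck_G_K h v v' hv hv' hvv
  set dK := D.K v' - D.K v with hdK
  have hdK0 : 0 ≤ dK := by linarith
  -- c * loss ≤ 3/2 cb lam CG C v'^2 dK ≤ 6 cb CG C lam v^2 dK ≤ c al / 8 lam v^2 dK
  have l3 : κ.c * (3 / 2 * (D.cb * D.lam) * (D.G v' - D.G v) * (κ.C * v')) ≤ 3 / 2 * (D.cb * D.lam) * (κ.CG * v' * dK) * (κ.C * v') := by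
    have := mul_le_mul_of_nonneg_left hGK (mul_nonneg (mul_nonneg (by norm_num : (0:ℝ) ≤ 3 / 2) hcl.le) hCv)
    nlinarith
  have hv2 : v' ^ 2 ≤ 4 * v ^ 2 := by nlinarith [hv.1, hv'.1]
  have l4 : 3 / 2 * (D.cb * D.lam) * (κ.CG * v' * dK) * (κ.C * v') ≤ κ.c * (κ.al / 8 * D.lam * v ^ 2 * dK) := by
    have e : 3 / 2 * (D.cb * D.lam) * (κ.CG * v' * dK) * (κ.C * v') = 3 / 2 * (D.cb * κ.CG * κ.C) * (D.lam * dK) * v' ^ 2 := by ring
    rw [e]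
    have p0 : 0 ≤ D.lam * dK := mul_nonneg h.lam0.le hdK0
    have p1 : 0 ≤ D.cb * κ.CG * κ.C := mul_nonneg (mul_nonneg hs.cb0.le hCG.le) hC.le
    have p2 : 3 / 2 * (D.cb * κ.CG * κ.C) * (D.lam * dK) * v' ^ 2 ≤ 3 / 2 * (D.cb * κ.CG * κ.C) * (D.lam * dK) * (4 * v ^ 2) :=
      mul_le_mul_of_nonneg_left hv2 (mul_nonneg (mul_nonneg (by norm_num) p1) p0)
    have p3 : 48 * (D.cb * κ.CG * κ.C) ≤ κ.c * κ.al := by have := hs.cbs; linarith
    have p4 := mul_le_mul_of_nonneg_right p3 (mul_nonneg p0 (sq_nonneg v))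
    nlinarith
  have l5 : 3 / 2 * (D.cb * D.lam) * (D.G v' - D.G v) * (κ.C * v') ≤ κ.al / 8 * D.lam * v ^ 2 * dK :=
    le_of_mul_le_mul_left (le_trans l3 l4) h.c0
  have l6 : 0 ≤ κ.al * D.lam * v ^ 2 * dK := mul_nonneg (mul_nonneg (mul_nonneg (lck_al_pos h).le h.lam0.le) (sq_nonneg _)) hdK0
  nlinarith

theorem lck_coef_nn (h : D.Ok κ) (hs : D.Small κ) (v : ℝ) : 0 ≤ κ.al / 2 * D.lam * v ^ 2 + D.be κ * D.lam * D.U ^ 2 := by
  have h1 : 0 ≤ κ.al / 2 * D.lam * v ^ 2 := mul_nonneg (mul_nonneg (by linarith [lck_al_pos h]) h.lam0.le) (sq_nonneg _)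
  have h2 : 0 ≤ D.be κ * D.lam * D.U ^ 2 := mul_nonneg (mul_nonneg (lck_be_pos h hs).le h.lam0.le) (sq_nonneg _)
  linarith

theorem lck_P4_aux (h : D.Ok κ) (hs : D.Small κ) (n : ℕ) : ∀ v v' : ℝ, v ∈ Ioo 0 D.a → v' ∈ Ioo 0 D.a → v ≤ v' → v' ≤ 2 ^ n * v →
    (κ.al / 2 * D.lam * v ^ 2 + D.be κ * D.lam * D.U ^ 2) * (D.K v' - D.K v) ≤ D.hS v' - D.hS v := by
  induction n with
  | zero =>
    intro v v' hv hv' hvv h2
    exact lck_P4_step h hs v v' hv hv' hvv (by simp at h2; linarith [hv.1])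
  | succ n ih =>
    intro v v' hv hv' hvv h2
    rcases le_total (v' / 2) v with hc | hc
    · exact lck_P4_step h hs v v' hv hv' hvv (by linarith)
    · have hm : v' / 2 ∈ Ioo 0 D.a := ⟨by linarith [hv.1], by linarith [hv'.1, hv'.2]⟩
      have i1 := ih v (v' / 2) hv hm hc (by rw [pow_succ] at h2; linarith)
      have i2 := lck_P4_step h hs (v' / 2) v' hm hv' (by linarith [hv'.1]) (by linarith)
      have hK2 := h.K_mono hm hv' (by linarith [hv'.1])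
      have hco : κ.al / 2 * D.lam * v ^ 2 + D.be κ * D.lam * D.U ^ 2 ≤ κ.al / 2 * D.lam * (v' / 2) ^ 2 + D.be κ * D.lam * D.U ^ 2 := by
        have : v ^ 2 ≤ (v' / 2) ^ 2 := by nlinarith [hv.1]
        have := mul_le_mul_of_nonneg_left this (mul_nonneg (by linarith [lck_al_pos h] : 0 ≤ κ.al / 2) h.lam0.le)
        linarith
      have i3 := mul_le_mul_of_nonneg_right hco (sub_nonneg.2 hK2)
      nlinarith

theorem lck_P4 (h : D.Ok κ) (hs : D.Small κ) (v v' : ℝ) (hv : v ∈ Ioo 0 D.a) (hv' : v' ∈ Ioo 0 D.a) (hvv : v ≤ v') :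
    (κ.al / 2 * D.lam * v ^ 2 + D.be κ * D.lam * D.U ^ 2) * (D.K v' - D.K v) ≤ D.hS v' - D.hS v := by
  obtain ⟨n, hn⟩ := pow_unbounded_of_one_lt (v' / v) (by norm_num : (1 : ℝ) < 2)
  refine lck_P4_aux h hs n v v' hv hv' hvv ?_
  rw [div_lt_iff₀ hv.1] at hn
  exact hn.le

theorem lck_hS_mono (h : D.Ok κ) (hs : D.Small κ) : MonotoneOn D.hS (Ioo 0 D.a) := by
  intro v hv v' hv' hvv
  have := lck_P4 h hs v v' hv hv' hvv
  have h2 := mul_nonneg (lck_coef_nn h hs v) (sub_nonneg.2 (h.K_mono hv hv' hvv))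
  linarith

theorem lck_hS_nonneg (h : D.Ok κ) (hs : D.Small κ) (v : ℝ) (hv : v ∈ Ioo 0 D.a) : 0 ≤ D.hS v := by
  have hC : 0 < κ.C := lt_of_lt_of_le one_pos h.C1
  refine le_of_forall_pos_le_add ?_
  intro ε hε
  -- choose a small mass
  set w := min v (min κ.v0 (ε / (2 * κ.C ^ 2))) with hw
  have hw0 : 0 < w := lt_min hv.1 (lt_min h.v00 (by positivity))
  have hwv : w ≤ v := min_le_left _ _
  have hwv0 : w ≤ κ.v0 := le_trans (min_le_right _ _) (min_le_left _ _)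
  have hwe : w ≤ ε / (2 * κ.C ^ 2) := le_trans (min_le_right _ _) (min_le_right _ _)
  have hwm : w ∈ Ioo 0 D.a := ⟨hw0, lt_of_le_of_lt hwv hv.2⟩
  have hmono := lck_hS_mono h hs hwm hv hwv
  have hK := lck_K_nn h w hwm
  obtain ⟨b1, b2⟩ := lck_b_bd h hs w hw0.le (by linarith [hwm.2, h.a4])
  have hb0 : 0 ≤ D.b w := by linarith [h.c0]
  have hq := h.q_hi w hwm
  have h1 : D.b w * D.q w ≤ D.b w * (κ.C * w) := mul_le_mul_of_nonneg_left hq hb0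
  have h2 : D.b w * (κ.C * w) ≤ 2 * κ.C * (κ.C * w) := mul_le_mul_of_nonneg_right b2 (mul_nonneg hC.le hw0.le)
  have h3 : 2 * κ.C * (κ.C * w) ≤ ε := by
    rw [le_div_iff₀ (by positivity)] at hwe
    nlinarith
  have : -ε ≤ D.hS w := by simp only [Lck.hS]; linarith
  linarith

theorem lck_hS_small (h : D.Ok κ) (hs : D.Small κ) (v : ℝ) (hv : 0 < v) (hv0 : v ≤ κ.v0) :
    D.hS v ≤ 2 * κ.C ^ 4 / κ.c * D.lam * (v ^ 3 + v * D.U ^ 2) := by
  have hC : 0 < κ.C := lt_of_lt_of_le one_pos h.C1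
  have hc := h.c0
  have hvm : v ∈ Ioo 0 D.a := ⟨hv, lt_of_le_of_lt hv0 (lck_v0_mem h).2⟩
  have hK0 := lck_K_nn h v hvm
  have hKv0 := h.K_mono hvm (lck_v0_mem h) hv0
  have hKC := h.K_hi0 v hv hv0
  have e : D.hS v = ∫ t in (0 : ℝ)..D.K v, (1 - D.b v * D.gp t) := by
    rw [lck_int_eq h _ _ _ le_rfl hK0, h.gam_zero]
    simp only [Lck.hS, Lck.q]; ring
  obtain ⟨r1, -⟩ := lck_b_range h hs v hv.le
  have hG := lck_G_nn h v hv.le
  have hcl : 0 < D.cb * D.lam := mul_pos hs.cb0 h.lam0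
  have hU2 : 0 ≤ D.U ^ 2 := sq_nonneg _
  have r1' : -(3 / 2 * (D.cb * D.lam * D.U ^ 2)) ≤ D.b v - D.b0 := by
    have : 0 ≤ D.cb * D.lam * D.G v := mul_nonneg hcl.le hG
    nlinarith
  set M := κ.C * D.lam * (D.K v) ^ 2 + 3 / 2 * (D.cb * D.lam * D.U ^ 2) * (1 / κ.c) with hM
  have hpt : ∀ t ∈ Icc 0 (D.K v), 1 - D.b v * D.gp t ≤ M := by
    intro t ht
    have g1 := h.gap_hi t ht.1 (le_trans ht.2 hKv0)
    have hP := h.gp_nn t ht.1
    have hP' := lck_gp_le' h t ht.1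
    have e2 : 1 - D.b v * D.gp t = D.gap t - (D.b v - D.b0) * D.gp t := by simp only [Lck.gap]; ring
    have g2 : κ.C * D.lam * t ^ 2 ≤ κ.C * D.lam * (D.K v) ^ 2 := by
      have : t ^ 2 ≤ (D.K v) ^ 2 := by nlinarith [ht.1, ht.2]
      exact mul_le_mul_of_nonneg_left this (mul_nonneg hC.le h.lam0.le)
    have g3 : -(D.b v - D.b0) * D.gp t ≤ 3 / 2 * (D.cb * D.lam * D.U ^ 2) * D.gp t :=
      mul_le_mul_of_nonneg_right (by linarith) hP
    have g4 : 3 / 2 * (D.cb * D.lam * D.U ^ 2) * D.gp t ≤ 3 / 2 * (D.cb * D.lam * D.U ^ 2) * (1 / κ.c) :=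
      mul_le_mul_of_nonneg_left hP' (mul_nonneg (by norm_num) (mul_nonneg hcl.le hU2))
    rw [e2, hM]; linarith
  have hi : IntervalIntegrable (fun t => 1 - D.b v * D.gp t) volume 0 (D.K v) :=
    (by simp : IntervalIntegrable (fun _ : ℝ => (1 : ℝ)) volume 0 (D.K v)).sub ((lck_gp_ii h _ _ le_rfl hK0).const_mul _)
  have hI := intervalIntegral.integral_mono_on (μ := volume) hK0 hi (by simp : IntervalIntegrable (fun _ : ℝ => M) volume 0 (D.K v)) hpt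
  rw [intervalIntegral.integral_const, smul_eq_mul, sub_zero] at hI
  rw [e]
  refine le_trans hI ?_
  -- K v * M ≤ ...
  have hM0 : 0 ≤ M := by
    rw [hM]
    have : 0 ≤ 1 / κ.c := by positivity
    have h1 : 0 ≤ κ.C * D.lam * (D.K v) ^ 2 := mul_nonneg (mul_nonneg hC.le h.lam0.le) (sq_nonneg _)
    have h2 : 0 ≤ 3 / 2 * (D.cb * D.lam * D.U ^ 2) * (1 / κ.c) := mul_nonneg (mul_nonneg (by norm_num) (mul_nonneg hcl.le hU2)) this
    linarith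
  have s1 : D.K v * M ≤ κ.C * v * M := mul_le_mul_of_nonneg_right hKC hM0
  have hK2 : (D.K v) ^ 2 ≤ (κ.C * v) ^ 2 := by nlinarith
  have hcb1 : D.cb ≤ 1 := by have := lck_cb_le h hs; linarith [h.c1]
  have hic : 1 ≤ 1 / κ.c := by rw [le_div_iff₀ hc]; linarith [h.c1]
  have hC4 : κ.C ≤ κ.C ^ 4 := by
    have : (1:ℝ) ≤ κ.C ^ 3 := one_le_pow₀ h.C1
    nlinarith
  have s2 : M ≤ κ.C ^ 3 * D.lam * v ^ 2 * (1 / κ.c) + 3 / 2 * (D.lam * D.U ^ 2) * (1 / κ.c) := by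
    rw [hM]
    have t1 : κ.C * D.lam * (D.K v) ^ 2 ≤ κ.C * D.lam * (κ.C * v) ^ 2 := mul_le_mul_of_nonneg_left hK2 (mul_nonneg hC.le h.lam0.le)
    have t2 : κ.C * D.lam * (κ.C * v) ^ 2 = κ.C ^ 3 * D.lam * v ^ 2 := by ring
    have t3 : κ.C ^ 3 * D.lam * v ^ 2 * 1 ≤ κ.C ^ 3 * D.lam * v ^ 2 * (1 / κ.c) :=
      mul_le_mul_of_nonneg_left hic (mul_nonneg (mul_nonneg (by positivity) h.lam0.le) (sq_nonneg _))
    have t4 : D.cb * D.lam * D.U ^ 2 ≤ D.lam * D.U ^ 2 := by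
      have := mul_le_mul_of_nonneg_right hcb1 (mul_nonneg h.lam0.le hU2)
      nlinarith
    have t5 : 3 / 2 * (D.cb * D.lam * D.U ^ 2) * (1 / κ.c) ≤ 3 / 2 * (D.lam * D.U ^ 2) * (1 / κ.c) :=
      mul_le_mul_of_nonneg_right (by linarith) (by positivity)
    linarith
  have s3 := mul_le_mul_of_nonneg_left s2 (mul_nonneg hC.le hv.le)
  refine le_trans s1 (le_trans s3 ?_)
  have e3 : κ.C * v * (κ.C ^ 3 * D.lam * v ^ 2 * (1 / κ.c) + 3 / 2 * (D.lam * D.U ^ 2) * (1 / κ.c)) = (1 / κ.c) * D.lam * (κ.C ^ 4 * v ^ 3 + 3 / 2 * κ.C * (v * D.U ^ 2)) := by ring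
  have e4 : 2 * κ.C ^ 4 / κ.c * D.lam * (v ^ 3 + v * D.U ^ 2) = (1 / κ.c) * D.lam * (2 * κ.C ^ 4 * v ^ 3 + 2 * κ.C ^ 4 * (v * D.U ^ 2)) := by ring
  rw [e3, e4]
  refine mul_le_mul_of_nonneg_left ?_ (mul_nonneg (by positivity) h.lam0.le)
  have u1 : 0 ≤ κ.C ^ 4 * v ^ 3 := by positivity
  have u2 : 0 ≤ v * D.U ^ 2 := mul_nonneg hv.le hU2
  nlinarith

theorem lck_secant (h : D.Ok κ) (hs : D.Small κ) (v : ℝ) (hv : v ∈ Ioo 0 D.a) (z : ℝ) (hz : 0 ≤ z) (y : ℝ) (hy : y ∈ Icc (0 : ℝ) 1) :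
    (1 - y) * D.K v ≤ D.K v + y * D.b v * (z - D.q v) := by
  have h1 := lck_hS_nonneg h hs v hv
  obtain ⟨b1, -⟩ := lck_b_bd h hs v hv.1.le (by linarith [hv.2, h.a4])
  have hb0 : 0 ≤ D.b v := by linarith [h.c0]
  have e : D.K v + y * D.b v * (z - D.q v) = (1 - y) * D.K v + y * D.hS v + y * (D.b v * z) := by
    simp only [Lck.hS]; ring
  rw [e]
  have := mul_nonneg hy.1 h1
  have := mul_nonneg hy.1 (mul_nonneg hb0 hz)
  linarith

theorem lck_int_lin (a b c : ℝ) : (∫ y in a..b, (1 - y) * c) = ((b - a) - (b ^ 2 - a ^ 2) / 2) * c := by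
  rw [intervalIntegral.integral_mul_const, intervalIntegral.integral_sub (by simp) (by simp : IntervalIntegrable (fun y : ℝ => y) volume a b)]
  simp

theorem lck_P5 (h : D.Ok κ) (hs : D.Small κ) (v : ℝ) (hv : v ∈ Ioo 0 D.a) (z : ℝ) (hz : 0 ≤ z) :
    (κ.al / 4 * D.lam * v ^ 2 + D.be κ * D.lam * D.U ^ 2 ≤ ∫ y in (0 : ℝ)..1, (1 - D.b v * D.gp (D.K v + y * D.b v * (z - D.q v)))) ∧
    (κ.al / 4 * D.lam * v ^ 2 + D.be κ / 2 * D.lam * D.U ^ 2 ≤ ∫ y in (0 : ℝ)..1, (1 - y) * (1 - D.b v * D.gp (D.K v + y * D.b v * (z - D.q v)))) := by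
  have hK0 := lck_K_nn h v hv
  set τ : ℝ → ℝ := fun y => D.K v + y * D.b v * (z - D.q v) with hτ
  set f : ℝ → ℝ := fun y => 1 - D.b v * D.gp (τ y) with hf
  have hτ0 : ∀ y ∈ Icc (0 : ℝ) 1, (1 - y) * D.K v ≤ τ y := fun y hy => lck_secant h hs v hv z hz y hy
  have hτc : Continuous τ := by rw [hτ]; fun_prop
  have hfc : ContinuousOn f (Icc 0 1) := by
    rw [hf]
    refine continuousOn_const.sub (continuousOn_const.mul (h.gp_cont.comp hτc.continuousOn ?_))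
    intro y hy
    exact le_trans (mul_nonneg (by linarith [hy.2]) hK0) (hτ0 y hy)
  have hgc : ContinuousOn (fun y => (1 - y) * f y) (Icc 0 1) := (continuousOn_const.sub continuousOn_id).mul hfc
  have ii : ∀ (g : ℝ → ℝ), ContinuousOn g (Icc 0 1) → ∀ a b : ℝ, 0 ≤ a → a ≤ b → b ≤ 1 → IntervalIntegrable g volume a b := by
    intro g hg a b ha hab hb
    refine (hg.mono ?_).intervalIntegrable
    rw [uIcc_of_le hab]
    exact Icc_subset_Icc ha hb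
  set S := κ.al * D.lam * v ^ 2 + D.be κ * D.lam * D.U ^ 2 with hS
  set W := D.be κ * D.lam * D.U ^ 2 - 3 / 2 * (D.cb * κ.CG / κ.c) * D.lam * v ^ 2 with hW
  have hlo : ∀ y ∈ Icc (0 : ℝ) (1 / 2), S ≤ f y := by
    intro y hy
    refine lck_int_strong h hs v hv (τ y) ?_
    have := hτ0 y ⟨hy.1, by linarith [hy.2]⟩
    nlinarith [hy.2]
  have hhi : ∀ y ∈ Icc (1 / 2 : ℝ) 1, W ≤ f y := by
    intro y hy
    refine lck_int_weak h hs v hv (τ y) ?_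
    exact le_trans (mul_nonneg (by linarith [hy.2]) hK0) (hτ0 y ⟨by linarith [hy.1], hy.2⟩)
  have hlv : 0 ≤ D.lam * v ^ 2 := mul_nonneg h.lam0.le (sq_nonneg _)
  have hL : 3 / 2 * (D.cb * κ.CG / κ.c) * D.lam * v ^ 2 ≤ κ.al / 32 * (D.lam * v ^ 2) := by
    have := mul_le_mul_of_nonneg_right (lck_loss h hs) hlv
    nlinarith
  have hav : 0 ≤ κ.al * (D.lam * v ^ 2) := mul_nonneg (lck_al_pos h).le hlv
  constructor
  · have e := intervalIntegral.integral_add_adjacent_intervals (ii f hfc 0 (1 / 2) le_rfl (by norm_num) (by norm_num)) (ii f hfc (1 / 2) 1 (by norm_num) (by norm_num) le_rfl)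
    have i1 := intervalIntegral.integral_mono_on (μ := volume) (by norm_num : (0 : ℝ) ≤ 1 / 2) (by simp : IntervalIntegrable (fun _ : ℝ => S) volume 0 (1 / 2))
      (ii f hfc 0 (1 / 2) le_rfl (by norm_num) (by norm_num)) hlo
    have i2 := intervalIntegral.integral_mono_on (μ := volume) (by norm_num : (1 / 2 : ℝ) ≤ 1) (by simp : IntervalIntegrable (fun _ : ℝ => W) volume (1 / 2) 1)
      (ii f hfc (1 / 2) 1 (by norm_num) (by norm_num) le_rfl) hhi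
    rw [intervalIntegral.integral_const, smul_eq_mul] at i1 i2
    rw [← e]
    nlinarith
  · have e := intervalIntegral.integral_add_adjacent_intervals (ii _ hgc 0 (1 / 2) le_rfl (by norm_num) (by norm_num)) (ii _ hgc (1 / 2) 1 (by norm_num) (by norm_num) le_rfl)
    have c1 : IntervalIntegrable (fun y : ℝ => (1 - y) * S) volume 0 (1 / 2) := (by fun_prop : Continuous fun y : ℝ => (1 - y) * S).intervalIntegrable _ _
    have c2 : IntervalIntegrable (fun y : ℝ => (1 - y) * W) volume (1 / 2) 1 := (by fun_prop : Continuous fun y : ℝ => (1 - y) * W).intervalIntegrable _ _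
    have i1 := intervalIntegral.integral_mono_on (μ := volume) (by norm_num : (0 : ℝ) ≤ 1 / 2) c1
      (ii _ hgc 0 (1 / 2) le_rfl (by norm_num) (by norm_num)) (fun y hy => mul_le_mul_of_nonneg_left (hlo y hy) (by linarith [hy.2]))
    have i2 := intervalIntegral.integral_mono_on (μ := volume) (by norm_num : (1 / 2 : ℝ) ≤ 1) c2
      (ii _ hgc (1 / 2) 1 (by norm_num) (by norm_num) le_rfl) (fun y hy => mul_le_mul_of_nonneg_left (hhi y hy) (by linarith [hy.2]))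
    rw [lck_int_lin] at i1 i2
    rw [← e]
    nlinarith

end Claimed.Agent.R286
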