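import Claimed.Agent.R286.LL.PathsDefs

/-!
# Row 286 (S0533), LL Section 3, block CLK (head helper253), file C: `E_b`, `H_e`, ADMISSIBILITY OF THE FIELD CLOCK      (architect + prover: helper269; prefix `lcc_`; 0 sorry)

LL 03-paths.tex l.393-437 ((P6), (P7)).   Pure real analysis, POINTWISE in `p : LlPt`; every fact about the scalar model is an explicit hypothesis:
* `LccBase F 𝔹 p E1` : `0 < p_top < 1`, `A_0` monotone + continuous on `[0, ξ_*)`, `0 < Ũ`, `0 < λ`, `Υ ∈ [0,1]`, and ONE admissible `E1 ∈ (0, min 1 ξ_*)` with `Ũ^4 / E1^2 ≤ p_top - A_0 (ξ_* - E1)`;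
* `LccRamp F 𝔹 p c4 v1` : `ξ(v) ≤ ξ_*` on the active side, `ξ_* ≤ ξ(v)` on the plateau (NEW w.r.t. SPEC C: needed for `v` active, `v'` on the plateau), the ramp lives at masses `≥ v1 > x`,
  `4 ℓ^2 λ_1 (1 + (1-p_top)^(-1/2)) ≤ c4 λ v1^2`.
EXITS (SPEC C of notes/R286/LL03_CLK_253.md):
 C1-C3 `lcc_Eb` (`Ũ^2 ≤ E_b ≤ E1`, `p_top - A_0(ξ_* - E_b) = d_-`), `lcc_Eb_pos`, `lcc_Eb_sq_dMi`, `lcc_dMi_pos`, `lcc_dMi_le`, `lcc_dMi_le_one`, `lcc_dPl_le_dMi`, `lcc_dPl_rs`, `lcc_dMi_rs`;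
 C4 `lcc_HePl_mono`, `lcc_HePl_abs`, `lcc_HePl_le`;   C5 `lcc_HePl_top`;   C9 `lcc_HePl_slope`;
 C6 `lcc_He_zero`, `lcc_He_abs`, `lcc_He_junction`, `lcc_He_incr` (all three positions of `v ≤ v'`);
 C7 `lcc_h_adm` (MAIN: `h` nondecreasing and nonnegative on `(0,a)`; no `sSup`: the comparison point is `max v (v1/2)`), `lcc_hS_gain`, `lcc_edge_paid`;
 C8 `lcc_ramp` (PROVED from the definition of `ξ(v)` on a direct path, hypothesis `0 ≤ P(ξ_* - E_b)` only), `lcc_ramp_mass` (so `v1 := A_0(ξ_* - E1)` is admissible), `lcc_d_ge`.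
HOW TO FILL `LcdEdge F 𝔹 p CR KK v1` of file D: `CR = 1 + (1-p_top)^(-1/2)`, `KK = 4`: `Eb0 = lcc_Eb_pos`, `dM1 = lcc_dMi_le_one`, `dPK, dMK = lcc_d_ge`, `xi_le = LccRamp.xi_le`, `ramp = lcc_ramp + LccRamp.ramp`, `top = lcc_HePl_top`.
-/

set_option autoImplicit false

namespace Claimed.Agent.R286

open MeasureTheory Set Filter Topology

/-! ## 0. paper-free real lemmas -/

/-- the root `E_b` of `u^4 / E^2 = p_top - A (ξ_* - E)` as an infimum: lower bound, upper bound, equation -/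
theorem lcc_root (A : ℝ → ℝ) (pT xS u E1 : ℝ) (hu : 0 < u) (hpT1 : pT < 1) (hA0 : ∀ ξ, 0 ≤ A ξ)
    (hcont : ContinuousOn A (Ico 0 xS)) (hE10 : 0 < E1) (hE1x : E1 < xS)
    (hE1 : u ^ 4 / E1 ^ 2 ≤ pT - A (xS - E1)) :
    u ^ 2 ≤ sInf {E : ℝ | 0 < E ∧ u ^ 4 / E ^ 2 ≤ pT - A (xS - E)} ∧
    sInf {E : ℝ | 0 < E ∧ u ^ 4 / E ^ 2 ≤ pT - A (xS - E)} ≤ E1 ∧
    pT - A (xS - sInf {E : ℝ | 0 < E ∧ u ^ 4 / E ^ 2 ≤ pT - A (xS - E)}) =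
      u ^ 4 / (sInf {E : ℝ | 0 < E ∧ u ^ 4 / E ^ 2 ≤ pT - A (xS - E)}) ^ 2 := by
  set S : Set ℝ := {E : ℝ | 0 < E ∧ u ^ 4 / E ^ 2 ≤ pT - A (xS - E)} with hS
  have hne : S.Nonempty := ⟨E1, hE10, hE1⟩
  have hbd : BddBelow S := ⟨0, fun E hE => hE.1.le⟩
  have hlb : ∀ E ∈ S, u ^ 2 ≤ E := by
    intro E hE
    have hE0 : 0 < E := hE.1
    have h1 : u ^ 4 / E ^ 2 < 1 := lt_of_le_of_lt hE.2 (by linarith [hA0 (xS - E)])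
    rw [div_lt_one (by positivity)] at h1
    by_contra hc
    push Not at hc
    nlinarith [mul_pos (sub_pos.2 hc) (add_pos (pow_pos hu 2) hE0)]
  have h1 : u ^ 2 ≤ sInf S := le_csInf hne hlb
  have h2 : sInf S ≤ E1 := csInf_le hbd ⟨hE10, hE1⟩
  refine ⟨h1, h2, ?_⟩
  set Eb := sInf S with hEb
  have hEb0 : 0 < Eb := lt_of_lt_of_le (pow_pos hu 2) h1
  have hEbx : Eb < xS := lt_of_le_of_lt h2 hE1x
  -- continuity of the defect at `E_b`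
  have hcA : ContinuousAt A (xS - Eb) := hcont.continuousAt (Ico_mem_nhds (by linarith) (by linarith))
  have hcψ : ContinuousAt (fun E : ℝ => u ^ 4 / E ^ 2 - (pT - A (xS - E))) Eb := by
    have e1 : ContinuousAt (fun E : ℝ => u ^ 4 / E ^ 2) Eb :=
      continuousAt_const.div (continuousAt_id.pow 2) (by positivity)
    have e2 : ContinuousAt (fun E : ℝ => A (xS - E)) Eb :=
      ContinuousAt.comp (f := fun E : ℝ => xS - E) (g := A) hcA (continuousAt_const.sub continuousAt_id)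
    exact e1.sub (continuousAt_const.sub e2)
  apply le_antisymm
  · -- points below `E_b` are not in the set
    by_contra hc
    push Not at hc
    have hneg : u ^ 4 / Eb ^ 2 - (pT - A (xS - Eb)) < 0 := by linarith
    have hev := hcψ.tendsto.eventually (gt_mem_nhds hneg)
    obtain ⟨δ, hδ, hball⟩ := Metric.eventually_nhds_iff.1 hev
    have hm : 0 < min (δ / 2) (Eb / 2) := lt_min (by positivity) (by positivity)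
    have hE : Eb - min (δ / 2) (Eb / 2) ∈ S := by
      refine ⟨by linarith [min_le_right (δ / 2) (Eb / 2)], ?_⟩
      have := hball (y := Eb - min (δ / 2) (Eb / 2)) (by
        rw [Real.dist_eq, sub_sub_cancel_left, abs_neg, abs_of_pos hm]
        linarith [min_le_left (δ / 2) (Eb / 2)])
      linarith
    have := csInf_le hbd hE
    linarith
  · -- points of the set approach `E_b` from above
    by_contra hc
    push Not at hc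
    have hpos : 0 < u ^ 4 / Eb ^ 2 - (pT - A (xS - Eb)) := by linarith
    have hev := hcψ.tendsto.eventually (lt_mem_nhds hpos)
    obtain ⟨δ, hδ, hball⟩ := Metric.eventually_nhds_iff.1 hev
    obtain ⟨E, hES, hElt⟩ := exists_lt_of_csInf_lt hne (show sInf S < Eb + δ by linarith)
    have hge : Eb ≤ E := csInf_le hbd hES
    have := hball (y := E) (by rw [Real.dist_eq, abs_of_nonneg (by linarith)]; linarith)
    linarith [hES.2]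

/-- `t ^ (-1/2) = (√t)⁻¹` -/
theorem lcc_rs_eq {t : ℝ} (ht : 0 ≤ t) : t ^ (-(1 / 2) : ℝ) = (Real.sqrt t)⁻¹ := by
  rw [Real.rpow_neg ht, ← Real.sqrt_eq_rpow]

theorem lcc_rs_pos {t : ℝ} (ht : 0 < t) : 0 < t ^ (-(1 / 2) : ℝ) := Real.rpow_pos_of_pos ht _

theorem lcc_rs_anti {s t : ℝ} (hs : 0 < s) (hst : s ≤ t) : t ^ (-(1 / 2) : ℝ) ≤ s ^ (-(1 / 2) : ℝ) :=
  Real.rpow_le_rpow_of_nonpos hs hst (by norm_num)

/-- convexity of `t ↦ t^(-1/2)`, elementary form -/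
theorem lcc_rs_slope {s t : ℝ} (hs : 0 < s) (hst : s ≤ t) :
    (t - s) / 2 * t ^ (-(3 / 2) : ℝ) ≤ s ^ (-(1 / 2) : ℝ) - t ^ (-(1 / 2) : ℝ) := by
  have ht : 0 < t := lt_of_lt_of_le hs hst
  obtain ⟨a, ha, rfl⟩ : ∃ a : ℝ, 0 < a ∧ s = a ^ 2 := ⟨Real.sqrt s, Real.sqrt_pos.2 hs, (Real.sq_sqrt hs.le).symm⟩
  obtain ⟨b, hb, rfl⟩ : ∃ b : ℝ, 0 < b ∧ t = b ^ 2 := ⟨Real.sqrt t, Real.sqrt_pos.2 ht, (Real.sq_sqrt ht.le).symm⟩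
  have hab : a ≤ b := by nlinarith
  have e1 : (a ^ 2) ^ (-(1 / 2) : ℝ) = a⁻¹ := by rw [lcc_rs_eq (by positivity), Real.sqrt_sq ha.le]
  have e2 : (b ^ 2) ^ (-(1 / 2) : ℝ) = b⁻¹ := by rw [lcc_rs_eq (by positivity), Real.sqrt_sq hb.le]
  have e3 : (b ^ 2) ^ (-(3 / 2) : ℝ) = (b ^ 3)⁻¹ := by
    rw [← Real.rpow_natCast b 2, ← Real.rpow_mul hb.le, ← Real.rpow_natCast b 3, ← Real.rpow_neg hb.le]
    norm_num
  rw [e1, e2, e3]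
  have : a⁻¹ - b⁻¹ - (b ^ 2 - a ^ 2) / 2 * (b ^ 3)⁻¹ = (b - a) * (2 * b ^ 2 - a * (a + b)) / (2 * a * b ^ 3) := by
    field_simp
    ring
  have h2 : 0 ≤ (b - a) * (2 * b ^ 2 - a * (a + b)) / (2 * a * b ^ 3) := by
    apply div_nonneg _ (by positivity)
    apply mul_nonneg (by linarith)
    nlinarith
  linarith
/-! ## 1. `E_b`, `d_-`, `d_+` (C1-C3) -/

/-- hypotheses on the base profile `A_0` and on the point.  `E1` = any admissible upper bound of `E_b` -/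
structure LccBase (F : LlFix) (𝔹 : LlBase) (p : LlPt) (E1 : ℝ) : Prop where
  pT0 : 0 < 𝔹.pTop F.T
  pT1 : 𝔹.pTop F.T < 1
  A0mono : MonotoneOn (𝔹.A0 F.T) (Ico 0 (𝔹.xiS F.T))
  A0cont : ContinuousOn (𝔹.A0 F.T) (Ico 0 (𝔹.xiS F.T))
  Ut0 : 0 < p.Ut F
  E10 : 0 < E1
  E1x : E1 < 𝔹.xiS F.T
  E11 : E1 ≤ 1
  E1mem : p.Ut F ^ 4 / E1 ^ 2 ≤ 𝔹.pTop F.T - 𝔹.A0 F.T (𝔹.xiS F.T - E1)
  lam0 : 0 < p.lam
  Ups : F.Ups (p.U F) ∈ Icc (0 : ℝ) 1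

theorem lcc_A0_nonneg (𝔹 : LlBase) (T ξ : ℝ) : 0 ≤ 𝔹.A0 T ξ := ENNReal.toReal_nonneg

section base

variable {F : LlFix} {𝔹 : LlBase} {p : LlPt} {E1 : ℝ}

/-- **C1, C2, C3** -/
theorem lcc_Eb (H : LccBase F 𝔹 p E1) :
    p.Ut F ^ 2 ≤ p.Eb F 𝔹 ∧ p.Eb F 𝔹 ≤ E1 ∧
      𝔹.pTop F.T - 𝔹.A0 F.T (𝔹.xiS F.T - p.Eb F 𝔹) = p.dMi F 𝔹 :=
  lcc_root (𝔹.A0 F.T) (𝔹.pTop F.T) (𝔹.xiS F.T) (p.Ut F) E1 H.Ut0 H.pT1 (lcc_A0_nonneg 𝔹 F.T) H.A0cont H.E10 H.E1x H.E1mem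

theorem lcc_Eb_pos (H : LccBase F 𝔹 p E1) : 0 < p.Eb F 𝔹 := lt_of_lt_of_le (pow_pos H.Ut0 2) (lcc_Eb H).1

theorem lcc_Eb_le_one (H : LccBase F 𝔹 p E1) : p.Eb F 𝔹 ≤ 1 := (lcc_Eb H).2.1.trans H.E11

theorem lcc_Eb_lt_xiS (H : LccBase F 𝔹 p E1) : p.Eb F 𝔹 < 𝔹.xiS F.T := lt_of_le_of_lt (lcc_Eb H).2.1 H.E1x

theorem lcc_dPl_pos (H : LccBase F 𝔹 p E1) : 0 < p.dPl F := pow_pos H.Ut0 4

theorem lcc_dMi_pos (H : LccBase F 𝔹 p E1) : 0 < p.dMi F 𝔹 :=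
  div_pos (pow_pos H.Ut0 4) (pow_pos (lcc_Eb_pos H) 2)

/-- `E_b^2 d_- = Ũ^4` -/
theorem lcc_Eb_sq_dMi (H : LccBase F 𝔹 p E1) : p.Eb F 𝔹 ^ 2 * p.dMi F 𝔹 = p.Ut F ^ 4 := by
  have := lcc_Eb_pos H
  unfold LlPt.dMi
  field_simp

theorem lcc_dMi_le (H : LccBase F 𝔹 p E1) :
    p.dMi F 𝔹 ≤ 𝔹.pTop F.T - 𝔹.A0 F.T (𝔹.xiS F.T - E1) ∧ p.dMi F 𝔹 ≤ 𝔹.pTop F.T := by
  obtain ⟨-, h2, h3⟩ := lcc_Eb H
  have hE := lcc_Eb_pos H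
  constructor
  · rw [← h3]
    have := H.A0mono (a := 𝔹.xiS F.T - E1) (b := 𝔹.xiS F.T - p.Eb F 𝔹) ⟨by linarith [H.E1x], by linarith [H.E10]⟩
      ⟨by linarith [H.E1x], by linarith⟩ (by linarith)
    linarith
  · rw [← h3]
    linarith [lcc_A0_nonneg 𝔹 F.T (𝔹.xiS F.T - p.Eb F 𝔹)]

theorem lcc_dMi_le_one (H : LccBase F 𝔹 p E1) : p.dMi F 𝔹 ≤ 1 := (lcc_dMi_le H).2.trans H.pT1.le

/-- `Ũ^4 ≤ d_-` -/
theorem lcc_dPl_le_dMi (H : LccBase F 𝔹 p E1) : p.dPl F ≤ p.dMi F 𝔹 := by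
  have h0 := lcc_Eb_pos H
  have h1 := lcc_Eb_le_one H
  unfold LlPt.dMi LlPt.dPl
  rw [le_div_iff₀ (pow_pos h0 2)]
  have : p.Eb F 𝔹 ^ 2 ≤ 1 := pow_le_one₀ h0.le h1
  nlinarith [pow_pos H.Ut0 4]

/-- `Ũ^2 d_+^(-1/2) = 1` -/
theorem lcc_dPl_rs (H : LccBase F 𝔹 p E1) : p.Ut F ^ 2 * p.dPl F ^ (-(1 / 2) : ℝ) = 1 := by
  have hU := H.Ut0
  have e : p.dPl F = (p.Ut F ^ 2) ^ 2 := by unfold LlPt.dPl; ring
  rw [lcc_rs_eq (lcc_dPl_pos H).le, e, Real.sqrt_sq (by positivity)]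
  field_simp

/-- `Ũ^2 d_-^(-1/2) = E_b` -/
theorem lcc_dMi_rs (H : LccBase F 𝔹 p E1) : p.Ut F ^ 2 * p.dMi F 𝔹 ^ (-(1 / 2) : ℝ) = p.Eb F 𝔹 := by
  have hU := H.Ut0
  have hE := lcc_Eb_pos H
  have e : p.dMi F 𝔹 = (p.Ut F ^ 2 / p.Eb F 𝔹) ^ 2 := by unfold LlPt.dMi; field_simp
  rw [lcc_rs_eq (lcc_dMi_pos H).le, e, Real.sqrt_sq (by positivity)]
  field_simp

theorem lcc_lam1_pos (H : LccBase F 𝔹 p E1) : 0 < p.lam1 F := Real.rpow_pos_of_pos H.lam0 _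

/-! ## 2. the plateau profile (C4, C5, C9) -/

theorem lcc_amp_nonneg (H : LccBase F 𝔹 p E1) : 0 ≤ p.lam1 F * F.Ups (p.U F) * p.Ut F ^ 2 :=
  mul_nonneg (mul_nonneg (lcc_lam1_pos H).le H.Ups.1) (pow_pos H.Ut0 2).le

theorem lcc_amp_le (H : LccBase F 𝔹 p E1) : p.lam1 F * F.Ups (p.U F) * p.Ut F ^ 2 ≤ p.lam1 F * p.Ut F ^ 2 := by
  have h1 := (lcc_lam1_pos H).le
  have h2 := (pow_pos H.Ut0 2).le
  have : p.lam1 F * F.Ups (p.U F) ≤ p.lam1 F := mul_le_of_le_one_right h1 H.Ups.2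
  exact mul_le_mul_of_nonneg_right this h2

/-- **C4a** -/
theorem lcc_HePl_mono (H : LccBase F 𝔹 p E1) : MonotoneOn (p.HePl F 𝔹) (Icc (𝔹.pTop F.T) 1) := by
  intro w hw w' hw' hww
  have hP := lcc_dPl_pos H
  have hM := lcc_dMi_pos H
  unfold LlPt.HePl
  refine mul_le_mul_of_nonneg_left ?_ (lcc_amp_nonneg H)
  have e1 := lcc_rs_anti (s := 1 - w' + p.dPl F) (t := 1 - w + p.dPl F) (by linarith [hw'.2]) (by linarith)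
  have e2 := lcc_rs_anti (s := w - 𝔹.pTop F.T + p.dMi F 𝔹) (t := w' - 𝔹.pTop F.T + p.dMi F 𝔹)
    (by linarith [hw.1]) (by linarith)
  linarith

/-- **C4b** -/
theorem lcc_HePl_abs (H : LccBase F 𝔹 p E1) (w : ℝ) (hw : w ∈ Icc (𝔹.pTop F.T) 1) :
    |p.HePl F 𝔹 w| ≤ p.lam1 F * p.Ut F ^ 2 *
      ((1 - w + p.dPl F) ^ (-(1 / 2) : ℝ) + (w - 𝔹.pTop F.T + p.dMi F 𝔹) ^ (-(1 / 2) : ℝ)) := by
  have hP := lcc_dPl_pos H
  have hM := lcc_dMi_pos H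
  have a1 := lcc_rs_pos (t := 1 - w + p.dPl F) (by linarith [hw.2])
  have a2 := lcc_rs_pos (t := w - 𝔹.pTop F.T + p.dMi F 𝔹) (by linarith [hw.1])
  unfold LlPt.HePl
  rw [abs_mul, abs_of_nonneg (lcc_amp_nonneg H)]
  refine mul_le_mul (lcc_amp_le H) ?_ (abs_nonneg _) (mul_nonneg (lcc_lam1_pos H).le (pow_pos H.Ut0 2).le)
  rw [abs_le]
  constructor <;> linarith

/-- **C4c** -/
theorem lcc_HePl_le (H : LccBase F 𝔹 p E1) (w : ℝ) (hw : w ∈ Icc (𝔹.pTop F.T) 1) :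
    |p.HePl F 𝔹 w| ≤ p.lam1 F * (1 + p.Eb F 𝔹) ∧ |p.HePl F 𝔹 w| ≤ 2 * p.lam1 F := by
  have hP := lcc_dPl_pos H
  have hM := lcc_dMi_pos H
  have hl := lcc_lam1_pos H
  have hU := pow_pos H.Ut0 2
  have e1 := lcc_rs_anti (s := p.dPl F) (t := 1 - w + p.dPl F) hP (by linarith [hw.2])
  have e2 := lcc_rs_anti (s := p.dMi F 𝔹) (t := w - 𝔹.pTop F.T + p.dMi F 𝔹) hM (by linarith [hw.1])
  have h1 : |p.HePl F 𝔹 w| ≤ p.lam1 F * (1 + p.Eb F 𝔹) := by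
    refine (lcc_HePl_abs H w hw).trans ?_
    rw [mul_assoc]
    refine mul_le_mul_of_nonneg_left ?_ hl.le
    have f1 : p.Ut F ^ 2 * (1 - w + p.dPl F) ^ (-(1 / 2) : ℝ) ≤ 1 :=
      (mul_le_mul_of_nonneg_left e1 hU.le).trans (lcc_dPl_rs H).le
    have f2 : p.Ut F ^ 2 * (w - 𝔹.pTop F.T + p.dMi F 𝔹) ^ (-(1 / 2) : ℝ) ≤ p.Eb F 𝔹 :=
      (mul_le_mul_of_nonneg_left e2 hU.le).trans (lcc_dMi_rs H).le
    rw [mul_add]
    exact add_le_add f1 f2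
  refine ⟨h1, h1.trans ?_⟩
  nlinarith [lcc_Eb_le_one H]

/-- **C5** -/
theorem lcc_HePl_top (H : LccBase F 𝔹 p E1) :
    |p.HePl F 𝔹 (𝔹.pTop F.T)| ≤ (1 + (1 - 𝔹.pTop F.T) ^ (-(1 / 2) : ℝ)) * p.lam1 F * p.Eb F 𝔹 := by
  have hP := lcc_dPl_pos H
  have hl := lcc_lam1_pos H
  have hU := pow_pos H.Ut0 2
  have h1 : (0 : ℝ) < 1 - 𝔹.pTop F.T := by linarith [H.pT1]
  have e1 := lcc_rs_anti (s := 1 - 𝔹.pTop F.T) (t := 1 - 𝔹.pTop F.T + p.dPl F) h1 (by linarith)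
  have e0 := lcc_rs_pos h1
  refine (lcc_HePl_abs H _ ⟨le_rfl, H.pT1.le⟩).trans ?_
  rw [sub_self, zero_add, mul_assoc, mul_add, lcc_dMi_rs H]
  have e2 : p.Ut F ^ 2 * (1 - 𝔹.pTop F.T + p.dPl F) ^ (-(1 / 2) : ℝ) ≤ p.Eb F 𝔹 * (1 - 𝔹.pTop F.T) ^ (-(1 / 2) : ℝ) :=
    mul_le_mul (lcc_Eb H).1 e1 (lcc_rs_pos (by linarith)).le (lcc_Eb_pos H).le
  nlinarith

/-- **C9**: slope of the plateau profile -/
theorem lcc_HePl_slope (H : LccBase F 𝔹 p E1) (w w' : ℝ) (hw : 𝔹.pTop F.T ≤ w) (hww : w ≤ w') (hw' : w' ≤ 1) :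
    p.lam1 F * F.Ups (p.U F) * p.Ut F ^ 2 * ((w' - w) / 2 *
      ((1 - w + p.dPl F) ^ (-(3 / 2) : ℝ) + (w' - 𝔹.pTop F.T + p.dMi F 𝔹) ^ (-(3 / 2) : ℝ)))
      ≤ p.HePl F 𝔹 w' - p.HePl F 𝔹 w := by
  have hP := lcc_dPl_pos H
  have hM := lcc_dMi_pos H
  unfold LlPt.HePl
  rw [← mul_sub]
  refine mul_le_mul_of_nonneg_left ?_ (lcc_amp_nonneg H)
  have e1 := lcc_rs_slope (s := 1 - w' + p.dPl F) (t := 1 - w + p.dPl F) (by linarith) (by linarith)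
  have e2 := lcc_rs_slope (s := w - 𝔹.pTop F.T + p.dMi F 𝔹) (t := w' - 𝔹.pTop F.T + p.dMi F 𝔹)
    (by linarith) (by linarith)
  have a1 : 1 - w + p.dPl F - (1 - w' + p.dPl F) = w' - w := by ring
  have a2 : w' - 𝔹.pTop F.T + p.dMi F 𝔹 - (w - 𝔹.pTop F.T + p.dMi F 𝔹) = w' - w := by ring
  rw [a1] at e1
  rw [a2] at e2
  linarith

end base
/-! ## 3. the active side (C6) -/

section act

variable {F : LlFix} {𝔹 : LlBase} {p : LlPt} {E1 : ℝ}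

theorem lcc_He_act (v : ℝ) (h : v / p.ell < 𝔹.pTop F.T) :
    p.He F 𝔹 v = max 0 ((p.xi F 𝔹 v - (𝔹.xiS F.T - p.Eb F 𝔹)) / p.Eb F 𝔹) * p.HePl F 𝔹 (𝔹.pTop F.T) := by
  unfold LlPt.He
  rw [if_neg (not_le.2 h)]

theorem lcc_He_pl (v : ℝ) (h : 𝔹.pTop F.T ≤ v / p.ell) : p.He F 𝔹 v = p.HePl F 𝔹 (v / p.ell) := by
  unfold LlPt.He
  rw [if_pos h]

/-- the ramp factor -/
theorem lcc_ramp_eq {E : ℝ} (hE : 0 < E) (ξ c : ℝ) : max 0 ((ξ - c) / E) = (max ξ c - c) / E := by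
  rcases le_total ξ c with h | h
  · rw [max_eq_right h, sub_self, zero_div, max_eq_left (div_nonpos_of_nonpos_of_nonneg (by linarith) hE.le)]
  · rw [max_eq_left h, max_eq_right (div_nonneg (by linarith) hE.le)]

/-- **C6a** -/
theorem lcc_He_zero (H : LccBase F 𝔹 p E1) (v : ℝ) (h : v / p.ell < 𝔹.pTop F.T)
    (hξ : p.xi F 𝔹 v ≤ 𝔹.xiS F.T - p.Eb F 𝔹) : p.He F 𝔹 v = 0 := by
  rw [lcc_He_act v h, lcc_ramp_eq (lcc_Eb_pos H), max_eq_right hξ, sub_self, zero_div, zero_mul]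

/-- **C6b** -/
theorem lcc_He_abs (H : LccBase F 𝔹 p E1) (v : ℝ) (h : v / p.ell < 𝔹.pTop F.T)
    (hξ : p.xi F 𝔹 v ≤ 𝔹.xiS F.T) : |p.He F 𝔹 v| ≤ |p.HePl F 𝔹 (𝔹.pTop F.T)| := by
  have hE := lcc_Eb_pos H
  rw [lcc_He_act v h, lcc_ramp_eq hE, abs_mul]
  refine mul_le_of_le_one_left (abs_nonneg _) ?_
  rw [abs_of_nonneg (div_nonneg (by linarith [le_max_right (p.xi F 𝔹 v) (𝔹.xiS F.T - p.Eb F 𝔹)]) hE.le),
    div_le_one hE]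
  have : max (p.xi F 𝔹 v) (𝔹.xiS F.T - p.Eb F 𝔹) ≤ 𝔹.xiS F.T := max_le hξ (by linarith)
  linarith

/-- **C6d** junction -/
theorem lcc_He_junction (H : LccBase F 𝔹 p E1) (v : ℝ) (h : v / p.ell < 𝔹.pTop F.T)
    (hξ : p.xi F 𝔹 v = 𝔹.xiS F.T) : p.He F 𝔹 v = p.HePl F 𝔹 (𝔹.pTop F.T) := by
  have hE := lcc_Eb_pos H
  rw [lcc_He_act v h, hξ, sub_sub_cancel, div_self hE.ne', max_eq_right zero_le_one, one_mul]

/-- **C6c**, on the whole interval: the only possible decrease of `H_e` is on the ramp -/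
theorem lcc_He_incr (H : LccBase F 𝔹 p E1) (hell : 0 < p.ell) (v v' : ℝ) (hvv : v ≤ v') (hv1 : v' / p.ell ≤ 1)
    (hmono : p.xi F 𝔹 v ≤ p.xi F 𝔹 v')
    (hle : v / p.ell < 𝔹.pTop F.T → p.xi F 𝔹 v ≤ 𝔹.xiS F.T)
    (hge : 𝔹.pTop F.T ≤ v' / p.ell → 𝔹.xiS F.T ≤ p.xi F 𝔹 v') :
    -(|p.HePl F 𝔹 (𝔹.pTop F.T)| / p.Eb F 𝔹 *
        max 0 (p.xi F 𝔹 v' - max (p.xi F 𝔹 v) (𝔹.xiS F.T - p.Eb F 𝔹))) ≤ p.He F 𝔹 v' - p.He F 𝔹 v := by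
  have hE := lcc_Eb_pos H
  have hdiv : v / p.ell ≤ v' / p.ell := div_le_div_of_nonneg_right hvv hell.le
  set c := 𝔹.xiS F.T - p.Eb F 𝔹 with hc
  set ξ := p.xi F 𝔹 v with hξ
  set ξ' := p.xi F 𝔹 v' with hξ'
  set Y := p.HePl F 𝔹 (𝔹.pTop F.T) with hY
  set m := max 0 (ξ' - max ξ c) with hm
  have hm0 : 0 ≤ m := le_max_left _ _
  have hYa : -|Y| ≤ Y := neg_abs_le Y
  have key : ∀ r : ℝ, 0 ≤ r → r ≤ m / p.Eb F 𝔹 → -(|Y| / p.Eb F 𝔹 * m) ≤ r * Y := by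
    intro r hr0 hr
    have h1 : -(r * |Y|) ≤ r * Y := by nlinarith
    have h2 : r * |Y| ≤ m / p.Eb F 𝔹 * |Y| := mul_le_mul_of_nonneg_right hr (abs_nonneg _)
    have h3 : m / p.Eb F 𝔹 * |Y| = |Y| / p.Eb F 𝔹 * m := by ring
    linarith
  rcases lt_or_ge (v' / p.ell) (𝔹.pTop F.T) with h' | h'
  · have h : v / p.ell < 𝔹.pTop F.T := lt_of_le_of_lt hdiv h'
    rw [lcc_He_act v' h', lcc_He_act v h, lcc_ramp_eq hE, lcc_ramp_eq hE, ← sub_mul]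
    have e : (max ξ' c - c) / p.Eb F 𝔹 - (max ξ c - c) / p.Eb F 𝔹 = m / p.Eb F 𝔹 := by
      rw [← sub_div]
      congr 1
      rw [hm]
      rcases le_total ξ' c with h1 | h1
      · rw [max_eq_right h1, max_eq_right (hmono.trans h1), max_eq_left (by linarith)]; ring
      · have h2 : max ξ c ≤ ξ' := max_le hmono h1
        rw [max_eq_left h1, max_eq_right (a := 0) (b := ξ' - max ξ c) (by linarith)]; ring
    rw [e]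
    exact key _ (div_nonneg hm0 hE.le) le_rfl
  · rw [lcc_He_pl v' h']
    rcases lt_or_ge (v / p.ell) (𝔹.pTop F.T) with h | h
    · have hmon := lcc_HePl_mono H (a := 𝔹.pTop F.T) (b := v' / p.ell) ⟨le_rfl, H.pT1.le⟩ ⟨h', hv1⟩ h'
      rw [lcc_He_act v h, lcc_ramp_eq hE]
      have hξS : max ξ c ≤ 𝔹.xiS F.T := max_le (hle h) (by rw [hc]; linarith)
      have e : Y - (max ξ c - c) / p.Eb F 𝔹 * Y = (𝔹.xiS F.T - max ξ c) / p.Eb F 𝔹 * Y := by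
        rw [hc]; field_simp; ring
      have := key ((𝔹.xiS F.T - max ξ c) / p.Eb F 𝔹) (div_nonneg (by linarith) hE.le)
        (div_le_div_of_nonneg_right ((by linarith [hge h'] : 𝔹.xiS F.T - max ξ c ≤ ξ' - max ξ c).trans
          (le_max_right _ _)) hE.le)
      linarith
    · rw [lcc_He_pl v h]
      have hmon := lcc_HePl_mono H (a := v / p.ell) (b := v' / p.ell) ⟨h, hdiv.trans hv1⟩ ⟨h', hv1⟩ hdiv
      have : 0 ≤ |Y| / p.Eb F 𝔹 * m := mul_nonneg (div_nonneg (abs_nonneg _) hE.le) hm0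
      linarith

end act

/-! ## 4. admissibility of the field clock (C7) -/

/-- what the ramp of `H_e` needs of a direct path.  `c4` = constant of (P4), `v1` = the ramp lives at masses `≥ v1` -/
structure LccRamp (F : LlFix) (𝔹 : LlBase) (p : LlPt) (c4 v1 : ℝ) : Prop where
  xi_le : ∀ v ∈ Ioo 0 p.a, v / p.ell < 𝔹.pTop F.T → p.xi F 𝔹 v ≤ 𝔹.xiS F.T
  xi_ge : ∀ v ∈ Ioo 0 p.a, 𝔹.pTop F.T ≤ v / p.ell → 𝔹.xiS F.T ≤ p.xi F 𝔹 v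
  ramp : ∀ v ∈ Ioo 0 p.a, 𝔹.xiS F.T - p.Eb F 𝔹 < p.xi F 𝔹 v → v1 ≤ v
  xv1 : p.x < v1
  small : 4 * p.ell ^ 2 * p.lam1 F * (1 + (1 - 𝔹.pTop F.T) ^ (-(1 / 2) : ℝ)) ≤ c4 * p.lam * v1 ^ 2

section adm

variable {F : LlFix} {𝔹 : LlBase} {p : LlPt} {E1 c4 v1 : ℝ}

theorem lcc_x_pos (hN : 2 ≤ p.N) : 0 < p.x :=
  Real.rpow_pos_of_pos (by exact_mod_cast (by omega : 0 < p.N)) _

theorem lcc_x_lt_one (hN : 2 ≤ p.N) : p.x < 1 :=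
  Real.rpow_lt_one_of_one_lt_of_neg (by exact_mod_cast (by omega : 1 < p.N)) (by norm_num)

theorem lcc_one_le_a (hl : 1 ≤ p.ell) : 1 ≤ p.a := by
  unfold LlPt.a
  split_ifs
  · norm_num
  · exact hl

/-- the increase of `h_*` pays for a ramp in `ξ` that starts at `c` -/
theorem lcc_hS_gain (hell : 0 < p.ell) (hlam : 0 ≤ p.lam) (hc4 : 0 ≤ c4) (hv10 : 0 < v1) (c : ℝ)
    (hinc : ∀ v ∈ Ioo 0 p.a, ∀ v' ∈ Ioo 0 p.a, v ≤ v' →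
      c4 * p.lam * v ^ 2 * (p.K F 𝔹 v' - p.K F 𝔹 v) ≤ p.hS F 𝔹 v' - p.hS F 𝔹 v)
    (hK : MonotoneOn (p.K F 𝔹) (Ioo 0 p.a))
    (hv1 : ∀ v ∈ Ioo 0 p.a, c < p.xi F 𝔹 v → v1 ≤ v)
    (v v' : ℝ) (hv : v ∈ Ioo 0 p.a) (hv' : v' ∈ Ioo 0 p.a) (hvv : v ≤ v') :
    c4 * p.lam * v1 ^ 2 / (4 * p.ell ^ 2) * max 0 (p.xi F 𝔹 v' - max (p.xi F 𝔹 v) c)
      ≤ p.hS F 𝔹 v' - p.hS F 𝔹 v := by
  have hS_mono : ∀ w ∈ Ioo 0 p.a, ∀ w' ∈ Ioo 0 p.a, w ≤ w' → p.hS F 𝔹 w ≤ p.hS F 𝔹 w' := by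
    intro w hw w' hw' hww
    have h1 := hinc w hw w' hw' hww
    have h2 : 0 ≤ p.K F 𝔹 w' - p.K F 𝔹 w := sub_nonneg.2 (hK hw hw' hww)
    have h3 : 0 ≤ c4 * p.lam * w ^ 2 * (p.K F 𝔹 w' - p.K F 𝔹 w) := by positivity
    linarith
  have hxi : ∀ w ∈ Ioo 0 p.a, ∀ w' ∈ Ioo 0 p.a, w ≤ w' → p.xi F 𝔹 w ≤ p.xi F 𝔹 w' := by
    intro w hw w' hw' hww
    have h1 := hK hw hw' hww
    unfold LlPt.K at h1
    exact le_of_mul_le_mul_left h1 (by positivity)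
  rcases le_or_gt (p.xi F 𝔹 v') c with h | h
  · rw [max_eq_left (by linarith [le_max_right (p.xi F 𝔹 v) c]), mul_zero]
    exact sub_nonneg.2 (hS_mono v hv v' hv' hvv)
  · have hv1' : v1 ≤ v' := hv1 v' hv' h
    set w0 := max v (v1 / 2) with hw0
    have hw0v : v ≤ w0 := le_max_left _ _
    have hw0h : v1 / 2 ≤ w0 := le_max_right _ _
    have hw0v' : w0 ≤ v' := max_le hvv (by linarith)
    have hw0m : w0 ∈ Ioo 0 p.a := ⟨lt_of_lt_of_le hv.1 hw0v, lt_of_le_of_lt hw0v' hv'.2⟩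
    have hξ0 : p.xi F 𝔹 w0 ≤ max (p.xi F 𝔹 v) c := by
      rcases le_total v (v1 / 2) with h1 | h1
      · have e : w0 = v1 / 2 := max_eq_right h1
        refine le_trans ?_ (le_max_right _ _)
        by_contra hcon
        have := hv1 w0 hw0m (not_le.1 hcon)
        linarith
      · have e : w0 = v := max_eq_left h1
        rw [e]
        exact le_max_left _ _
    have hD : 0 ≤ p.xi F 𝔹 v' - p.xi F 𝔹 w0 := sub_nonneg.2 (hxi w0 hw0m v' hv' hw0v')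
    have hm : max 0 (p.xi F 𝔹 v' - max (p.xi F 𝔹 v) c) ≤ p.xi F 𝔹 v' - p.xi F 𝔹 w0 := max_le hD (by linarith)
    have hsq : v1 ^ 2 / 4 ≤ w0 ^ 2 := by nlinarith
    have h1 := hinc w0 hw0m v' hv' hw0v'
    have h2 := hS_mono v hv w0 hw0m hw0v
    have e1 : c4 * p.lam * w0 ^ 2 * (p.K F 𝔹 v' - p.K F 𝔹 w0)
        = c4 * p.lam / p.ell ^ 2 * w0 ^ 2 * (p.xi F 𝔹 v' - p.xi F 𝔹 w0) := by
      unfold LlPt.K; field_simp
    have e2 : c4 * p.lam * v1 ^ 2 / (4 * p.ell ^ 2) = c4 * p.lam / p.ell ^ 2 * (v1 ^ 2 / 4) := by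
      field_simp
    have hk : 0 ≤ c4 * p.lam / p.ell ^ 2 := by positivity
    calc c4 * p.lam * v1 ^ 2 / (4 * p.ell ^ 2) * max 0 (p.xi F 𝔹 v' - max (p.xi F 𝔹 v) c)
        ≤ c4 * p.lam / p.ell ^ 2 * (v1 ^ 2 / 4) * (p.xi F 𝔹 v' - p.xi F 𝔹 w0) := by
          rw [e2]; exact mul_le_mul_of_nonneg_left hm (by positivity)
      _ ≤ c4 * p.lam / p.ell ^ 2 * w0 ^ 2 * (p.xi F 𝔹 v' - p.xi F 𝔹 w0) :=
          mul_le_mul_of_nonneg_right (mul_le_mul_of_nonneg_left hsq hk) hD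
      _ ≤ p.hS F 𝔹 v' - p.hS F 𝔹 v := by rw [← e1]; linarith
/-- the ramp is paid by `h_*` -/
theorem lcc_edge_paid (hOk : p.Ok F) (hc4 : 0 ≤ c4)
    (hinc : ∀ v ∈ Ioo 0 p.a, ∀ v' ∈ Ioo 0 p.a, v ≤ v' →
      c4 * p.lam * v ^ 2 * (p.K F 𝔹 v' - p.K F 𝔹 v) ≤ p.hS F 𝔹 v' - p.hS F 𝔹 v)
    (hK : MonotoneOn (p.K F 𝔹) (Ioo 0 p.a))
    (hE : p.chiE = 0 ∨ (LccBase F 𝔹 p E1 ∧ LccRamp F 𝔹 p c4 v1))
    (v v' : ℝ) (hv : v ∈ Ioo 0 p.a) (hv' : v' ∈ Ioo 0 p.a) (hvv : v ≤ v') :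
    0 ≤ p.hS F 𝔹 v' - p.hS F 𝔹 v + p.chiE * (p.He F 𝔹 v' - p.He F 𝔹 v) := by
  have hx0 := lcc_x_pos hOk.N2
  have hell : 0 < p.ell := lt_of_lt_of_le one_pos hOk.ell1
  have hlam : 0 < p.lam := lt_of_lt_of_le (Real.rpow_pos_of_pos hx0 _) hOk.lam_lo
  have hS_mono : 0 ≤ p.hS F 𝔹 v' - p.hS F 𝔹 v := by
    have h1 := hinc v hv v' hv' hvv
    have h2 : 0 ≤ p.K F 𝔹 v' - p.K F 𝔹 v := sub_nonneg.2 (hK hv hv' hvv)
    have h3 : 0 ≤ c4 * p.lam * v ^ 2 * (p.K F 𝔹 v' - p.K F 𝔹 v) := by positivity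
    linarith
  by_cases h0 : p.chiE = 0
  · rw [h0, zero_mul, add_zero]; exact hS_mono
  obtain ⟨H, R⟩ := hE.resolve_left h0
  have hsm : p.sm = false := by
    by_contra hcon
    exact h0 (hOk.sm_fin (by simpa using hcon)).2
  have ha : p.a = p.ell := by unfold LlPt.a; rw [hsm]; simp
  have hEb := lcc_Eb_pos H
  have hv10 : 0 < v1 := lt_trans hx0 R.xv1
  have hxi : p.xi F 𝔹 v ≤ p.xi F 𝔹 v' := by
    have h1 := hK hv hv' hvv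
    unfold LlPt.K at h1
    exact le_of_mul_le_mul_left h1 (by positivity)
  have g1 := lcc_hS_gain hell hlam.le hc4 hv10 (𝔹.xiS F.T - p.Eb F 𝔹) hinc hK R.ramp v v' hv hv' hvv
  have g2 := lcc_He_incr H hell v v' hvv (by rw [div_le_one hell, ← ha]; exact hv'.2.le) hxi (R.xi_le v hv) (R.xi_ge v' hv')
  set m := max 0 (p.xi F 𝔹 v' - max (p.xi F 𝔹 v) (𝔹.xiS F.T - p.Eb F 𝔹)) with hm
  have hm0 : 0 ≤ m := le_max_left _ _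
  -- `|H_e(p_top)| / E_b ≤ C_R λ_1 ≤ c_4 λ v_1^2 / (4 ℓ^2)`
  have g3 : |p.HePl F 𝔹 (𝔹.pTop F.T)| / p.Eb F 𝔹 ≤ c4 * p.lam * v1 ^ 2 / (4 * p.ell ^ 2) := by
    have t1 := lcc_HePl_top H
    rw [div_le_iff₀ hEb]
    refine t1.trans (mul_le_mul_of_nonneg_right ?_ hEb.le)
    rw [le_div_iff₀ (by positivity)]
    linarith [R.small]
  have g4 : |p.HePl F 𝔹 (𝔹.pTop F.T)| / p.Eb F 𝔹 * m ≤ p.hS F 𝔹 v' - p.hS F 𝔹 v :=
    (mul_le_mul_of_nonneg_right g3 hm0).trans g1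
  have hc0 := hOk.chiE.1
  have hc1 := hOk.chiE.2
  have g5 : 0 ≤ |p.HePl F 𝔹 (𝔹.pTop F.T)| / p.Eb F 𝔹 * m := mul_nonneg (div_nonneg (abs_nonneg _) hEb.le) hm0
  nlinarith

/-- **C7**: the field clock (P6) is nondecreasing and nonnegative -/
theorem lcc_h_adm (hOk : p.Ok F) (hc4 : 0 ≤ c4)
    (hinc : ∀ v ∈ Ioo 0 p.a, ∀ v' ∈ Ioo 0 p.a, v ≤ v' →
      c4 * p.lam * v ^ 2 * (p.K F 𝔹 v' - p.K F 𝔹 v) ≤ p.hS F 𝔹 v' - p.hS F 𝔹 v)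
    (hS0 : ∀ v ∈ Ioo 0 p.a, 0 ≤ p.hS F 𝔹 v)
    (hK : MonotoneOn (p.K F 𝔹) (Ioo 0 p.a))
    (hE : p.chiE = 0 ∨ (LccBase F 𝔹 p E1 ∧ LccRamp F 𝔹 p c4 v1)) :
    MonotoneOn (p.h F 𝔹) (Ioo 0 p.a) ∧ ∀ v ∈ Ioo 0 p.a, 0 ≤ p.h F 𝔹 v := by
  have hx0 := lcc_x_pos hOk.N2
  have hx1 := lcc_x_lt_one hOk.N2
  have hell : 0 < p.ell := lt_of_lt_of_le one_pos hOk.ell1
  have hlam : 0 < p.lam := lt_of_lt_of_le (Real.rpow_pos_of_pos hx0 _) hOk.lam_lo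
  have ha1 := lcc_one_le_a hOk.ell1
  have hxa : p.x ∈ Ioo 0 p.a := ⟨hx0, lt_of_lt_of_le hx1 ha1⟩
  have hU : 0 ≤ p.U F := le_min zero_le_one (mul_nonneg hx0.le (Real.rpow_nonneg hlam.le _))
  have hl1 : 0 ≤ p.lam1 F := Real.rpow_nonneg hlam.le _
  have hLo : ∀ v v' : ℝ, 0 < v → v ≤ v' → p.Hlo F v ≤ p.Hlo F v' := by
    intro v v' hv hvv
    unfold LlPt.Hlo
    refine mul_le_mul_of_nonneg_left ?_ (by positivity)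
    refine Real.log_le_log (div_pos (lt_min hv hell) hx0) ?_
    exact div_le_div_of_nonneg_right (min_le_min_right _ hvv) hx0.le
  have hLin : ∀ v v' : ℝ, v ≤ v' → p.Hlin F v ≤ p.Hlin F v' := by
    intro v v' hvv
    unfold LlPt.Hlin
    refine mul_le_mul_of_nonneg_left ?_ (by positivity)
    exact max_le_max le_rfl (sub_le_sub_right (min_le_min_right _ hvv) _)
  have hLin0 : ∀ v : ℝ, 0 ≤ p.Hlin F v := fun v => mul_nonneg (by positivity) (le_max_left _ _)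
  -- the upper branch is nondecreasing
  have hup : ∀ v ∈ Ioo 0 p.a, ∀ v' ∈ Ioo 0 p.a, v ≤ v' →
      p.hS F 𝔹 v + p.Hlo F v + p.chiL * p.Hlin F v + p.chiE * p.He F 𝔹 v ≤
        p.hS F 𝔹 v' + p.Hlo F v' + p.chiL * p.Hlin F v' + p.chiE * p.He F 𝔹 v' := by
    intro v hv v' hv' hvv
    have e1 := lcc_edge_paid hOk hc4 hinc hK hE v v' hv hv' hvv
    have e2 := hLo v v' hv.1 hvv
    have e3 := mul_le_mul_of_nonneg_left (hLin v v' hvv) hOk.chiL.1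
    nlinarith
  -- its value at the cut
  have hcut : 0 ≤ p.hS F 𝔹 p.x + p.Hlo F p.x + p.chiL * p.Hlin F p.x + p.chiE * p.He F 𝔹 p.x := by
    have e1 : p.Hlo F p.x = 0 := by
      unfold LlPt.Hlo
      rw [min_eq_left (by linarith [hOk.ell1]), div_self hx0.ne', Real.log_one, mul_zero]
    have e2 : p.chiE * p.He F 𝔹 p.x = 0 := by
      by_cases h0 : p.chiE = 0
      · rw [h0, zero_mul]
      obtain ⟨H, R⟩ := hE.resolve_left h0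
      have hEb := lcc_Eb_pos H
      have hξ : p.xi F 𝔹 p.x ≤ 𝔹.xiS F.T - p.Eb F 𝔹 := by
        by_contra hcon
        have := R.ramp p.x hxa (not_le.1 hcon)
        linarith [R.xv1]
      have hact : p.x / p.ell < 𝔹.pTop F.T := by
        by_contra hcon
        have := R.xi_ge p.x hxa (not_lt.1 hcon)
        linarith
      rw [lcc_He_zero H p.x hact hξ, mul_zero]
    have e3 := mul_nonneg hOk.chiL.1 (hLin0 p.x)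
    rw [e1, e2]
    linarith [hS0 p.x hxa]
  have hnn : ∀ v ∈ Ioo 0 p.a, 0 ≤ p.h F 𝔹 v := by
    intro v hv
    unfold LlPt.h
    split_ifs with h
    · exact le_rfl
    · exact hcut.trans (hup p.x hxa v hv (not_lt.1 h))
  refine ⟨?_, hnn⟩
  intro v hv v' hv' hvv
  by_cases h : v < p.x
  · have : p.h F 𝔹 v = 0 := by unfold LlPt.h; rw [if_pos h]
    rw [this]
    exact hnn v' hv'
  · have h' : ¬ v' < p.x := fun hc => h (lt_of_le_of_lt hvv hc)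
    unfold LlPt.h
    rw [if_neg h, if_neg h']
    exact hup v hv v' hv' hvv

end adm

/-! ## 5. location of the ramp (C8) and the remaining exports for (P8) -/

section ramp

variable {F : LlFix} {𝔹 : LlBase} {p : LlPt} {E1 : ℝ}

/-- **C8**: on a direct path the ramp lies at `v/ℓ > p_top - d_-` -/
theorem lcc_ramp (H : LccBase F 𝔹 p E1) (hsm : p.sm = false) (hP : 0 ≤ F.P (𝔹.xiS F.T - p.Eb F 𝔹))
    (v : ℝ) (hv : 𝔹.xiS F.T - p.Eb F 𝔹 < p.xi F 𝔹 v) : 𝔹.pTop F.T - p.dMi F 𝔹 < v / p.ell := by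
  by_contra hcon
  have hcon' : v / p.ell ≤ 𝔹.pTop F.T - p.dMi F 𝔹 := not_lt.1 hcon
  have h3 := (lcc_Eb H).2.2
  have hA : p.Aprof F 𝔹 = p.Adir F 𝔹 := by unfold LlPt.Aprof; rw [hsm]; simp
  have hmem : 𝔹.xiS F.T - p.Eb F 𝔹 ∈ {ξ : ℝ | 0 ≤ ξ ∧ v / p.ell ≤ p.Aprof F 𝔹 ξ} := by
    refine ⟨by linarith [lcc_Eb_lt_xiS H], ?_⟩
    rw [hA]
    unfold LlPt.Adir
    have := mul_nonneg H.lam0.le hP
    linarith
  have : p.xi F 𝔹 v ≤ 𝔹.xiS F.T - p.Eb F 𝔹 := by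
    unfold LlPt.xi llInv
    exact csInf_le ⟨0, fun ξ hξ => hξ.1⟩ hmem
  linarith

/-- the ramp lives at masses `≥ p_top - g(E1)` -/
theorem lcc_ramp_mass (H : LccBase F 𝔹 p E1) (hsm : p.sm = false) (hP : 0 ≤ F.P (𝔹.xiS F.T - p.Eb F 𝔹))
    (hl : 1 ≤ p.ell) (v : ℝ) (hv0 : 0 ≤ v) (hv : 𝔹.xiS F.T - p.Eb F 𝔹 < p.xi F 𝔹 v) :
    𝔹.A0 F.T (𝔹.xiS F.T - E1) ≤ v := by
  have h1 := lcc_ramp H hsm hP v hv
  have h2 := (lcc_dMi_le H).1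
  have h3 : v / p.ell ≤ v := div_le_self hv0 hl
  linarith

/-- lower bounds of `d_±` by a power of `x` -/
theorem lcc_d_ge (H : LccBase F 𝔹 p E1) (hx0 : 0 ≤ p.x) (hxU : p.x ≤ p.Ut F) :
    p.x ^ (4 : ℝ) ≤ p.dPl F ∧ p.x ^ (4 : ℝ) ≤ p.dMi F 𝔹 := by
  have h1 : p.x ^ (4 : ℝ) ≤ p.dPl F := by
    have : p.x ^ (4 : ℝ) = p.x ^ 4 := by exact_mod_cast Real.rpow_natCast p.x 4
    rw [this]
    exact pow_le_pow_left₀ hx0 hxU 4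
  exact ⟨h1, h1.trans (lcc_dPl_le_dMi H)⟩

end ramp

end Claimed.Agent.R286
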