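import Claimed.Agent.R286.Sc.Par
import Claimed.Agent.R286.LL.PathsDerA
import Claimed.Agent.R286.LL.PathsDerB
import Claimed.Agent.R286.LL.PathsDer
import Claimed.Agent.R286.LL.PathsReg

/-!
# Row 286 (S0533), LL Section 3, DER part C: DEPENDENCE ON THE TERMINAL MASS `j`      (helper46; prefix `lsf_`)

Scalar inputs of Lemma paths:parameter-regularity (03 l.195-368), SMOOTHED reference, size variations: below the time `T` (`= M` of the paper) the normalised profile is fixed, only the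
terminal mass `j = 4/ℓ` moves.      Everything is derived from the rules `LscMod.Ok` (`LL/PathsSc`), in LIPSCHITZ form (no derivative in `j`).
* `LsfDec M`   : decay of `P_{s,t} sqrt(1 - u_t²)` from an ARBITRARY start (helper215, `lpd_decP`).
* `lsf_val`    : `|V_{j'} - V_j - c|(ξ) ≤ 4 |j'-j| e^{-a0² (T - max ξ R)/8}`      (two sided comparison with the two transition operators + `LsfDec` + Jensen).
* `lsf_crude`  : `|∂_z^k (V_{j'} - V_j)|(ξ) ≤ C_k |j'-j|`, `C_k` FREE OF `T`      (`P_grad`, finite differences `lse_fd_main`, Landau for the quadratic term).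
* **`lsf_jlip`** (J1): `|∂_z^k (V_{j'} - V_j)|(ξ) ≤ C e^{-c (T - max ξ R)} |j'-j|`      (multiplicative Landau-Kolmogorov between the two).
* `lsf_duh` (J2): tau-free Duhamel for the laws;      **`lsf_gam`**: `|Γ_{j'} - Γ_j|(ξ) ≤ C |j'-j|`, `0 ≤ ξ ≤ T`.
TEX[LL:paths:parameter-regularity]
-/

set_option autoImplicit false

namespace Claimed.Agent.R286

open MeasureTheory Set Filter Topology

/-- decay of `sqrt(1 - u²)` while the mass is bounded below, from an arbitrary starting point -/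
def LsfDec (M : LscMod) : Prop :=
  ∀ (A : ℝ → ℝ) (j Ξ : ℝ), 0 < j → LscProf j Ξ A → ∀ s t a0 : ℝ, 0 ≤ s → s ≤ t → 0 ≤ a0 → (∀ r ∈ Icc s t, a0 ≤ A r) → ∀ z,
    M.P A j s t (fun y => √(1 - M.D 1 A j t y ^ 2)) z ≤ Real.exp (-(a0 ^ 2 * (t - s) / 2))

/-! ## 0. `LsfDec` from the rules (helper215): `lpdc_eps`, `lpdc_dec` of LL/PathsDer with the start `(s, z)` -/

/-- exponential decay from a differential inequality, base point `s` -/
theorem lpdc_odeS {n γ : ℝ → ℝ} {s t c n0 : ℝ} (hst : s ≤ t) (hγ : ContinuousOn γ (Icc s t))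
    (hn : ∀ r ∈ Icc s t, n r = n0 + ∫ x in s..r, γ x) (hle : ∀ r ∈ Icc s t, γ r ≤ -(c * n r)) :
    n t ≤ Real.exp (-(c * (t - s))) * n s := by
  have hmem : ∀ r ∈ Icc (0 : ℝ) (t - s), s + r ∈ Icc s t := fun r hr => ⟨by linarith [hr.1], by linarith [hr.2]⟩
  have key := lpdc_ode (n := fun r => n (s + r)) (γ := fun r => γ (s + r)) (s := 0) (t := t - s) (c := c) (n0 := n0) le_rfl (by linarith)
    (hγ.comp (by fun_prop) hmem) (fun r hr => by
      rw [hn _ (hmem r hr), intervalIntegral.integral_comp_add_left (fun x => γ x) s, add_zero])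
    (fun r hr => hle _ (hmem r hr))
  simpa using key

/-- the regularised inequality, start `(s, z)` -/
theorem lpdc_epsP {M : LscMod} (hM : M.Ok) {A : ℝ → ℝ} {j Ξ : ℝ} (hj : 0 < j) (hA : LscProf j Ξ A) {s t a0 : ℝ} (hs : 0 ≤ s) (hst : s ≤ t)
    (ha : 0 ≤ a0) (hlow : ∀ r ∈ Icc s t, a0 ≤ A r) {ε : ℝ} (hε : 0 < ε) (hε1 : ε ≤ 1) (z : ℝ) :
    M.P A j s t (fun y => Real.sqrt (1 - M.D 1 A j t y ^ 2)) z
      ≤ 2 * Real.sqrt ε + Real.exp (-(a0 ^ 2 / 2 * (t - s))) * Real.sqrt (1 + ε) := by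
  obtain ⟨g, hg, hg0, hg2⟩ := lpdc_ext hε hε1
  have ht0 : 0 ≤ t := hs.trans hst
  have hsub : Icc s t ⊆ Icc 0 t := Icc_subset_Icc hs le_rfl
  have hu : ∀ r, 0 ≤ r → ∀ y, M.D 1 A j r y ∈ Icc (-1 : ℝ) 1 := fun r hr y => abs_le.1 (hM.u_le hj hA r hr y)
  have hd := hM.dyn_comp (hM.dyn_V1 hj hA hs hst) ⟨1, fun r hr y => hM.u_le hj hA r (hs.trans hr.1) y⟩ hg
  set φ : ℝ → ℝ → ℝ := fun r y => g (M.D 1 A j r y) with hφ
  set G : ℝ → ℝ → ℝ := fun r y => deriv g (M.D 1 A j r y) * 0 + deriv (deriv g) (M.D 1 A j r y) * deriv (M.D 1 A j r) y ^ 2 / 2 with hG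
  have hφE : ∀ r ∈ Icc s t, ScE 0 (φ r) := fun r hr => ((hM.dyn_reg hd).scE hr).mono (by norm_num)
  have hGE : ∀ r ∈ Icc s t, ScE 0 (G r) := (hM.dyn_gen hd).1
  have hprod : Icc s t ×ˢ (univ : Set ℝ) ⊆ Icc 0 t ×ˢ (univ : Set ℝ) := prod_mono hsub le_rfl
  have c1 : ContinuousOn (fun p : ℝ × ℝ => M.D 1 A j p.1 p.2) (Icc s t ×ˢ univ) := (hM.D_T hj hA t 0 1).continuousOn.mono hprod
  have c2 : ContinuousOn (fun p : ℝ × ℝ => M.D 2 A j p.1 p.2) (Icc s t ×ˢ univ) := (hM.D_T hj hA t 0 2).continuousOn.mono hprod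
  have hg'' : Continuous (deriv (deriv g)) := (hg.iterate_deriv 2).continuous
  have hGT : ScT (Icc s t) 0 G := by
    refine ⟨?_, (hM.dyn_gen hd).2⟩
    have e : (fun p : ℝ × ℝ => G p.1 p.2) = fun p : ℝ × ℝ => deriv (deriv g) (M.D 1 A j p.1 p.2) * M.D 2 A j p.1 p.2 ^ 2 / 2 := by
      funext p
      simp only [hG, LscMod.lsd_D_succ, mul_zero, zero_add]
    rw [e]
    exact ((hg''.comp_continuousOn c1).mul (c2.pow 2)).div_const 2
  have hγ : ContinuousOn (fun r => M.P A j s r (G r) z) (Icc s t) := hM.P_fwd hj hA hs hst hGT z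
  set e : ℝ := Real.sqrt ε with he
  have he0 : 0 < e := Real.sqrt_pos.2 hε
  have hee : e ^ 2 = ε := Real.sq_sqrt hε.le
  have hn : ∀ r ∈ Icc s t, M.P A j s r (φ r) z - 2 * e = (φ s z - 2 * e) + ∫ x in s..r, M.P A j s x (G x) z := by
    intro r hr
    have := (hM.dynkin hj hA hs hr.1 (hM.dyn_sub hd le_rfl hr.1 hr.2) z).2
    linarith
  have hle : ∀ r ∈ Icc s t, M.P A j s r (G r) z ≤ -(a0 ^ 2 / 2 * (M.P A j s r (φ r) z - 2 * e)) := by
    intro r hr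
    have hr0 : 0 ≤ r := hs.trans hr.1
    have hE2 : ScE 0 (fun y => (-(a0 ^ 2 / 2)) * φ r y + a0 ^ 2 / 2 * (2 * e)) := ((hφE r hr).const_mul _).add (ScE.const 0 _)
    have h1 := hM.P_mono hj hA hs hr.1 (hGE r hr) hE2 (fun y => by
      have hx := hu r hr0 y
      have hq : ε ≤ ε + 1 - M.D 1 A j r y ^ 2 := by
        have : M.D 1 A j r y ^ 2 ≤ 1 := by
          have := sq_le_sq' hx.1 hx.2
          simpa using this
        linarith
      have hS : e ≤ Real.sqrt (ε + 1 - M.D 1 A j r y ^ 2) := Real.sqrt_le_sqrt hq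
      have hSS : Real.sqrt (ε + 1 - M.D 1 A j r y ^ 2) ^ 2 = ε + 1 - M.D 1 A j r y ^ 2 := Real.sq_sqrt (hε.le.trans hq)
      have hχ : a0 * (Real.sqrt (ε + 1 - M.D 1 A j r y ^ 2) ^ 2 - e ^ 2) ≤ M.D 2 A j r y := by
        rw [hSS, hee]
        have h3 := hM.chi_lo hj hA r hr0 y
        have h4 : 0 ≤ 1 - M.D 1 A j r y ^ 2 := by linarith
        have h5 : a0 * (1 - M.D 1 A j r y ^ 2) ≤ A r * (1 - M.D 1 A j r y ^ 2) := mul_le_mul_of_nonneg_right (hlow r hr) h4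
        have e6 : ε + 1 - M.D 1 A j r y ^ 2 - ε = 1 - M.D 1 A j r y ^ 2 := by ring
        rw [e6]
        linarith
      have h7 := lpdc_ineq he0 hS ha hχ
      simp only [hG, hφ, LscMod.lsd_D_succ, mul_zero, zero_add]
      rw [hg2 _ hx, hg0 _ hx, ← hee]
      rw [hee]
      rw [hee] at h7
      linarith) z
    rw [hM.P_add hj hA hs hr.1 ((hφE r hr).const_mul _) (ScE.const 0 _), hM.P_smul hj hA hs hr.1 _ (hφE r hr),
      hM.P_const hj hA hs hr.1] at h1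
    linarith
  have key := lpdc_odeS hst hγ hn hle
  have hsI : s ∈ Icc s t := ⟨le_rfl, hst⟩
  have htI : t ∈ Icc s t := ⟨hst, le_rfl⟩
  have h8 : M.P A j s s (φ s) z ≤ Real.sqrt (1 + ε) := by
    have := hM.P_mono hj hA hs le_rfl (hφE s hsI) (ScE.const 0 (Real.sqrt (1 + ε))) (fun y => by
      simp only [hφ]
      rw [hg0 _ (hu s hs y)]
      exact Real.sqrt_le_sqrt (by nlinarith [sq_nonneg (M.D 1 A j s y)])) z
    rwa [hM.P_const hj hA hs le_rfl] at this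
  have hE0 : ScE 0 (fun y => Real.sqrt (1 - M.D 1 A j t y ^ 2)) := by
    refine ⟨?_, ScG.of_bdd (C := 1) fun y => ?_⟩
    · exact (continuous_const.sub ((hM.D_E hj hA ht0 0 1).continuous.pow 2)).sqrt
    · rw [abs_of_nonneg (Real.sqrt_nonneg _)]
      refine Real.sqrt_le_one.2 ?_ |>.trans le_rfl
      nlinarith [sq_nonneg (M.D 1 A j t y)]
  have h9 : M.P A j s t (fun y => Real.sqrt (1 - M.D 1 A j t y ^ 2)) z ≤ M.P A j s t (φ t) z :=
    hM.P_mono hj hA hs hst hE0 (hφE t htI) (fun y => by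
      simp only [hφ]
      rw [hg0 _ (hu t ht0 y)]
      exact Real.sqrt_le_sqrt (by linarith)) z
  have hx0 := Real.exp_pos (-(a0 ^ 2 / 2 * (t - s)))
  have h10 : Real.exp (-(a0 ^ 2 / 2 * (t - s))) * (M.P A j s s (φ s) z - 2 * e)
      ≤ Real.exp (-(a0 ^ 2 / 2 * (t - s))) * Real.sqrt (1 + ε) :=
    mul_le_mul_of_nonneg_left (by linarith) hx0.le
  linarith

/-- **the debt `LsfDec`** -/
theorem lpdc_decP {M : LscMod} (hM : M.Ok) : LsfDec M := by
  intro A j Ξ hj hA s t a0 hs hst ha hlow z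
  have hlim : Tendsto (fun ε : ℝ => 2 * Real.sqrt ε + Real.exp (-(a0 ^ 2 / 2 * (t - s))) * Real.sqrt (1 + ε)) (𝓝[>] 0)
      (𝓝 (2 * Real.sqrt 0 + Real.exp (-(a0 ^ 2 / 2 * (t - s))) * Real.sqrt (1 + 0))) := by
    have hc : Continuous (fun ε : ℝ => 2 * Real.sqrt ε + Real.exp (-(a0 ^ 2 / 2 * (t - s))) * Real.sqrt (1 + ε)) := by fun_prop
    exact (hc.tendsto 0).mono_left nhdsWithin_le_nhds
  have h1 := ge_of_tendsto hlim (b := M.P A j s t (fun y => Real.sqrt (1 - M.D 1 A j t y ^ 2)) z) (by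
    have : Ioc (0 : ℝ) 1 ∈ 𝓝[>] (0 : ℝ) := Ioc_mem_nhdsGT one_pos
    filter_upwards [this] with ε hε
    exact lpdc_epsP hM hj hA hs hst ha hlow hε.1 hε.2 z)
  simp only [Real.sqrt_zero, mul_zero, zero_add, add_zero, Real.sqrt_one, mul_one] at h1
  refine h1.trans (le_of_eq ?_)
  congr 1
  ring

section one

variable {M : LscMod}

/-! ## 1. comparison with the transition operator; Jensen -/

/-- `V' - V ≥ P^A (V' - V)(t) - (1/2) ∫ |A' - A|` -/
theorem lsf_cmp_P (h : M.Ok) {A A' : ℝ → ℝ} {j j' Ξ Ξ' : ℝ} (hj : 0 < j) (hj' : 0 < j') (hA : LscProf j Ξ A) (hA' : LscProf j' Ξ' A')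
    {s t : ℝ} (hs : 0 ≤ s) (hst : s ≤ t) (z : ℝ) :
    M.P A j s t (fun y => M.V A' j' t y - M.V A j t y) z - (1 / 2) * ∫ r in s..t, |A' r - A r| ≤ M.V A' j' s z - M.V A j s z := by
  have hD := lse_dyn_diff h hj hj' hA hA' hs hst
  obtain ⟨hi, he⟩ := h.dynkin hj hA hs hst hD z
  have h2 : ∫ r in s..t, M.P A j s r (lseG M A j A' j' r) z ≤ ∫ r in s..t, (1 / 2) * |A' r - A r| := by
    refine intervalIntegral.integral_mono_on hst hi ((lse_abs_intble hA hA' hs hst).const_mul _) fun r hr => ?_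
    have hr0 : 0 ≤ r := hs.trans hr.1
    have := h.P_mono hj hA hs hr.1 ((h.dyn_gen hD).1 r hr) (ScE.const 0 ((1 / 2) * |A' r - A r|)) (fun y => ?_) z
    · rwa [h.P_const hj hA hs hr.1] at this
    · unfold lseG
      have hu := h.u_le hj' hA' r hr0 y
      have hu2 : M.D 1 A' j' r y ^ 2 ≤ 1 := by
        rw [← sq_abs]; exact pow_le_one₀ (abs_nonneg _) hu
      have hu0 : 0 ≤ M.D 1 A' j' r y ^ 2 := sq_nonneg _
      have hAr := hA.nn hr0
      have h3 : -(|A' r - A r|) ≤ (A' r - A r) * M.D 1 A' j' r y ^ 2 := by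
        have := neg_abs_le (A' r - A r)
        have := abs_nonneg (A' r - A r)
        nlinarith
      have h4 : 0 ≤ A r * (M.D 1 A' j' r y - M.D 1 A j r y) ^ 2 := mul_nonneg hAr (sq_nonneg _)
      linarith
  rw [intervalIntegral.integral_const_mul] at h2
  linarith

/-- Jensen for the square root -/
theorem lsf_sqrt (h : M.Ok) {A : ℝ → ℝ} {j Ξ : ℝ} (hj : 0 < j) (hA : LscProf j Ξ A) {s t : ℝ} (hs : 0 ≤ s) (hst : s ≤ t) {g : ℝ → ℝ}
    (hg : ScE 0 g) (hg0 : ∀ y, 0 ≤ g y) {e z : ℝ} (he : 0 < e) (hP : M.P A j s t g z ≤ e) : M.P A j s t (fun y => √(g y)) z ≤ √e := by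
  have hl : 0 < √e := Real.sqrt_pos.2 he
  have h1 : ∀ y, √(g y) ≤ (2 * √e)⁻¹ * g y + √e / 2 := by
    intro y
    have h2 : (√(g y) - √e) ^ 2 ≥ 0 := sq_nonneg _
    have h3 := Real.sq_sqrt (hg0 y)
    have h4 := Real.sq_sqrt he.le
    rw [inv_mul_eq_div, ← sub_nonneg]
    have : g y / (2 * √e) + √e / 2 - √(g y) = (√(g y) - √e) ^ 2 / (2 * √e) := by
      field_simp
      nlinarith
    rw [this]
    positivity
  have h2 := h.P_mono hj hA hs hst (lpa_sqrt_E0 hg) ((hg.const_mul _).add (ScE.const 0 (√e / 2))) h1 z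
  rw [h.P_add hj hA hs hst (hg.const_mul _) (ScE.const 0 _), h.P_smul hj hA hs hst _ hg, h.P_const hj hA hs hst] at h2
  refine h2.trans ?_
  have h3 : (2 * √e)⁻¹ * M.P A j s t g z ≤ (2 * √e)⁻¹ * e := mul_le_mul_of_nonneg_left hP (by positivity)
  have h4 : (2 * √e)⁻¹ * e = √e / 2 := by
    have := Real.sq_sqrt he.le
    field_simp
    nlinarith
  linarith

/-! ## 2. the terminal data -/

theorem lsf_sech (x : ℝ) : √(1 - Real.tanh x ^ 2) = (Real.cosh x)⁻¹ := by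
  have hc := Real.cosh_pos x
  have : 1 - Real.tanh x ^ 2 = (Real.cosh x)⁻¹ ^ 2 := by
    rw [Real.tanh_eq_sinh_div_cosh]
    have := Real.cosh_sq x
    field_simp
    linarith
  rw [this, Real.sqrt_sq (by positivity)]

theorem lsf_cosh_le (x : ℝ) : Real.cosh x ≤ Real.exp |x| := by
  rw [← Real.cosh_abs, Real.cosh_eq]
  have : Real.exp (-|x|) ≤ Real.exp |x| := Real.exp_le_exp.2 (by linarith [abs_nonneg x])
  linarith

theorem lsf_cosh_ge (x : ℝ) : Real.exp |x| / 2 ≤ Real.cosh x := by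
  rw [← Real.cosh_abs, Real.cosh_eq]
  have := Real.exp_pos (-|x|)
  linarith

/-- `sech (j z) ≤ 2 sech (j' z)^{1/4}` for `1 ≤ j`, `j' ≤ 4` -/
theorem lsf_sech_le {j j' : ℝ} (hj : 1 ≤ j) (hj' : j' ≤ 4) (hj'0 : 0 ≤ j') (z : ℝ) : (Real.cosh (j * z))⁻¹ ≤ 2 * √(√((Real.cosh (j' * z))⁻¹)) := by
  have hc := Real.cosh_pos (j * z)
  have hc' := Real.cosh_pos (j' * z)
  have h1 : Real.cosh (j' * z) ≤ 16 * Real.cosh (j * z) ^ 4 := by
    have a1 := lsf_cosh_le (j' * z)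
    have a2 := lsf_cosh_ge (j * z)
    have a3 : Real.exp |j' * z| ≤ Real.exp |j * z| ^ 4 := by
      rw [← Real.exp_nat_mul]
      refine Real.exp_le_exp.2 ?_
      rw [abs_mul, abs_mul, abs_of_nonneg hj'0, abs_of_nonneg (by linarith : (0 : ℝ) ≤ j)]
      push_cast
      nlinarith [abs_nonneg z]
    have a4 : (Real.exp |j * z| / 2) ^ 4 ≤ Real.cosh (j * z) ^ 4 := pow_le_pow_left₀ (by positivity) a2 4
    have a5 : (Real.exp |j * z| / 2) ^ 4 = Real.exp |j * z| ^ 4 / 16 := by ring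
    linarith
  have h2 : ((Real.cosh (j * z))⁻¹ / 2) ^ 4 ≤ (Real.cosh (j' * z))⁻¹ := by
    rw [div_pow, inv_pow, div_le_iff₀ (by norm_num), inv_le_comm₀ (by positivity) (by positivity), mul_inv, inv_inv]
    norm_num
    linarith
  have h3 : (Real.cosh (j * z))⁻¹ / 2 ≤ √(√((Real.cosh (j' * z))⁻¹)) := by
    refine Real.le_sqrt_of_sq_le (Real.le_sqrt_of_sq_le ?_)
    calc (((Real.cosh (j * z))⁻¹ / 2) ^ 2) ^ 2 = ((Real.cosh (j * z))⁻¹ / 2) ^ 4 := by ring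
      _ ≤ _ := h2
  linarith

/-- values of the terminal data, modulo a constant -/
theorem lsf_LC_val {j j' : ℝ} (hj : 1 ≤ j) (hjj : j ≤ j') : ∃ c : ℝ, ∀ z, |scLC j' z - scLC j z - c| ≤ 2 * (j' - j) * (Real.cosh (j * z))⁻¹ := by
  have hF := scq_LC (j₀ := j) (j₁ := j') (by linarith)
  refine ⟨∫ θ in j..j', Real.log 2 / θ ^ 2, fun z => ?_⟩
  have i1 : IntervalIntegrable (fun θ => scLCd θ z) volume j j' := by
    have := (hF.obs.dreg 0).cont_time z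
    rw [← uIcc_of_le hjj] at this
    exact this.intervalIntegrable
  have i2 : IntervalIntegrable (fun θ : ℝ => Real.log 2 / θ ^ 2) volume j j' := by
    refine ContinuousOn.intervalIntegrable fun θ hθ => ?_
    rw [uIcc_of_le hjj] at hθ
    have : θ ≠ 0 := by linarith [hθ.1]
    exact (continuousAt_const.div (continuousAt_id.pow 2) (pow_ne_zero 2 this)).continuousWithinAt
  rw [hF.obs.sub_eq_integral hjj z, ← intervalIntegral.integral_sub i1 i2]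
  have := intervalIntegral.norm_integral_le_of_norm_le_const (a := j) (b := j') (f := fun θ => scLCd θ z - Real.log 2 / θ ^ 2)
    (C := 2 * (Real.cosh (j * z))⁻¹) (fun θ hθ => by
      rw [uIoc_of_le hjj] at hθ
      have hθ1 : 1 ≤ θ := hj.trans hθ.1.le
      rw [Real.norm_eq_abs]
      refine (scq_LCd_bound (by linarith) z).trans ?_
      have b1 : 2 / θ ^ 2 ≤ 2 := by
        rw [div_le_iff₀ (by positivity)]
        nlinarith
      have b2 : (Real.cosh (θ * z))⁻¹ ≤ (Real.cosh (j * z))⁻¹ := by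
        refine inv_anti₀ (Real.cosh_pos _) ?_
        rw [← Real.cosh_abs (j * z), ← Real.cosh_abs (θ * z)]
        refine Real.cosh_le_cosh.2 ?_
        rw [abs_abs, abs_abs, abs_mul, abs_mul, abs_of_nonneg (by linarith : (0 : ℝ) ≤ j), abs_of_nonneg (by linarith : (0 : ℝ) ≤ θ)]
        exact mul_le_mul_of_nonneg_right hθ.1.le (abs_nonneg z)
      exact mul_le_mul b1 b2 (by have := Real.cosh_pos (θ * z); positivity) (by norm_num))
  rw [Real.norm_eq_abs, abs_of_nonneg (by linarith : (0 : ℝ) ≤ j' - j)] at this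
  linarith

/-- derivatives of the terminal data -/
theorem lsf_LC_der (i : ℕ) : ∃ C : ℝ, 0 ≤ C ∧ ∀ j j' : ℝ, 1 ≤ j → j ≤ j' → j' ≤ 4 → ∀ z, |deriv^[i] (scLC j') z - deriv^[i] (scLC j) z| ≤ C * (j' - j) := by
  have hF := scq_LC (j₀ := 1) (j₁ := 4) one_pos
  obtain ⟨C, hC⟩ := hF.dbdd i
  refine ⟨|C|, abs_nonneg _, fun j j' hj hjj hj' z => ?_⟩
  exact ((hF.obs.dz_iter i).sub_interval hj hj').abs_sub_le hjj fun θ hθ => (hC θ ⟨hj.trans hθ.1, hθ.2.trans hj'⟩ z).trans (le_abs_self C)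

end one

/-! ## 3. two capped models: values -/

/-- two capped models: the same profile below `T`, terminal masses `j ≤ j'`; mass `≥ a0` on `[R,T)` -/
structure LsfPair (A : ℝ → ℝ) (T j j' a0 R : ℝ) : Prop where
  adm : LppAdm (lppCap A T j) j
  adm' : LppAdm (lppCap A T j') j'
  jj : j ≤ j'
  R0 : 0 ≤ R
  RT : R ≤ T
  apos : 0 < a0
  ale : a0 ≤ 1
  low : ∀ r ∈ Ico R T, a0 ≤ A r

theorem lsf_cap_prof {A : ℝ → ℝ} {T j : ℝ} (h : LppAdm (lppCap A T j) j) (hT : 0 ≤ T) : LscProf j T (lppCap A T j) :=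
  ⟨h.mono, h.nn 0 le_rfl, fun ξ hξ => by unfold lppCap; rw [if_neg (not_lt.2 hξ)], hT⟩

theorem lsf_int0 (A : ℝ → ℝ) {T s t : ℝ} (j j' : ℝ) (hst : s ≤ t) (ht : t ≤ T) : ∫ r in s..t, |lppCap A T j' r - lppCap A T j r| = 0 := by
  refine intervalIntegral.integral_zero_ae ?_
  have : ∀ᵐ x : ℝ, x ≠ T := by simp [ae_iff, measure_singleton]
  filter_upwards [this] with x hx hx2
  rw [uIoc_of_le hst] at hx2
  have : x < T := lt_of_le_of_ne (hx2.2.trans ht) hx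
  unfold lppCap
  rw [if_pos this, if_pos this]
  simp

section pair

variable {M : LscMod} {A : ℝ → ℝ} {T j j' a0 R : ℝ}

theorem LsfPair.T0 (p : LsfPair A T j j' a0 R) : 0 ≤ T := p.R0.trans p.RT

theorem lsf_V_T (h : M.Ok) (hA : LppAdm (lppCap A T j) j) (hT : 0 ≤ T) : M.V (lppCap A T j) j T = fun z => lpaF j (-(j * T / 2)) z := by
  funext z
  rw [h.V_top hA.jpos (lsf_cap_prof hA hT) T le_rfl z]
  unfold lpaF
  ring

theorem lsf_f_T (h : M.Ok) (hA : LppAdm (lppCap A T j) j) (hT : 0 ≤ T) (y : ℝ) :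
    √(1 - M.D 1 (lppCap A T j) j T y ^ 2) = (Real.cosh (j * y))⁻¹ := by
  have : M.D 1 (lppCap A T j) j T = fun z => Real.tanh (j * z) := by
    show deriv (M.V (lppCap A T j) j T) = _
    rw [lsf_V_T h hA hT]
    exact lpa_F_deriv hA.jpos.ne' _
  rw [this, lsf_sech]

theorem lsf_low (p : LsfPair A T j j' a0 R) {J : ℝ} (hJ : 1 ≤ J) {s : ℝ} (hs : R ≤ s) : ∀ r ∈ Icc s T, a0 ≤ lppCap A T J r := by
  intro r hr
  unfold lppCap
  split_ifs with h1
  · exact p.low r ⟨hs.trans hr.1, h1⟩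
  · exact p.ale.trans hJ

/-- the values at the time `T` -/
theorem lsf_valT (h : M.Ok) (p : LsfPair A T j j' a0 R) : ∃ c : ℝ, ∀ z,
    |M.V (lppCap A T j') j' T z - M.V (lppCap A T j) j T z - c| ≤ 2 * (j' - j) * (Real.cosh (j * z))⁻¹ := by
  obtain ⟨c, hc⟩ := lsf_LC_val p.adm.j1 p.jj
  refine ⟨c - (j' - j) * T / 2, fun z => ?_⟩
  rw [lsf_V_T h p.adm p.T0, lsf_V_T h p.adm' p.T0]
  refine le_trans (le_of_eq ?_) (hc z)
  congr 1
  unfold lpaF scLC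
  ring

/-- **the values**: exponentially small and Lipschitz in `j`, modulo a constant -/
theorem lsf_val (h : M.Ok) (hdec : LsfDec M) (p : LsfPair A T j j' a0 R) : ∃ c : ℝ,
    (∀ z, |M.V (lppCap A T j') j' T z - M.V (lppCap A T j) j T z - c| ≤ 2 * (j' - j)) ∧ ∀ ξ ∈ Icc 0 T, ∀ z,
    |M.V (lppCap A T j') j' ξ z - M.V (lppCap A T j) j ξ z - c| ≤ 4 * (j' - j) * Real.exp (-(a0 ^ 2 / 8 * (T - max ξ R))) := by
  obtain ⟨c, hc⟩ := lsf_valT h p
  have hκ : 0 ≤ j' - j := sub_nonneg.2 p.jj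
  have hP := lsf_cap_prof p.adm p.T0
  have hP' := lsf_cap_prof p.adm' p.T0
  have hj := p.adm.jpos
  have hj' := p.adm'.jpos
  refine ⟨c, fun z => (hc z).trans ?_, ?_⟩
  · have : (Real.cosh (j * z))⁻¹ ≤ 1 := inv_le_one_of_one_le₀ (Real.one_le_cosh _)
    nlinarith
  -- after `R`
  have key : ∀ ξ, R ≤ ξ → ξ ≤ T → ∀ z,
      |M.V (lppCap A T j') j' ξ z - M.V (lppCap A T j) j ξ z - c| ≤ 4 * (j' - j) * Real.exp (-(a0 ^ 2 / 8 * (T - ξ))) := by
    intro ξ hRξ hξT z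
    have hξ : 0 ≤ ξ := p.R0.trans hRξ
    obtain ⟨e, he⟩ : ∃ e, e = Real.exp (-(a0 ^ 2 * (T - ξ) / 2)) := ⟨_, rfl⟩
    have he0 : 0 < e := he ▸ Real.exp_pos _
    have he1 : e ≤ 1 := by
      rw [he]
      refine Real.exp_le_one_iff.2 ?_
      have : 0 ≤ a0 ^ 2 * (T - ξ) := mul_nonneg (sq_nonneg _) (by linarith)
      linarith
    have hee : √(√e) = Real.exp (-(a0 ^ 2 / 8 * (T - ξ))) := by
      rw [he, ← Real.exp_half, ← Real.exp_half]
      congr 1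
      ring
    have hle : e ≤ √(√e) := by
      have h1 : e ≤ √e := Real.le_sqrt_of_sq_le (by nlinarith)
      have h2 : √e ≤ 1 := Real.sqrt_le_one.2 he1
      have h3 : √e ≤ √(√e) := Real.le_sqrt_of_sq_le (by nlinarith [Real.sqrt_nonneg e])
      linarith
    rw [← hee]
    -- the two test functions
    have f1E : ScE 0 (fun y => √(1 - M.D 1 (lppCap A T j) j T y ^ 2)) :=
      lpa_sqrt_E0 ((ScE.const 0 1).sub ((h.D_E hj hP p.T0 0 1).pow 2))
    have f2E : ScE 0 (fun y => √(1 - M.D 1 (lppCap A T j') j' T y ^ 2)) :=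
      lpa_sqrt_E0 ((ScE.const 0 1).sub ((h.D_E hj' hP' p.T0 0 1).pow 2))
    have d1 := hdec _ j T hj hP ξ T a0 hξ hξT p.apos.le (lsf_low p p.adm.j1 hRξ) z
    have d2 := hdec _ j' T hj' hP' ξ T a0 hξ hξT p.apos.le (lsf_low p p.adm'.j1 hRξ) z
    rw [← he] at d1 d2
    have d3 := lsf_sqrt h hj' hP' hξ hξT (lpa_sqrt_E0 f2E) (fun _ => Real.sqrt_nonneg _) (Real.sqrt_pos.2 he0)
      (lsf_sqrt h hj' hP' hξ hξT f2E (fun _ => Real.sqrt_nonneg _) he0 d2)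
    have VE : ScE 0 (fun y => M.V (lppCap A T j') j' T y - M.V (lppCap A T j) j T y) :=
      (h.D_E hj' hP' p.T0 0 0).sub (h.D_E hj hP p.T0 0 0)
    have VE' : ScE 0 (fun y => M.V (lppCap A T j) j T y - M.V (lppCap A T j') j' T y) :=
      (h.D_E hj hP p.T0 0 0).sub (h.D_E hj' hP' p.T0 0 0)
    rw [abs_le]
    constructor
    · have c1 := lsf_cmp_P h hj hj' hP hP' hξ hξT z
      rw [lsf_int0 A j j' hξT le_rfl, mul_zero, sub_zero] at c1
      have c2 := h.P_mono hj hP hξ hξT ((ScE.const 0 c).add (f1E.const_mul (-(2 * (j' - j))))) VE (fun y => by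
        have := (abs_le.1 (hc y)).1
        rw [lsf_f_T h p.adm p.T0]
        linarith) z
      rw [h.P_add hj hP hξ hξT (ScE.const 0 c) (f1E.const_mul _), h.P_const hj hP hξ hξT, h.P_smul hj hP hξ hξT _ f1E] at c2
      nlinarith
    · have c1 := lsf_cmp_P h hj' hj hP' hP hξ hξT z
      have e0 : ∫ r in ξ..T, |lppCap A T j r - lppCap A T j' r| = 0 := lsf_int0 A j' j hξT le_rfl
      rw [e0, mul_zero, sub_zero] at c1
      have c2 := h.P_mono hj' hP' hξ hξT ((ScE.const 0 (-c)).add ((lpa_sqrt_E0 (lpa_sqrt_E0 f2E)).const_mul (-(4 * (j' - j))))) VE' (fun y => by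
        have a1 := (abs_le.1 (hc y)).2
        have a2 := lsf_sech_le p.adm.j1 p.adm'.j4 hj'.le y
        rw [lsf_f_T h p.adm' p.T0]
        nlinarith) z
      rw [h.P_add hj' hP' hξ hξT (ScE.const 0 (-c)) ((lpa_sqrt_E0 (lpa_sqrt_E0 f2E)).const_mul _), h.P_const hj' hP' hξ hξT,
        h.P_smul hj' hP' hξ hξT _ (lpa_sqrt_E0 (lpa_sqrt_E0 f2E))] at c2
      nlinarith
  intro ξ hξ z
  rcases le_total R ξ with hRξ | hξR
  · rw [max_eq_left hRξ]
    exact key ξ hRξ hξ.2 z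
  · rw [max_eq_right hξR]
    have := lse_cmp h hj hj' hP hP' hξ.1 hξR (key R le_rfl p.RT) z
    rw [lsf_int0 A j j' hξR p.RT] at this
    linarith

end pair

/-! ## 4. the crude Lipschitz bound, all orders, free of `T` -/

section crude

variable {M : LscMod}

/-- `lse_landau` without the restriction `a ≤ 1` -/
theorem lsf_landau (h : M.Ok) (n : ℕ) : ∃ C : ℝ, 0 ≤ C ∧ ∀ i, 1 ≤ i → i ≤ n → ∀ A j A' j', LppAdm A j → LppAdm A' j' → ∀ ξ, 0 ≤ ξ →
    ∀ c a : ℝ, (∀ z, |M.V A' j' ξ z - M.V A j ξ z - c| ≤ a) → ∀ z, |M.D i A' j' ξ z - M.D i A j ξ z| ≤ C * Real.sqrt a := by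
  obtain ⟨L, hL0, hL⟩ := lse_landau h n
  obtain ⟨B, hB0, hB⟩ := lse_bdAll h n
  refine ⟨L + 2 * B, by positivity, fun i h1 h2 A j A' j' hA hA' ξ hξ c a hv z => ?_⟩
  rcases le_or_gt a 1 with ha | ha
  · refine (hL i h1 h2 A j A' j' hA hA' ξ hξ c a ha hv z).trans ?_
    exact mul_le_mul_of_nonneg_right (by linarith) (Real.sqrt_nonneg _)
  · have b1 := hB i h1 h2 A' j' hA' ξ hξ z
    have b2 := hB i h1 h2 A j hA ξ hξ z
    have b3 := abs_sub (M.D i A' j' ξ z) (M.D i A j ξ z)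
    have b4 : 1 ≤ √a := Real.one_le_sqrt.2 ha.le
    nlinarith

theorem lsf_int_exp {c0 ξ T : ℝ} (hc : 0 < c0) : ∫ r in ξ..T, Real.exp (-(c0 * (T - r))) ≤ 1 / c0 := by
  have hd : ∀ r ∈ uIcc ξ T, HasDerivAt (fun r => Real.exp (-(c0 * (T - r))) / c0) (Real.exp (-(c0 * (T - r)))) r := by
    intro r _
    have h1 : HasDerivAt (fun r => -(c0 * (T - r))) c0 r := by
      have := (((hasDerivAt_id r).const_sub T).const_mul c0).neg
      refine this.congr_deriv ?_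
      ring
    have := h1.exp.div_const c0
    refine this.congr_deriv ?_
    field_simp
  rw [intervalIntegral.integral_eq_sub_of_hasDerivAt hd (Continuous.intervalIntegrable (by fun_prop) _ _)]
  have : 0 < Real.exp (-(c0 * (T - ξ))) / c0 := div_pos (Real.exp_pos _) hc
  simp only [sub_self, mul_zero, neg_zero, Real.exp_zero]
  linarith

theorem lsf_D_T (h : M.Ok) {A : ℝ → ℝ} {T j : ℝ} (hA : LppAdm (lppCap A T j) j) (hT : 0 ≤ T) (i : ℕ) :
    M.D (i + 1) (lppCap A T j) j T = deriv^[i + 1] (scLC j) := by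
  unfold LscMod.D
  rw [Function.iterate_succ_apply, Function.iterate_succ_apply, lsf_V_T h hA hT]
  congr 1
  funext z
  unfold lpaF
  exact deriv_add_const _

theorem lsf_LC_all (n : ℕ) : ∃ C : ℝ, 0 ≤ C ∧ ∀ i, 1 ≤ i → i ≤ n → ∀ j j' : ℝ, 1 ≤ j → j ≤ j' → j' ≤ 4 → ∀ z,
    |deriv^[i] (scLC j') z - deriv^[i] (scLC j) z| ≤ C * (j' - j) :=
  lse_unif (P := fun i C => ∀ j j' : ℝ, 1 ≤ j → j ≤ j' → j' ≤ 4 → ∀ z, |deriv^[i] (scLC j') z - deriv^[i] (scLC j) z| ≤ C * (j' - j))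
    (fun _ _ _ hCC hC j j' h1 h2 h3 z => (hC j j' h1 h2 h3 z).trans (mul_le_mul_of_nonneg_right hCC (by linarith)))
    (fun i _ => lsf_LC_der i) n

theorem lsf_crude (h : M.Ok) (hdec : LsfDec M) (k : ℕ) (hk : 1 ≤ k) (a0 R : ℝ) : ∃ C : ℝ, 0 ≤ C ∧ ∀ A T j j', LsfPair A T j j' a0 R →
    ∀ ξ ∈ Icc 0 T, ∀ z, |M.D k (lppCap A T j') j' ξ z - M.D k (lppCap A T j) j ξ z| ≤ C * (j' - j) := by
  obtain ⟨B, hB0, hB⟩ := lse_bdAll h (k + 1)
  obtain ⟨L, hL0, hL⟩ := lsf_landau h (k + 1)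
  obtain ⟨CP, hCP⟩ := h.P_grad 4 k
  obtain ⟨CT, hCT0, hCT⟩ := lsf_LC_all k
  refine ⟨|CP| * (2 * (2 ^ k * (L * L * (4 * Real.exp (a0 ^ 2 / 8 * R)))) / (a0 ^ 2 / 8)) + |CP| * (2 + CT), by positivity,
    fun A T j j' p ξ hξ z => ?_⟩
  obtain ⟨c, hcT, hc⟩ := lsf_val h hdec p
  have hκ : 0 ≤ j' - j := sub_nonneg.2 p.jj
  have hP := lsf_cap_prof p.adm p.T0
  have hP' := lsf_cap_prof p.adm' p.T0
  have hj := p.adm.jpos
  have hj' := p.adm'.jpos
  obtain ⟨c0, hc0⟩ : ∃ c0, c0 = a0 ^ 2 / 8 := ⟨_, rfl⟩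
  have hc0p : 0 < c0 := by rw [hc0]; have := p.apos; positivity
  rw [← hc0] at hc ⊢
  obtain ⟨A1, hA1⟩ : ∃ A1, A1 = lppCap A T j := ⟨_, rfl⟩
  obtain ⟨A2, hA2⟩ : ∃ A2, A2 = lppCap A T j' := ⟨_, rfl⟩
  have adm1 : LppAdm A1 j := hA1 ▸ p.adm
  have adm2 : LppAdm A2 j' := hA2 ▸ p.adm'
  have hDT : ∀ i, 1 ≤ i → i ≤ k → ∀ y, |M.D i A2 j' T y - M.D i A1 j T y| ≤ CT * (j' - j) := by
    intro i h1 h2 y
    obtain ⟨i, rfl⟩ : ∃ i', i = i' + 1 := ⟨i - 1, by omega⟩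
    rw [hA1, hA2, lsf_D_T h p.adm p.T0, lsf_D_T h p.adm' p.T0]
    exact hCT _ h1 h2 j j' p.adm.j1 p.jj p.adm'.j4 y
  have hint0 : ∫ r in ξ..T, |A2 r - A1 r| = 0 := by rw [hA1, hA2]; exact lsf_int0 A j j' hξ.2 le_rfl
  rw [← hA1] at hP
  rw [← hA2] at hP'
  rw [← hA1, ← hA2] at hcT hc ⊢
  -- the terminal datum
  have gE : ∀ n, ScE n (fun y => M.V A2 j' T y - M.V A1 j T y - c) := fun n =>
    ((h.D_E hj' hP' p.T0 n 0).sub (h.D_E hj hP p.T0 n 0)).sub (ScE.const n c)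
  have gN : ScN k ((2 + CT) * (j' - j)) (fun y => M.V A2 j' T y - M.V A1 j T y - c) := lse_N_of (gE k) fun i hi y => by
    rcases Nat.eq_zero_or_pos i with rfl | hi0
    · refine (hcT y).trans ?_
      nlinarith
    · obtain ⟨i, rfl⟩ : ∃ i', i = i' + 1 := ⟨i - 1, by omega⟩
      rw [lse_diff_iter h hj hj' hP hP' p.T0 c i]
      refine (hDT _ hi0 hi y).trans ?_
      nlinarith
  have gBd : ScBd (k + 1) (fun y => M.V A2 j' T y - M.V A1 j T y - c) :=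
    (lse_N_of (B := 2 * (j' - j) + 2 * B) (gE (k + 1)) fun i hi y => by
      rcases Nat.eq_zero_or_pos i with rfl | hi0
      · refine (hcT y).trans ?_
        linarith
      · obtain ⟨i, rfl⟩ : ∃ i', i = i' + 1 := ⟨i - 1, by omega⟩
        rw [lse_diff_iter h hj hj' hP hP' p.T0 c i]
        have b1 := hB _ hi0 hi A2 j' adm2 T p.T0 y
        have b2 := hB _ hi0 hi A1 j adm1 T p.T0 y
        have b3 := abs_sub (M.D (i + 1) A2 j' T y) (M.D (i + 1) A1 j T y)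
        linarith).scBd
  -- the representation
  have hD := lse_dyn_diff h hj hj' hP hP' hξ.1 hξ.2
  have hrep : ∀ y, IntervalIntegrable (fun r => M.P A1 j ξ r (lseG M A1 j A2 j' r) y) volume ξ T ∧
      (M.V A1 j ξ y - M.V A2 j' ξ y - (-c)) + M.P A1 j ξ T (fun y => M.V A2 j' T y - M.V A1 j T y - c) y
        = ∫ r in ξ..T, M.P A1 j ξ r (lseG M A1 j A2 j' r) y := by
    intro y
    obtain ⟨hi, he⟩ := h.dynkin hj hP hξ.1 hξ.2 hD y
    refine ⟨hi, ?_⟩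
    rw [← he]
    have e0 : (fun y => M.V A2 j' T y - M.V A1 j T y) = fun y => (M.V A2 j' T y - M.V A1 j T y - c) + c := by
      funext y; ring
    rw [e0, h.P_add hj hP hξ.1 hξ.2 (gE 0) (ScE.const 0 c), h.P_const hj hP hξ.1 hξ.2]
    ring
  obtain ⟨c1, hc1⟩ : ∃ c1, c1 = 2 ^ k * (B * B) / 2 := ⟨_, rfl⟩
  obtain ⟨c2, hc2⟩ : ∃ c2, c2 = 2 * (2 ^ k * (L * L * (4 * (j' - j) * Real.exp (c0 * R)))) := ⟨_, rfl⟩
  have hc20 : 0 ≤ c2 := by rw [hc2]; positivity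
  have hN : ∀ r ∈ Icc ξ T, ScN k (|A2 r - A1 r| * c1 + c2 * Real.exp (-(c0 * (T - r)))) (lseG M A1 j A2 j' r) := by
    intro r hr
    have hr0 : 0 ≤ r := hξ.1.trans hr.1
    obtain ⟨a, ha⟩ : ∃ a, a = 4 * (j' - j) * Real.exp (c0 * R) * Real.exp (-(c0 * (T - r))) := ⟨_, rfl⟩
    have ha0 : 0 ≤ a := by rw [ha]; positivity
    have hv : ∀ y, |M.V A2 j' r y - M.V A1 j r y - c| ≤ a := by
      intro y
      refine (hc r ⟨hr0, hr.2⟩ y).trans ?_
      rw [ha, mul_assoc (4 * (j' - j)), ← Real.exp_add]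
      refine mul_le_mul_of_nonneg_left (Real.exp_le_exp.2 ?_) (by linarith)
      have : max r R ≤ r + R := max_le (by linarith [p.R0]) (by linarith)
      nlinarith
    have := lse_G_N h adm1 adm2 hr0 k (B := B) (E := L * √a) (fun i h1 h2 y => hB i h1 h2 A2 j' adm2 r hr0 y)
      (fun i h1 h2 y => hL i h1 h2 A1 j A2 j' adm1 adm2 r hr0 c a hv y)
    refine this.weaken (le_of_eq ?_)
    have hsq : √a * √a = a := Real.mul_self_sqrt ha0
    have e3 : (L * √a) * (L * √a) = L * L * a := by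
      calc (L * √a) * (L * √a) = L * L * (√a * √a) := by ring
        _ = _ := by rw [hsq]
    rw [e3, ha, hc1, hc2]
    ring
  have hfun : (fun y => (M.V A1 j ξ y - M.V A2 j' ξ y - (-c)) + M.P A1 j ξ T (fun y => M.V A2 j' T y - M.V A1 j T y - c) y)
      = fun y => ∫ r in ξ..T, M.P A1 j ξ r (lseG M A1 j A2 j' r) y := funext fun y => (hrep y).2
  have sm1 : ContDiff ℝ k (fun y => M.V A1 j ξ y - M.V A2 j' ξ y - (-c)) :=
    ((lse_E_contDiff (h.D_E hj hP hξ.1 k 0)).sub (lse_E_contDiff (h.D_E hj' hP' hξ.1 k 0))).sub contDiff_const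
  have sm2 : ContDiff ℝ k (M.P A1 j ξ T (fun y => M.V A2 j' T y - M.V A1 j T y - c)) :=
    lse_E_contDiff ((h.P_T hj hP p.T0 gBd).scE hξ)
  have hsmF : ContDiff ℝ k fun y => ∫ r in ξ..T, M.P A1 j ξ r (lseG M A1 j A2 j' r) y := by
    rw [← hfun]
    exact sm1.add sm2
  have hKi : IntervalIntegrable (fun r => |CP| * (|A2 r - A1 r| * c1 + c2 * Real.exp (-(c0 * (T - r))))) volume ξ T :=
    (((lse_abs_intble hP hP' hξ.1 hξ.2).mul_const _).add (Continuous.intervalIntegrable (by fun_prop) _ _)).const_mul _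
  have hmain := lse_fd_main hξ.2 k (fun y => (hrep y).1)
    (fun r hr => lse_E_contDiff ((h.P_T hj hP (hξ.1.trans hr.1) (lse_G_Bd h adm1 adm2 (hξ.1.trans hr.1) (k + 1))).scE ⟨hξ.1, hr.1⟩))
    (K := fun r => |CP| * (|A2 r - A1 r| * c1 + c2 * Real.exp (-(c0 * (T - r)))))
    (fun r hr y => by
      rw [iteratedDeriv_eq_iterate]
      refine (hCP A1 j T adm1.j1 adm1.j4 hP ξ r hξ.1 hr.1 _ _ (hN r hr).scBd (fun i hi y => (hN r hr).iter hi y) y).trans ?_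
      exact mul_le_mul_of_nonneg_right (le_abs_self CP) (hN r hr).nonneg) hKi hsmF z
  rw [← hfun, iteratedDeriv_fun_add sm1.contDiffAt sm2.contDiffAt, iteratedDeriv_eq_iterate, iteratedDeriv_eq_iterate] at hmain
  have hterm : |deriv^[k] (M.P A1 j ξ T (fun y => M.V A2 j' T y - M.V A1 j T y - c)) z| ≤ |CP| * ((2 + CT) * (j' - j)) :=
    (hCP A1 j T adm1.j1 adm1.j4 hP ξ T hξ.1 hξ.2 _ _ gN.scBd (fun i hi y => gN.iter hi y) z).trans
      (mul_le_mul_of_nonneg_right (le_abs_self CP) gN.nonneg)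
  obtain ⟨k', rfl⟩ : ∃ k', k = k' + 1 := ⟨k - 1, by omega⟩
  rw [lse_diff_iter h hj' hj hP' hP hξ.1 (-c) k'] at hmain
  rw [intervalIntegral.integral_const_mul, intervalIntegral.integral_add ((lse_abs_intble hP hP' hξ.1 hξ.2).mul_const _)
    (Continuous.intervalIntegrable (by fun_prop) _ _), intervalIntegral.integral_mul_const, intervalIntegral.integral_const_mul, hint0, zero_mul,
    zero_add] at hmain
  have hie := lsf_int_exp (ξ := ξ) (T := T) hc0p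
  have h5 : |CP| * (c2 * ∫ r in ξ..T, Real.exp (-(c0 * (T - r)))) ≤ |CP| * (c2 * (1 / c0)) :=
    mul_le_mul_of_nonneg_left (mul_le_mul_of_nonneg_left hie hc20) (abs_nonneg _)
  have h6 : |CP| * (c2 * (1 / c0)) = |CP| * (2 * (2 ^ (k' + 1) * (L * L * (4 * Real.exp (c0 * R)))) / c0) * (j' - j) := by
    rw [hc2]; field_simp
  rw [abs_sub_comm]
  have h7 := abs_sub_abs_le_abs_sub (M.D (k' + 1) A1 j ξ z - M.D (k' + 1) A2 j' ξ z)
    (-(deriv^[k' + 1] (M.P A1 j ξ T (fun y => M.V A2 j' T y - M.V A1 j T y - c)) z))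
  rw [sub_neg_eq_add, abs_neg] at h7
  nlinarith

/-! ## 5. (J1) Lipschitz AND exponentially small -/

theorem lsf_jlip_ord (h : M.Ok) (hdec : LsfDec M) (k : ℕ) (hk : 1 ≤ k) (a0 R : ℝ) : ∃ C : ℝ, 0 ≤ C ∧ ∀ A T j j', LsfPair A T j j' a0 R →
    ∀ ξ ∈ Icc 0 T, ∀ z, |M.D k (lppCap A T j') j' ξ z - M.D k (lppCap A T j) j ξ z|
      ≤ C * Real.exp (-(a0 ^ 2 / 16 * (T - max ξ R))) * (j' - j) := by
  obtain ⟨C2, hC20, hC2⟩ := lsf_crude h hdec (2 * k) (by omega) a0 R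
  obtain ⟨B, hB0, hB⟩ := lse_bdAll h (2 * k)
  refine ⟨3 ^ (2 * k * k) * √(4 * C2), by positivity, fun A T j j' p ξ hξ z => ?_⟩
  obtain ⟨c, -, hc⟩ := lsf_val h hdec p
  have hκ : 0 ≤ j' - j := sub_nonneg.2 p.jj
  have hP := lsf_cap_prof p.adm p.T0
  have hP' := lsf_cap_prof p.adm' p.T0
  have hj := p.adm.jpos
  have hj' := p.adm'.jpos
  have hit : ∀ m, 1 ≤ m → ∀ x, iteratedDeriv m (fun z => M.V (lppCap A T j') j' ξ z - M.V (lppCap A T j) j ξ z - c) x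
      = M.D m (lppCap A T j') j' ξ x - M.D m (lppCap A T j) j ξ x := by
    intro m hm x
    obtain ⟨m, rfl⟩ : ∃ m', m = m' + 1 := ⟨m - 1, by omega⟩
    rw [iteratedDeriv_eq_iterate, lse_diff_iter h hj hj' hP hP' hξ.1 c m]
  have hsm : ContDiff ℝ (2 * k : ℕ) (fun z => M.V (lppCap A T j') j' ξ z - M.V (lppCap A T j) j ξ z - c) :=
    ((lse_E_contDiff (h.D_E hj' hP' hξ.1 (2 * k) 0)).sub (lse_E_contDiff (h.D_E hj hP hξ.1 (2 * k) 0))).sub contDiff_const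
  obtain ⟨E, hE⟩ : ∃ E, E = Real.exp (-(a0 ^ 2 / 16 * (T - max ξ R))) := ⟨_, rfl⟩
  have hE0 : 0 < E := hE ▸ Real.exp_pos _
  have hEE : Real.exp (-(a0 ^ 2 / 8 * (T - max ξ R))) = E ^ 2 := by
    rw [hE, ← Real.exp_nat_mul]
    congr 1
    push_cast
    ring
  have hL := lpk_landau_rpow (2 * k) (by omega) _ hsm (fun i hi => by
      rcases Nat.eq_zero_or_pos i with rfl | hi0
      · exact ⟨_, fun x => by rw [iteratedDeriv_zero]; exact hc ξ hξ x⟩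
      · refine ⟨2 * B, fun x => ?_⟩
        rw [hit i hi0]
        have b1 := hB i hi0 hi _ j' p.adm' ξ hξ.1 x
        have b2 := hB i hi0 hi _ j p.adm ξ hξ.1 x
        have b3 := abs_sub (M.D i (lppCap A T j') j' ξ x) (M.D i (lppCap A T j) j ξ x)
        linarith) _ (C2 * (j' - j)) (hc ξ hξ)
    (fun x => by rw [hit _ (by omega)]; exact hC2 A T j j' p ξ hξ x) k (by omega) z
  rw [hit k hk] at hL
  refine hL.trans ?_
  have hk0 : (k : ℝ) ≠ 0 := by positivity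
  have e1 : 1 - (k : ℝ) / ((2 * k : ℕ) : ℝ) = 1 / 2 := by
    push_cast
    field_simp
    norm_num
  have e2 : (k : ℝ) / ((2 * k : ℕ) : ℝ) = 1 / 2 := by
    push_cast
    field_simp
  rw [e1, e2, ← Real.sqrt_eq_rpow, ← Real.sqrt_eq_rpow, hEE, ← hE, ← Real.sqrt_mul (by positivity)]
  have e3 : 4 * (j' - j) * E ^ 2 * (C2 * (j' - j)) = 4 * C2 * (E * (j' - j)) ^ 2 := by ring
  rw [e3, Real.sqrt_mul (by positivity), Real.sqrt_sq (by positivity)]
  exact le_of_eq (by ring)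

/-- **(J1)** all `z`-derivatives of the continuation are Lipschitz in the terminal mass, with an exponentially small constant, before the cap `T`:
`03` l.217-226.      `R`, `a0`: the mass is `≥ a0` on `[R,T)`. -/
theorem lsf_jlip (h : M.Ok) (hdec : LsfDec M) (k : ℕ) (hk : 1 ≤ k) (a0 R : ℝ) (ha0 : 0 < a0) (ha1 : a0 ≤ 1) (hR : 0 ≤ R) :
    ∃ C c : ℝ, 0 ≤ C ∧ 0 < c ∧ ∀ A T j j', LppAdm (lppCap A T j) j → LppAdm (lppCap A T j') j' → R ≤ T → (∀ r ∈ Ico R T, a0 ≤ A r) →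
    ∀ ξ ∈ Icc 0 T, ∀ z, |M.D k (lppCap A T j') j' ξ z - M.D k (lppCap A T j) j ξ z| ≤ C * Real.exp (-(c * (T - max ξ R))) * |j' - j| := by
  obtain ⟨C, hC0, hC⟩ := lsf_jlip_ord h hdec k hk a0 R
  refine ⟨C, a0 ^ 2 / 16, hC0, by positivity, fun A T j j' hA hA' hRT hlow ξ hξ z => ?_⟩
  rcases le_total j j' with hjj | hjj
  · rw [abs_of_nonneg (sub_nonneg.2 hjj)]
    exact hC A T j j' ⟨hA, hA', hjj, hR, hRT, ha0, ha1, hlow⟩ ξ hξ z
  · rw [abs_sub_comm, abs_sub_comm j' j, abs_of_nonneg (sub_nonneg.2 hjj)]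
    exact hC A T j' j ⟨hA', hA, hjj, hR, hRT, ha0, ha1, hlow⟩ ξ hξ z

/-! ## 6. the field `jE` of `LppOk2` (`LL/PathsReg.lean`), constants FREE OF `R`, from the tau-free crude bound `jU` (helper183: `Sc/JLip.lean`, concrete route) -/

theorem lsf_jE_ord (h : M.Ok) (hdec : LsfDec M) (k : ℕ) (hk : 1 ≤ k) {C2 : ℝ} (hU : LrgJU (lppOf M) (2 * k) C2) (a0 : ℝ) :
    ∀ A T j j' R, LsfPair A T j j' a0 R → ∀ ξ ∈ Icc 0 T, ∀ z, |M.D k (lppCap A T j') j' ξ z - M.D k (lppCap A T j) j ξ z|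
      ≤ 3 ^ (2 * k * k) * √(4 * |C2|) * Real.exp (-(a0 ^ 2 / 16 * (T - max ξ R))) * (j' - j) := by
  obtain ⟨B, hB0, hB⟩ := lse_bdAll h (2 * k)
  intro A T j j' R p ξ hξ z
  obtain ⟨c, -, hc⟩ := lsf_val h hdec p
  have hκ : 0 ≤ j' - j := sub_nonneg.2 p.jj
  have hP := lsf_cap_prof p.adm p.T0
  have hP' := lsf_cap_prof p.adm' p.T0
  have hj := p.adm.jpos
  have hj' := p.adm'.jpos
  have hit : ∀ m, 1 ≤ m → ∀ x, iteratedDeriv m (fun z => M.V (lppCap A T j') j' ξ z - M.V (lppCap A T j) j ξ z - c) x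
      = M.D m (lppCap A T j') j' ξ x - M.D m (lppCap A T j) j ξ x := by
    intro m hm x
    obtain ⟨m, rfl⟩ : ∃ m', m = m' + 1 := ⟨m - 1, by omega⟩
    rw [iteratedDeriv_eq_iterate, lse_diff_iter h hj hj' hP hP' hξ.1 c m]
  have hsm : ContDiff ℝ (2 * k : ℕ) (fun z => M.V (lppCap A T j') j' ξ z - M.V (lppCap A T j) j ξ z - c) :=
    ((lse_E_contDiff (h.D_E hj' hP' hξ.1 (2 * k) 0)).sub (lse_E_contDiff (h.D_E hj hP hξ.1 (2 * k) 0))).sub contDiff_const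
  obtain ⟨E, hE⟩ : ∃ E, E = Real.exp (-(a0 ^ 2 / 16 * (T - max ξ R))) := ⟨_, rfl⟩
  have hE0 : 0 < E := hE ▸ Real.exp_pos _
  have hEE : Real.exp (-(a0 ^ 2 / 8 * (T - max ξ R))) = E ^ 2 := by
    rw [hE, ← Real.exp_nat_mul]
    congr 1
    push_cast
    ring
  have hL := lpk_landau_rpow (2 * k) (by omega) _ hsm (fun i hi => by
      rcases Nat.eq_zero_or_pos i with rfl | hi0
      · exact ⟨_, fun x => by rw [iteratedDeriv_zero]; exact hc ξ hξ x⟩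
      · refine ⟨2 * B, fun x => ?_⟩
        rw [hit i hi0]
        have b1 := hB i hi0 hi _ j' p.adm' ξ hξ.1 x
        have b2 := hB i hi0 hi _ j p.adm ξ hξ.1 x
        have b3 := abs_sub (M.D i (lppCap A T j') j' ξ x) (M.D i (lppCap A T j) j ξ x)
        linarith) _ (|C2| * (j' - j)) (hc ξ hξ)
    (fun x => by
      rw [hit _ (by omega)]
      have := hU A T j j' p.T0 p.adm p.adm' ξ hξ.1 x
      rw [lpd_vk, lpd_vk, abs_of_nonneg hκ] at this
      exact this.trans (mul_le_mul_of_nonneg_right (le_abs_self C2) hκ)) k (by omega) z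
  rw [hit k hk] at hL
  refine hL.trans ?_
  have hk0 : (k : ℝ) ≠ 0 := by positivity
  have e1 : 1 - (k : ℝ) / ((2 * k : ℕ) : ℝ) = 1 / 2 := by
    push_cast
    field_simp
    norm_num
  have e2 : (k : ℝ) / ((2 * k : ℕ) : ℝ) = 1 / 2 := by
    push_cast
    field_simp
  rw [e1, e2, ← Real.sqrt_eq_rpow, ← Real.sqrt_eq_rpow, hEE, ← hE, ← Real.sqrt_mul (by positivity)]
  have e3 : 4 * (j' - j) * E ^ 2 * (|C2| * (j' - j)) = 4 * |C2| * (E * (j' - j)) ^ 2 := by ring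
  rw [e3, Real.sqrt_mul (by positivity), Real.sqrt_sq (by positivity)]
  exact le_of_eq (by ring)

/-- **the field `jE` of `LppOk2`** -/
theorem lsf_jE (h : M.Ok) (hdec : LsfDec M) (hU : ∀ k : ℕ, 1 ≤ k → ∃ C : ℝ, LrgJU (lppOf M) k C) :
    ∀ k : ℕ, 1 ≤ k → ∀ a0 : ℝ, 0 < a0 → ∃ C c : ℝ, 0 < c ∧ LrgJE (lppOf M) k a0 C c := by
  intro k hk a0 ha0
  obtain ⟨C2, hC2⟩ := hU (2 * k) (by omega)
  obtain ⟨a, ha⟩ : ∃ a, a = min a0 1 := ⟨_, rfl⟩
  have hap : 0 < a := ha ▸ lt_min ha0 one_pos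
  have key := lsf_jE_ord h hdec k hk hC2 a
  refine ⟨3 ^ (2 * k * k) * √(4 * |C2|), a ^ 2 / 16, by positivity, fun A T j j' R hR hRT hA hA' hlow ξ hξ z => ?_⟩
  have hlow' : ∀ r ∈ Ico R T, a ≤ A r := fun r hr => (ha ▸ min_le_left a0 1 : a ≤ a0).trans (hlow r hr)
  have ha1 : a ≤ 1 := ha ▸ min_le_right a0 1
  have hξ' : ξ ∈ Icc 0 T := ⟨hξ.1, hξ.2.trans hRT⟩
  have em : -(a ^ 2 / 16) * (T - R) = -(a ^ 2 / 16 * (T - max ξ R)) := by rw [max_eq_right hξ.2]; ring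
  rw [lpd_vk, lpd_vk, em]
  rcases le_total j j' with hjj | hjj
  · rw [abs_of_nonneg (sub_nonneg.2 hjj)]
    exact key A T j j' R ⟨hA, hA', hjj, hR, hRT, hap, ha1, hlow'⟩ ξ hξ' z
  · rw [abs_sub_comm, abs_sub_comm j' j, abs_of_nonneg (sub_nonneg.2 hjj)]
    exact key A T j' j R ⟨hA', hA, hjj, hR, hRT, hap, ha1, hlow'⟩ ξ hξ' z

theorem lsf_eqns_cite : True := by
  have := @LsfDec.eq_1
  trivial

end crude

end Claimed.Agent.R286
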