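import Claimed.Agent.R286.LL.PathsPk

/-!
# Row 286 (S0533), LL Section 3, PERTURBATION KIT, file 2: ONE CONSTANT, BASIC CALCULUS, MOMENT DIFFERENCES
(architect helper121; prover of all leaves of this file: helper275; prefix `lpp_`, `Lpp`)

`LppB S R B` = the fields of `LppOk S` that the lift uses, with ONE constant `B ≥ 1` (times `ξ ≤ R`).
-/

set_option autoImplicit false

namespace Claimed.Agent.R286

open MeasureTheory Set

/-- all the constants of the package replaced by one `B ≥ 1` -/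
structure LppB (S : LppMod) (R B : ℝ) : Prop where
  one : 1 ≤ B
  bd : ∀ k : ℕ, 1 ≤ k → k ≤ 5 → ∀ A j, LppAdm A j → ∀ ξ, 0 ≤ ξ → ∀ z, |S.vk k A j ξ z| ≤ B
  mom : ∀ A j, LppAdm A j → ∀ ξ ∈ Icc 0 R, S.Ex A j ξ (fun z => z ^ 2) ≤ B * ξ
  dl : ∀ k : ℕ, 1 ≤ k → k ≤ 4 → ∀ A A' j, LppAdm A j → LppAdm A' j → (∀ ξ, R ≤ ξ → A' ξ = A ξ) → ∀ ξ, 0 ≤ ξ → ∀ z,
    |S.vk k A' j ξ z - S.vk k A j ξ z| ≤ B * ∫ r in Ioi ξ, |A' r - A r|
  ll : ∀ A j A' j', LppAdm A j → LppAdm A' j' → ∀ ξ ∈ Icc 0 R, ∀ (g : ℝ → ℝ) (G : ℝ), LppTest g G →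
    ∀ D H : ℝ → ℝ, (∀ r ∈ Ico 0 ξ, ∀ z, |S.vk 2 A' j' r z - S.vk 2 A j r z| ≤ D r) →
      (∀ r ∈ Ico 0 ξ, (|A' r - A r| + A r * D r) * r ≤ H r) → IntervalIntegrable H volume 0 ξ →
      |S.Ex A' j' ξ g - S.Ex A j ξ g| ≤ B * G * ∫ r in (0 : ℝ)..ξ, H r

/-- LEAF A0 -/
theorem lpp_B_exists {S : LppMod} (hS : LppOk S) (R : ℝ) : ∃ B : ℝ, LppB S R B := by
  have hbd : ∀ k : ℕ, ∃ C : ℝ, 0 ≤ C ∧ (1 ≤ k → ∀ A j, LppAdm A j → ∀ ξ, 0 ≤ ξ → ∀ z, |S.vk k A j ξ z| ≤ C) := by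
    intro k
    by_cases hk : 1 ≤ k
    · obtain ⟨C, hC⟩ := hS.bd k hk
      exact ⟨|C|, abs_nonneg _, fun _ A j hA ξ hξ z => (hC A j hA ξ hξ z).trans (le_abs_self _)⟩
    · exact ⟨0, le_rfl, fun h => absurd h hk⟩
  have hdl : ∀ k : ℕ, ∃ C : ℝ, 0 ≤ C ∧ (1 ≤ k → k ≤ 4 → ∀ A A' j, LppAdm A j → LppAdm A' j → (∀ ξ, R ≤ ξ → A' ξ = A ξ) → ∀ ξ, 0 ≤ ξ → ∀ z,
      |S.vk k A' j ξ z - S.vk k A j ξ z| ≤ C * ∫ r in Ioi ξ, |A' r - A r|) := by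
    intro k
    by_cases hk : 1 ≤ k ∧ k ≤ 4
    · obtain ⟨C, hC⟩ := hS.dlip k hk.1 hk.2 R
      refine ⟨|C|, abs_nonneg _, fun _ _ A A' j hA hA' hR ξ hξ z => (hC A A' j hA hA' hR ξ hξ z).trans ?_⟩
      exact mul_le_mul_of_nonneg_right (le_abs_self _) (integral_nonneg fun r => abs_nonneg _)
    · exact ⟨0, le_rfl, fun h h' => absurd ⟨h, h'⟩ hk⟩
  choose Cb hCb0 hCb using hbd
  choose Cd hCd0 hCd using hdl
  obtain ⟨Cm, hCm⟩ := hS.mom2 R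
  obtain ⟨Cl, hCl⟩ := hS.llip R
  have hsb : ∀ k : ℕ, k ≤ 5 → Cb k ≤ ∑ i ∈ Finset.range 6, Cb i := fun k hk =>
    Finset.single_le_sum (f := Cb) (fun i _ => hCb0 i) (Finset.mem_range.2 (by omega))
  have hsd : ∀ k : ℕ, k ≤ 4 → Cd k ≤ ∑ i ∈ Finset.range 6, Cd i := fun k hk =>
    Finset.single_le_sum (f := Cd) (fun i _ => hCd0 i) (Finset.mem_range.2 (by omega))
  have hsb0 : 0 ≤ ∑ i ∈ Finset.range 6, Cb i := Finset.sum_nonneg fun i _ => hCb0 i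
  have hsd0 : 0 ≤ ∑ i ∈ Finset.range 6, Cd i := Finset.sum_nonneg fun i _ => hCd0 i
  refine ⟨1 + (∑ i ∈ Finset.range 6, Cb i) + (∑ i ∈ Finset.range 6, Cd i) + |Cm| + |Cl|, ?_, ?_, ?_, ?_, ?_⟩
  · linarith [abs_nonneg Cm, abs_nonneg Cl]
  · intro k hk1 hk5 A j hA ξ hξ z
    linarith [hCb k hk1 A j hA ξ hξ z, hsb k hk5, abs_nonneg Cm, abs_nonneg Cl]
  · intro A j hA ξ hξ
    refine (hCm A j hA ξ hξ).trans (mul_le_mul_of_nonneg_right ?_ hξ.1)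
    linarith [le_abs_self Cm, abs_nonneg Cl]
  · intro k hk1 hk4 A A' j hA hA' hR ξ hξ z
    refine (hCd k hk1 hk4 A A' j hA hA' hR ξ hξ z).trans
      (mul_le_mul_of_nonneg_right ?_ (integral_nonneg fun r => abs_nonneg _))
    linarith [hsd k hk4, abs_nonneg Cm, abs_nonneg Cl]
  · intro A j A' j' hA hA' ξ hξ g G hg D H hD hH hHi
    refine (hCl A j A' j' hA hA' ξ hξ g G hg D H hD hH hHi).trans ?_
    have hG : 0 ≤ G := (abs_nonneg _).trans (hg.b0 0)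
    have hH0 : 0 ≤ ∫ r in (0 : ℝ)..ξ, H r := by
      rw [intervalIntegral.integral_of_le hξ.1, integral_Ioc_eq_integral_Ioo]
      refine setIntegral_nonneg measurableSet_Ioo fun r hr => ?_
      have hr' : r ∈ Ico 0 ξ := ⟨hr.1.le, hr.2⟩
      have h1 : 0 ≤ D r := (abs_nonneg _).trans (hD r hr' 0)
      have h2 : 0 ≤ A r := hA.nn r hr.1.le
      refine le_trans ?_ (hH r hr')
      have := abs_nonneg (A' r - A r)
      have := hr.1.le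
      positivity
    have h3 : Cl ≤ 1 + (∑ i ∈ Finset.range 6, Cb i) + (∑ i ∈ Finset.range 6, Cd i) + |Cm| + |Cl| := by
      linarith [le_abs_self Cl, abs_nonneg Cm]
    exact mul_le_mul_of_nonneg_right (mul_le_mul_of_nonneg_right h3 hG) hH0

/-! ## API of the expectation functional (the ONLY gateway to `S.Ex`) -/

/-- LEAF X0: bounded continuous functions are in the class -/
theorem LppCls.of_bdd {g : ℝ → ℝ} (hc : Continuous g) {C : ℝ} (h : ∀ z, |g z| ≤ C) : LppCls g := by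
  refine ⟨hc, C, fun z => (h z).trans ?_⟩
  have hC : 0 ≤ C := (abs_nonneg _).trans (h 0)
  nlinarith [sq_nonneg z]

/-- LEAF X1 -/
theorem LppCls.sq : LppCls (fun z : ℝ => z ^ 2) := by
  refine ⟨continuous_pow 2, 1, fun z => ?_⟩
  rw [abs_of_nonneg (sq_nonneg z)]
  linarith

/-- LEAF X2 -/
theorem LppCls.add {f g : ℝ → ℝ} (hf : LppCls f) (hg : LppCls g) : LppCls (fun z => f z + g z) := by
  obtain ⟨cf, C, hC⟩ := hf
  obtain ⟨cg, D, hD⟩ := hg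
  refine ⟨cf.add cg, C + D, fun z => (abs_add_le _ _).trans ?_⟩
  linarith [hC z, hD z]

/-- LEAF X3 -/
theorem LppCls.smul {f : ℝ → ℝ} (c : ℝ) (hf : LppCls f) : LppCls (fun z => c * f z) := by
  obtain ⟨cf, C, hC⟩ := hf
  refine ⟨continuous_const.mul cf, |c| * C, fun z => ?_⟩
  rw [abs_mul, mul_assoc]
  exact mul_le_mul_of_nonneg_left (hC z) (abs_nonneg _)

/-- LEAF X4 -/
theorem LppCls.sub {f g : ℝ → ℝ} (hf : LppCls f) (hg : LppCls g) : LppCls (fun z => f z - g z) := by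
  obtain ⟨cf, C, hC⟩ := hf
  obtain ⟨cg, D, hD⟩ := hg
  refine ⟨cf.sub cg, C + D, fun z => (abs_sub _ _).trans ?_⟩
  linarith [hC z, hD z]

/-- LEAF X5 -/
theorem LppCls.abs {f : ℝ → ℝ} (hf : LppCls f) : LppCls (fun z => |f z|) := by
  obtain ⟨cf, C, hC⟩ := hf
  exact ⟨cf.abs, C, fun z => by rw [abs_abs]; exact hC z⟩

section ex

variable {S : LppMod} (hS : LppOk S) {A : ℝ → ℝ} {j ξ : ℝ} (hA : LppAdm A j) (hξ : 0 ≤ ξ)

include hS hA hξ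

/-- LEAF X6 -/
theorem lpp_ex_sub {f g : ℝ → ℝ} (hf : LppCls f) (hg : LppCls g) :
    S.Ex A j ξ (fun z => f z - g z) = S.Ex A j ξ f - S.Ex A j ξ g := by
  have h1 := hS.ex_add A j hA ξ hξ f (fun z => (-1) * g z) hf (hg.smul (-1))
  have h2 := hS.ex_smul A j hA ξ hξ (-1) g hg
  have e : (fun z => f z - g z) = fun z => f z + (-1) * g z := by funext z; ring
  rw [e, h1, h2]; ring

/-- LEAF X7 -/
theorem lpp_ex_const (c : ℝ) : S.Ex A j ξ (fun _ => c) = c := by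
  have h1 : LppCls (fun _ : ℝ => (1 : ℝ)) := LppCls.of_bdd continuous_const (C := 1) (fun _ => by simp)
  have h2 := hS.ex_smul A j hA ξ hξ c _ h1
  rw [hS.ex_one A j hA ξ hξ] at h2
  simpa using h2

/-- LEAF X8 -/
theorem lpp_ex_abs_le {f g : ℝ → ℝ} (hf : LppCls f) (hg : LppCls g) (h : ∀ z, |f z| ≤ g z) : |S.Ex A j ξ f| ≤ S.Ex A j ξ g := by
  rw [abs_le]
  constructor
  · have h1 := hS.ex_mono A j hA ξ hξ (fun z => (-1) * g z) f (hg.smul (-1)) hf (fun z => by linarith [(abs_le.1 (h z)).1])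
    rw [hS.ex_smul A j hA ξ hξ (-1) g hg] at h1
    linarith
  · exact hS.ex_mono A j hA ξ hξ f g hf hg (fun z => (le_abs_self _).trans (h z))

/-- LEAF X9 -/
theorem lpp_ex_abs_le_const {f : ℝ → ℝ} (hf : LppCls f) {c : ℝ} (h : ∀ z, |f z| ≤ c) : |S.Ex A j ξ f| ≤ c := by
  have hc : LppCls (fun _ : ℝ => c) := LppCls.of_bdd continuous_const (C := |c|) (fun _ => le_rfl)
  have := lpp_ex_abs_le hS hA hξ hf hc h
  rwa [lpp_ex_const hS hA hξ c] at this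

/-- LEAF X10 -/
theorem lpp_ex_nonneg {f : ℝ → ℝ} (hf : LppCls f) (h : ∀ z, 0 ≤ f z) : 0 ≤ S.Ex A j ξ f := by
  have hc : LppCls (fun _ : ℝ => (0 : ℝ)) := LppCls.of_bdd continuous_const (C := 0) (fun _ => by simp)
  have := hS.ex_mono A j hA ξ hξ _ f hc hf h
  rwa [lpp_ex_const hS hA hξ 0] at this

end ex

section basic

variable {S : LppMod} (hS : LppOk S) {A : ℝ → ℝ} {j ξ : ℝ} (hA : LppAdm A j) (hξ : 0 ≤ ξ)

include hS hA hξ

/-- LEAF A1 -/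
theorem lpp_vk_hasDerivAt (k : ℕ) (z : ℝ) : HasDerivAt (S.vk k A j ξ) (S.vk (k + 1) A j ξ z) z := by
  have h1 : Differentiable ℝ (iteratedDeriv k (S.V A j ξ)) :=
    (hS.smooth A j hA ξ hξ (k + 1)).differentiable_iteratedDeriv k (by exact_mod_cast Nat.lt_succ_self k)
  have h2 := (h1 z).hasDerivAt
  rw [← iteratedDeriv_succ] at h2
  exact h2

/-- LEAF A2 -/
theorem lpp_vk_cont (k : ℕ) : Continuous (S.vk k A j ξ) := by
  exact continuous_iff_continuousAt.2 fun z => (lpp_vk_hasDerivAt hS hA hξ k z).continuousAt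

/-- LEAF A3: parity -/
theorem lpp_vk_neg (k : ℕ) (z : ℝ) : S.vk k A j ξ (-z) = (-1) ^ k * S.vk k A j ξ z := by
  have h1 := iteratedDeriv_comp_neg k (S.V A j ξ) (-z)
  have h2 : (fun x => S.V A j ξ (-x)) = S.V A j ξ := funext fun x => hS.even A j hA ξ hξ x
  rw [h2, neg_neg, smul_eq_mul] at h1
  exact h1

/-- LEAF A4 -/
theorem lpp_vk_contDiff (k n : ℕ) : ContDiff ℝ n (S.vk k A j ξ) := by
  have h1 := ContDiff.iterate_deriv' n k (hS.smooth A j hA ξ hξ (n + k))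
  rw [← iteratedDeriv_eq_iterate] at h1
  exact h1

/-- (277) the derivatives of the continuation in the classes of `R286/Sc` -/
theorem lpp_vk_scB (n : ℕ) : ∀ k : ℕ, ScB n (S.vk k A j ξ) := by
  induction n with
  | zero => intro k; exact lpp_vk_cont hS hA hξ k
  | succ n ih =>
    intro k
    have hd : deriv (S.vk k A j ξ) = S.vk (k + 1) A j ξ := funext fun z => (lpp_vk_hasDerivAt hS hA hξ k z).deriv
    obtain ⟨C, hC⟩ := hS.bd (k + 1) (by omega)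
    refine ⟨fun z => (lpp_vk_hasDerivAt hS hA hξ k z).differentiableAt, ⟨C, fun z => ?_⟩, ?_⟩
    · rw [hd]; exact hC A j hA ξ hξ z
    · rw [hd]; exact ih (k + 1)

theorem lpp_vk_scBd (n k : ℕ) (hk : 1 ≤ k) : ScBd n (S.vk k A j ξ) := by
  obtain ⟨C, hC⟩ := hS.bd k hk
  exact ⟨⟨C, fun z => hC A j hA ξ hξ z⟩, lpp_vk_scB hS hA hξ n k⟩

end basic

/-- LEAF A5: a differentiable function vanishing at `0` with derivative bounded by `D` -/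
theorem lpp_abs_le_mul_abs {f f' : ℝ → ℝ} {D : ℝ} (h : ∀ z, HasDerivAt f (f' z) z) (h0 : f 0 = 0) (hD : ∀ z, |f' z| ≤ D) (z : ℝ) :
    |f z| ≤ D * |z| := by
  have := Convex.norm_image_sub_le_of_norm_hasDerivWithin_le (f := f) (f' := f') (C := D) (s := Set.univ) (x := 0) (y := z)
    (fun y _ => (h y).hasDerivWithinAt) (fun y _ => by simpa using hD y) convex_univ (mem_univ _) (mem_univ _)
  simpa [h0] using this

/-- (helper275) a test function from its two explicit derivatives -/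
theorem lpp_aux_test_of {g g1 g2 : ℝ → ℝ} {G : ℝ} (hsm : ContDiff ℝ 2 g) (hc3 : ScBd 3 g) (hev : ∀ z, g (-z) = g z)
    (h1 : ∀ z, HasDerivAt g (g1 z) z) (h2 : ∀ z, HasDerivAt g1 (g2 z) z)
    (b0 : ∀ z, |g z| ≤ G) (b1 : ∀ z, |g1 z| ≤ G) (b2 : ∀ z, |g2 z| ≤ G) : LppTest g G := by
  have hd : deriv g = g1 := funext fun z => (h1 z).deriv
  refine ⟨hsm, hc3, hev, b0, fun z => by rw [hd]; exact b1 z, fun z => ?_⟩
  have h3 : iteratedDeriv 2 g = g2 := by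
    rw [iteratedDeriv_succ, iteratedDeriv_one, hd]
    exact funext fun z => (h2 z).deriv
  rw [h3]
  exact b2 z

theorem lpp_aux_m2 {a b B : ℝ} (ha : |a| ≤ B) (hb : |b| ≤ B) : |a * b| ≤ B ^ 2 := by
  rw [abs_mul, sq]
  exact mul_le_mul ha hb (abs_nonneg _) ((abs_nonneg _).trans ha)

theorem lpp_aux_m3 {a b c B : ℝ} (ha : |a| ≤ B) (hb : |b| ≤ B) (hc : |c| ≤ B) : |a * b * c| ≤ B ^ 3 := by
  have h0 : 0 ≤ B := (abs_nonneg _).trans ha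
  rw [abs_mul, show B ^ 3 = B ^ 2 * B by ring]
  exact mul_le_mul (lpp_aux_m2 ha hb) hc (abs_nonneg _) (by positivity)

section tests

variable {S : LppMod} (hS : LppOk S) {R B : ℝ} (hB : LppB S R B) {A : ℝ → ℝ} {j ξ : ℝ} (hA : LppAdm A j) (hξ : 0 ≤ ξ)

include hS hB hA hξ

/-- LEAF T1: `g' = 2 w v3`, `g'' = 2 (v3² + w v4)` -/
theorem lpp_test_w2 : LppTest (fun z => S.vk 2 A j ξ z ^ 2) (9 * B ^ 3) := by
  have hB1 := hB.one
  have hB23 : B ^ 2 ≤ B ^ 3 := pow_le_pow_right₀ hB1 (by norm_num)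
  have hB3 : 0 ≤ B ^ 3 := by positivity
  have bw := hB.bd 2 (by norm_num) (by norm_num) A j hA ξ hξ
  have b3 := hB.bd 3 (by norm_num) (by norm_num) A j hA ξ hξ
  have b4 := hB.bd 4 (by norm_num) (by norm_num) A j hA ξ hξ
  have dw := lpp_vk_hasDerivAt hS hA hξ 2
  have d3 := lpp_vk_hasDerivAt hS hA hξ 3
  refine lpp_aux_test_of (g1 := fun z => 2 * (S.vk 2 A j ξ z * S.vk 3 A j ξ z))
    (g2 := fun z => 2 * (S.vk 3 A j ξ z * S.vk 3 A j ξ z + S.vk 2 A j ξ z * S.vk 4 A j ξ z))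
    ((lpp_vk_contDiff hS hA hξ 2 2).pow 2) ((lpp_vk_scBd hS hA hξ 3 2 (by norm_num)).pow 2) ?_ ?_ ?_ ?_ ?_ ?_
  · intro z
    rw [lpp_vk_neg hS hA hξ 2 z]
    ring
  · intro z
    have h := (dw z).pow 2
    have e : 2 * (S.vk 2 A j ξ z * S.vk 3 A j ξ z) = ((2 : ℕ) : ℝ) * S.vk 2 A j ξ z ^ (2 - 1) * S.vk (2 + 1) A j ξ z := by
      norm_num
      ring
    rw [e]
    exact h
  · intro z
    exact ((dw z).mul (d3 z)).const_mul 2
  · intro z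
    have := lpp_aux_m2 (bw z) (bw z)
    rw [sq]
    linarith
  · intro z
    have := lpp_aux_m2 (bw z) (b3 z)
    rw [abs_mul, abs_of_nonneg (by norm_num : (0 : ℝ) ≤ 2)]
    linarith
  · intro z
    have h1 := lpp_aux_m2 (b3 z) (b3 z)
    have h2 := lpp_aux_m2 (bw z) (b4 z)
    have h3 := abs_add_le (S.vk 3 A j ξ z * S.vk 3 A j ξ z) (S.vk 2 A j ξ z * S.vk 4 A j ξ z)
    rw [abs_mul, abs_of_nonneg (by norm_num : (0 : ℝ) ≤ 2)]
    linarith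

/-- LEAF T2: `g' = 3 w² v3`, `g'' = 6 w v3² + 3 w² v4` -/
theorem lpp_test_w3 : LppTest (fun z => S.vk 2 A j ξ z ^ 3) (9 * B ^ 3) := by
  have hB1 := hB.one
  have hB3 : 0 ≤ B ^ 3 := by positivity
  have bw := hB.bd 2 (by norm_num) (by norm_num) A j hA ξ hξ
  have b3 := hB.bd 3 (by norm_num) (by norm_num) A j hA ξ hξ
  have b4 := hB.bd 4 (by norm_num) (by norm_num) A j hA ξ hξ
  have dw := lpp_vk_hasDerivAt hS hA hξ 2
  have d3 := lpp_vk_hasDerivAt hS hA hξ 3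
  refine lpp_aux_test_of (g1 := fun z => 3 * (S.vk 2 A j ξ z * S.vk 2 A j ξ z * S.vk 3 A j ξ z))
    (g2 := fun z => 3 * ((S.vk 3 A j ξ z * S.vk 2 A j ξ z + S.vk 2 A j ξ z * S.vk 3 A j ξ z) * S.vk 3 A j ξ z
      + S.vk 2 A j ξ z * S.vk 2 A j ξ z * S.vk 4 A j ξ z))
    ((lpp_vk_contDiff hS hA hξ 2 2).pow 3) ((lpp_vk_scBd hS hA hξ 3 2 (by norm_num)).pow 3) ?_ ?_ ?_ ?_ ?_ ?_
  · intro z
    rw [lpp_vk_neg hS hA hξ 2 z]
    ring
  · intro z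
    have h := (dw z).pow 3
    have e : 3 * (S.vk 2 A j ξ z * S.vk 2 A j ξ z * S.vk 3 A j ξ z)
        = ((3 : ℕ) : ℝ) * S.vk 2 A j ξ z ^ (3 - 1) * S.vk (2 + 1) A j ξ z := by
      norm_num
      ring
    rw [e]
    exact h
  · intro z
    exact (((dw z).mul (dw z)).mul (d3 z)).const_mul 3
  · intro z
    have := lpp_aux_m3 (bw z) (bw z) (bw z)
    rw [show S.vk 2 A j ξ z ^ 3 = S.vk 2 A j ξ z * S.vk 2 A j ξ z * S.vk 2 A j ξ z by ring]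
    linarith
  · intro z
    have := lpp_aux_m3 (bw z) (bw z) (b3 z)
    rw [abs_mul, abs_of_nonneg (by norm_num : (0 : ℝ) ≤ 3)]
    linarith
  · intro z
    have h1 := lpp_aux_m3 (b3 z) (bw z) (b3 z)
    have h2 := lpp_aux_m3 (bw z) (b3 z) (b3 z)
    have h3 := lpp_aux_m3 (bw z) (bw z) (b4 z)
    have h4 := abs_add_le ((S.vk 3 A j ξ z * S.vk 2 A j ξ z + S.vk 2 A j ξ z * S.vk 3 A j ξ z) * S.vk 3 A j ξ z)
      (S.vk 2 A j ξ z * S.vk 2 A j ξ z * S.vk 4 A j ξ z)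
    have h5 := abs_add_le (S.vk 3 A j ξ z * S.vk 2 A j ξ z * S.vk 3 A j ξ z) (S.vk 2 A j ξ z * S.vk 3 A j ξ z * S.vk 3 A j ξ z)
    rw [← add_mul] at h5
    rw [abs_mul, abs_of_nonneg (by norm_num : (0 : ℝ) ≤ 3)]
    linarith

/-- LEAF T3: `g' = 2 v3 v4`, `g'' = 2 (v4² + v3 v5)` -/
theorem lpp_test_v3 : LppTest (fun z => S.vk 3 A j ξ z ^ 2) (9 * B ^ 3) := by
  have hB1 := hB.one
  have hB23 : B ^ 2 ≤ B ^ 3 := pow_le_pow_right₀ hB1 (by norm_num)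
  have hB3 : 0 ≤ B ^ 3 := by positivity
  have b3 := hB.bd 3 (by norm_num) (by norm_num) A j hA ξ hξ
  have b4 := hB.bd 4 (by norm_num) (by norm_num) A j hA ξ hξ
  have b5 := hB.bd 5 (by norm_num) (by norm_num) A j hA ξ hξ
  have d3 := lpp_vk_hasDerivAt hS hA hξ 3
  have d4 := lpp_vk_hasDerivAt hS hA hξ 4
  refine lpp_aux_test_of (g1 := fun z => 2 * (S.vk 3 A j ξ z * S.vk 4 A j ξ z))
    (g2 := fun z => 2 * (S.vk 4 A j ξ z * S.vk 4 A j ξ z + S.vk 3 A j ξ z * S.vk 5 A j ξ z))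
    ((lpp_vk_contDiff hS hA hξ 3 2).pow 2) ((lpp_vk_scBd hS hA hξ 3 3 (by norm_num)).pow 2) ?_ ?_ ?_ ?_ ?_ ?_
  · intro z
    rw [lpp_vk_neg hS hA hξ 3 z]
    ring
  · intro z
    have h := (d3 z).pow 2
    have e : 2 * (S.vk 3 A j ξ z * S.vk 4 A j ξ z) = ((2 : ℕ) : ℝ) * S.vk 3 A j ξ z ^ (2 - 1) * S.vk (3 + 1) A j ξ z := by
      norm_num
      ring
    rw [e]
    exact h
  · intro z
    exact ((d3 z).mul (d4 z)).const_mul 2
  · intro z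
    have := lpp_aux_m2 (b3 z) (b3 z)
    rw [sq]
    linarith
  · intro z
    have := lpp_aux_m2 (b3 z) (b4 z)
    rw [abs_mul, abs_of_nonneg (by norm_num : (0 : ℝ) ≤ 2)]
    linarith
  · intro z
    have h1 := lpp_aux_m2 (b4 z) (b4 z)
    have h2 := lpp_aux_m2 (b3 z) (b5 z)
    have h3 := abs_add_le (S.vk 4 A j ξ z * S.vk 4 A j ξ z) (S.vk 3 A j ξ z * S.vk 5 A j ξ z)
    rw [abs_mul, abs_of_nonneg (by norm_num : (0 : ℝ) ≤ 2)]
    linarith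

end tests

/-- (helper275, functional form 121) two bounded continuous integrands whose difference is at most `c z²` -/
theorem lpp_aux_Ex_sq {S : LppMod} (hS : LppOk S) {A : ℝ → ℝ} {j ξ : ℝ} (hA : LppAdm A j) (hξ : 0 ≤ ξ)
    {f g : ℝ → ℝ} {K c m : ℝ} (hf : Continuous f) (hg : Continuous g)
    (hfb : ∀ z, |f z| ≤ K) (hgb : ∀ z, |g z| ≤ K) (hc : 0 ≤ c) (h : ∀ z, |f z - g z| ≤ c * z ^ 2)
    (hm : S.Ex A j ξ (fun z => z ^ 2) ≤ m) : |S.Ex A j ξ f - S.Ex A j ξ g| ≤ c * m := by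
  have cf := LppCls.of_bdd hf hfb
  have cg := LppCls.of_bdd hg hgb
  rw [← lpp_ex_sub hS hA hξ cf cg]
  refine (lpp_ex_abs_le hS hA hξ (cf.sub cg) (LppCls.sq.smul c) h).trans ?_
  rw [hS.ex_smul A j hA ξ hξ c _ LppCls.sq]
  exact mul_le_mul_of_nonneg_left hm hc

/-- (helper275, functional form 121) two bounded continuous integrands whose difference is at most `c` -/
theorem lpp_aux_Ex_c {S : LppMod} (hS : LppOk S) {A : ℝ → ℝ} {j ξ : ℝ} (hA : LppAdm A j) (hξ : 0 ≤ ξ)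
    {f g : ℝ → ℝ} {K c : ℝ} (hf : Continuous f) (hg : Continuous g)
    (hfb : ∀ z, |f z| ≤ K) (hgb : ∀ z, |g z| ≤ K) (h : ∀ z, |f z - g z| ≤ c) : |S.Ex A j ξ f - S.Ex A j ξ g| ≤ c := by
  have cf := LppCls.of_bdd hf hfb
  have cg := LppCls.of_bdd hg hgb
  rw [← lpp_ex_sub hS hA hξ cf cg]
  exact lpp_ex_abs_le_const hS hA hξ (cf.sub cg) h

/-! ## moment differences of two models at one time -/

section diff

variable {S : LppMod} (hS : LppOk S) {R B : ℝ} (hB : LppB S R B) {A A' : ℝ → ℝ} {j j' ξ : ℝ}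
  (hA : LppAdm A j) (hA' : LppAdm A' j') (hξ : ξ ∈ Icc 0 R)
  {ε I : ℝ} (hε : ∀ k : ℕ, 2 ≤ k → k ≤ 4 → ∀ z, |S.vk k A' j' ξ z - S.vk k A j ξ z| ≤ ε)
  (hI : ∀ (g : ℝ → ℝ) (G : ℝ), LppTest g G → |S.Ex A' j' ξ g - S.Ex A j ξ g| ≤ B * G * I)

include hS hB hA hA' hξ hε hI

/-- LEAF D1 -/
theorem lpp_M2_diff : |S.M2 A' j' ξ - S.M2 A j ξ| ≤ 2 * B * ε + 9 * B ^ 4 * I := by
  have bw := hB.bd 2 (by norm_num) (by norm_num) A j hA ξ hξ.1
  have bw' := hB.bd 2 (by norm_num) (by norm_num) A' j' hA' ξ hξ.1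
  have cw := lpp_vk_cont hS hA hξ.1 2
  have cw' := lpp_vk_cont hS hA' hξ.1 2
  have hB0 : 0 ≤ B := by linarith [hB.one]
  have h1 : |S.Ex A' j' ξ (fun z => S.vk 2 A' j' ξ z ^ 2) - S.Ex A' j' ξ (fun z => S.vk 2 A j ξ z ^ 2)| ≤ 2 * B * ε := by
    refine lpp_aux_Ex_c hS hA' hξ.1 (K := B ^ 2) (cw'.pow 2) (cw.pow 2) (fun z => ?_) (fun z => ?_) fun z => ?_
    · rw [sq (S.vk 2 A' j' ξ z)]
      exact lpp_aux_m2 (bw' z) (bw' z)
    · rw [sq (S.vk 2 A j ξ z)]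
      exact lpp_aux_m2 (bw z) (bw z)
    · have e : S.vk 2 A' j' ξ z ^ 2 - S.vk 2 A j ξ z ^ 2
          = (S.vk 2 A' j' ξ z + S.vk 2 A j ξ z) * (S.vk 2 A' j' ξ z - S.vk 2 A j ξ z) := by ring
      rw [e, abs_mul]
      refine mul_le_mul ?_ (hε 2 le_rfl (by norm_num) z) (abs_nonneg _) (by positivity)
      linarith [abs_add_le (S.vk 2 A' j' ξ z) (S.vk 2 A j ξ z), bw z, bw' z]
  have h2 := hI _ _ (lpp_test_w2 hS hB hA hξ.1)
  have h3 : S.M2 A' j' ξ - S.M2 A j ξ = (S.Ex A' j' ξ (fun z => S.vk 2 A' j' ξ z ^ 2) - S.Ex A' j' ξ (fun z => S.vk 2 A j ξ z ^ 2))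
      + (S.Ex A' j' ξ (fun z => S.vk 2 A j ξ z ^ 2) - S.Ex A j ξ (fun z => S.vk 2 A j ξ z ^ 2)) := by
    simp only [LppMod.M2]
    ring
  rw [h3]
  refine (abs_add_le _ _).trans ?_
  have e4 : B * (9 * B ^ 3) * I = 9 * B ^ 4 * I := by ring
  linarith

/-- LEAF D2 -/
theorem lpp_M3_diff : |S.M3 A' j' ξ - S.M3 A j ξ| ≤ 3 * B ^ 2 * ε + 9 * B ^ 4 * I := by
  have bw := hB.bd 2 (by norm_num) (by norm_num) A j hA ξ hξ.1
  have bw' := hB.bd 2 (by norm_num) (by norm_num) A' j' hA' ξ hξ.1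
  have cw := lpp_vk_cont hS hA hξ.1 2
  have cw' := lpp_vk_cont hS hA' hξ.1 2
  have hB0 : 0 ≤ B := by linarith [hB.one]
  have h1 : |S.Ex A' j' ξ (fun z => S.vk 2 A' j' ξ z ^ 3) - S.Ex A' j' ξ (fun z => S.vk 2 A j ξ z ^ 3)| ≤ 3 * B ^ 2 * ε := by
    refine lpp_aux_Ex_c hS hA' hξ.1 (K := B ^ 3) (cw'.pow 3) (cw.pow 3) (fun z => ?_) (fun z => ?_) fun z => ?_
    · rw [show S.vk 2 A' j' ξ z ^ 3 = S.vk 2 A' j' ξ z * S.vk 2 A' j' ξ z * S.vk 2 A' j' ξ z by ring]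
      exact lpp_aux_m3 (bw' z) (bw' z) (bw' z)
    · rw [show S.vk 2 A j ξ z ^ 3 = S.vk 2 A j ξ z * S.vk 2 A j ξ z * S.vk 2 A j ξ z by ring]
      exact lpp_aux_m3 (bw z) (bw z) (bw z)
    · have e : S.vk 2 A' j' ξ z ^ 3 - S.vk 2 A j ξ z ^ 3
          = (S.vk 2 A' j' ξ z * S.vk 2 A' j' ξ z + S.vk 2 A' j' ξ z * S.vk 2 A j ξ z + S.vk 2 A j ξ z * S.vk 2 A j ξ z)
            * (S.vk 2 A' j' ξ z - S.vk 2 A j ξ z) := by ring
      rw [e, abs_mul]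
      refine mul_le_mul ?_ (hε 2 le_rfl (by norm_num) z) (abs_nonneg _) (by positivity)
      have q1 := lpp_aux_m2 (bw' z) (bw' z)
      have q2 := lpp_aux_m2 (bw' z) (bw z)
      have q3 := lpp_aux_m2 (bw z) (bw z)
      have q4 := abs_add_le (S.vk 2 A' j' ξ z * S.vk 2 A' j' ξ z + S.vk 2 A' j' ξ z * S.vk 2 A j ξ z) (S.vk 2 A j ξ z * S.vk 2 A j ξ z)
      have q5 := abs_add_le (S.vk 2 A' j' ξ z * S.vk 2 A' j' ξ z) (S.vk 2 A' j' ξ z * S.vk 2 A j ξ z)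
      linarith
  have h2 := hI _ _ (lpp_test_w3 hS hB hA hξ.1)
  have h3 : S.M3 A' j' ξ - S.M3 A j ξ = (S.Ex A' j' ξ (fun z => S.vk 2 A' j' ξ z ^ 3) - S.Ex A' j' ξ (fun z => S.vk 2 A j ξ z ^ 3))
      + (S.Ex A' j' ξ (fun z => S.vk 2 A j ξ z ^ 3) - S.Ex A j ξ (fun z => S.vk 2 A j ξ z ^ 3)) := by
    simp only [LppMod.M3]
    ring
  rw [h3]
  refine (abs_add_le _ _).trans ?_
  have e4 : B * (9 * B ^ 3) * I = 9 * B ^ 4 * I := by ring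
  linarith

/-- LEAF D3: the KEY lemma: oddness of `v3` gives the factor `ξ` -/
theorem lpp_N3_diff : |S.N3 A' j' ξ - S.N3 A j ξ| ≤ 2 * B ^ 2 * ε * ξ + 9 * B ^ 4 * I := by
  have b3 := hB.bd 3 (by norm_num) (by norm_num) A j hA ξ hξ.1
  have b3' := hB.bd 3 (by norm_num) (by norm_num) A' j' hA' ξ hξ.1
  have b4 := hB.bd 4 (by norm_num) (by norm_num) A j hA ξ hξ.1
  have b4' := hB.bd 4 (by norm_num) (by norm_num) A' j' hA' ξ hξ.1
  have c3 := lpp_vk_cont hS hA hξ.1 3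
  have c3' := lpp_vk_cont hS hA' hξ.1 3
  have d3 := lpp_vk_hasDerivAt hS hA hξ.1 3
  have d3' := lpp_vk_hasDerivAt hS hA' hξ.1 3
  have hB0 : 0 ≤ B := by linarith [hB.one]
  have hε0 : 0 ≤ ε := (abs_nonneg _).trans (hε 2 le_rfl (by norm_num) 0)
  have z3 : S.vk 3 A j ξ 0 = 0 := by
    have := lpp_vk_neg hS hA hξ.1 3 0
    rw [neg_zero] at this
    linarith
  have z3' : S.vk 3 A' j' ξ 0 = 0 := by
    have := lpp_vk_neg hS hA' hξ.1 3 0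
    rw [neg_zero] at this
    linarith
  have hm : ∀ z, |S.vk 3 A' j' ξ z - S.vk 3 A j ξ z| ≤ ε * |z| := fun z =>
    lpp_abs_le_mul_abs (f := fun z => S.vk 3 A' j' ξ z - S.vk 3 A j ξ z) (f' := fun z => S.vk 4 A' j' ξ z - S.vk 4 A j ξ z)
      (fun y => (d3' y).sub (d3 y)) (by simp only [z3, z3', sub_zero]) (fun y => hε 4 (by norm_num) le_rfl y) z
  have hp : ∀ z, |S.vk 3 A' j' ξ z + S.vk 3 A j ξ z| ≤ (2 * B) * |z| := fun z =>
    lpp_abs_le_mul_abs (f := fun z => S.vk 3 A' j' ξ z + S.vk 3 A j ξ z) (f' := fun z => S.vk 4 A' j' ξ z + S.vk 4 A j ξ z)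
      (fun y => (d3' y).add (d3 y)) (by simp only [z3, z3', add_zero])
      (fun y => by linarith [abs_add_le (S.vk 4 A' j' ξ y) (S.vk 4 A j ξ y), b4 y, b4' y]) z
  have h1 : |S.Ex A' j' ξ (fun z => S.vk 3 A' j' ξ z ^ 2) - S.Ex A' j' ξ (fun z => S.vk 3 A j ξ z ^ 2)| ≤ (2 * B * ε) * (B * ξ) := by
    refine lpp_aux_Ex_sq hS hA' hξ.1 (K := B ^ 2) (c3'.pow 2) (c3.pow 2) (fun z => ?_) (fun z => ?_) (by positivity) (fun z => ?_)
      (hB.mom A' j' hA' ξ hξ)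
    · rw [sq (S.vk 3 A' j' ξ z)]
      exact lpp_aux_m2 (b3' z) (b3' z)
    · rw [sq (S.vk 3 A j ξ z)]
      exact lpp_aux_m2 (b3 z) (b3 z)
    · have e : S.vk 3 A' j' ξ z ^ 2 - S.vk 3 A j ξ z ^ 2
          = (S.vk 3 A' j' ξ z + S.vk 3 A j ξ z) * (S.vk 3 A' j' ξ z - S.vk 3 A j ξ z) := by ring
      have e2 : 2 * B * ε * z ^ 2 = (2 * B * |z|) * (ε * |z|) := by
        rw [← sq_abs z]
        ring
      rw [e, abs_mul, e2]
      exact mul_le_mul (hp z) (hm z) (abs_nonneg _) (by positivity)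
  have h2 := hI _ _ (lpp_test_v3 hS hB hA hξ.1)
  have h3 : S.N3 A' j' ξ - S.N3 A j ξ = (S.Ex A' j' ξ (fun z => S.vk 3 A' j' ξ z ^ 2) - S.Ex A' j' ξ (fun z => S.vk 3 A j ξ z ^ 2))
      + (S.Ex A' j' ξ (fun z => S.vk 3 A j ξ z ^ 2) - S.Ex A j ξ (fun z => S.vk 3 A j ξ z ^ 2)) := by
    simp only [LppMod.N3]
    ring
  rw [h3]
  refine (abs_add_le _ _).trans ?_
  have e4 : B * (9 * B ^ 3) * I = 9 * B ^ 4 * I := by ring
  have e5 : (2 * B * ε) * (B * ξ) = 2 * B ^ 2 * ε * ξ := by ring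
  linarith

end diff

end Claimed.Agent.R286
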