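import Claimed.Agent.R286.LL.PathsPkA

/-!
# Row 286 (S0533), LL Section 3, PERTURBATION KIT, file 3: CUT-OFF, BASE PROFILE, COMPARISON WITH THE BASE MODEL
(architect helper121; provers: helper275/helper267 (C1-C8, B0-B2, B4, E4), helper154 (B3, E1-E3); prefix `lpp_`, `Lpp`)
-/

set_option autoImplicit false

namespace Claimed.Agent.R286

open MeasureTheory Set

/-- `∫_ξ^∞ P` -/
noncomputable def lppIP (P : ℝ → ℝ) (ξ : ℝ) : ℝ := ∫ r in Ioi ξ, P r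

/-! ## the cut-off -/

section cut

variable {z0 : ℝ} {P : ℝ → ℝ} (hz : 0 < z0) (hP : LppCut z0 P)

include hz hP

/-- LEAF C1 -/
theorem lpp_P_integrableOn (ξ : ℝ) (hξ : 0 ≤ ξ) : IntegrableOn P (Ioi ξ) := by
  have hPc : Continuous P := hP.sm.continuous
  have h1 : IntegrableOn P (Ioc ξ (max ξ z0)) := (hPc.integrableOn_Icc).mono_set Ioc_subset_Icc_self
  have h2 : IntegrableOn P (Ioi (max ξ z0)) := by
    have hz' : IntegrableOn (fun _ : ℝ => (0 : ℝ)) (Ioi (max ξ z0)) := integrableOn_zero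
    refine hz'.congr_fun (fun r hr => ?_) measurableSet_Ioi
    exact (hP.zero r ((le_max_right _ _).trans (le_of_lt hr))).symm
  have h3 := h1.union h2
  rwa [Ioc_union_Ioi_eq_Ioi (le_max_left _ _)] at h3

/-- LEAF C2 -/
theorem lpp_IP_nonneg (ξ : ℝ) (hξ : 0 ≤ ξ) : 0 ≤ lppIP P ξ :=
  setIntegral_nonneg measurableSet_Ioi fun r hr => (hP.nn r (hξ.trans (le_of_lt hr))).1

/-- LEAF C4 -/
theorem lpp_IP_zero (ξ : ℝ) (hξ : z0 ≤ ξ) : lppIP P ξ = 0 := by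
  unfold lppIP
  rw [setIntegral_congr_fun measurableSet_Ioi (g := fun _ => (0 : ℝ)) fun r hr => hP.zero r (hξ.trans (le_of_lt hr))]
  simp

/-- LEAF C7 -/
theorem lpp_intP_le (ξ : ℝ) (h0 : 0 ≤ ξ) : ∫ r in (0 : ℝ)..ξ, P r ≤ ξ ^ 2 / 2 := by
  have hPc : Continuous P := hP.sm.continuous
  have h1 : ∫ r in (0 : ℝ)..ξ, P r ≤ ∫ r in (0 : ℝ)..ξ, r :=
    intervalIntegral.integral_mono_on h0 (hPc.intervalIntegrable _ _) (continuous_id.intervalIntegrable _ _)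
      fun r hr => (hP.nn r hr.1).2
  rw [integral_id] at h1
  linarith

/-- LEAF C3 -/
theorem lpp_IP_le (ξ : ℝ) (hξ : 0 ≤ ξ) : lppIP P ξ ≤ z0 ^ 2 / 2 := by
  have h0 := lpp_P_integrableOn hz hP 0 le_rfl
  have h1 : lppIP P ξ ≤ lppIP P 0 := by
    refine setIntegral_mono_set h0 ?_ (Ioi_subset_Ioi hξ).eventuallyLE
    filter_upwards [ae_restrict_mem measurableSet_Ioi] with r hr
    exact (hP.nn r (le_of_lt hr)).1
  have h2 : lppIP P 0 = (∫ r in (0 : ℝ)..z0, P r) + lppIP P z0 := by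
    unfold lppIP
    have hdj : Disjoint (Ioc 0 z0) (Ioi z0) := Set.disjoint_left.2 fun r hr hr' => not_lt.2 hr.2 hr'
    rw [intervalIntegral.integral_of_le hz.le, ← setIntegral_union hdj
      measurableSet_Ioi (h0.mono_set Ioc_subset_Ioi_self) (h0.mono_set (Ioi_subset_Ioi hz.le)),
      Ioc_union_Ioi_eq_Ioi hz.le]
  rw [lpp_IP_zero hz hP z0 le_rfl] at h2
  have h3 := lpp_intP_le hz hP z0 hz.le
  linarith

/-- LEAF C5 -/
theorem lpp_intP_eq (ξ : ℝ) (h0 : 0 ≤ ξ) (h1 : ξ ≤ z0 / 2) : ∫ r in (0 : ℝ)..ξ, P r = ξ ^ 2 / 2 := by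
  have h2 : ∫ r in (0 : ℝ)..ξ, P r = ∫ r in (0 : ℝ)..ξ, r := by
    refine intervalIntegral.integral_congr fun r hr => ?_
    rw [uIcc_of_le h0] at hr
    exact hP.lin r ⟨hr.1, hr.2.trans h1⟩
  rw [h2, integral_id]
  ring

/-- LEAF C6 -/
theorem lpp_intP_ge (ξ : ℝ) (h1 : z0 / 2 ≤ ξ) : z0 ^ 2 / 8 ≤ ∫ r in (0 : ℝ)..ξ, P r := by
  have hPc : Continuous P := hP.sm.continuous
  have h2 := intervalIntegral.integral_add_adjacent_intervals (hPc.intervalIntegrable (μ := volume) 0 (z0 / 2))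
    (hPc.intervalIntegrable (μ := volume) (z0 / 2) ξ)
  have h3 := lpp_intP_eq hz hP (z0 / 2) (by linarith) le_rfl
  have h4 : 0 ≤ ∫ r in (z0 / 2)..ξ, P r :=
    intervalIntegral.integral_nonneg h1 fun r hr => (hP.nn r (by linarith [hr.1])).1
  nlinarith

/-- LEAF C8 -/
theorem lpp_P_lip : ∃ L : ℝ, 0 ≤ L ∧ ∀ ξ ξ', 0 ≤ ξ → ξ ≤ ξ' → P ξ - P ξ' ≤ L * (ξ' - ξ) := by
  have hd : Continuous (deriv P) := hP.sm.continuous_deriv (by simp)
  have hdiff : Differentiable ℝ P := hP.sm.differentiable (by simp)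
  obtain ⟨L, hL⟩ := (isCompact_Icc (a := (0 : ℝ)) (b := z0)).exists_bound_of_continuousOn hd.continuousOn
  have hL0 : 0 ≤ L := (norm_nonneg _).trans (hL 0 ⟨le_rfl, hz.le⟩)
  refine ⟨L, hL0, fun ξ ξ' h0 h1 => ?_⟩
  have key : ∀ x, 0 ≤ x → P x = P (min x z0) := by
    intro x _
    rcases le_total x z0 with h | h
    · rw [min_eq_left h]
    · rw [min_eq_right h, hP.zero x h, hP.zero z0 le_rfl]
  rw [key ξ h0, key ξ' (h0.trans h1)]
  have ha : min ξ z0 ∈ Icc 0 z0 := ⟨le_min h0 hz.le, min_le_right _ _⟩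
  have hb : min ξ' z0 ∈ Icc 0 z0 := ⟨le_min (h0.trans h1) hz.le, min_le_right _ _⟩
  have h2 := (convex_Icc (0 : ℝ) z0).norm_image_sub_le_of_norm_deriv_le (f := P) (C := L)
    (fun x _ => hdiff x) hL hb ha
  rw [Real.norm_eq_abs, Real.norm_eq_abs] at h2
  have h3 : |min ξ z0 - min ξ' z0| ≤ ξ' - ξ := by
    have h5 : min ξ z0 ≤ min ξ' z0 := min_le_min_right _ h1
    rw [abs_of_nonpos (by linarith)]
    rcases le_total ξ z0 with h | h
    · rw [min_eq_left h]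
      linarith [min_le_left ξ' z0]
    · rw [min_eq_right h, min_eq_right (h.trans h1)]
      linarith
  calc P (min ξ z0) - P (min ξ' z0) ≤ |P (min ξ z0) - P (min ξ' z0)| := le_abs_self _
    _ ≤ L * |min ξ z0 - min ξ' z0| := h2
    _ ≤ L * (ξ' - ξ) := mul_le_mul_of_nonneg_left h3 hL0

end cut

/-- (helper275) integrability of `A₁ E χ³` for a monotone `A₁` -/
theorem lpp_aux_AM3_int {S : LppMod} (hS : LppOk S) {A : ℝ → ℝ} {j : ℝ} (hA : LppAdm A j) {A1 : ℝ → ℝ}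
    (hA1 : MonotoneOn A1 (Ici 0)) (a b : ℝ) (ha : 0 ≤ a) (hb : 0 ≤ b) :
    IntervalIntegrable (fun r => A1 r * S.M3 A j r) volume a b := by
  have hsub : uIcc a b ⊆ Ici 0 := fun r hr => (le_min ha hb).trans hr.1
  exact ((hA1.mono hsub).intervalIntegrable).mul_continuousOn ((hS.M3c A j hA).mono hsub)

theorem lpp_aux_N3_int {S : LppMod} (hS : LppOk S) {A : ℝ → ℝ} {j : ℝ} (hA : LppAdm A j) (a b : ℝ) (ha : 0 ≤ a) (hb : 0 ≤ b) :
    IntervalIntegrable (S.N3 A j) volume a b := by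
  have hsub : uIcc a b ⊆ Ici 0 := fun r hr => (le_min ha hb).trans hr.1
  exact ((hS.N3c A j hA).mono hsub).intervalIntegrable

theorem lpp_aux_M3_int {S : LppMod} (hS : LppOk S) {A : ℝ → ℝ} {j : ℝ} (hA : LppAdm A j) (a b : ℝ) (ha : 0 ≤ a) (hb : 0 ≤ b) :
    IntervalIntegrable (S.M3 A j) volume a b := by
  have hsub : uIcc a b ⊆ Ici 0 := fun r hr => (le_min ha hb).trans hr.1
  exact ((hS.M3c A j hA).mono hsub).intervalIntegrable

/-- (helper275) integrability of the curvature integrand -/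
theorem lpp_aux_curv_int {S : LppMod} (hS : LppOk S) {A : ℝ → ℝ} {j : ℝ} (hA : LppAdm A j) (a b : ℝ) (ha : 0 ≤ a) (hb : 0 ≤ b) :
    IntervalIntegrable (fun r => S.N3 A j r - 2 * A r * S.M3 A j r) volume a b := by
  have h1 := (lpp_aux_AM3_int hS hA hA.mono a b ha hb).const_mul 2
  have h2 := (lpp_aux_N3_int hS hA a b ha hb).sub h1
  refine h2.congr_ae (Filter.Eventually.of_forall fun r => ?_)
  simp only
  ring

/-! ## the base profile -/

section base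

variable {S : LppMod} (hS : LppOk S) {T ξs : ℝ} {A0 : ℝ → ℝ} (hb : LppBase S T A0 ξs)

include hS hb

/-- LEAF B0: continuity of `Γ'` (from `curve`) -/
theorem lpp_M2_cont {A : ℝ → ℝ} {j : ℝ} (hA : LppAdm A j) : ContinuousOn (S.M2 A j) (Ici 0) := by
  intro x hx
  have hx0 : (0 : ℝ) ≤ x := hx
  have hi := lpp_aux_curv_int hS hA 0 (x + 1) le_rfl (by linarith)
  have hu : uIcc 0 (x + 1) = Icc 0 (x + 1) := uIcc_of_le (by linarith)
  have hc := intervalIntegral.continuousOn_primitive_interval (μ := volume)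
    ((intervalIntegrable_iff_integrableOn_Icc_of_le (by linarith : (0 : ℝ) ≤ x + 1)).1 hi |>.mono_set (by rw [hu]))
  rw [hu] at hc
  have hc2 : ContinuousOn (S.M2 A j) (Icc 0 (x + 1)) := by
    refine (hc.const_add (S.M2 A j 0)).congr fun y hy => ?_
    have := hS.curve A j hA 0 y le_rfl hy.1
    simp only
    linarith
  have h3 := hc2 x ⟨hx0, by linarith⟩
  refine h3.mono_of_mem_nhdsWithin ?_
  have h4 : Iio (x + 1) ∈ nhds x := Iio_mem_nhds (by linarith)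
  filter_upwards [mem_nhdsWithin_of_mem_nhds h4, self_mem_nhdsWithin] with y hy1 hy2
  exact ⟨hy2, le_of_lt hy1⟩

/-- LEAF B1: `Γ_0 = ξ/T` and `Γ_0 = ∫ Γ_0'`, `Γ_0'` continuous -/
theorem lpp_base_M2 (ξ : ℝ) (hξ : ξ ∈ Icc 0 ξs) : S.M2 A0 1 ξ = 1 / T := by
  have hT0 : 0 < T := by linarith [hb.T1]
  have hc := lpp_M2_cont hS hb hb.adm
  have hIoo : EqOn (S.M2 A0 1) (fun _ => 1 / T) (Ioo 0 ξs) := by
    intro b hbb
    have hsub : uIcc 0 b ⊆ Ici 0 := by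
      rw [uIcc_of_le hbb.1.le]
      exact fun r hr => hr.1
    have h1 := intervalIntegral.integral_hasDerivAt_right ((hc.mono hsub).intervalIntegrable (μ := volume))
      ((hc.mono Ioi_subset_Ici_self).stronglyMeasurableAtFilter isOpen_Ioi b hbb.1)
      (hc.continuousAt (Ici_mem_nhds hbb.1))
    have h2 : HasDerivAt (fun u : ℝ => u / T) (1 / T) b := (hasDerivAt_id b).div_const T
    have h3 : (fun u : ℝ => u / T) =ᶠ[nhds b] fun u => ∫ x in (0 : ℝ)..u, S.M2 A0 1 x := by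
      filter_upwards [Ioo_mem_nhds hbb.1 hbb.2] with u hu
      rw [← hS.gam A0 1 hb.adm u hu.1.le, hb.self u ⟨hu.1.le, hu.2.le⟩]
    exact (h1.congr_of_eventuallyEq h3).unique h2
  have h5 := hIoo.of_subset_closure (hc.mono fun r hr => hr.1) continuousOn_const Ioo_subset_Icc_self
    (by rw [closure_Ioo hb.xs.ne])
  exact h5 hξ

/-- LEAF B2 -/
theorem lpp_base_zero (ξ : ℝ) (hξ : ξ ∈ Icc 0 ξs) : ∫ r in (0 : ℝ)..ξ, (S.N3 A0 1 r - 2 * A0 r * S.M3 A0 1 r) = 0 := by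
  rw [← hS.curve A0 1 hb.adm 0 ξ le_rfl hξ.1, lpp_base_M2 hS hb ξ hξ, lpp_base_M2 hS hb 0 ⟨le_rfl, hb.xs.le⟩, sub_self]

/-- LEAF B3: `E χ³ > 0` is continuous on the compact `[0,ξ_*]` -/
theorem lpp_base_m3 : ∃ m3 : ℝ, 0 < m3 ∧ ∀ ξ ∈ Icc 0 ξs, m3 ≤ S.M3 A0 1 ξ := by
  obtain ⟨x, hx, hmin⟩ := (isCompact_Icc (a := (0 : ℝ)) (b := ξs)).exists_isMinOn (nonempty_Icc.2 hb.xs.le)
    ((hS.M3c A0 1 hb.adm).mono Icc_subset_Ici_self)
  refine ⟨S.M3 A0 1 x, ?_, fun ξ hξ => hmin hξ⟩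
  obtain ⟨C, hC⟩ := hS.bd 2 (by norm_num)
  obtain ⟨Cm, hCm⟩ := hS.mom2 ξs
  have hc := lpp_vk_cont hS hb.adm hx.1 2
  have hpos : ∀ z, 0 < S.vk 2 A0 1 x z ^ 3 := fun z => pow_pos (hS.hess A0 1 hb.adm x hx.1 z).1 3
  have hcls : LppCls (fun z => S.vk 2 A0 1 x z ^ 3) := by
    refine LppCls.of_bdd (hc.pow 3) (C := C ^ 3) fun z => ?_
    rw [abs_pow]
    exact pow_le_pow_left₀ (abs_nonneg _) (hC A0 1 hb.adm x hx.1 z) 3
  -- tightness: `f ≥ c (1 - z²/ρ)` with `c = min f` on `z² ≤ ρ`, `ρ = |Cm| x + 1`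
  set ρ : ℝ := |Cm| * x + 1 with hρ
  have hρ0 : 0 < ρ := by have := mul_nonneg (abs_nonneg Cm) hx.1; linarith
  obtain ⟨z0, -, hz0⟩ := (isCompact_Icc (a := -Real.sqrt ρ) (b := Real.sqrt ρ)).exists_isMinOn
    (nonempty_Icc.2 (by linarith [Real.sqrt_nonneg ρ])) (hc.pow 3).continuousOn
  set c : ℝ := S.vk 2 A0 1 x z0 ^ 3 with hcdef
  have hc0 : 0 < c := hpos z0
  have hlow : ∀ z, c * (1 - (1 / ρ) * z ^ 2) ≤ S.vk 2 A0 1 x z ^ 3 := by
    intro z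
    by_cases hz : z ^ 2 ≤ ρ
    · have hmem : z ∈ Icc (-Real.sqrt ρ) (Real.sqrt ρ) := by
        have := Real.abs_le_sqrt hz
        exact abs_le.1 this
      have h1 : c ≤ S.vk 2 A0 1 x z ^ 3 := hz0 hmem
      have h2 : 0 ≤ (1 / ρ) * z ^ 2 := by positivity
      nlinarith
    · have h1 : 1 < (1 / ρ) * z ^ 2 := by
        rw [one_div, inv_mul_eq_div, lt_div_iff₀ hρ0]
        linarith [not_le.1 hz]
      have h2 := hpos z
      nlinarith
  have hone : LppCls (fun _ : ℝ => (1 : ℝ)) := LppCls.of_bdd continuous_const (C := 1) (fun _ => by simp)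
  have hg1 : LppCls (fun z : ℝ => 1 - (1 / ρ) * z ^ 2) := hone.sub (LppCls.sq.smul (1 / ρ))
  have h3 := hS.ex_mono A0 1 hb.adm x hx.1 _ _ (hg1.smul c) hcls hlow
  rw [hS.ex_smul A0 1 hb.adm x hx.1 c _ hg1, lpp_ex_sub hS hb.adm hx.1 hone (LppCls.sq.smul (1 / ρ)),
    hS.ex_one A0 1 hb.adm x hx.1, hS.ex_smul A0 1 hb.adm x hx.1 (1 / ρ) _ LppCls.sq] at h3
  have h4 : S.Ex A0 1 x (fun z => z ^ 2) ≤ |Cm| * x :=
    (hCm A0 1 hb.adm x hx).trans (mul_le_mul_of_nonneg_right (le_abs_self _) hx.1)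
  have h5 : (1 / ρ) * S.Ex A0 1 x (fun z => z ^ 2) ≤ (1 / ρ) * (ρ - 1) :=
    mul_le_mul_of_nonneg_left (by rw [hρ]; linarith) (by positivity)
  have h6 : 0 < 1 - (1 / ρ) * S.Ex A0 1 x (fun z => z ^ 2) := by
    have : (1 / ρ) * (ρ - 1) = 1 - 1 / ρ := by field_simp
    have h7 : 0 < 1 / ρ := by positivity
    linarith
  exact lt_of_lt_of_le (mul_pos hc0 h6) h3

/-- LEAF B4: `A_λ = A_0 + λ P` is admissible for small `λ` -/
theorem lpp_adm_dir : ∃ z1 : ℝ, 0 < z1 ∧ z1 ≤ 1 ∧ z1 ≤ ξs ∧ ∀ z0, 0 < z0 → z0 ≤ z1 → ∀ P, LppCut z0 P →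
    ∃ l0 : ℝ, 0 < l0 ∧ ∀ lam, 0 ≤ lam → lam ≤ l0 → LppAdm (fun ξ => A0 ξ + lam * P ξ) 1 := by
  obtain ⟨c, ξ1, hc, hξ1, hdens⟩ := hb.dens
  refine ⟨min (min 1 ξs) ξ1, lt_min (lt_min one_pos hb.xs) hξ1, (min_le_left _ _).trans (min_le_left _ _),
    (min_le_left _ _).trans (min_le_right _ _), fun z0 hz hz1 P hP => ?_⟩
  have hzs : z0 ≤ ξs := hz1.trans ((min_le_left _ _).trans (min_le_right _ _))
  have hzx : z0 ≤ ξ1 := hz1.trans (min_le_right _ _)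
  obtain ⟨L, hL0, hL⟩ := lpp_P_lip hz hP
  refine ⟨c / (L + 1), by positivity, fun lam hl0 hl1 => ?_⟩
  have hlL : lam * L ≤ c := by
    have h1 : lam * (L + 1) ≤ c := by rwa [le_div_iff₀ (by linarith)] at hl1
    nlinarith
  -- monotone below `z0`
  have m1 : ∀ ξ ξ', 0 ≤ ξ → ξ ≤ ξ' → ξ' ≤ z0 → A0 ξ + lam * P ξ ≤ A0 ξ' + lam * P ξ' := by
    intro ξ ξ' h0 h1 h2
    have h3 := hdens ξ ξ' h0 h1 (h2.trans hzx)
    have h4 := hL ξ ξ' h0 h1
    have h5 : lam * (P ξ - P ξ') ≤ lam * (L * (ξ' - ξ)) := mul_le_mul_of_nonneg_left h4 hl0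
    have h6 : lam * L * (ξ' - ξ) ≤ c * (ξ' - ξ) := mul_le_mul_of_nonneg_right hlL (by linarith)
    nlinarith
  have m2 : ∀ ξ ξ', z0 ≤ ξ → ξ ≤ ξ' → A0 ξ + lam * P ξ ≤ A0 ξ' + lam * P ξ' := by
    intro ξ ξ' h0 h1
    rw [hP.zero ξ h0, hP.zero ξ' (h0.trans h1)]
    have := hb.adm.mono (show ξ ∈ Ici (0 : ℝ) from hz.le.trans h0) (show ξ' ∈ Ici (0 : ℝ) from hz.le.trans (h0.trans h1)) h1
    linarith
  have m : ∀ ξ ξ', 0 ≤ ξ → ξ ≤ ξ' → A0 ξ + lam * P ξ ≤ A0 ξ' + lam * P ξ' := by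
    intro ξ ξ' h0 h1
    rcases le_total ξ' z0 with h | h
    · exact m1 ξ ξ' h0 h1 h
    · rcases le_total z0 ξ with h' | h'
      · exact m2 ξ ξ' h' h1
      · exact (m1 ξ z0 h0 h' le_rfl).trans (m2 z0 ξ' le_rfl h)
  refine ⟨le_rfl, by norm_num, fun ξ h0 ξ' _ h1 => m ξ ξ' h0 h1, fun ξ h0 => ?_, fun ξ h0 => ?_, ⟨ξs, fun ξ h => ?_⟩⟩
  · have := hb.adm.nn ξ h0
    have := mul_nonneg hl0 (hP.nn ξ h0).1
    linarith
  · have h1 := m ξ (max ξ z0) h0 (le_max_left _ _)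
    rw [hP.zero (max ξ z0) (le_max_right _ _)] at h1
    have h2 := hb.adm.le (max ξ z0) (h0.trans (le_max_left _ _))
    linarith
  · rw [hb.top ξ h, hP.zero ξ (hzs.trans h)]
    ring

end base

/-! ## a model close to the direct one -/

/-- the model `(A,j)`: on `[0,ξ_*)` its profile is `A_0 + λ P + ω ξ`; up to `ξ_*` its continuation derivatives are `δ`-close to those of the direct model `(A_0 + λ P, 1)` -/
structure LppNear (S : LppMod) (A0 P : ℝ → ℝ) (ξs lam om dl : ℝ) (A : ℝ → ℝ) (j : ℝ) : Prop where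
  adm : LppAdm A j
  dir : LppAdm (fun ξ => A0 ξ + lam * P ξ) 1
  eq : ∀ ξ ∈ Ico 0 ξs, A ξ = A0 ξ + lam * P ξ + om * ξ
  near : ∀ k : ℕ, 2 ≤ k → k ≤ 4 → ∀ ξ ∈ Icc 0 ξs, ∀ z, |S.vk k A j ξ z - S.vk k (fun ξ => A0 ξ + lam * P ξ) 1 ξ z| ≤ dl

section near

variable {S : LppMod} (hS : LppOk S) {T ξs B : ℝ} {A0 : ℝ → ℝ} (hb : LppBase S T A0 ξs) (hB : LppB S ξs B)
  {CA : ℝ} (hCA0 : 0 ≤ CA) (hCA : ∀ ξ ∈ Icc 0 ξs, A0 ξ ≤ CA * ξ)
  {z0 : ℝ} {P : ℝ → ℝ} (hz : 0 < z0) (hzs : z0 ≤ ξs) (hP : LppCut z0 P)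
  {lam om dl j : ℝ} {A : ℝ → ℝ} (hl : 0 ≤ lam) (ho : 0 ≤ om) (hd : 0 ≤ dl) (hN : LppNear S A0 P ξs lam om dl A j)

include hCA hP hl ho hN in
/-- (helper154) the pointwise bound of the source term of `ll` -/
theorem lpp_near_H_aux (r : ℝ) (hr : r ∈ Ico 0 ξs) {D : ℝ} (hD : 0 ≤ D) :
    (|A r - A0 r| + A0 r * D) * r ≤ (lam + om + CA * D) * r ^ 2 := by
  have h1 : A r - A0 r = lam * P r + om * r := by rw [hN.eq r hr]; ring
  have h2 := hP.nn r hr.1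
  have h3 : 0 ≤ lam * P r + om * r := add_nonneg (mul_nonneg hl h2.1) (mul_nonneg ho hr.1)
  have h4 : lam * P r ≤ lam * r := mul_le_mul_of_nonneg_left h2.2 hl
  have h5 : A0 r * D ≤ CA * r * D := mul_le_mul_of_nonneg_right (hCA r ⟨hr.1, hr.2.le⟩) hD
  rw [h1, abs_of_nonneg h3]
  have h6 : lam * P r + om * r + A0 r * D ≤ (lam + om + CA * D) * r := by nlinarith
  calc (lam * P r + om * r + A0 r * D) * r ≤ ((lam + om + CA * D) * r) * r := mul_le_mul_of_nonneg_right h6 hr.1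
    _ = (lam + om + CA * D) * r ^ 2 := by ring

include hS hb hB hCA0 hCA hz hzs hP hl ho hd hN

/-- LEAF E1: triangle inequality + `dl` (`∫_ξ^∞ |A_λ - A_0| = λ ∫_ξ^∞ P`) -/
theorem lpp_near_eps (k : ℕ) (h2 : 2 ≤ k) (h4 : k ≤ 4) (ξ : ℝ) (hξ : ξ ∈ Icc 0 ξs) (z : ℝ) :
    |S.vk k A j ξ z - S.vk k A0 1 ξ z| ≤ dl + B * lam * lppIP P ξ := by
  have h1 := hN.near k h2 h4 ξ hξ z
  have h3 := hB.dl k (by omega) h4 A0 (fun ξ => A0 ξ + lam * P ξ) 1 hb.adm hN.dir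
    (fun r hr => by rw [hP.zero r (hzs.trans hr)]; ring) ξ hξ.1 z
  have h5 : ∫ r in Ioi ξ, |(fun ξ => A0 ξ + lam * P ξ) r - A0 r| = lam * lppIP P ξ := by
    unfold lppIP
    rw [← integral_const_mul]
    refine setIntegral_congr_fun measurableSet_Ioi fun r hr => ?_
    have h6 : 0 ≤ lam * P r := mul_nonneg hl (hP.nn r (hξ.1.trans (le_of_lt hr))).1
    show |A0 r + lam * P r - A0 r| = lam * P r
    rw [add_sub_cancel_left, abs_of_nonneg h6]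
  rw [h5] at h3
  have h7 : S.vk k A j ξ z - S.vk k A0 1 ξ z = (S.vk k A j ξ z - S.vk k (fun ξ => A0 ξ + lam * P ξ) 1 ξ z)
      + (S.vk k (fun ξ => A0 ξ + lam * P ξ) 1 ξ z - S.vk k A0 1 ξ z) := by ring
  rw [h7]
  refine (abs_add_le _ _).trans ?_
  linarith

/-- LEAF E2: the law, times `ξ ≤ z_0`: `H r = h₁ r²` -/
theorem lpp_near_I_small (ξ : ℝ) (h0 : 0 ≤ ξ) (h1 : ξ ≤ z0) (g : ℝ → ℝ) (G : ℝ) (hg : LppTest g G) :
    |S.Ex A j ξ g - S.Ex A0 1 ξ g| ≤ B * G * ((lam + om + CA * (dl + B * lam * z0 ^ 2 / 2)) * ξ ^ 3 / 3) := by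
  have hB0 : 0 ≤ B := by linarith [hB.one]
  have hD0 : 0 ≤ dl + B * lam * z0 ^ 2 / 2 := by positivity
  have h2 := hB.ll A0 1 A j hb.adm hN.adm ξ ⟨h0, h1.trans hzs⟩ g G hg (fun _ => dl + B * lam * z0 ^ 2 / 2)
    (fun r => (lam + om + CA * (dl + B * lam * z0 ^ 2 / 2)) * r ^ 2) ?_ ?_ ?_
  · rw [intervalIntegral.integral_const_mul, integral_pow] at h2
    refine h2.trans (le_of_eq ?_)
    push_cast
    ring
  · intro r hr z
    have hr' : r ∈ Icc 0 ξs := ⟨hr.1, (hr.2.le.trans h1).trans hzs⟩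
    have h3 := lpp_near_eps hS hb hB hCA0 hCA hz hzs hP hl ho hd hN 2 le_rfl (by norm_num) r hr' z
    have h4 := mul_le_mul_of_nonneg_left (lpp_IP_le hz hP r hr.1) (mul_nonneg hB0 hl)
    linarith
  · intro r hr
    have hr' : r ∈ Icc 0 ξs := ⟨hr.1, (hr.2.le.trans h1).trans hzs⟩
    have hr'' : r ∈ Ico 0 ξs := ⟨hr.1, hr.2.trans_le (h1.trans hzs)⟩
    exact lpp_near_H_aux hCA hP hl ho hN r hr'' hD0
  · exact (continuous_const.mul (continuous_pow 2)).intervalIntegrable _ _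

/-- LEAF E3: the law, times `z_0 ≤ ξ ≤ ξ_*`: `H r = a 1_{r ≤ z_0} r² + b r²` -/
theorem lpp_near_I_large (ξ : ℝ) (h0 : z0 ≤ ξ) (h1 : ξ ≤ ξs) (g : ℝ → ℝ) (G : ℝ) (hg : LppTest g G) :
    |S.Ex A j ξ g - S.Ex A0 1 ξ g| ≤
      B * G * ((lam + CA * (B * lam * z0 ^ 2 / 2)) * z0 ^ 3 / 3 + (om + CA * dl) * ξ ^ 3 / 3) := by
  have hB0 : 0 ≤ B := by linarith [hB.one]
  have hξ0 : 0 ≤ ξ := hz.le.trans h0
  have ha0 : 0 ≤ lam + CA * (B * lam * z0 ^ 2 / 2) := by positivity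
  have hc1 : Continuous fun r : ℝ => (lam + CA * (B * lam * z0 ^ 2 / 2)) * r ^ 2 := continuous_const.mul (continuous_pow 2)
  have hc2 : Continuous fun r : ℝ => (om + CA * dl) * r ^ 2 := continuous_const.mul (continuous_pow 2)
  have hi1 : IntervalIntegrable ((Iic z0).indicator fun r : ℝ => (lam + CA * (B * lam * z0 ^ 2 / 2)) * r ^ 2) volume 0 ξ := by
    rw [intervalIntegrable_iff_integrableOn_Ioc_of_le hξ0]
    exact (hc1.integrableOn_Ioc).indicator measurableSet_Iic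
  have hi2 : IntervalIntegrable (fun r : ℝ => (om + CA * dl) * r ^ 2) volume 0 ξ := hc2.intervalIntegrable _ _
  have h2 := hB.ll A0 1 A j hb.adm hN.adm ξ ⟨hξ0, h1⟩ g G hg (fun r => dl + B * lam * lppIP P r)
    (fun r => (Iic z0).indicator (fun r : ℝ => (lam + CA * (B * lam * z0 ^ 2 / 2)) * r ^ 2) r + (om + CA * dl) * r ^ 2) ?_ ?_
    (hi1.add hi2)
  · rw [intervalIntegral.integral_add hi1 hi2, intervalIntegral.integral_const_mul, integral_pow,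
      intervalIntegral.integral_of_le hξ0, setIntegral_indicator measurableSet_Iic, Ioc_inter_Iic, min_eq_right h0,
      ← intervalIntegral.integral_of_le hz.le, intervalIntegral.integral_const_mul, integral_pow] at h2
    refine h2.trans (le_of_eq ?_)
    push_cast
    ring
  · intro r hr z
    exact lpp_near_eps hS hb hB hCA0 hCA hz hzs hP hl ho hd hN 2 le_rfl (by norm_num) r ⟨hr.1, hr.2.le.trans h1⟩ z
  · intro r hr
    have hr'' : r ∈ Ico 0 ξs := ⟨hr.1, hr.2.trans_le h1⟩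
    have hIP0 := lpp_IP_nonneg hz hP r hr.1
    have hD0 : 0 ≤ dl + B * lam * lppIP P r := by positivity
    have hr2 : 0 ≤ r ^ 2 := sq_nonneg r
    rcases le_or_gt r z0 with hrz | hrz
    · have h3 := lpp_near_H_aux hCA hP hl ho hN r hr'' hD0
      have h4 := mul_le_mul_of_nonneg_left (lpp_IP_le hz hP r hr.1) (mul_nonneg hB0 hl)
      have h5 : CA * (dl + B * lam * lppIP P r) ≤ CA * (dl + B * lam * (z0 ^ 2 / 2)) :=
        mul_le_mul_of_nonneg_left (by linarith) hCA0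
      rw [indicator_of_mem (mem_Iic.2 hrz)]
      refine h3.trans ?_
      have h6 : lam + om + CA * (dl + B * lam * lppIP P r) ≤ (lam + CA * (B * lam * z0 ^ 2 / 2)) + (om + CA * dl) := by
        linarith
      calc (lam + om + CA * (dl + B * lam * lppIP P r)) * r ^ 2
          ≤ ((lam + CA * (B * lam * z0 ^ 2 / 2)) + (om + CA * dl)) * r ^ 2 := mul_le_mul_of_nonneg_right h6 hr2
        _ = _ := by ring
    · have hPr : P r = 0 := hP.zero r hrz.le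
      have hIPr : lppIP P r = 0 := lpp_IP_zero hz hP r hrz.le
      have h7 : A r - A0 r = om * r := by rw [hN.eq r hr'', hPr]; ring
      have h8 : A0 r * dl ≤ CA * r * dl := mul_le_mul_of_nonneg_right (hCA r ⟨hr.1, hr''.2.le⟩) hd
      rw [indicator_of_notMem (by simpa using hrz), hIPr, h7, abs_of_nonneg (mul_nonneg ho hr.1), mul_zero, add_zero, zero_add]
      calc (om * r + A0 r * dl) * r ≤ (om * r + CA * r * dl) * r := mul_le_mul_of_nonneg_right (by linarith) hr.1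
        _ = _ := by ring

/-- LEAF E4: THE DROP IDENTITY -/
theorem lpp_near_drop (ξ : ℝ) (hξ : ξ ∈ Icc 0 ξs) :
    S.M2 A j 0 - S.M2 A j ξ = (2 * ∫ r in (0 : ℝ)..ξ, (lam * P r + om * r) * S.M3 A j r)
      - ∫ r in (0 : ℝ)..ξ, ((S.N3 A j r - S.N3 A0 1 r) - 2 * A0 r * (S.M3 A j r - S.M3 A0 1 r)) := by
  have hPc : Continuous P := hP.sm.continuous
  have hsub : uIcc 0 ξ ⊆ Ici 0 := by
    rw [uIcc_of_le hξ.1]
    exact fun r hr => hr.1
  have h1 := hS.curve A j hN.adm 0 ξ le_rfl hξ.1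
  have h3 := lpp_base_zero hS hb ξ hξ
  have hne : ∀ᵐ x ∂(volume : Measure ℝ), x ≠ ξs := by simp [ae_iff]
  have iY : IntervalIntegrable (fun r => (lam * P r + om * r) * S.M3 A j r) volume 0 ξ := by
    refine ContinuousOn.intervalIntegrable ?_
    exact (((continuous_const.mul hPc).add (continuous_const.mul continuous_id)).continuousOn).mul ((hS.M3c A j hN.adm).mono hsub)
  have iZ := lpp_aux_curv_int hS hb.adm 0 ξ le_rfl hξ.1
  have iX : IntervalIntegrable (fun r => (S.N3 A j r - S.N3 A0 1 r) - 2 * A0 r * (S.M3 A j r - S.M3 A0 1 r)) volume 0 ξ := by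
    have q1 := (lpp_aux_N3_int hS hN.adm 0 ξ le_rfl hξ.1).sub (lpp_aux_N3_int hS hb.adm 0 ξ le_rfl hξ.1)
    have q2 := ((lpp_aux_AM3_int hS hN.adm hb.adm.mono 0 ξ le_rfl hξ.1).sub
      (lpp_aux_AM3_int hS hb.adm hb.adm.mono 0 ξ le_rfl hξ.1)).const_mul 2
    refine (q1.sub q2).congr_ae (Filter.Eventually.of_forall fun r => ?_)
    simp only
    ring
  have h2 : ∫ r in (0 : ℝ)..ξ, (S.N3 A j r - 2 * A r * S.M3 A j r)
      = ∫ r in (0 : ℝ)..ξ, ((((S.N3 A j r - S.N3 A0 1 r) - 2 * A0 r * (S.M3 A j r - S.M3 A0 1 r))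
          + (S.N3 A0 1 r - 2 * A0 r * S.M3 A0 1 r)) - 2 * ((lam * P r + om * r) * S.M3 A j r)) := by
    refine intervalIntegral.integral_congr_ae ?_
    filter_upwards [hne] with r hr hr2
    rw [uIoc_of_le hξ.1] at hr2
    rw [hN.eq r ⟨hr2.1.le, lt_of_le_of_ne (hr2.2.trans hξ.2) hr⟩]
    ring
  rw [intervalIntegral.integral_sub (iX.add iZ) (iY.const_mul 2), intervalIntegral.integral_add iX iZ, h3,
    intervalIntegral.integral_const_mul] at h2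
  linarith

end near

end Claimed.Agent.R286
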