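import Claimed.Agent.R286.LL.PathsPkB

/-!
# Row 286 (S0533), LL Section 3, PERTURBATION KIT, file 4: THE LIFT ON `[0, ξ_*]` (core of Lemma paths:lift, both references)
(architect helper121; prefix `lpp_`, `Lpp`)

`drop ξ = Γ'(0) - Γ'(ξ)` for a model `LppNear` the direct one.   EXIT: `lpp_core`.
Paper: LL 03 l.136-160; 253's S6, S7 (`origin/helper253:notes/R286/L03_helper253.md`, (c1)); here the errors on `[z_0, ξ_*]` are `O(λ z_0³)` (Duhamel on even tests), better than the paper's `O(ρ_1 sqrt z_0)`.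
-/

set_option autoImplicit false

namespace Claimed.Agent.R286

open MeasureTheory Set

/-- `ε̄ = δ + B λ z_0²/2`: bound of the differences of `∂_z^k V`, `k = 2,3,4` -/
noncomputable def lppEb (B lam dl z0 : ℝ) : ℝ := dl + B * lam * z0 ^ 2 / 2
/-- `h₁` -/
noncomputable def lppH1 (B CA lam om dl z0 : ℝ) : ℝ := lam + om + CA * lppEb B lam dl z0
/-- `E₁`: the error integrand is `≤ E₁ r` on `[0,z_0]` -/
noncomputable def lppE1 (B CA lam om dl z0 : ℝ) : ℝ :=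
  2 * B ^ 2 * lppEb B lam dl z0 + 3 * B ^ 4 * lppH1 B CA lam om dl z0 * z0 ^ 2
    + 2 * CA * (3 * B ^ 2 * lppEb B lam dl z0 + 3 * B ^ 4 * lppH1 B CA lam om dl z0 * z0 ^ 3)
/-- `E₂`: `|Γ'(ξ) - 1/T| ≤ E₂` on `[z_0, ξ_*]` -/
noncomputable def lppE2 (B CA lam om dl z0 ξs : ℝ) : ℝ :=
  2 * B * dl + 9 * B ^ 4 * ((lam + CA * (B * lam * z0 ^ 2 / 2)) * z0 ^ 3 / 3 + (om + CA * dl) * ξs ^ 3 / 3)

section near

variable {S : LppMod} (hS : LppOk S) {T ξs B : ℝ} {A0 : ℝ → ℝ} (hb : LppBase S T A0 ξs) (hB : LppB S ξs B)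
  {CA : ℝ} (hCA0 : 0 ≤ CA) (hCA : ∀ ξ ∈ Icc 0 ξs, A0 ξ ≤ CA * ξ)
  {z0 : ℝ} {P : ℝ → ℝ} (hz : 0 < z0) (hzs : z0 ≤ ξs) (hP : LppCut z0 P)
  {lam om dl j : ℝ} {A : ℝ → ℝ} (hl : 0 ≤ lam) (ho : 0 ≤ om) (hd : 0 ≤ dl) (hN : LppNear S A0 P ξs lam om dl A j)

include hS hb hB hCA0 hCA hz hzs hP hl ho hd hN

/-- (helper82) `ε̄` bounds the differences of `∂_z^k V` on `[0,ξ_*]` -/
theorem lpp_F_aux_eps (ξ : ℝ) (hξ : ξ ∈ Icc 0 ξs) (k : ℕ) (h2 : 2 ≤ k) (h4 : k ≤ 4) (z : ℝ) :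
    |S.vk k A j ξ z - S.vk k A0 1 ξ z| ≤ lppEb B lam dl z0 := by
  have hB1 := hB.one
  have h := lpp_near_eps hS hb hB hCA0 hCA hz hzs hP hl ho hd hN k h2 h4 ξ hξ z
  have h3 := lpp_IP_le hz hP ξ hξ.1
  have h5 : B * lam * lppIP P ξ ≤ B * lam * (z0 ^ 2 / 2) := mul_le_mul_of_nonneg_left h3 (by positivity)
  unfold lppEb
  linarith

/-- (helper82) the law on `[0,z_0]` in the form used by D1-D3 -/
theorem lpp_F_aux_I (r : ℝ) (h0 : 0 ≤ r) (h1 : r ≤ z0) (g : ℝ → ℝ) (G : ℝ) (hg : LppTest g G) :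
    |S.Ex A j r g - S.Ex A0 1 r g| ≤ B * G * (lppH1 B CA lam om dl z0 * r ^ 3 / 3) := by
  have h := lpp_near_I_small hS hb hB hCA0 hCA hz hzs hP hl ho hd hN r h0 h1 g G hg
  unfold lppH1 lppEb
  exact h

/-- LEAF F1 (from D2, E1, C3, E2) -/
theorem lpp_F_M3 (r : ℝ) (h0 : 0 ≤ r) (h1 : r ≤ z0) :
    |S.M3 A j r - S.M3 A0 1 r| ≤ 3 * B ^ 2 * lppEb B lam dl z0 + 3 * B ^ 4 * lppH1 B CA lam om dl z0 * r ^ 3 := by
  have hr : r ∈ Icc 0 ξs := ⟨h0, h1.trans hzs⟩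
  have h := lpp_M3_diff hS hB hb.adm hN.adm hr
    (fun k h2 h4 z => lpp_F_aux_eps hS hb hB hCA0 hCA hz hzs hP hl ho hd hN r hr k h2 h4 z)
    (fun g G hg => lpp_F_aux_I hS hb hB hCA0 hCA hz hzs hP hl ho hd hN r h0 h1 g G hg)
  have e : 9 * B ^ 4 * (lppH1 B CA lam om dl z0 * r ^ 3 / 3) = 3 * B ^ 4 * lppH1 B CA lam om dl z0 * r ^ 3 := by ring
  linarith

/-- LEAF F2 (from D3, E1, C3, E2) -/
theorem lpp_F_N3 (r : ℝ) (h0 : 0 ≤ r) (h1 : r ≤ z0) :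
    |S.N3 A j r - S.N3 A0 1 r| ≤ 2 * B ^ 2 * lppEb B lam dl z0 * r + 3 * B ^ 4 * lppH1 B CA lam om dl z0 * r ^ 3 := by
  have hr : r ∈ Icc 0 ξs := ⟨h0, h1.trans hzs⟩
  have h := lpp_N3_diff hS hB hb.adm hN.adm hr
    (fun k h2 h4 z => lpp_F_aux_eps hS hb hB hCA0 hCA hz hzs hP hl ho hd hN r hr k h2 h4 z)
    (fun g G hg => lpp_F_aux_I hS hb hB hCA0 hCA hz hzs hP hl ho hd hN r h0 h1 g G hg)
  have e : 9 * B ^ 4 * (lppH1 B CA lam om dl z0 * r ^ 3 / 3) = 3 * B ^ 4 * lppH1 B CA lam om dl z0 * r ^ 3 := by ring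
  linarith

/-- LEAF F3 (from D1, E1, C4, E3, B1) -/
theorem lpp_F_M2 (ξ : ℝ) (h0 : z0 ≤ ξ) (h1 : ξ ≤ ξs) : |S.M2 A j ξ - 1 / T| ≤ lppE2 B CA lam om dl z0 ξs := by
  have hB1 := hB.one
  have hξ : ξ ∈ Icc 0 ξs := ⟨hz.le.trans h0, h1⟩
  have h := lpp_M2_diff hS hB hb.adm hN.adm hξ (ε := dl)
    (I := (lam + CA * (B * lam * z0 ^ 2 / 2)) * z0 ^ 3 / 3 + (om + CA * dl) * ξ ^ 3 / 3)
    (fun k h2 h4 z => by
      have h := lpp_near_eps hS hb hB hCA0 hCA hz hzs hP hl ho hd hN k h2 h4 ξ hξ z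
      rw [lpp_IP_zero hz hP ξ h0] at h
      linarith)
    (fun g G hg => lpp_near_I_large hS hb hB hCA0 hCA hz hzs hP hl ho hd hN ξ h0 h1 g G hg)
  rw [lpp_base_M2 hS hb ξ hξ] at h
  have h3 : ξ ^ 3 ≤ ξs ^ 3 := pow_le_pow_left₀ hξ.1 h1 3
  have h4 : (om + CA * dl) * ξ ^ 3 ≤ (om + CA * dl) * ξs ^ 3 := mul_le_mul_of_nonneg_left h3 (by positivity)
  have h5 : 9 * B ^ 4 * ((lam + CA * (B * lam * z0 ^ 2 / 2)) * z0 ^ 3 / 3 + (om + CA * dl) * ξ ^ 3 / 3)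
      ≤ 9 * B ^ 4 * ((lam + CA * (B * lam * z0 ^ 2 / 2)) * z0 ^ 3 / 3 + (om + CA * dl) * ξs ^ 3 / 3) :=
    mul_le_mul_of_nonneg_left (by linarith) (by positivity)
  unfold lppE2
  linarith

/-- LEAF F4 (from D1, E1, C3, E2 at `ξ = 0`, B1) -/
theorem lpp_F_M2_zero : |S.M2 A j 0 - 1 / T| ≤ 2 * B * lppEb B lam dl z0 := by
  have h00 : (0 : ℝ) ∈ Icc 0 ξs := ⟨le_rfl, hz.le.trans hzs⟩
  have h := lpp_M2_diff hS hB hb.adm hN.adm h00 (ε := lppEb B lam dl z0) (I := 0)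
    (fun k h2 h4 z => lpp_F_aux_eps hS hb hB hCA0 hCA hz hzs hP hl ho hd hN 0 h00 k h2 h4 z)
    (fun g G hg => by
      have h := lpp_F_aux_I hS hb hB hCA0 hCA hz hzs hP hl ho hd hN 0 le_rfl hz.le g G hg
      simpa using h)
  rw [lpp_base_M2 hS hb 0 h00] at h
  linarith

/-- LEAF F5 (from F1, F2): the error integral on `[0,ξ]`, `ξ ≤ z_0` -/
theorem lpp_F_err (ξ : ℝ) (h0 : 0 ≤ ξ) (h1 : ξ ≤ z0) :
    |∫ r in (0 : ℝ)..ξ, ((S.N3 A j r - S.N3 A0 1 r) - 2 * A0 r * (S.M3 A j r - S.M3 A0 1 r))|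
      ≤ lppE1 B CA lam om dl z0 * ξ ^ 2 / 2 := by
  have hB1 := hB.one
  have hE : 0 ≤ lppEb B lam dl z0 := by
    unfold lppEb
    positivity
  have hH : 0 ≤ lppH1 B CA lam om dl z0 := by
    unfold lppH1
    positivity
  have hpt : ∀ r ∈ Ioc 0 ξ, ‖(S.N3 A j r - S.N3 A0 1 r) - 2 * A0 r * (S.M3 A j r - S.M3 A0 1 r)‖
      ≤ lppE1 B CA lam om dl z0 * r := by
    intro r hr
    have hr0 : 0 ≤ r := hr.1.le
    have hrz : r ≤ z0 := hr.2.trans h1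
    have f1 := lpp_F_M3 hS hb hB hCA0 hCA hz hzs hP hl ho hd hN r hr0 hrz
    have f2 := lpp_F_N3 hS hb hB hCA0 hCA hz hzs hP hl ho hd hN r hr0 hrz
    have a0 : 0 ≤ A0 r := hb.adm.nn r hr0
    have a1 : A0 r ≤ CA * r := hCA r ⟨hr0, hrz.trans hzs⟩
    have r3a : r ^ 3 ≤ r * z0 ^ 2 := by
      have : r ^ 2 ≤ z0 ^ 2 := pow_le_pow_left₀ hr0 hrz 2
      have := mul_le_mul_of_nonneg_left this hr0
      calc r ^ 3 = r * r ^ 2 := by ring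
        _ ≤ r * z0 ^ 2 := this
    have r3b : r ^ 3 ≤ z0 ^ 3 := pow_le_pow_left₀ hr0 hrz 3
    have c1 : 3 * B ^ 4 * lppH1 B CA lam om dl z0 * r ^ 3 ≤ 3 * B ^ 4 * lppH1 B CA lam om dl z0 * (r * z0 ^ 2) :=
      mul_le_mul_of_nonneg_left r3a (by positivity)
    have c2 : 3 * B ^ 4 * lppH1 B CA lam om dl z0 * r ^ 3 ≤ 3 * B ^ 4 * lppH1 B CA lam om dl z0 * z0 ^ 3 :=
      mul_le_mul_of_nonneg_left r3b (by positivity)
    have c3 : |2 * A0 r * (S.M3 A j r - S.M3 A0 1 r)|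
        ≤ 2 * (CA * r) * (3 * B ^ 2 * lppEb B lam dl z0 + 3 * B ^ 4 * lppH1 B CA lam om dl z0 * z0 ^ 3) := by
      rw [abs_mul, abs_of_nonneg (by positivity : (0 : ℝ) ≤ 2 * A0 r)]
      exact mul_le_mul (by linarith) (f1.trans (by linarith)) (abs_nonneg _) (by positivity)
    rw [Real.norm_eq_abs]
    refine (abs_sub _ _).trans ?_
    unfold lppE1
    have e : (2 * B ^ 2 * lppEb B lam dl z0 + 3 * B ^ 4 * lppH1 B CA lam om dl z0 * z0 ^ 2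
        + 2 * CA * (3 * B ^ 2 * lppEb B lam dl z0 + 3 * B ^ 4 * lppH1 B CA lam om dl z0 * z0 ^ 3)) * r
        = 2 * B ^ 2 * lppEb B lam dl z0 * r + 3 * B ^ 4 * lppH1 B CA lam om dl z0 * (r * z0 ^ 2)
          + 2 * (CA * r) * (3 * B ^ 2 * lppEb B lam dl z0 + 3 * B ^ 4 * lppH1 B CA lam om dl z0 * z0 ^ 3) := by ring
    rw [e]
    linarith
  have hint := intervalIntegral.norm_integral_le_of_norm_le (μ := volume) h0
    (Filter.Eventually.of_forall hpt) (Continuous.intervalIntegrable (by fun_prop) 0 ξ)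
  rw [Real.norm_eq_abs] at hint
  refine hint.trans (le_of_eq ?_)
  rw [intervalIntegral.integral_const_mul, integral_id]
  ring

/-- LEAF F6: lower bound of the main term -/
theorem lpp_F_main_lo {m : ℝ} (hm0 : 0 ≤ m) (ξ : ℝ) (h0 : 0 ≤ ξ) (h1 : ξ ≤ ξs) (hm : ∀ r ∈ Icc 0 ξ, m ≤ S.M3 A j r) :
    2 * m * lam * (∫ r in (0 : ℝ)..ξ, P r) ≤ 2 * ∫ r in (0 : ℝ)..ξ, (lam * P r + om * r) * S.M3 A j r := by
  have hPc : Continuous P := hP.sm.continuous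
  have hM3c : ContinuousOn (S.M3 A j) (Icc 0 ξ) := (hS.M3c A j hN.adm).mono (fun r hr => hr.1)
  have hi1 : IntervalIntegrable (fun r => m * lam * P r) volume 0 ξ := (by fun_prop : Continuous fun r => m * lam * P r).intervalIntegrable 0 ξ
  have hi2 : IntervalIntegrable (fun r => (lam * P r + om * r) * S.M3 A j r) volume 0 ξ := by
    apply ContinuousOn.intervalIntegrable
    rw [uIcc_of_le h0]
    exact ContinuousOn.mul (by fun_prop) hM3c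
  have hmono := intervalIntegral.integral_mono_on h0 hi1 hi2 (fun r hr => by
    have p0 := (hP.nn r hr.1).1
    have m1 := hm r hr
    have q1 : (lam * P r) * m ≤ (lam * P r + om * r) * m :=
      mul_le_mul_of_nonneg_right (by have := mul_nonneg ho hr.1; linarith) hm0
    have q2 : (lam * P r + om * r) * m ≤ (lam * P r + om * r) * S.M3 A j r :=
      mul_le_mul_of_nonneg_left m1 (by have := mul_nonneg ho hr.1; have := mul_nonneg hl p0; linarith)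
    calc m * lam * P r = (lam * P r) * m := by ring
      _ ≤ _ := q1.trans q2)
  rw [intervalIntegral.integral_const_mul] at hmono
  linarith

/-- LEAF F7: upper bound of the main term (`E χ³ ≤ B³`, `P r ≤ r`) -/
theorem lpp_F_main_hi (ξ : ℝ) (h0 : 0 ≤ ξ) (h1 : ξ ≤ ξs) :
    2 * ∫ r in (0 : ℝ)..ξ, (lam * P r + om * r) * S.M3 A j r ≤ (lam + om) * B ^ 3 * ξ ^ 2 := by
  have hB1 := hB.one
  have hPc : Continuous P := hP.sm.continuous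
  have hM3c : ContinuousOn (S.M3 A j) (Icc 0 ξ) := (hS.M3c A j hN.adm).mono (fun r hr => hr.1)
  have hi1 : IntervalIntegrable (fun r => (lam + om) * B ^ 3 * r) volume 0 ξ := (by fun_prop : Continuous fun r => (lam + om) * B ^ 3 * r).intervalIntegrable 0 ξ
  have hi2 : IntervalIntegrable (fun r => (lam * P r + om * r) * S.M3 A j r) volume 0 ξ := by
    apply ContinuousOn.intervalIntegrable
    rw [uIcc_of_le h0]
    exact ContinuousOn.mul (by fun_prop) hM3c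
  have hM3 : ∀ r, 0 ≤ r → S.M3 A j r ≤ B ^ 3 := by
    intro r hr
    have hb3 : ∀ z, |S.vk 2 A j r z ^ 3| ≤ B ^ 3 := fun z => by
      rw [abs_pow]
      exact pow_le_pow_left₀ (abs_nonneg _) (hB.bd 2 (by norm_num) (by norm_num) A j hN.adm r hr z) 3
    have hc : Continuous (S.vk 2 A j r) :=
      continuous_iff_continuousAt.2 fun z => (lpp_vk_hasDerivAt hS hN.adm hr 2 z).continuousAt
    exact (le_abs_self _).trans (lpp_ex_abs_le_const hS hN.adm hr (LppCls.of_bdd (hc.pow 3) hb3) hb3)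
  have hmono := intervalIntegral.integral_mono_on h0 hi2 hi1 (fun r hr => by
    have p0 := hP.nn r hr.1
    have q0 : 0 ≤ lam * P r + om * r := by have := mul_nonneg ho hr.1; have := mul_nonneg hl p0.1; linarith
    have q1 : (lam * P r + om * r) * S.M3 A j r ≤ (lam * P r + om * r) * B ^ 3 := mul_le_mul_of_nonneg_left (hM3 r hr.1) q0
    have q2 : lam * P r + om * r ≤ (lam + om) * r := by have := mul_le_mul_of_nonneg_left p0.2 hl; linarith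
    have q3 : (lam * P r + om * r) * B ^ 3 ≤ ((lam + om) * r) * B ^ 3 := mul_le_mul_of_nonneg_right q2 (by positivity)
    calc _ ≤ _ := q1.trans q3
      _ = (lam + om) * B ^ 3 * r := by ring)
  rw [intervalIntegral.integral_const_mul, integral_id] at hmono
  linarith

variable {m3 : ℝ} (hm30 : 0 < m3) (hm3 : ∀ ξ ∈ Icc 0 ξs, m3 ≤ S.M3 A0 1 ξ) (hz1 : z0 ≤ 1)
  (hs1 : 3 * B ^ 2 * lppEb B lam dl z0 + 3 * B ^ 4 * lppH1 B CA lam om dl z0 ≤ m3 / 2)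
  (hs2 : lppE1 B CA lam om dl z0 ≤ m3 * lam / 8)
  (hs3 : 2 * lppE2 B CA lam om dl z0 ξs ≤ m3 * lam * z0 ^ 2 / 32)

include hm30 hm3 hz1 hs1 hs2 hs3

/-- (helper275) `E χ³ ≥ m₃/2` on `[0,z_0]` -/
theorem lpp_G_aux_M3 (r : ℝ) (h0 : 0 ≤ r) (h1 : r ≤ z0) : m3 / 2 ≤ S.M3 A j r := by
  have hB1 := hB.one
  have hE : 0 ≤ lppEb B lam dl z0 := by
    unfold lppEb
    positivity
  have hH : 0 ≤ lppH1 B CA lam om dl z0 := by
    unfold lppH1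
    positivity
  have hF := lpp_F_M3 hS hb hB hCA0 hCA hz hzs hP hl ho hd hN r h0 h1
  have hr3 : r ^ 3 ≤ 1 := pow_le_one₀ h0 (h1.trans hz1)
  have h2 : 3 * B ^ 4 * lppH1 B CA lam om dl z0 * r ^ 3 ≤ 3 * B ^ 4 * lppH1 B CA lam om dl z0 * 1 :=
    mul_le_mul_of_nonneg_left hr3 (by positivity)
  have h3 := hm3 r ⟨h0, h1.trans hzs⟩
  have h4 := (abs_le.1 hF).1
  linarith

/-- (helper275) the drop on `[0,z_0]` from below -/
theorem lpp_G_aux_lo (ξ : ℝ) (h0 : 0 ≤ ξ) (h1 : ξ ≤ z0) :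
    m3 * lam * (∫ r in (0 : ℝ)..ξ, P r) - m3 * lam * ξ ^ 2 / 16 ≤ S.M2 A j 0 - S.M2 A j ξ := by
  have hdrop := lpp_near_drop hS hb hB hCA0 hCA hz hzs hP hl ho hd hN ξ ⟨h0, h1.trans hzs⟩
  have herr := lpp_F_err hS hb hB hCA0 hCA hz hzs hP hl ho hd hN ξ h0 h1
  have hM : ∀ r ∈ Icc 0 ξ, m3 / 2 ≤ S.M3 A j r := fun r hr =>
    lpp_G_aux_M3 hS hb hB hCA0 hCA hz hzs hP hl ho hd hN hm30 hm3 hz1 hs1 hs2 hs3 r hr.1 (hr.2.trans h1)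
  have hmain := lpp_F_main_lo hS hb hB hCA0 hCA hz hzs hP hl ho hd hN (m := m3 / 2) (by positivity) ξ h0 (h1.trans hzs) hM
  have h5 : lppE1 B CA lam om dl z0 * ξ ^ 2 ≤ m3 * lam / 8 * ξ ^ 2 := mul_le_mul_of_nonneg_right hs2 (sq_nonneg _)
  have h6 := (abs_le.1 herr).2
  have e : 2 * (m3 / 2) * lam * (∫ r in (0 : ℝ)..ξ, P r) = m3 * lam * (∫ r in (0 : ℝ)..ξ, P r) := by ring
  rw [e] at hmain
  rw [hdrop]
  linarith

/-- (helper275) the drop on `[0,z_0]` from above -/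
theorem lpp_G_aux_hi (ξ : ℝ) (h0 : 0 ≤ ξ) (h1 : ξ ≤ z0) :
    S.M2 A j 0 - S.M2 A j ξ ≤ ((lam + om) * B ^ 3 + m3 * lam / 16) * ξ ^ 2 := by
  have hdrop := lpp_near_drop hS hb hB hCA0 hCA hz hzs hP hl ho hd hN ξ ⟨h0, h1.trans hzs⟩
  have herr := lpp_F_err hS hb hB hCA0 hCA hz hzs hP hl ho hd hN ξ h0 h1
  have hmain := lpp_F_main_hi hS hb hB hCA0 hCA hz hzs hP hl ho hd hN ξ h0 (h1.trans hzs)
  have h5 : lppE1 B CA lam om dl z0 * ξ ^ 2 ≤ m3 * lam / 8 * ξ ^ 2 := mul_le_mul_of_nonneg_right hs2 (sq_nonneg _)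
  have h6 := (abs_le.1 herr).1
  rw [hdrop]
  linarith

/-- LEAF G1 (from E4, F1, F5, F6, C5): `ξ ≤ z_0/2` -/
theorem lpp_G_lo1 (ξ : ℝ) (h0 : 0 ≤ ξ) (h1 : ξ ≤ z0 / 2) : m3 * lam * ξ ^ 2 / 4 ≤ S.M2 A j 0 - S.M2 A j ξ := by
  have h2 := lpp_G_aux_lo hS hb hB hCA0 hCA hz hzs hP hl ho hd hN hm30 hm3 hz1 hs1 hs2 hs3 ξ h0 (by linarith)
  rw [lpp_intP_eq hz hP ξ h0 h1] at h2
  have h3 : 0 ≤ m3 * lam * ξ ^ 2 := by positivity
  linarith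

/-- LEAF G2 (from E4, F1, F5, F6, C6): `z_0/2 ≤ ξ ≤ z_0` -/
theorem lpp_G_lo2 (ξ : ℝ) (h0 : z0 / 2 ≤ ξ) (h1 : ξ ≤ z0) : m3 * lam * z0 ^ 2 / 16 ≤ S.M2 A j 0 - S.M2 A j ξ := by
  have h2 := lpp_G_aux_lo hS hb hB hCA0 hCA hz hzs hP hl ho hd hN hm30 hm3 hz1 hs1 hs2 hs3 ξ (by linarith) h1
  have h3 := lpp_intP_ge hz hP ξ h0
  have h4 : m3 * lam * (z0 ^ 2 / 8) ≤ m3 * lam * (∫ r in (0 : ℝ)..ξ, P r) := mul_le_mul_of_nonneg_left h3 (by positivity)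
  have h5 : ξ ^ 2 ≤ z0 ^ 2 := pow_le_pow_left₀ (by linarith) h1 2
  have h6 : m3 * lam * ξ ^ 2 ≤ m3 * lam * z0 ^ 2 := mul_le_mul_of_nonneg_left h5 (by positivity)
  linarith

/-- LEAF G3 (from G2 at `z_0`, F3 twice): `z_0 ≤ ξ ≤ ξ_*` -/
theorem lpp_G_lo3 (ξ : ℝ) (h0 : z0 ≤ ξ) (h1 : ξ ≤ ξs) : m3 * lam * z0 ^ 2 / 32 ≤ S.M2 A j 0 - S.M2 A j ξ := by
  have h2 := lpp_G_lo2 hS hb hB hCA0 hCA hz hzs hP hl ho hd hN hm30 hm3 hz1 hs1 hs2 hs3 z0 (by linarith) le_rfl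
  have h3 := abs_le.1 (lpp_F_M2 hS hb hB hCA0 hCA hz hzs hP hl ho hd hN z0 le_rfl hzs)
  have h4 := abs_le.1 (lpp_F_M2 hS hb hB hCA0 hCA hz hzs hP hl ho hd hN ξ h0 h1)
  linarith [h3.1, h3.2, h4.1, h4.2]

/-- GLUE: the lower bound on `[0, ξ_*]` -/
theorem lpp_G_lo (ξ : ℝ) (hξ : ξ ∈ Icc 0 ξs) : m3 * z0 ^ 2 / 32 * lam * min (ξ ^ 2) 1 ≤ S.M2 A j 0 - S.M2 A j ξ := by
  have hml : 0 ≤ m3 * lam := mul_nonneg hm30.le hl
  have hz2 : z0 ^ 2 ≤ 1 := by nlinarith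
  have hz20 : 0 ≤ z0 ^ 2 := sq_nonneg _
  rcases le_total ξ (z0 / 2) with h | h
  · have h1 := lpp_G_lo1 hS hb hB hCA0 hCA hz hzs hP hl ho hd hN hm30 hm3 hz1 hs1 hs2 hs3 ξ hξ.1 h
    have h2 : min (ξ ^ 2) 1 ≤ ξ ^ 2 := min_le_left _ _
    have h3 : 0 ≤ ξ ^ 2 := sq_nonneg _
    have h4 : m3 * z0 ^ 2 / 32 * lam * min (ξ ^ 2) 1 ≤ m3 * z0 ^ 2 / 32 * lam * ξ ^ 2 :=
      mul_le_mul_of_nonneg_left h2 (by positivity)
    have h5 : m3 * z0 ^ 2 / 32 * lam * ξ ^ 2 = (m3 * lam * ξ ^ 2) * (z0 ^ 2 / 32) := by ring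
    have h6 : (m3 * lam * ξ ^ 2) * (z0 ^ 2 / 32) ≤ (m3 * lam * ξ ^ 2) * (1 / 4) :=
      mul_le_mul_of_nonneg_left (by linarith) (by positivity)
    linarith
  · have h2 : min (ξ ^ 2) 1 ≤ 1 := min_le_right _ _
    have h4 : m3 * z0 ^ 2 / 32 * lam * min (ξ ^ 2) 1 ≤ m3 * z0 ^ 2 / 32 * lam * 1 :=
      mul_le_mul_of_nonneg_left h2 (by positivity)
    have h7 : 0 ≤ m3 * lam * z0 ^ 2 := by positivity
    rcases le_total ξ z0 with h' | h'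
    · have h1 := lpp_G_lo2 hS hb hB hCA0 hCA hz hzs hP hl ho hd hN hm30 hm3 hz1 hs1 hs2 hs3 ξ h h'
      nlinarith
    · have h1 := lpp_G_lo3 hS hb hB hCA0 hCA hz hzs hP hl ho hd hN hm30 hm3 hz1 hs1 hs2 hs3 ξ h' hξ.2
      nlinarith

/-- LEAF G4 (from E4, F5, F7; F3 twice): the upper bound on `[0, ξ_*]` -/
theorem lpp_G_hi (ξ : ℝ) (hξ : ξ ∈ Icc 0 ξs) :
    S.M2 A j 0 - S.M2 A j ξ ≤ ((lam + om) * B ^ 3 + m3 * lam) * ξ ^ 2 := by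
  have hB1 := hB.one
  have hc : 0 ≤ (lam + om) * B ^ 3 := by positivity
  have hml : 0 ≤ m3 * lam := by positivity
  rcases le_total ξ z0 with h | h
  · have h2 := lpp_G_aux_hi hS hb hB hCA0 hCA hz hzs hP hl ho hd hN hm30 hm3 hz1 hs1 hs2 hs3 ξ hξ.1 h
    have h3 : ((lam + om) * B ^ 3 + m3 * lam / 16) * ξ ^ 2 ≤ ((lam + om) * B ^ 3 + m3 * lam) * ξ ^ 2 :=
      mul_le_mul_of_nonneg_right (by linarith) (sq_nonneg _)
    linarith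
  · have h2 := lpp_G_aux_hi hS hb hB hCA0 hCA hz hzs hP hl ho hd hN hm30 hm3 hz1 hs1 hs2 hs3 z0 hz.le le_rfl
    have h3 := abs_le.1 (lpp_F_M2 hS hb hB hCA0 hCA hz hzs hP hl ho hd hN z0 le_rfl hzs)
    have h4 := abs_le.1 (lpp_F_M2 hS hb hB hCA0 hCA hz hzs hP hl ho hd hN ξ h hξ.2)
    have h5 : z0 ^ 2 ≤ ξ ^ 2 := pow_le_pow_left₀ hz.le h 2
    have h6 : ((lam + om) * B ^ 3 + m3 * lam) * z0 ^ 2 ≤ ((lam + om) * B ^ 3 + m3 * lam) * ξ ^ 2 :=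
      mul_le_mul_of_nonneg_left h5 (by linarith)
    have h7 : 0 ≤ m3 * lam * z0 ^ 2 := by positivity
    have e : ((lam + om) * B ^ 3 + m3 * lam / 16) * z0 ^ 2 = ((lam + om) * B ^ 3 + m3 * lam) * z0 ^ 2 - 15 / 16 * (m3 * lam * z0 ^ 2) := by ring
    linarith [h3.1, h3.2, h4.1, h4.2]

end near

/-- LEAF H (pure arithmetic): the three smallness conditions hold for `z_0 ≤ z_1`, `ω + δ ≤ κ λ`, `λ ≤ λ_0` -/
theorem lpp_choose (B CA m3 ξs : ℝ) (hB : 1 ≤ B) (hCA : 0 ≤ CA) (hm : 0 < m3) (hx : 0 < ξs) :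
    ∃ z1 : ℝ, 0 < z1 ∧ z1 ≤ 1 ∧ ∀ z0, 0 < z0 → z0 ≤ z1 → ∃ κ l0 : ℝ, 0 < κ ∧ κ ≤ 1 ∧ 0 < l0 ∧
      ∀ lam om dl, 0 < lam → lam ≤ l0 → 0 ≤ om → 0 ≤ dl → om + dl ≤ κ * lam →
        3 * B ^ 2 * lppEb B lam dl z0 + 3 * B ^ 4 * lppH1 B CA lam om dl z0 ≤ m3 / 2 ∧
        lppE1 B CA lam om dl z0 ≤ m3 * lam / 8 ∧
        2 * lppE2 B CA lam om dl z0 ξs ≤ m3 * lam * z0 ^ 2 / 32 := by
  have hB0 : 0 < B := by linarith
  obtain ⟨K1, hK1⟩ : ∃ K1 : ℝ, K1 = 2 + CA * (1 + B) := ⟨_, rfl⟩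
  obtain ⟨D0, hD0⟩ : ∃ D0 : ℝ, D0 = 3 * B ^ 2 * (1 + B) + 3 * B ^ 4 * K1 := ⟨_, rfl⟩
  obtain ⟨D1, hD1⟩ : ∃ D1 : ℝ, D1 = 2 * B ^ 2 + 6 * CA * B ^ 2 := ⟨_, rfl⟩
  obtain ⟨D2, hD2⟩ : ∃ D2 : ℝ, D2 = D1 * B / 2 + 3 * B ^ 4 * K1 * (1 + 2 * CA) := ⟨_, rfl⟩
  obtain ⟨D3, hD3⟩ : ∃ D3 : ℝ, D3 = 4 * B + 6 * B ^ 4 * (1 + CA) * ξs ^ 3 := ⟨_, rfl⟩
  obtain ⟨D4, hD4⟩ : ∃ D4 : ℝ, D4 = 6 * B ^ 4 * (1 + CA * B / 2) := ⟨_, rfl⟩
  have pK1 : 0 < K1 := by rw [hK1]; positivity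
  have pD0 : 0 < D0 := by rw [hD0]; positivity
  have pD1 : 0 < D1 := by rw [hD1]; positivity
  have pD2 : 0 < D2 := by rw [hD2]; positivity
  have pD3 : 0 < D3 := by rw [hD3]; positivity
  have pD4 : 0 < D4 := by rw [hD4]; positivity
  refine ⟨min 1 (m3 / (64 * (D2 + D4))), lt_min one_pos (by positivity), min_le_left _ _, ?_⟩
  intro z0 hz0 hz1
  have hz01 : z0 ≤ 1 := hz1.trans (min_le_left _ _)
  have ha : z0 * (D2 + D4) ≤ m3 / 64 := by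
    have h := hz1.trans (min_le_right _ _)
    rw [le_div_iff₀ (by positivity)] at h
    linarith
  obtain ⟨κ, hκ⟩ : ∃ κ : ℝ, κ = min 1 (m3 * z0 ^ 2 / (64 * (D1 + D3))) := ⟨_, rfl⟩
  have hκ0 : 0 < κ := by rw [hκ]; exact lt_min one_pos (by positivity)
  have hκ1 : κ ≤ 1 := by rw [hκ]; exact min_le_left _ _
  have hbk : κ * (D1 + D3) ≤ m3 * z0 ^ 2 / 64 := by
    have h : κ ≤ m3 * z0 ^ 2 / (64 * (D1 + D3)) := by rw [hκ]; exact min_le_right _ _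
    rw [le_div_iff₀ (by positivity)] at h
    linarith
  refine ⟨κ, m3 / (2 * D0), hκ0, hκ1, by positivity, ?_⟩
  intro lam om dl hl hl0 ho hd hod
  have hc : lam * D0 ≤ m3 / 2 := by
    rw [le_div_iff₀ (by positivity)] at hl0
    linarith
  have hz2 : z0 ^ 2 ≤ z0 := by
    have := mul_le_mul_of_nonneg_left hz01 hz0.le
    rw [sq]
    linarith
  have hz21 : z0 ^ 2 ≤ 1 := hz2.trans hz01
  have hz20 : 0 < z0 ^ 2 := by positivity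
  have hz3 : z0 ^ 3 ≤ z0 ^ 2 := pow_le_pow_of_le_one hz0.le hz01 (by norm_num)
  have hz30 : 0 < z0 ^ 3 := by positivity
  have hkl : κ * lam ≤ lam := by
    have := mul_le_mul_of_nonneg_right hκ1 hl.le
    linarith
  have hkl0 : 0 < κ * lam := by positivity
  have hdl : dl ≤ κ * lam := by linarith
  have hom : om ≤ κ * lam := by linarith
  obtain ⟨E, hE⟩ : ∃ E : ℝ, E = lppEb B lam dl z0 := ⟨_, rfl⟩
  obtain ⟨H, hH⟩ : ∃ H : ℝ, H = lppH1 B CA lam om dl z0 := ⟨_, rfl⟩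
  have hE0 : 0 ≤ E := by rw [hE]; unfold lppEb; positivity
  have hEa : E ≤ κ * lam + B * lam * z0 ^ 2 / 2 := by rw [hE]; unfold lppEb; linarith
  have hBl : 0 < B * lam := by positivity
  have hEb : E ≤ lam * (1 + B) := by
    have : B * lam * z0 ^ 2 ≤ B * lam * 1 := mul_le_mul_of_nonneg_left hz21 hBl.le
    linarith
  have hH0 : 0 ≤ H := by rw [hH]; unfold lppH1; rw [← hE]; positivity
  have hHa : H ≤ lam * K1 := by
    rw [hH]; unfold lppH1; rw [← hE, hK1]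
    have : CA * E ≤ CA * (lam * (1 + B)) := mul_le_mul_of_nonneg_left hEb hCA
    linarith
  have pB2 : 0 < B ^ 2 := by positivity
  have pB4 : 0 < B ^ 4 := by positivity
  refine ⟨?_, ?_, ?_⟩
  · rw [← hE, ← hH]
    have h1 : 3 * B ^ 2 * E ≤ 3 * B ^ 2 * (lam * (1 + B)) := mul_le_mul_of_nonneg_left hEb (by positivity)
    have h2 : 3 * B ^ 4 * H ≤ 3 * B ^ 4 * (lam * K1) := mul_le_mul_of_nonneg_left hHa (by positivity)
    have e : lam * D0 = 3 * B ^ 2 * (lam * (1 + B)) + 3 * B ^ 4 * (lam * K1) := by rw [hD0]; ring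
    linarith
  · unfold lppE1
    rw [← hE, ← hH]
    have e1 : 2 * B ^ 2 * E + 3 * B ^ 4 * H * z0 ^ 2 + 2 * CA * (3 * B ^ 2 * E + 3 * B ^ 4 * H * z0 ^ 3)
        = D1 * E + 3 * B ^ 4 * (H * z0 ^ 2) + 6 * CA * B ^ 4 * (H * z0 ^ 3) := by rw [hD1]; ring
    have h1 : D1 * E ≤ D1 * (κ * lam + B * lam * z0 ^ 2 / 2) := mul_le_mul_of_nonneg_left hEa pD1.le
    have h2 : H * z0 ^ 2 ≤ lam * K1 * z0 ^ 2 := mul_le_mul_of_nonneg_right hHa hz20.le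
    have h3 : H * z0 ^ 3 ≤ lam * K1 * z0 ^ 2 := mul_le_mul hHa hz3 hz30.le (by positivity)
    have h4 : 3 * B ^ 4 * (H * z0 ^ 2) ≤ 3 * B ^ 4 * (lam * K1 * z0 ^ 2) := mul_le_mul_of_nonneg_left h2 (by positivity)
    have h5 : 6 * CA * B ^ 4 * (H * z0 ^ 3) ≤ 6 * CA * B ^ 4 * (lam * K1 * z0 ^ 2) := mul_le_mul_of_nonneg_left h3 (by positivity)
    have e2 : D1 * (κ * lam + B * lam * z0 ^ 2 / 2) + 3 * B ^ 4 * (lam * K1 * z0 ^ 2) + 6 * CA * B ^ 4 * (lam * K1 * z0 ^ 2)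
        = lam * (κ * D1 + z0 ^ 2 * D2) := by rw [hD2]; ring
    have h6 : κ * D1 ≤ m3 / 64 := by
      have q1 : κ * D1 ≤ κ * (D1 + D3) := mul_le_mul_of_nonneg_left (by linarith) hκ0.le
      have q2 : m3 * z0 ^ 2 ≤ m3 * 1 := mul_le_mul_of_nonneg_left hz21 hm.le
      linarith
    have h7 : z0 ^ 2 * D2 ≤ m3 / 64 := by
      have q1 : z0 ^ 2 * D2 ≤ z0 * D2 := mul_le_mul_of_nonneg_right hz2 pD2.le
      have q2 : z0 * D2 ≤ z0 * (D2 + D4) := mul_le_mul_of_nonneg_left (by linarith) hz0.le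
      linarith
    have h8 : lam * (κ * D1 + z0 ^ 2 * D2) ≤ lam * (m3 / 32) := mul_le_mul_of_nonneg_left (by linarith) hl.le
    have h9 : 0 < m3 * lam := by positivity
    rw [e1]
    linarith
  · unfold lppE2
    have e1 : 2 * (2 * B * dl + 9 * B ^ 4 * ((lam + CA * (B * lam * z0 ^ 2 / 2)) * z0 ^ 3 / 3 + (om + CA * dl) * ξs ^ 3 / 3))
        = 4 * B * dl + 6 * B ^ 4 * ξs ^ 3 * (om + CA * dl) + 6 * B ^ 4 * lam * z0 ^ 3 * (1 + CA * B / 2 * z0 ^ 2) := by ring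
    have h1 : 4 * B * dl ≤ 4 * B * (κ * lam) := mul_le_mul_of_nonneg_left hdl (by positivity)
    have h2 : om + CA * dl ≤ (1 + CA) * (κ * lam) := by
      have : CA * dl ≤ CA * (κ * lam) := mul_le_mul_of_nonneg_left hdl hCA
      linarith
    have h3 : 6 * B ^ 4 * ξs ^ 3 * (om + CA * dl) ≤ 6 * B ^ 4 * ξs ^ 3 * ((1 + CA) * (κ * lam)) :=
      mul_le_mul_of_nonneg_left h2 (by positivity)
    have h4 : 1 + CA * B / 2 * z0 ^ 2 ≤ 1 + CA * B / 2 := by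
      have : CA * B / 2 * z0 ^ 2 ≤ CA * B / 2 * 1 := mul_le_mul_of_nonneg_left hz21 (by positivity)
      linarith
    have h5 : 6 * B ^ 4 * lam * z0 ^ 3 * (1 + CA * B / 2 * z0 ^ 2) ≤ 6 * B ^ 4 * lam * z0 ^ 3 * (1 + CA * B / 2) :=
      mul_le_mul_of_nonneg_left h4 (by positivity)
    have e2 : 4 * B * (κ * lam) + 6 * B ^ 4 * ξs ^ 3 * ((1 + CA) * (κ * lam)) + 6 * B ^ 4 * lam * z0 ^ 3 * (1 + CA * B / 2)
        = lam * (κ * D3) + lam * z0 ^ 2 * (z0 * D4) := by rw [hD3, hD4]; ring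
    have h6 : κ * D3 ≤ m3 * z0 ^ 2 / 64 := by
      have q1 : κ * D3 ≤ κ * (D1 + D3) := mul_le_mul_of_nonneg_left (by linarith) hκ0.le
      linarith
    have h7 : z0 * D4 ≤ m3 / 64 := by
      have q2 : z0 * D4 ≤ z0 * (D2 + D4) := mul_le_mul_of_nonneg_left (by linarith) hz0.le
      linarith
    have h8 : lam * (κ * D3) ≤ lam * (m3 * z0 ^ 2 / 64) := mul_le_mul_of_nonneg_left h6 hl.le
    have h9 : lam * z0 ^ 2 * (z0 * D4) ≤ lam * z0 ^ 2 * (m3 / 64) := mul_le_mul_of_nonneg_left h7 (by positivity)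
    have e3 : lam * (m3 * z0 ^ 2 / 64) + lam * z0 ^ 2 * (m3 / 64) = m3 * lam * z0 ^ 2 / 32 := by ring
    rw [e1]
    linarith

/-- the conclusion of the lift on `[0, ξ_*]` -/
structure LppLift (S : LppMod) (T ξs c C lam : ℝ) (A : ℝ → ℝ) (j : ℝ) : Prop where
  m0 : |S.M2 A j 0 - 1 / T| ≤ C * lam
  lo : ∀ ξ ∈ Icc 0 ξs, c * lam * min (ξ ^ 2) 1 ≤ S.M2 A j 0 - S.M2 A j ξ
  hi : ∀ ξ ∈ Icc 0 ξs, S.M2 A j 0 - S.M2 A j ξ ≤ C * lam * ξ ^ 2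

/-- **EXIT (core of Lemma paths:lift)**: order of the constants `z_1` → `z_0` → `c, C, κ` → `P` → `λ_0` → `λ, ω, δ`, model. -/
theorem lpp_core {S : LppMod} (hS : LppOk S) {T ξs : ℝ} {A0 : ℝ → ℝ} (hb : LppBase S T A0 ξs) :
    ∃ z1 : ℝ, 0 < z1 ∧ z1 ≤ 1 ∧ z1 ≤ ξs ∧ ∀ z0, 0 < z0 → z0 ≤ z1 → ∃ c C κ : ℝ, 0 < c ∧ 0 < κ ∧ ∀ P, LppCut z0 P →
      ∃ l0 : ℝ, 0 < l0 ∧
        (∀ lam, 0 ≤ lam → lam ≤ l0 → LppAdm (fun ξ => A0 ξ + lam * P ξ) 1) ∧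
        ∀ lam om dl, 0 < lam → lam ≤ l0 → 0 ≤ om → 0 ≤ dl → om + dl ≤ κ * lam →
          ∀ A j, LppNear S A0 P ξs lam om dl A j → LppLift S T ξs c C lam A j := by
  obtain ⟨B, hB⟩ := lpp_B_exists hS ξs
  obtain ⟨CA', hCA'⟩ := hb.lin
  obtain ⟨CA, hCA0, hCA⟩ : ∃ CA : ℝ, 0 ≤ CA ∧ ∀ ξ ∈ Icc 0 ξs, A0 ξ ≤ CA * ξ :=
    ⟨max CA' 0, le_max_right _ _, fun ξ hξ => (hCA' ξ hξ).trans (mul_le_mul_of_nonneg_right (le_max_left _ _) hξ.1)⟩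
  obtain ⟨m3, hm30, hm3⟩ := lpp_base_m3 hS hb
  obtain ⟨za, hza0, hza1, hzas, hadm⟩ := lpp_adm_dir hS hb
  obtain ⟨zb, hzb0, hzb1, hch⟩ := lpp_choose B CA m3 ξs hB.one hCA0 hm30 hb.xs
  refine ⟨min za zb, lt_min hza0 hzb0, (min_le_left _ _).trans hza1, (min_le_left _ _).trans hzas, ?_⟩
  intro z0 hz hz1
  have hzza : z0 ≤ za := hz1.trans (min_le_left _ _)
  have hzzb : z0 ≤ zb := hz1.trans (min_le_right _ _)
  obtain ⟨κ, lb, hκ0, hκ1, hlb0, hsm⟩ := hch z0 hz hzzb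
  have hB1 := hB.one
  refine ⟨m3 * z0 ^ 2 / 32, 2 * B ^ 3 + m3 + 2 * B + B ^ 2, κ, by positivity, hκ0, ?_⟩
  intro P hP
  obtain ⟨la, hla0, hla⟩ := hadm z0 hz hzza P hP
  refine ⟨min la lb, lt_min hla0 hlb0, fun lam h0 h1 => hla lam h0 (h1.trans (min_le_left _ _)), ?_⟩
  intro lam om dl hl hl1 ho hd hod A j hN
  obtain ⟨hs1, hs2, hs3⟩ := hsm lam om dl hl (hl1.trans (min_le_right _ _)) ho hd hod
  have hzs : z0 ≤ ξs := hzza.trans hzas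
  have hz01 : z0 ≤ 1 := hzza.trans hza1
  have hom : om ≤ lam := by nlinarith
  have hdl : dl ≤ lam := by nlinarith
  have hB3 : 0 ≤ B ^ 3 := by positivity
  refine ⟨?_, ?_, ?_⟩
  · have h := lpp_F_M2_zero hS hb hB hCA0 hCA hz hzs hP hl.le ho hd hN
    refine h.trans ?_
    unfold lppEb
    have hz2 : z0 ^ 2 ≤ 1 := by nlinarith
    have h1 : B * lam * z0 ^ 2 / 2 ≤ B * lam / 2 := by
      have : B * lam * z0 ^ 2 ≤ B * lam * 1 := mul_le_mul_of_nonneg_left hz2 (by positivity)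
      linarith
    have h2 : 2 * B * (dl + B * lam * z0 ^ 2 / 2) ≤ 2 * B * (lam + B * lam / 2) :=
      mul_le_mul_of_nonneg_left (by linarith) (by positivity)
    have h3 : 0 ≤ (2 * B ^ 3 + m3) * lam := by positivity
    nlinarith
  · intro ξ hξ
    exact lpp_G_lo hS hb hB hCA0 hCA hz hzs hP hl.le ho hd hN hm30 hm3 hz01 hs1 hs2 hs3 ξ hξ
  · intro ξ hξ
    refine (lpp_G_hi hS hb hB hCA0 hCA hz hzs hP hl.le ho hd hN hm30 hm3 hz01 hs1 hs2 hs3 ξ hξ).trans ?_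
    apply mul_le_mul_of_nonneg_right _ (sq_nonneg _)
    have h1 : (lam + om) * B ^ 3 ≤ (2 * lam) * B ^ 3 := mul_le_mul_of_nonneg_right (by linarith) hB3
    have h2 : 0 ≤ (2 * B + B ^ 2) * lam := by positivity
    nlinarith

end Claimed.Agent.R286
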