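import Claimed.Agent.R286.LL.PathsPkC
import Claimed.Agent.R286.LL.PathsKit283

/-!
# Row 286 (S0533), LL Section 3, PERTURBATION KIT, file 5: LEMMA paths:lift IN NORMALISED COORDINATES, DIRECT AND SMOOTHED REFERENCE
(architect helper121; prover of the leaves: helper275; prefix `lpp_`, `Lpp`)

EXITS: `lpp_lift_dir`, `lpp_lift_sm`  (non-asymptotic; `drop ξ = Γ̂'(0) - Γ̂'(ξ)`; the gap of (P2) is `drop / Γ̂'(0)`).
Paper: LL 03 l.136-185.
-/

set_option autoImplicit false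

namespace Claimed.Agent.R286

open MeasureTheory Set

/-- the conclusion of Lemma paths:lift, normalised coordinates, all times -/
structure LppLiftAll (S : LppMod) (T ξs c C lam : ℝ) (A : ℝ → ℝ) (j : ℝ) : Prop where
  adm : LppAdm A j
  m0 : |S.M2 A j 0 - 1 / T| ≤ C * lam
  lo : ∀ ξ, 0 ≤ ξ → c * lam * min (ξ ^ 2) 1 ≤ S.M2 A j 0 - S.M2 A j ξ
  hi : ∀ ξ ∈ Icc 0 ξs, S.M2 A j 0 - S.M2 A j ξ ≤ C * lam * ξ ^ 2

/-- LEAF J0: `Γ' ≥ 0` -/
theorem lpp_M2_nonneg {S : LppMod} (hS : LppOk S) {A : ℝ → ℝ} {j ξ : ℝ} (hA : LppAdm A j) (hξ : 0 ≤ ξ) : 0 ≤ S.M2 A j ξ := by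
  obtain ⟨C, hC⟩ := hS.bd 2 (by norm_num)
  have hc : LppCls (fun z => S.vk 2 A j ξ z ^ 2) :=
    LppCls.of_bdd ((lpp_vk_cont hS hA hξ 2).pow 2) (C := C ^ 2) (fun z => by
      rw [sq (S.vk 2 A j ξ z)]
      exact lpp_aux_m2 (hC A j hA ξ hξ z) (hC A j hA ξ hξ z))
  exact lpp_ex_nonneg hS hA hξ hc fun z => sq_nonneg _

/-- LEAF J1: the direct model is `LppNear` itself with `ω = δ = 0` -/
theorem lpp_near_self (S : LppMod) (A0 P : ℝ → ℝ) (ξs lam : ℝ) (h : LppAdm (fun ξ => A0 ξ + lam * P ξ) 1) :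
    LppNear S A0 P ξs lam 0 0 (fun ξ => A0 ξ + lam * P ξ) 1 :=
  ⟨h, h, fun ξ _ => by simp, fun k _ _ ξ _ z => by simp⟩

/-- LEAF J2 (from `ann`, J0): beyond `ξ_*` the direct `Γ'` does not increase -/
theorem lpp_dir_beyond {S : LppMod} (hS : LppOk S) {A : ℝ → ℝ} (hA : LppAdm A 1) {ξs : ℝ} (h0 : 0 ≤ ξs)
    (htop : ∀ ξ, ξs ≤ ξ → A ξ = 1) (ξ : ℝ) (hξ : ξs ≤ ξ) : S.M2 A 1 ξ ≤ S.M2 A 1 ξs := by
  have h1 := hS.ann A hA ξs h0 htop (ξ - ξs) (by linarith)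
  have h2 : ξs + (ξ - ξs) = ξ := by ring
  rw [h2] at h1
  have h3 : Real.exp (-(ξ - ξs) / 2) ≤ 1 := Real.exp_le_one_iff.2 (by linarith)
  have h4 := lpp_M2_nonneg hS hA h0
  have h5 := mul_le_mul_of_nonneg_right h3 h4
  linarith

/-- **EXIT 1: the direct lift.** -/
theorem lpp_lift_dir {S : LppMod} (hS : LppOk S) {T ξs : ℝ} {A0 : ℝ → ℝ} (hb : LppBase S T A0 ξs) :
    ∃ z1 : ℝ, 0 < z1 ∧ z1 ≤ 1 ∧ z1 ≤ ξs ∧ ∀ z0, 0 < z0 → z0 ≤ z1 → ∃ c C : ℝ, 0 < c ∧ ∀ P, LppCut z0 P →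
      ∃ l0 : ℝ, 0 < l0 ∧ ∀ lam, 0 < lam → lam ≤ l0 →
        LppLiftAll S T ξs c C lam (fun ξ => A0 ξ + lam * P ξ) 1 := by
  obtain ⟨z1, h0, h1, hs, H⟩ := lpp_core hS hb
  refine ⟨z1, h0, h1, hs, ?_⟩
  intro z0 hz hz1
  obtain ⟨c, C, κ, hc, hκ, H⟩ := H z0 hz hz1
  have hx := hb.xs
  refine ⟨c * min (ξs ^ 2) 1, C, by positivity, ?_⟩
  intro P hP
  obtain ⟨l0, hl0, hadm, H⟩ := H P hP
  refine ⟨l0, hl0, ?_⟩
  intro lam hl hl1
  have hA := hadm lam hl.le hl1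
  have hL := H lam 0 0 hl hl1 le_rfl le_rfl (by simpa using (mul_pos hκ hl).le) _ 1 (lpp_near_self S A0 P ξs lam hA)
  have hmin1 : min (ξs ^ 2) 1 ≤ 1 := min_le_right _ _
  have hmin0 : 0 < min (ξs ^ 2) 1 := by positivity
  refine ⟨hA, hL.m0, ?_, hL.hi⟩
  intro ξ hξ
  have hm0 : 0 ≤ min (ξ ^ 2) 1 := by positivity
  have hm1 : min (ξ ^ 2) 1 ≤ 1 := min_le_right _ _
  have hcl : 0 ≤ c * lam := by positivity
  rcases le_total ξ ξs with h | h
  · have := hL.lo ξ ⟨hξ, h⟩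
    have h2 : c * min (ξs ^ 2) 1 * lam * min (ξ ^ 2) 1 = (c * lam * min (ξ ^ 2) 1) * min (ξs ^ 2) 1 := by ring
    have h3 : (c * lam * min (ξ ^ 2) 1) * min (ξs ^ 2) 1 ≤ (c * lam * min (ξ ^ 2) 1) * 1 :=
      mul_le_mul_of_nonneg_left hmin1 (by positivity)
    linarith
  · have h1' := hL.lo ξs ⟨hx.le, le_rfl⟩
    have htop : ∀ ξ, ξs ≤ ξ → A0 ξ + lam * P ξ = 1 := by
      intro y hy
      rw [hb.top y hy, hP.zero y ((hz1.trans hs).trans hy)]; ring
    have h2' := lpp_dir_beyond hS hA hx.le htop ξ h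
    have h2 : c * min (ξs ^ 2) 1 * lam * min (ξ ^ 2) 1 = (c * lam * min (ξs ^ 2) 1) * min (ξ ^ 2) 1 := by ring
    have h3 : (c * lam * min (ξs ^ 2) 1) * min (ξ ^ 2) 1 ≤ (c * lam * min (ξs ^ 2) 1) * 1 :=
      mul_le_mul_of_nonneg_left hm1 (by positivity)
    linarith

/-- (helper275) domination by two localized integrable majorants (no measurability of `f` needed) -/
theorem lpp_aux_two_bound (S1 S2 : Set ℝ) (h1 h2 : ℝ → ℝ) (B1 B2 : ℝ) (f : ℝ → ℝ) (T : Set ℝ) (hT : MeasurableSet T)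
    (hS1 : MeasurableSet S1) (hS2 : MeasurableSet S2) (hi1 : IntegrableOn h1 S1) (hi2 : IntegrableOn h2 S2)
    (hn1 : ∀ v ∈ S1, 0 ≤ h1 v) (hn2 : ∀ v ∈ S2, 0 ≤ h2 v) (hB1 : ∫ v in S1, h1 v ≤ B1) (hB2 : ∫ v in S2, h2 v ≤ B2)
    (hf0 : ∀ v ∈ T, 0 ≤ f v) (hf : ∀ v ∈ T, f v ≤ S1.indicator h1 v + S2.indicator h2 v) : ∫ v in T, f v ≤ B1 + B2 := by
  have hg0 : ∀ v, 0 ≤ S1.indicator h1 v + S2.indicator h2 v := fun v =>
    add_nonneg (indicator_nonneg hn1 v) (indicator_nonneg hn2 v)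
  have hI1 := hi1.integrable_indicator hS1
  have hI2 := hi2.integrable_indicator hS2
  calc ∫ v in T, f v = ∫ v, T.indicator f v := (integral_indicator hT).symm
    _ ≤ ∫ v, (S1.indicator h1 v + S2.indicator h2 v) := by
        refine integral_mono_of_nonneg (Filter.Eventually.of_forall fun v => indicator_nonneg hf0 v) (hI1.add hI2)
          (Filter.Eventually.of_forall fun v => ?_)
        by_cases hv : v ∈ T
        · simpa [indicator_of_mem hv] using hf v hv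
        · simpa [indicator_of_notMem hv] using hg0 v
    _ = (∫ v, S1.indicator h1 v) + ∫ v, S2.indicator h2 v := integral_add hI1 hI2
    _ = (∫ v in S1, h1 v) + ∫ v in S2, h2 v := by rw [integral_indicator hS1, integral_indicator hS2]
    _ ≤ B1 + B2 := add_le_add hB1 hB2

/-! ## the smoothed reference -/

/-- the smoothed profile `Â` (03 l.119-128): atom `1 - p_top` spread on `[ξ_*, ξ_* + ω]`, density floor `ω ξ`, terminal mass `j` from `M` on -/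
noncomputable def lppSm (A0 P : ℝ → ℝ) (ξs pT lam om M j : ℝ) : ℝ → ℝ := fun ξ =>
  if M ≤ ξ then j
  else (if ξ < ξs then A0 ξ + lam * P ξ else pT + (1 - pT) * min 1 ((ξ - ξs) / om)) + om * ξ

/-- what is used of `p_top` -/
structure LppTop (A0 : ℝ → ℝ) (ξs pT : ℝ) : Prop where
  pos : 0 < pT
  lt : pT < 1
  le : ∀ ξ ∈ Ico 0 ξs, A0 ξ ≤ pT

section sm

variable {S : LppMod} (hS : LppOk S) {T ξs pT : ℝ} {A0 : ℝ → ℝ} (hb : LppBase S T A0 ξs) (ht : LppTop A0 ξs pT)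
  {z0 : ℝ} {P : ℝ → ℝ} (hz : 0 < z0) (hzs : z0 < ξs) (hP : LppCut z0 P)
  {lam om M j : ℝ} (hl : 0 ≤ lam) (hD : LppAdm (fun ξ => A0 ξ + lam * P ξ) 1)
  (ho : 0 < om) (ho1 : om ≤ 1) (hM : ξs + 1 ≤ M) (hj1 : 1 + om * M ≤ j) (hj4 : j ≤ 4)

include hb ht hz hzs hP hl hD ho ho1 hM hj1 hj4

/-- (helper275) the direct profile is `≤ p_top` before `ξ_*` -/
theorem lpp_sm_aux_le (r : ℝ) (h0 : 0 ≤ r) (h1 : r < ξs) : A0 r + lam * P r ≤ pT := by
  have h2 : r ≤ max r z0 := le_max_left _ _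
  have h3 : max r z0 < ξs := max_lt h1 hzs
  have h4 : A0 r + lam * P r ≤ A0 (max r z0) + lam * P (max r z0) :=
    hD.mono (show r ∈ Ici (0 : ℝ) from h0) (show max r z0 ∈ Ici (0 : ℝ) from h0.trans h2) h2
  rw [hP.zero (max r z0) (le_max_right _ _), mul_zero, add_zero] at h4
  exact h4.trans (ht.le _ ⟨h0.trans h2, h3⟩)

/-- (helper275) the bracket of `Â`: values in `[0,1]`, monotone -/
theorem lpp_sm_aux_br :
    (∀ r, 0 ≤ r → 0 ≤ (if r < ξs then A0 r + lam * P r else pT + (1 - pT) * min 1 ((r - ξs) / om)) ∧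
      (if r < ξs then A0 r + lam * P r else pT + (1 - pT) * min 1 ((r - ξs) / om)) ≤ 1) ∧
    ∀ r r', 0 ≤ r → r ≤ r' → (if r < ξs then A0 r + lam * P r else pT + (1 - pT) * min 1 ((r - ξs) / om))
      ≤ (if r' < ξs then A0 r' + lam * P r' else pT + (1 - pT) * min 1 ((r' - ξs) / om)) := by
  have hp0 := ht.pos
  have hp1 : 0 < 1 - pT := by linarith [ht.lt]
  have hmin0 : ∀ r, ξs ≤ r → 0 ≤ min 1 ((r - ξs) / om) := fun r hr =>
    le_min zero_le_one (div_nonneg (by linarith) ho.le)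
  constructor
  · intro r hr
    by_cases h : r < ξs
    · rw [if_pos h]
      exact ⟨hD.nn r hr, (lpp_sm_aux_le hb ht hz hzs hP hl hD ho ho1 hM hj1 hj4 r hr h).trans ht.lt.le⟩
    · rw [if_neg h]
      have h1 := hmin0 r (not_lt.1 h)
      have h2 : min 1 ((r - ξs) / om) ≤ 1 := min_le_left _ _
      have h3 := mul_le_mul_of_nonneg_left h2 hp1.le
      have h4 := mul_nonneg hp1.le h1
      constructor <;> linarith
  · intro r r' hr hrr
    by_cases h' : r' < ξs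
    · rw [if_pos h', if_pos (lt_of_le_of_lt hrr h')]
      exact hD.mono (show r ∈ Ici (0 : ℝ) from hr) (show r' ∈ Ici (0 : ℝ) from hr.trans hrr) hrr
    · rw [if_neg h']
      have h1 := mul_nonneg hp1.le (hmin0 r' (not_lt.1 h'))
      by_cases h : r < ξs
      · rw [if_pos h]
        linarith [lpp_sm_aux_le hb ht hz hzs hP hl hD ho ho1 hM hj1 hj4 r hr h]
      · rw [if_neg h]
        have h2 : min 1 ((r - ξs) / om) ≤ min 1 ((r' - ξs) / om) :=
          min_le_min_left 1 (div_le_div_of_nonneg_right (by linarith) ho.le)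
        linarith [mul_le_mul_of_nonneg_left h2 hp1.le]

/-- LEAF S1: admissibility of `Â` -/
theorem lpp_sm_adm : LppAdm (lppSm A0 P ξs pT lam om M j) j := by
  obtain ⟨hbr, hmo⟩ := lpp_sm_aux_br hb ht hz hzs hP hl hD ho ho1 hM hj1 hj4
  have hM0 : 0 < M := by linarith [hb.xs]
  have hoM : 0 ≤ om * M := by positivity
  have hle : ∀ r, 0 ≤ r → lppSm A0 P ξs pT lam om M j r ≤ j := by
    intro r hr
    unfold lppSm
    by_cases h : M ≤ r
    · rw [if_pos h]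
    · rw [if_neg h]
      have h1 := (hbr r hr).2
      have h2 : om * r ≤ om * M := mul_le_mul_of_nonneg_left (le_of_lt (not_le.1 h)) ho.le
      linarith
  refine ⟨by linarith, hj4, ?_, ?_, hle, ⟨M, fun r hr => ?_⟩⟩
  · intro r hr r' hr' hrr
    have hr0 : (0 : ℝ) ≤ r := hr
    by_cases h' : M ≤ r'
    · have e : lppSm A0 P ξs pT lam om M j r' = j := by
        unfold lppSm
        rw [if_pos h']
      rw [e]
      exact hle r hr0
    · have h : ¬ M ≤ r := fun hh => h' (hh.trans hrr)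
      unfold lppSm
      rw [if_neg h, if_neg h']
      have h1 := hmo r r' hr0 hrr
      have h2 : om * r ≤ om * r' := mul_le_mul_of_nonneg_left hrr ho.le
      linarith
  · intro r hr
    unfold lppSm
    by_cases h : M ≤ r
    · rw [if_pos h]
      linarith
    · rw [if_neg h]
      have h1 := (hbr r hr).1
      have h2 : 0 ≤ om * r := mul_nonneg ho.le hr
      linarith
  · unfold lppSm
    rw [if_pos hr]

/-- LEAF S2: admissibility of the capped direct profile -/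
theorem lpp_cap_adm : LppAdm (lppCap (fun ξ => A0 ξ + lam * P ξ) M j) j := by
  have hM0 : 0 < M := by linarith [hb.xs]
  have hoM : 0 ≤ om * M := by positivity
  have hj : 1 ≤ j := by linarith
  have hle : ∀ r, 0 ≤ r → lppCap (fun ξ => A0 ξ + lam * P ξ) M j r ≤ j := by
    intro r hr
    unfold lppCap
    by_cases h : r < M
    · rw [if_pos h]
      exact (hD.le r hr).trans hj
    · rw [if_neg h]
  refine ⟨hj, hj4, ?_, ?_, hle, ⟨M, fun r hr => ?_⟩⟩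
  · intro r hr r' hr' hrr
    have hr0 : (0 : ℝ) ≤ r := hr
    by_cases h' : r' < M
    · unfold lppCap
      rw [if_pos h', if_pos (lt_of_le_of_lt hrr h')]
      exact hD.mono hr hr' hrr
    · have e : lppCap (fun ξ => A0 ξ + lam * P ξ) M j r' = j := by
        unfold lppCap
        rw [if_neg h']
      rw [e]
      exact hle r hr0
  · intro r hr
    unfold lppCap
    by_cases h : r < M
    · rw [if_pos h]
      exact hD.nn r hr
    · rw [if_neg h]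
      linarith
  · unfold lppCap
    rw [if_neg (not_lt.2 hr)]

/-- (helper275) pointwise distance of `Â` to the direct profile before `M` -/
theorem lpp_sm_aux_pt (r : ℝ) (h0 : 0 ≤ r) (h1 : r < M) :
    |lppSm A0 P ξs pT lam om M j r - (A0 r + lam * P r)| ≤ om * r + (Ico ξs (ξs + om)).indicator (fun _ => (1 : ℝ)) r := by
  have hp0 := ht.pos
  have hp1 : 0 < 1 - pT := by linarith [ht.lt]
  have hor : 0 ≤ om * r := mul_nonneg ho.le h0
  unfold lppSm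
  rw [if_neg (not_le.2 h1)]
  by_cases h : r < ξs
  · rw [if_pos h, indicator_of_notMem (fun hh => absurd hh.1 (not_le.2 h))]
    have e : A0 r + lam * P r + om * r - (A0 r + lam * P r) = om * r := by ring
    rw [e, abs_of_nonneg hor, add_zero]
  · have hs : ξs ≤ r := not_lt.1 h
    rw [if_neg h, hb.top r hs, hP.zero r (hzs.le.trans hs), mul_zero, add_zero]
    by_cases h2 : r < ξs + om
    · rw [indicator_of_mem (show r ∈ Ico ξs (ξs + om) from ⟨hs, h2⟩)]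
      have m0 : 0 ≤ min 1 ((r - ξs) / om) := le_min zero_le_one (div_nonneg (by linarith) ho.le)
      have m1 : min 1 ((r - ξs) / om) ≤ 1 := min_le_left _ _
      have q1 := mul_nonneg hp1.le m0
      have q2 := mul_le_mul_of_nonneg_left m1 hp1.le
      rw [abs_le]
      constructor <;> linarith
    · rw [indicator_of_notMem (fun hh => h2 hh.2)]
      have m1 : min 1 ((r - ξs) / om) = 1 := min_eq_left (by
        rw [le_div_iff₀ ho]
        linarith)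
      rw [m1]
      have e : pT + (1 - pT) * 1 + om * r - 1 = om * r := by ring
      rw [e, abs_of_nonneg hor, add_zero]

/-- LEAF S3: `∫ |Â - cap| ≤ ω (M²/2 + 1)` -/
theorem lpp_sm_L1 (ξ : ℝ) (hξ : 0 ≤ ξ) :
    ∫ r in Ioi ξ, |lppSm A0 P ξs pT lam om M j r - lppCap (fun ξ => A0 ξ + lam * P ξ) M j r| ≤ om * (M ^ 2 / 2 + 1) := by
  have hM0 : 0 < M := by linarith [hb.xs]
  have h := lpp_aux_two_bound (Ioc 0 M) (Ico ξs (ξs + om)) (fun r => om * r) (fun _ => (1 : ℝ)) (om * (M ^ 2 / 2)) om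
    (fun r => |lppSm A0 P ξs pT lam om M j r - lppCap (fun ξ => A0 ξ + lam * P ξ) M j r|) (Ioi ξ) measurableSet_Ioi
    measurableSet_Ioc measurableSet_Ico (continuous_const.mul continuous_id).integrableOn_Ioc
    (integrableOn_const (by simp)) (fun v hv => mul_nonneg ho.le hv.1.le) (fun _ _ => zero_le_one)
    (by
      rw [← intervalIntegral.integral_of_le hM0.le, intervalIntegral.integral_const_mul, integral_id]
      exact le_of_eq (by ring))
    (by simp [ho.le]) (fun _ _ => abs_nonneg _) (fun r hr => ?_)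
  · refine h.trans (le_of_eq ?_)
    ring
  · have hr0 : 0 < r := lt_of_le_of_lt hξ hr
    by_cases h1 : r < M
    · have e : lppCap (fun ξ => A0 ξ + lam * P ξ) M j r = A0 r + lam * P r := by
        unfold lppCap
        rw [if_pos h1]
      rw [e, indicator_of_mem (show r ∈ Ioc 0 M from ⟨hr0, h1.le⟩)]
      exact lpp_sm_aux_pt hb ht hz hzs hP hl hD ho ho1 hM hj1 hj4 r hr0.le h1
    · have e : lppCap (fun ξ => A0 ξ + lam * P ξ) M j r = j := by
        unfold lppCap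
        rw [if_neg h1]
      have e2 : lppSm A0 P ξs pT lam om M j r = j := by
        unfold lppSm
        rw [if_pos (not_lt.1 h1)]
      rw [e, e2, sub_self, abs_zero]
      exact add_nonneg (indicator_nonneg (fun v hv => mul_nonneg ho.le hv.1.le) r) (indicator_nonneg (fun _ _ => zero_le_one) r)

/-- LEAF S7: `Â ≥ p_top` from `ξ_*` on -/
theorem lpp_sm_low (r : ℝ) (hr : ξs ≤ r) : pT ≤ lppSm A0 P ξs pT lam om M j r := by
  have hM0 : 0 < M := by linarith [hb.xs]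
  have hoM : 0 ≤ om * M := by positivity
  have hp1 : 0 < 1 - pT := by linarith [ht.lt]
  unfold lppSm
  by_cases h : M ≤ r
  · rw [if_pos h]
    linarith [ht.lt]
  · rw [if_neg h, if_neg (not_lt.2 hr)]
    have h1 : 0 ≤ min 1 ((r - ξs) / om) := le_min zero_le_one (div_nonneg (by linarith) ho.le)
    have h2 := mul_nonneg hp1.le h1
    have h3 : 0 ≤ om * r := mul_nonneg ho.le (hb.xs.le.trans hr)
    linarith

/-- LEAF S8: `Â = A_0 + λ P + ω ξ` before `ξ_*` -/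
theorem lpp_sm_eq (ξ : ℝ) (hξ : ξ ∈ Ico 0 ξs) : lppSm A0 P ξs pT lam om M j ξ = A0 ξ + lam * P ξ + om * ξ := by
  unfold lppSm
  rw [if_neg (by linarith [hξ.2] : ¬ M ≤ ξ), if_pos hξ.2]

end sm

/-- (helper275) derivatives of the difference of two continuations, modulo a constant -/
theorem lpp_aux_iter_sub {S : LppMod} (hS : LppOk S) {A A' : ℝ → ℝ} {j j' ξ : ℝ} (hA : LppAdm A j) (hA' : LppAdm A' j') (hξ : 0 ≤ ξ)
    (c : ℝ) (i : ℕ) : iteratedDeriv (i + 1) (fun z => S.V A' j' ξ z - S.V A j ξ z - c)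
      = fun z => S.vk (i + 1) A' j' ξ z - S.vk (i + 1) A j ξ z := by
  induction i with
  | zero =>
    rw [zero_add, iteratedDeriv_one]
    funext z
    have h1 := lpp_vk_hasDerivAt hS hA' hξ 0 z
    have h2 := lpp_vk_hasDerivAt hS hA hξ 0 z
    have e1 : S.vk 0 A' j' ξ = S.V A' j' ξ := by
      funext y
      simp [LppMod.vk]
    have e2 : S.vk 0 A j ξ = S.V A j ξ := by
      funext y
      simp [LppMod.vk]
    rw [e1] at h1
    rw [e2] at h2
    exact ((h1.sub h2).sub_const c).deriv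
  | succ i ih =>
    rw [iteratedDeriv_succ, ih]
    funext z
    exact ((lpp_vk_hasDerivAt hS hA' hξ (i + 1) z).sub (lpp_vk_hasDerivAt hS hA hξ (i + 1) z)).deriv

/-- (helper275) one bound for the derivatives of orders `1..n` -/
theorem lpp_aux_bd_fin {S : LppMod} (hS : LppOk S) (n : ℕ) : ∃ Bd : ℝ, 1 ≤ Bd ∧ ∀ i : ℕ, 1 ≤ i → i ≤ n →
    ∀ A j, LppAdm A j → ∀ ξ, 0 ≤ ξ → ∀ z, |S.vk i A j ξ z| ≤ Bd := by
  have hbd : ∀ k : ℕ, ∃ C : ℝ, 0 ≤ C ∧ (1 ≤ k → ∀ A j, LppAdm A j → ∀ ξ, 0 ≤ ξ → ∀ z, |S.vk k A j ξ z| ≤ C) := by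
    intro k
    by_cases hk : 1 ≤ k
    · obtain ⟨C, hC⟩ := hS.bd k hk
      exact ⟨|C|, abs_nonneg _, fun _ A j hA ξ hξ z => (hC A j hA ξ hξ z).trans (le_abs_self _)⟩
    · exact ⟨0, le_rfl, fun h => absurd h hk⟩
  choose Cb hCb0 hCb using hbd
  refine ⟨1 + ∑ i ∈ Finset.range (n + 1), Cb i, ?_, ?_⟩
  · linarith [Finset.sum_nonneg (s := Finset.range (n + 1)) fun i _ => hCb0 i]
  · intro i h1 hn A j hA ξ hξ z
    have h2 : Cb i ≤ ∑ i ∈ Finset.range (n + 1), Cb i :=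
      Finset.single_le_sum (f := Cb) (fun i _ => hCb0 i) (Finset.mem_range.2 (by omega))
    linarith [hCb i h1 A j hA ξ hξ z]

/-- (helper275) S4 for one order `k` -/
theorem lpp_sm_near_k {S : LppMod} (hS : LppOk S) {T ξs pT : ℝ} {A0 : ℝ → ℝ} (hb : LppBase S T A0 ξs) (ht : LppTop A0 ξs pT)
    (R1 : ℝ) (hR : ξs ≤ R1) (p : ℝ) (hp0 : 0 < p) (hp1 : p < 1) (k : ℕ) (hk : 1 ≤ k) :
    ∃ C c : ℝ, 0 ≤ C ∧ 0 < c ∧ ∀ z0 P, 0 < z0 → z0 < ξs → LppCut z0 P → ∀ lam om M j, 0 ≤ lam →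
      LppAdm (fun ξ => A0 ξ + lam * P ξ) 1 → 0 < om → om * (M ^ 2 + 1) ≤ 1 → R1 + 1 ≤ M → 1 + om * M ≤ j → j ≤ 4 →
      ∀ ξ ∈ Icc 0 R1, ∀ z,
        |S.vk k (lppSm A0 P ξs pT lam om M j) j ξ z - S.vk k (fun ξ => A0 ξ + lam * P ξ) 1 ξ z|
          ≤ C * ((om * (M ^ 2 + 1)) ^ p + Real.exp (-c * (M - R1))) := by
  obtain ⟨n, hkn, hn0, HL⟩ := lpk_landau_eps k (1 - p) (by linarith)
  obtain ⟨Bd, hBd1, hBd⟩ := lpp_aux_bd_fin hS n
  obtain ⟨CL, hCL0, HL⟩ := HL (2 * Bd)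
  obtain ⟨Ct, ct, hct, Ht⟩ := hS.term k hk
  refine ⟨CL + |Ct|, ct, by positivity, hct, ?_⟩
  intro z0 P hz hzs hP lam om M j hl hD ho hX hM hj1 hj4 ξ hξ z
  have hx := hb.xs
  have hR0 : 0 ≤ R1 := hx.le.trans hR
  have hM0 : 0 < M := by linarith
  have hoM : 0 ≤ om * M := by positivity
  have ho1 : om ≤ 1 := by
    have h2 : om * 1 ≤ om * (M ^ 2 + 1) := mul_le_mul_of_nonneg_left (by linarith [sq_nonneg M]) ho.le
    linarith
  have hMs : ξs + 1 ≤ M := by linarith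
  have hAs := lpp_sm_adm hb ht hz hzs hP hl hD ho ho1 hMs hj1 hj4
  have hAc := lpp_cap_adm hb ht hz hzs hP hl hD ho ho1 hMs hj1 hj4
  obtain ⟨c0, hc0⟩ := hS.guerra _ _ j hAc hAs ξ hξ.1
  have hL1 := lpp_sm_L1 hb ht hz hzs hP hl hD ho ho1 hMs hj1 hj4 ξ hξ.1
  obtain ⟨X, hXd⟩ : ∃ X : ℝ, X = om * (M ^ 2 + 1) := ⟨_, rfl⟩
  rw [← hXd] at hX ⊢
  have hX0 : 0 < X := by rw [hXd]; positivity
  have hAX : om * (M ^ 2 / 2 + 1) ≤ X := by
    rw [hXd]
    exact mul_le_mul_of_nonneg_left (by linarith [sq_nonneg M]) ho.le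
  have hg0 : ∀ x, |S.V (lppSm A0 P ξs pT lam om M j) j ξ x - S.V (lppCap (fun ξ => A0 ξ + lam * P ξ) M j) j ξ x - c0| ≤ X := by
    intro x
    have := hc0 x
    linarith
  have hder : ∀ i, 1 ≤ i → iteratedDeriv i
      (fun x => S.V (lppSm A0 P ξs pT lam om M j) j ξ x - S.V (lppCap (fun ξ => A0 ξ + lam * P ξ) M j) j ξ x - c0)
      = fun x => S.vk i (lppSm A0 P ξs pT lam om M j) j ξ x - S.vk i (lppCap (fun ξ => A0 ξ + lam * P ξ) M j) j ξ x := by
    intro i hi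
    obtain ⟨i', rfl⟩ : ∃ i', i = i' + 1 := ⟨i - 1, by omega⟩
    exact lpp_aux_iter_sub hS hAc hAs hξ.1 c0 i'
  have h1 := HL _ (((hS.smooth _ j hAs ξ hξ.1 n).sub (hS.smooth _ j hAc ξ hξ.1 n)).sub contDiff_const)
    (fun i hi x => by
      rcases Nat.eq_zero_or_pos i with h0 | h0
      · rw [h0, iteratedDeriv_zero]
        have := hg0 x
        linarith
      · rw [hder i h0]
        have q1 := hBd i h0 hi _ j hAs ξ hξ.1 x
        have q2 := hBd i h0 hi _ j hAc ξ hξ.1 x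
        exact (abs_sub _ _).trans (by linarith)) X hX hg0 z
  rw [hder k hk, sub_sub_cancel] at h1
  have h2 := Ht _ hD R1 M j hR0 (by linarith) (by linarith) hj4
    (fun y hy => by
      show A0 y + lam * P y = 1
      rw [hb.top y (hR.trans hy), hP.zero y (hzs.le.trans (hR.trans hy)), mul_zero, add_zero]) ξ hξ z
  have hXp : 0 ≤ X ^ p := Real.rpow_nonneg hX0.le p
  have he : 0 < Real.exp (-ct * (M - R1)) := Real.exp_pos _
  have h3 : Ct * Real.exp (-ct * (M - R1)) ≤ |Ct| * Real.exp (-ct * (M - R1)) :=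
    mul_le_mul_of_nonneg_right (le_abs_self _) he.le
  have h4 := abs_sub_le (S.vk k (lppSm A0 P ξs pT lam om M j) j ξ z) (S.vk k (lppCap (fun ξ => A0 ξ + lam * P ξ) M j) j ξ z)
    (S.vk k (fun ξ => A0 ξ + lam * P ξ) 1 ξ z)
  have h5 : 0 ≤ CL * Real.exp (-ct * (M - R1)) := by positivity
  have h6 : 0 ≤ |Ct| * X ^ p := by positivity
  have e : (CL + |Ct|) * (X ^ p + Real.exp (-ct * (M - R1)))
      = CL * X ^ p + |Ct| * Real.exp (-ct * (M - R1)) + CL * Real.exp (-ct * (M - R1)) + |Ct| * X ^ p := by ring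
  rw [e]
  linarith

/-- LEAF S4 (from `guerra` + `bd` + Landau-Kolmogorov `lpk_landau_eps` (loss `p < 1`), `term`, S1-S3): derivatives of the smoothed and of the
direct continuation up to a fixed time `R1 ≥ ξ_*`.   The constants do not depend on `z_0, P, λ, ω, M, j`. -/
theorem lpp_sm_near {S : LppMod} (hS : LppOk S) {T ξs pT : ℝ} {A0 : ℝ → ℝ} (hb : LppBase S T A0 ξs) (ht : LppTop A0 ξs pT)
    (R1 : ℝ) (hR : ξs ≤ R1) (p : ℝ) (hp0 : 0 < p) (hp1 : p < 1) :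
    ∃ C c : ℝ, 0 ≤ C ∧ 0 < c ∧ ∀ z0 P, 0 < z0 → z0 < ξs → LppCut z0 P → ∀ lam om M j, 0 ≤ lam →
      LppAdm (fun ξ => A0 ξ + lam * P ξ) 1 → 0 < om → om * (M ^ 2 + 1) ≤ 1 → R1 + 1 ≤ M → 1 + om * M ≤ j → j ≤ 4 →
      ∀ k : ℕ, 2 ≤ k → k ≤ 4 → ∀ ξ ∈ Icc 0 R1, ∀ z,
        |S.vk k (lppSm A0 P ξs pT lam om M j) j ξ z - S.vk k (fun ξ => A0 ξ + lam * P ξ) 1 ξ z|
          ≤ C * ((om * (M ^ 2 + 1)) ^ p + Real.exp (-c * (M - R1))) := by
  obtain ⟨C2, c2, hC2, hc2, H2⟩ := lpp_sm_near_k hS hb ht R1 hR p hp0 hp1 2 (by norm_num)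
  obtain ⟨C3, c3, hC3, hc3, H3⟩ := lpp_sm_near_k hS hb ht R1 hR p hp0 hp1 3 (by norm_num)
  obtain ⟨C4, c4, hC4, hc4, H4⟩ := lpp_sm_near_k hS hb ht R1 hR p hp0 hp1 4 (by norm_num)
  refine ⟨C2 + C3 + C4, min c2 (min c3 c4), by positivity, lt_min hc2 (lt_min hc3 hc4), ?_⟩
  intro z0 P hz hzs hP lam om M j hl hD ho hX hM hj1 hj4 k hk2 hk4 ξ hξ z
  have hMR : 0 ≤ M - R1 := by linarith
  have hXp : 0 ≤ (om * (M ^ 2 + 1)) ^ p := Real.rpow_nonneg (by positivity) p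
  have hmono : ∀ c' : ℝ, min c2 (min c3 c4) ≤ c' → ∀ C' : ℝ, 0 ≤ C' → C' ≤ C2 + C3 + C4 →
      C' * ((om * (M ^ 2 + 1)) ^ p + Real.exp (-c' * (M - R1)))
        ≤ (C2 + C3 + C4) * ((om * (M ^ 2 + 1)) ^ p + Real.exp (-(min c2 (min c3 c4)) * (M - R1))) := by
    intro c' hc' C' hC'0 hC'
    have h1 : Real.exp (-c' * (M - R1)) ≤ Real.exp (-(min c2 (min c3 c4)) * (M - R1)) := by
      apply Real.exp_le_exp.2
      have := mul_le_mul_of_nonneg_right hc' hMR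
      linarith
    exact mul_le_mul hC' (by linarith) (by positivity) (by positivity)
  obtain rfl | rfl | rfl : k = 2 ∨ k = 3 ∨ k = 4 := by omega
  · exact (H2 z0 P hz hzs hP lam om M j hl hD ho hX hM hj1 hj4 ξ hξ z).trans
      (hmono c2 (min_le_left _ _) C2 hC2 (by linarith))
  · exact (H3 z0 P hz hzs hP lam om M j hl hD ho hX hM hj1 hj4 ξ hξ z).trans
      (hmono c3 ((min_le_right _ _).trans (min_le_left _ _)) C3 hC3 (by linarith))
  · exact (H4 z0 P hz hzs hP lam om M j hl hD ho hX hM hj1 hj4 ξ hξ z).trans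
      (hmono c4 ((min_le_right _ _).trans (min_le_right _ _)) C4 hC4 (by linarith))

/-- LEAF S5 (from S4, `ll` with `H r = (ω r + 1_{[ξ_*, ξ_* + ω)}(r) + ε) r`, D1): `Γ̂'` of the smoothed and of the direct model up to `R1` -/
theorem lpp_sm_M2 {S : LppMod} (hS : LppOk S) {T ξs pT : ℝ} {A0 : ℝ → ℝ} (hb : LppBase S T A0 ξs) (ht : LppTop A0 ξs pT)
    (R1 : ℝ) (hR : ξs ≤ R1) (p : ℝ) (hp0 : 0 < p) (hp1 : p < 1) :
    ∃ C c : ℝ, 0 ≤ C ∧ 0 < c ∧ ∀ z0 P, 0 < z0 → z0 < ξs → LppCut z0 P → ∀ lam om M j, 0 ≤ lam →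
      LppAdm (fun ξ => A0 ξ + lam * P ξ) 1 → 0 < om → om * (M ^ 2 + 1) ≤ 1 → R1 + 1 ≤ M → 1 + om * M ≤ j → j ≤ 4 →
      ∀ ξ ∈ Icc 0 R1,
        |S.M2 (lppSm A0 P ξs pT lam om M j) j ξ - S.M2 (fun ξ => A0 ξ + lam * P ξ) 1 ξ|
          ≤ C * ((om * (M ^ 2 + 1)) ^ p + Real.exp (-c * (M - R1))) := by
  obtain ⟨C4, c4, hC4, hc4, H4⟩ := lpp_sm_near hS hb ht R1 hR p hp0 hp1
  obtain ⟨B, hB⟩ := lpp_B_exists hS R1
  have hB1 := hB.one
  have hx := hb.xs
  have hR0 : 0 ≤ R1 := hx.le.trans hR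
  refine ⟨2 * B * C4 + 9 * B ^ 4 * (R1 ^ 3 + C4 * R1 ^ 2 + R1), c4, by positivity, hc4, ?_⟩
  intro z0 P hz hzs hP lam om M j hl hD ho hX hM hj1 hj4 ξ hξ
  have hM0 : 0 < M := by linarith
  have ho1 : om ≤ 1 := by
    have h2 : om * 1 ≤ om * (M ^ 2 + 1) := mul_le_mul_of_nonneg_left (by linarith [sq_nonneg M]) ho.le
    linarith
  have hMs : ξs + 1 ≤ M := by linarith
  have hAs := lpp_sm_adm hb ht hz hzs hP hl hD ho ho1 hMs hj1 hj4
  obtain ⟨th, hth⟩ : ∃ th : ℝ, th = (om * (M ^ 2 + 1)) ^ p + Real.exp (-c4 * (M - R1)) := ⟨_, rfl⟩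
  rw [← hth]
  have hX0 : 0 < om * (M ^ 2 + 1) := by positivity
  have hoth : om ≤ th := by
    have h1 : om * (M ^ 2 + 1) ≤ (om * (M ^ 2 + 1)) ^ p := by
      have := Real.rpow_le_rpow_of_exponent_ge hX0 hX hp1.le
      simpa using this
    have h2 : om * 1 ≤ om * (M ^ 2 + 1) := mul_le_mul_of_nonneg_left (by linarith [sq_nonneg M]) ho.le
    have h3 : 0 < Real.exp (-c4 * (M - R1)) := Real.exp_pos _
    rw [hth]
    linarith
  have hth0 : 0 ≤ th := ho.le.trans hoth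
  have hε0 : 0 ≤ C4 * th := by positivity
  have hnear : ∀ k : ℕ, 2 ≤ k → k ≤ 4 → ∀ r ∈ Icc 0 R1, ∀ z,
      |S.vk k (lppSm A0 P ξs pT lam om M j) j r z - S.vk k (fun ξ => A0 ξ + lam * P ξ) 1 r z| ≤ C4 * th := by
    intro k h2 h4 r hr z
    rw [hth]
    exact H4 z0 P hz hzs hP lam om M j hl hD ho hX hM hj1 hj4 k h2 h4 r hr z
  obtain ⟨c1, hc1⟩ : ∃ c1 : ℝ, c1 = (om * R1 + C4 * th) * R1 := ⟨_, rfl⟩
  have hc10 : 0 ≤ c1 := by rw [hc1]; positivity
  have hHi : IntervalIntegrable (fun r => c1 + (Ico ξs (ξs + om)).indicator (fun _ => R1) r) volume 0 ξ := by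
    have q : IntervalIntegrable (fun _ : ℝ => R1) volume 0 ξ := intervalIntegrable_const
    exact intervalIntegrable_const.add ⟨q.1.indicator measurableSet_Ico, q.2.indicator measurableSet_Ico⟩
  have hHint : ∫ r in (0 : ℝ)..ξ, (c1 + (Ico ξs (ξs + om)).indicator (fun _ => R1) r) ≤ c1 * R1 + R1 * om := by
    rw [intervalIntegral.integral_of_le hξ.1]
    refine lpp_aux_two_bound (Ioc 0 ξ) (Ico ξs (ξs + om)) (fun _ => c1) (fun _ => R1) (c1 * R1) (R1 * om) _ (Ioc 0 ξ)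
      measurableSet_Ioc measurableSet_Ioc measurableSet_Ico (integrableOn_const (by simp)) (integrableOn_const (by simp))
      (fun _ _ => hc10) (fun _ _ => hR0) ?_ ?_ (fun v _ => add_nonneg hc10 (indicator_nonneg (fun _ _ => hR0) v)) (fun v hv => ?_)
    · have e : ∫ _ in Ioc 0 ξ, c1 = c1 * ξ := by
        simp [hξ.1]
        ring
      rw [e]
      exact mul_le_mul_of_nonneg_left hξ.2 hc10
    · have e : ∫ _ in Ico ξs (ξs + om), R1 = R1 * om := by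
        simp [ho.le]
        ring
      rw [e]
    · rw [indicator_of_mem hv]
  have h := lpp_M2_diff hS hB hD hAs hξ (ε := C4 * th) (I := c1 * R1 + R1 * om)
    (fun k h2 h4 z => hnear k h2 h4 ξ hξ z)
    (fun g G hg => by
      have hG : 0 ≤ G := (abs_nonneg _).trans (hg.b0 0)
      refine (hB.ll _ 1 _ j hD hAs ξ hξ g G hg (fun _ => C4 * th)
        (fun r => c1 + (Ico ξs (ξs + om)).indicator (fun _ => R1) r)
        (fun r hr z => hnear 2 le_rfl (by norm_num) r ⟨hr.1, hr.2.le.trans hξ.2⟩ z) (fun r hr => ?_) hHi).trans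
        (mul_le_mul_of_nonneg_left hHint (by positivity))
      have hrR : r ≤ R1 := hr.2.le.trans hξ.2
      have q1 := lpp_sm_aux_pt hb ht hz hzs hP hl hD ho ho1 hMs hj1 hj4 r hr.1 (by linarith)
      have q2 : A0 r + lam * P r ≤ 1 := hD.le r hr.1
      have q3 : (A0 r + lam * P r) * (C4 * th) ≤ 1 * (C4 * th) := mul_le_mul_of_nonneg_right q2 hε0
      have q4 : om * r ≤ om * R1 := mul_le_mul_of_nonneg_left hrR ho.le
      by_cases hin : r ∈ Ico ξs (ξs + om)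
      · rw [indicator_of_mem hin] at q1 ⊢
        have q5 : (|lppSm A0 P ξs pT lam om M j r - (A0 r + lam * P r)| + (A0 r + lam * P r) * (C4 * th)) * r
            ≤ (om * R1 + 1 + C4 * th) * R1 :=
          mul_le_mul (by linarith) hrR hr.1 (by positivity)
        have e : (om * R1 + 1 + C4 * th) * R1 = c1 + R1 := by rw [hc1]; ring
        linarith
      · rw [indicator_of_notMem hin] at q1 ⊢
        have q5 : (|lppSm A0 P ξs pT lam om M j r - (A0 r + lam * P r)| + (A0 r + lam * P r) * (C4 * th)) * r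
            ≤ (om * R1 + C4 * th) * R1 :=
          mul_le_mul (by linarith) hrR hr.1 (by positivity)
        rw [← hc1] at q5
        linarith)
  refine h.trans ?_
  have p1 : c1 ≤ (th * R1 + C4 * th) * R1 := by
    rw [hc1]
    exact mul_le_mul_of_nonneg_right (by linarith [mul_le_mul_of_nonneg_right hoth hR0]) hR0
  have p2 : c1 * R1 + R1 * om ≤ (th * R1 + C4 * th) * R1 * R1 + R1 * th := by
    have := mul_le_mul_of_nonneg_right p1 hR0
    have := mul_le_mul_of_nonneg_left hoth hR0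
    linarith
  have p3 : 9 * B ^ 4 * (c1 * R1 + R1 * om) ≤ 9 * B ^ 4 * ((th * R1 + C4 * th) * R1 * R1 + R1 * th) :=
    mul_le_mul_of_nonneg_left p2 (by positivity)
  have e : (2 * B * C4 + 9 * B ^ 4 * (R1 ^ 3 + C4 * R1 ^ 2 + R1)) * th
      = 2 * B * (C4 * th) + 9 * B ^ 4 * ((th * R1 + C4 * th) * R1 * R1 + R1 * th) := by ring
  rw [e]
  linarith

/-- LEAF S6 (from `hess`, `dec`): far beyond the support `Γ̂' ≤ 16 exp(- p_top² (ξ - ξ_*)/2)` -/
theorem lpp_sm_far {S : LppMod} (hS : LppOk S) {A : ℝ → ℝ} {j : ℝ} (hA : LppAdm A j) {s a0 : ℝ} (hs : 0 ≤ s) (ha : 0 ≤ a0)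
    (hlow : ∀ r, s ≤ r → a0 ≤ A r) (ξ : ℝ) (hξ : s ≤ ξ) : S.M2 A j ξ ≤ 16 * Real.exp (-(a0 ^ 2 * (ξ - s) / 2)) := by
  have hξ0 : 0 ≤ ξ := hs.trans hξ
  obtain ⟨C, hC⟩ := hS.bd 2 (by norm_num)
  have hc2 : LppCls (fun z => S.vk 2 A j ξ z ^ 2) :=
    LppCls.of_bdd ((lpp_vk_cont hS hA hξ0 2).pow 2) (C := C ^ 2) (fun z => by
      rw [sq (S.vk 2 A j ξ z)]
      exact lpp_aux_m2 (hC A j hA ξ hξ0 z) (hC A j hA ξ hξ0 z))
  have hq : ∀ z, 0 < 1 - S.vk 1 A j ξ z ^ 2 := by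
    intro z
    obtain ⟨h1, _, h3⟩ := hS.hess A j hA ξ hξ0 z
    have hj : 0 < j := by linarith [hA.j1]
    by_contra hcon
    push Not at hcon
    have := mul_nonpos_of_nonneg_of_nonpos hj.le hcon
    linarith
  have hcs : LppCls (fun z => Real.sqrt (1 - S.vk 1 A j ξ z ^ 2)) :=
    LppCls.of_bdd (Real.continuous_sqrt.comp (continuous_const.sub ((lpp_vk_cont hS hA hξ0 1).pow 2))) (C := 1) (fun z => by
      rw [abs_of_nonneg (Real.sqrt_nonneg _)]
      exact Real.sqrt_le_one.2 (by linarith [sq_nonneg (S.vk 1 A j ξ z)]))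
  have h1 := hS.ex_mono A j hA ξ hξ0 _ _ hc2 (hcs.smul 16) (fun z => by
    obtain ⟨h1, _, h3⟩ := hS.hess A j hA ξ hξ0 z
    obtain ⟨q, hq'⟩ : ∃ q : ℝ, q = 1 - S.vk 1 A j ξ z ^ 2 := ⟨_, rfl⟩
    have hq0 : 0 < q := by rw [hq']; exact hq z
    have hq1 : q ≤ 1 := by rw [hq']; linarith [sq_nonneg (S.vk 1 A j ξ z)]
    rw [← hq'] at h3 ⊢
    have h4 : S.vk 2 A j ξ z ≤ 4 * q := h3.trans (mul_le_mul_of_nonneg_right hA.j4 hq0.le)
    have h5 : S.vk 2 A j ξ z ^ 2 ≤ (4 * q) ^ 2 := pow_le_pow_left₀ h1.le h4 2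
    have h6 : q ≤ Real.sqrt q := by
      have h7 : Real.sqrt q ≤ 1 := Real.sqrt_le_one.2 hq1
      have h8 := Real.mul_self_sqrt hq0.le
      have h9 := mul_le_mul_of_nonneg_left h7 (Real.sqrt_nonneg q)
      linarith
    have h10 : q ^ 2 ≤ q := by
      have := mul_le_mul_of_nonneg_left hq1 hq0.le
      rw [sq]
      linarith
    have e : (4 * q) ^ 2 = 16 * q ^ 2 := by ring
    linarith)
  rw [hS.ex_smul A j hA ξ hξ0 16 _ hcs] at h1
  have h2 := hS.dec A j hA s ξ a0 hs hξ ha (fun r hr => hlow r hr.1)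
  have e : S.M2 A j ξ = S.Ex A j ξ (fun z => S.vk 2 A j ξ z ^ 2) := rfl
  rw [e]
  linarith

set_option maxHeartbeats 800000 in
/-- **EXIT 2: the smoothed lift.**   `ϑ = (ω (M² + 1))^{1/2} + exp(-c_M (M - R1))` must be `≤ κ λ`. -/
theorem lpp_lift_sm {S : LppMod} (hS : LppOk S) {T ξs pT : ℝ} {A0 : ℝ → ℝ} (hb : LppBase S T A0 ξs) (ht : LppTop A0 ξs pT) :
    ∃ z1 R1 cM : ℝ, 0 < z1 ∧ z1 ≤ 1 ∧ z1 < ξs ∧ ξs ≤ R1 ∧ 0 < cM ∧ ∀ z0, 0 < z0 → z0 ≤ z1 → ∃ c C κ : ℝ, 0 < c ∧ 0 < κ ∧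
      ∀ P, LppCut z0 P → ∃ l0 : ℝ, 0 < l0 ∧ ∀ lam om M j, 0 < lam → lam ≤ l0 → 0 < om → R1 + 1 ≤ M →
        1 + om * M ≤ j → j ≤ 4 → (om * (M ^ 2 + 1)) ^ (1 / 2 : ℝ) + Real.exp (-cM * (M - R1)) ≤ κ * lam →
        LppLiftAll S T ξs c C lam (lppSm A0 P ξs pT lam om M j) j := by
  obtain ⟨za, hza0, hza1, hzas, Hc⟩ := lpp_core hS hb
  obtain ⟨zb, hzb0, hzb1, hzbs, Hd⟩ := lpp_lift_dir hS hb
  have hx := hb.xs
  have hT : 0 < T := by linarith [hb.T1]
  have hp := ht.pos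
  obtain ⟨R1, hR1⟩ : ∃ R1 : ℝ, R1 = ξs + 2 * Real.log (64 * T) / pT ^ 2 := ⟨_, rfl⟩
  have hlog : 0 ≤ Real.log (64 * T) := Real.log_nonneg (by linarith [hb.T1])
  have hR : ξs ≤ R1 := by rw [hR1]; have : 0 ≤ 2 * Real.log (64 * T) / pT ^ 2 := by positivity
                          linarith
  obtain ⟨C4, c4, hC4, hc4, H4⟩ := lpp_sm_near hS hb ht R1 hR (1 / 2) (by norm_num) (by norm_num)
  obtain ⟨C5, c5, hC5, hc5, H5⟩ := lpp_sm_M2 hS hb ht R1 hR (1 / 2) (by norm_num) (by norm_num)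
  refine ⟨min (min za zb) (ξs / 2), R1, min c4 c5, by positivity, ((min_le_left _ _).trans (min_le_left _ _)).trans hza1,
    lt_of_le_of_lt (min_le_right _ _) (by linarith), hR, lt_min hc4 hc5, ?_⟩
  intro z0 hz hz1
  have hzza : z0 ≤ za := (hz1.trans (min_le_left _ _)).trans (min_le_left _ _)
  have hzzb : z0 ≤ zb := (hz1.trans (min_le_left _ _)).trans (min_le_right _ _)
  have hzs : z0 < ξs := lt_of_le_of_lt (hz1.trans (min_le_right _ _)) (by linarith)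
  obtain ⟨c, C, κc, hc, hκc, Hc⟩ := Hc z0 hz hzza
  obtain ⟨cd, Cd, hcd, Hd⟩ := Hd z0 hz hzzb
  obtain ⟨μ, hμ⟩ : ∃ μ : ℝ, μ = min (ξs ^ 2) 1 := ⟨_, rfl⟩
  have hμ0 : 0 < μ := by rw [hμ]; positivity
  obtain ⟨κ, hκ⟩ : ∃ κ : ℝ, κ = min 1 (min (κc / (1 + C4)) (cd * μ / (4 * (C5 + 1)))) := ⟨_, rfl⟩
  have hκ0 : 0 < κ := by rw [hκ]; positivity
  have hκle1 : κ ≤ 1 := by rw [hκ]; exact min_le_left _ _
  have hκ1 : (1 + C4) * κ ≤ κc := by
    have : κ ≤ κc / (1 + C4) := by rw [hκ]; exact (min_le_right _ _).trans (min_le_left _ _)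
    rw [le_div_iff₀ (by positivity)] at this
    linarith
  have hκ2 : 2 * C5 * κ ≤ cd * μ / 2 := by
    have : κ ≤ cd * μ / (4 * (C5 + 1)) := by rw [hκ]; exact (min_le_right _ _).trans (min_le_right _ _)
    rw [le_div_iff₀ (by positivity)] at this
    have h0 : 0 ≤ κ := hκ0.le
    have h1 : κ * (4 * (C5 + 1)) = 2 * (2 * C5 * κ) + 4 * κ := by ring
    linarith
  refine ⟨min (min c (cd * μ / 2)) (1 / (4 * T)), C, κ, by positivity, hκ0, ?_⟩
  intro P hP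
  obtain ⟨lc, hlc, hadm, Hc⟩ := Hc P hP
  obtain ⟨ld, hld, Hd⟩ := Hd P hP
  refine ⟨min (min lc ld) (min 1 (1 / (2 * T * (|C| + 1)))), by positivity, ?_⟩
  intro lam om M j hl hl1 ho hM hj1 hj4 hsm
  have hllc : lam ≤ lc := (hl1.trans (min_le_left _ _)).trans (min_le_left _ _)
  have hlld : lam ≤ ld := (hl1.trans (min_le_left _ _)).trans (min_le_right _ _)
  have hll1 : lam ≤ 1 := (hl1.trans (min_le_right _ _)).trans (min_le_left _ _)
  have hllC : lam ≤ 1 / (2 * T * (|C| + 1)) := (hl1.trans (min_le_right _ _)).trans (min_le_right _ _)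
  have hD := hadm lam hl.le hllc
  have hMs : ξs + 1 ≤ M := by linarith
  have hMR : 0 ≤ M - R1 := by linarith
  obtain ⟨X, hX⟩ : ∃ X : ℝ, X = om * (M ^ 2 + 1) := ⟨_, rfl⟩
  rw [← hX] at hsm
  have hX0 : 0 < X := by rw [hX]; positivity
  obtain ⟨th, hth⟩ : ∃ th : ℝ, th = X ^ (1 / 2 : ℝ) + Real.exp (-(min c4 c5) * (M - R1)) := ⟨_, rfl⟩
  rw [← hth] at hsm
  have hth1 : th ≤ 1 := hsm.trans (by
    have h1 : κ * lam ≤ 1 * lam := mul_le_mul_of_nonneg_right hκle1 hl.le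
    linarith)
  have hXs1 : X ^ (1 / 2 : ℝ) ≤ 1 := by
    have : 0 ≤ Real.exp (-(min c4 c5) * (M - R1)) := (Real.exp_pos _).le
    rw [hth] at hth1; linarith
  have hX1 : X ≤ 1 := by
    by_contra hcon
    push Not at hcon
    have := Real.one_lt_rpow hcon (show (0 : ℝ) < 1 / 2 by norm_num)
    linarith
  have hXX : X ≤ X ^ (1 / 2 : ℝ) := by
    have := Real.rpow_le_rpow_of_exponent_ge hX0 hX1 (show (1 / 2 : ℝ) ≤ 1 by norm_num)
    simpa using this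
  have hoX : om ≤ X := by
    rw [hX]
    have h2 : om * 1 ≤ om * (M ^ 2 + 1) := mul_le_mul_of_nonneg_left (by linarith [sq_nonneg M]) ho.le
    linarith
  have ho1 : om ≤ 1 := hoX.trans hX1
  have hX1' : om * (M ^ 2 + 1) ≤ 1 := by rw [← hX]; exact hX1
  have he4 : Real.exp (-c4 * (M - R1)) ≤ Real.exp (-(min c4 c5) * (M - R1)) := by
    apply Real.exp_le_exp.2
    have h1 : min c4 c5 ≤ c4 := min_le_left _ _
    have h2 := mul_le_mul_of_nonneg_right h1 hMR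
    linarith
  have he5 : Real.exp (-c5 * (M - R1)) ≤ Real.exp (-(min c4 c5) * (M - R1)) := by
    apply Real.exp_le_exp.2
    have h1 : min c4 c5 ≤ c5 := min_le_right _ _
    have h2 := mul_le_mul_of_nonneg_right h1 hMR
    linarith
  have hth4 : (om * (M ^ 2 + 1)) ^ (1 / 2 : ℝ) + Real.exp (-c4 * (M - R1)) ≤ th := by rw [hth, ← hX]; linarith
  have hth5 : (om * (M ^ 2 + 1)) ^ (1 / 2 : ℝ) + Real.exp (-c5 * (M - R1)) ≤ th := by rw [hth, ← hX]; linarith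
  have hth0 : 0 ≤ th := by rw [hth]; positivity
  have hoth : om ≤ th := by
    rw [hth]
    have h1 : 0 ≤ Real.exp (-(min c4 c5) * (M - R1)) := (Real.exp_pos _).le
    linarith
  have hAs := lpp_sm_adm hb ht hz hzs hP hl.le hD ho ho1 hMs hj1 hj4
  have hnear : LppNear S A0 P ξs lam om (C4 * th) (lppSm A0 P ξs pT lam om M j) j := by
    refine ⟨hAs, hD, fun ξ hξ => lpp_sm_eq hb ht hz hzs hP hl.le hD ho ho1 hMs hj1 hj4 ξ hξ, ?_⟩
    intro k h2 h4 ξ hξ z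
    exact (H4 z0 P hz hzs hP lam om M j hl.le hD ho hX1' hM hj1 hj4 k h2 h4 ξ ⟨hξ.1, hξ.2.trans hR⟩ z).trans
      (mul_le_mul_of_nonneg_left hth4 hC4)
  have hsum : om + C4 * th ≤ κc * lam := by
    have h1 : om + C4 * th ≤ (1 + C4) * th := by linarith
    have h2 : (1 + C4) * th ≤ (1 + C4) * (κ * lam) := mul_le_mul_of_nonneg_left hsm (by positivity)
    have h3 : (1 + C4) * κ * lam ≤ κc * lam := mul_le_mul_of_nonneg_right hκ1 hl.le
    linarith
  have hL := Hc lam om (C4 * th) hl hllc ho.le (by positivity) hsum _ j hnear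
  have hLd := Hd lam hl hlld
  refine ⟨hAs, hL.m0, ?_, hL.hi⟩
  intro ξ hξ
  have hm0 : 0 ≤ min (ξ ^ 2) 1 := by positivity
  have hm1 : min (ξ ^ 2) 1 ≤ 1 := min_le_right _ _
  obtain ⟨cf, hcf⟩ : ∃ cf : ℝ, cf = min (min c (cd * μ / 2)) (1 / (4 * T)) := ⟨_, rfl⟩
  rw [← hcf]
  have hcf1 : cf ≤ c := by rw [hcf]; exact (min_le_left _ _).trans (min_le_left _ _)
  have hcf2 : cf ≤ cd * μ / 2 := by rw [hcf]; exact (min_le_left _ _).trans (min_le_right _ _)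
  have hcf3 : cf ≤ 1 / (4 * T) := by rw [hcf]; exact min_le_right _ _
  have hlm : 0 ≤ lam * min (ξ ^ 2) 1 := by positivity
  have hlm1 : lam * min (ξ ^ 2) 1 ≤ lam := by
    have := mul_le_mul_of_nonneg_left hm1 hl.le
    linarith
  rcases le_total ξ ξs with h | h
  · have h1 := hL.lo ξ ⟨hξ, h⟩
    have h2 : cf * lam * min (ξ ^ 2) 1 = cf * (lam * min (ξ ^ 2) 1) := by ring
    have h3 : c * lam * min (ξ ^ 2) 1 = c * (lam * min (ξ ^ 2) 1) := by ring
    have h4 := mul_le_mul_of_nonneg_right hcf1 hlm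
    linarith
  · rcases le_total ξ R1 with h' | h'
    · have h1 := hLd.lo ξ hξ
      have h50 := H5 z0 P hz hzs hP lam om M j hl.le hD ho hX1' hM hj1 hj4 0 ⟨le_rfl, hx.le.trans hR⟩
      have h5x := H5 z0 P hz hzs hP lam om M j hl.le hD ho hX1' hM hj1 hj4 ξ ⟨hξ, h'⟩
      have h5b : C5 * ((om * (M ^ 2 + 1)) ^ (1 / 2 : ℝ) + Real.exp (-c5 * (M - R1))) ≤ C5 * (κ * lam) :=
        mul_le_mul_of_nonneg_left (hth5.trans hsm) hC5
      have hμξ : μ ≤ min (ξ ^ 2) 1 := by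
        rw [hμ]
        apply min_le_min_right
        exact pow_le_pow_left₀ hx.le h 2
      have h6 : cd * lam * μ ≤ cd * lam * min (ξ ^ 2) 1 := mul_le_mul_of_nonneg_left hμξ (by positivity)
      have h7 : cf * lam * min (ξ ^ 2) 1 ≤ cd * μ / 2 * lam := by
        have : cf * (lam * min (ξ ^ 2) 1) ≤ cd * μ / 2 * (lam * min (ξ ^ 2) 1) := mul_le_mul_of_nonneg_right hcf2 hlm
        have h8 : cd * μ / 2 * (lam * min (ξ ^ 2) 1) ≤ cd * μ / 2 * lam := mul_le_mul_of_nonneg_left hlm1 (by positivity)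
        have h8' : cf * lam * min (ξ ^ 2) 1 = cf * (lam * min (ξ ^ 2) 1) := by ring
        linarith
      have h9 : 2 * (C5 * (κ * lam)) ≤ cd * μ / 2 * lam := by
        have := mul_le_mul_of_nonneg_right hκ2 hl.le
        have e : 2 * (C5 * (κ * lam)) = 2 * C5 * κ * lam := by ring
        linarith
      have a0 := abs_le.1 h50
      have ax := abs_le.1 h5x
      have e1 : cd * lam * μ = 2 * (cd * μ / 2 * lam) := by ring
      linarith
    · have hfar := lpp_sm_far hS hAs hx.le hp.le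
        (fun r hr => lpp_sm_low hb ht hz hzs hP hl.le hD ho ho1 hMs hj1 hj4 r hr) ξ h
      have hexp : 16 * Real.exp (-(pT ^ 2 * (ξ - ξs) / 2)) ≤ 1 / (4 * T) := by
        have h1 : Real.log (64 * T) ≤ pT ^ 2 * (ξ - ξs) / 2 := by
          have : 2 * Real.log (64 * T) / pT ^ 2 ≤ ξ - ξs := by rw [hR1] at h'; linarith
          rw [div_le_iff₀ (by positivity)] at this
          linarith
        have h2 : Real.exp (-(pT ^ 2 * (ξ - ξs) / 2)) ≤ Real.exp (-Real.log (64 * T)) := Real.exp_le_exp.2 (by linarith)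
        have h2' : Real.exp (-Real.log (64 * T)) = (64 * T)⁻¹ := by rw [Real.exp_neg, Real.exp_log (by positivity)]
        rw [h2'] at h2
        have h3 : 16 * (64 * T)⁻¹ = 1 / (4 * T) := by field_simp; norm_num
        linarith
      have hm := abs_le.1 hL.m0
      have hCl : C * lam ≤ 1 / (2 * T) := by
        have h1 : C * lam ≤ (|C| + 1) * lam := mul_le_mul_of_nonneg_right (by linarith [le_abs_self C]) hl.le
        have h2 : (|C| + 1) * lam ≤ (|C| + 1) * (1 / (2 * T * (|C| + 1))) :=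
          mul_le_mul_of_nonneg_left hllC (by positivity)
        have h3 : (|C| + 1) * (1 / (2 * T * (|C| + 1))) = 1 / (2 * T) := by
          have : |C| + 1 ≠ 0 := by positivity
          field_simp
        linarith
      have h4 : cf * lam * min (ξ ^ 2) 1 ≤ 1 / (4 * T) := by
        have h5 : cf * (lam * min (ξ ^ 2) 1) ≤ 1 / (4 * T) * (lam * min (ξ ^ 2) 1) := mul_le_mul_of_nonneg_right hcf3 hlm
        have h6 : 1 / (4 * T) * (lam * min (ξ ^ 2) 1) ≤ 1 / (4 * T) * 1 :=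
          mul_le_mul_of_nonneg_left (hlm1.trans hll1) (by positivity)
        have h6' : cf * lam * min (ξ ^ 2) 1 = cf * (lam * min (ξ ^ 2) 1) := by ring
        linarith
      have h7 : 1 / T = 1 / (2 * T) + 1 / (4 * T) + 1 / (4 * T) := by field_simp; norm_num
      linarith

end Claimed.Agent.R286
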