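import Claimed.Agent.R286.LL.PathsKit281
import Claimed.Agent.R286.LL.PathsClkB
import Claimed.Agent.R286.Bud.PSys

/-!
# Row 286 (S0533), LL Section 3, block SW = Prop. 3.4 (paths:switch), file A: THE HARD EXTENSION AND THE `L¹` ESTIMATES      (architect + owner helper281; head of LL 03: helper272; prefix `lsw_`, `Lsw`)

TEX[LL:paths:switch]   LL 03-paths.tex l.522-560 (first half of the proof: "compare these four extended functions to their smoothed counterparts").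
STYLE (as block CLK of helper253): every theorem is POINTWISE in the smoothed point `p : LlPt`; all facts on the scalar model are EXPLICIT HYPOTHESES (`LswOk`, `LswGam`); constants explicit.
`p` = the SMOOTHED point, `p.toDir` = the direct point with the same parameters.
Hard extension of the direct system to the mass interval `(0,4)`: a single field jump at the mass `ℓ`:  for `v ≥ ℓ`:  `K = K_post = M/ℓ²`, `q = 1`, `b = b_post = b(ℓ)`, `h = h_post = K_post - b_post + H_lo(ℓ) + χ_lin H_lin(ℓ)`.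
EXITS of this file (ALL PROVED, 0 sorries here): `lsw_K_L1`, `lsw_q_L1`, `lsw_b_L1`, `lsw_h_L1`.
-/

set_option autoImplicit false

namespace Claimed.Agent.R286

open MeasureTheory Set Filter Topology

namespace LlPt

variable (p : LlPt) (F : LlFix) (𝔹 : LlBase)

/-- the direct point with the same parameters -/
def toDir : LlPt := { p with sm := false }

/-- the hard profile: the direct profile, and the jump to the total normalised mass `4/ℓ` at the time `M` -/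
noncomputable def Ahard (ξ : ℝ) : ℝ := if p.M ≤ ξ then 4 / p.ell else p.Adir F 𝔹 ξ

/-- normalised scalar time of the hard extension -/
noncomputable def xiH (v : ℝ) : ℝ := llInv (p.Ahard F 𝔹) (v / p.ell)

/-- `K_post = M/ℓ²` -/
noncomputable def KP : ℝ := (p.ell ^ 2)⁻¹ * p.M
/-- `b_post = b(ℓ)` -/
noncomputable def bP : ℝ := p.toDir.b F 𝔹 p.ell
/-- `h_post` -/
noncomputable def hP : ℝ := p.KP - p.bP F 𝔹 + p.Hlo F p.ell + p.chiL * p.Hlin F p.ell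
/-- the values of the direct clocks at the end of the direct mass interval -/
noncomputable def KT : ℝ := p.toDir.K F 𝔹 p.ell
noncomputable def hT : ℝ := p.toDir.h F 𝔹 p.ell

/-- the four hard functions on `(0,4)` -/
noncomputable def KH (v : ℝ) : ℝ := if v < p.ell then p.toDir.K F 𝔹 v else p.KP
noncomputable def qH (v : ℝ) : ℝ := if v < p.ell then p.toDir.q F 𝔹 v else 1
noncomputable def bH (v : ℝ) : ℝ := if v < p.ell then p.toDir.b F 𝔹 v else p.bP F 𝔹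
noncomputable def hH (v : ℝ) : ℝ := if v < p.ell then p.toDir.h F 𝔹 v else p.hP F 𝔹

end LlPt

theorem lsw_defsA_eqns_cite : True := by
  have := @LlPt.toDir.eq_1; have := @LlPt.Ahard.eq_1; have := @LlPt.xiH.eq_1; have := @LlPt.KP.eq_1
  have := @LlPt.bP.eq_1; have := @LlPt.hP.eq_1; have := @LlPt.KT.eq_1; have := @LlPt.hT.eq_1
  have := @LlPt.KH.eq_1; have := @LlPt.qH.eq_1; have := @LlPt.bH.eq_1; have := @LlPt.hH.eq_1
  trivial

/-- the pointwise hypotheses on the numbers and on the direct profile (all true for `N` large: file C) -/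
structure LswOk (p : LlPt) (F : LlFix) (𝔹 : LlBase) : Prop where
  fok : F.Ok
  sm : p.sm = true
  chiE : p.chiE = 0
  ell1 : 1 ≤ p.ell
  ell2 : p.ell ≤ 2
  x0 : 0 < p.x
  xvb : 8 * p.x ≤ F.vb
  vb1 : 4 * F.vb ≤ 1
  om0 : 0 < p.om
  hM : 𝔹.xiS F.T + p.om ≤ p.M
  cap : 1 + p.om * p.M ≤ 4 / p.ell
  prof : LpqProf (p.Adir F 𝔹) (𝔹.xiS F.T) 1
  below : ∀ ξ, 0 ≤ ξ → ξ < 𝔹.xiS F.T → p.Adir F 𝔹 ξ ≤ 𝔹.pTop F.T
  pT0 : 0 ≤ 𝔹.pTop F.T
  pT1 : 𝔹.pTop F.T < 1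

/-- the pointwise hypotheses on the two responses (supplied by the smoothing paragraph of Lemma paths:lift):
`E1` = comparison at a common scalar time on the active interval, `E2` = defect of the smoothed response at the time `M`, `L` = Lipschitz constant, `E3` = comparison of `b_∘` -/
structure LswGam (p : LlPt) (F : LlFix) (𝔹 : LlBase) (E1 E2 E3 L : ℝ) : Prop where
  cmp : ∀ ξ ∈ Icc 0 (𝔹.xiS F.T), |p.toDir.GamN F 𝔹 ξ - p.GamN F 𝔹 ξ| ≤ E1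
  top : |1 - p.GamN F 𝔹 p.M| ≤ E2
  lip : ∀ ξ ∈ Icc 0 p.M, ∀ ξ' ∈ Icc 0 p.M, |p.GamN F 𝔹 ξ - p.GamN F 𝔹 ξ'| ≤ L * |ξ - ξ'|
  b0 : |p.toDir.b0 F 𝔹 - p.b0 F 𝔹| ≤ E3
  L0 : 0 ≤ L

section basic

variable (p : LlPt) (F : LlFix) (𝔹 : LlBase)

/-! ### 0. what does not depend on the regularisation -/

theorem lsw_dir_a : p.toDir.a = p.ell := by simp [LlPt.a, LlPt.toDir]
theorem lsw_dir_Aprof : p.toDir.Aprof F 𝔹 = p.Adir F 𝔹 := by
  simp only [LlPt.Aprof, LlPt.toDir]; rfl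
theorem lsw_sm_a (h : p.sm = true) : p.a = 4 := by simp [LlPt.a, h]
theorem lsw_sm_Aprof (h : p.sm = true) : p.Aprof F 𝔹 = p.Asm F 𝔹 := by simp [LlPt.Aprof, h]

/-- `q(v) = Γ̂(ξ(v))` -/
theorem lsw_q_eq (hl : p.ell ≠ 0) (v : ℝ) : p.q F 𝔹 v = p.GamN F 𝔹 (p.xi F 𝔹 v) := by
  unfold LlPt.q LlPt.Gam LlPt.K
  rw [← mul_assoc, mul_inv_cancel₀ (pow_ne_zero 2 hl), one_mul]
/-- the two matrix clocks differ by the constant `b_∘(direct) - b_∘(smoothed)` -/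
theorem lsw_b_sub (v : ℝ) : p.toDir.b F 𝔹 v - p.b F 𝔹 v = p.toDir.b0 F 𝔹 - p.b0 F 𝔹 := by
  have e : p.toDir.b F 𝔹 v = p.toDir.b0 F 𝔹 + F.cb * p.lam * (p.G F v - p.U F ^ 2
      - F.c1 * p.gam0 * (p.G F v + p.U F ^ 2) - F.c1 * p.dySum F v) := rfl
  rw [e]; unfold LlPt.b; ring
end basic

section main

variable {p : LlPt} {F : LlFix} {𝔹 : LlBase} (ok : LswOk p F 𝔹)

include ok

theorem lsw_M_pos : 0 < p.M := by
  have := ok.prof.tau; have := ok.om0; have := ok.hM; linarith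

/-- (P3): the matrix clock is constant from the mass `2 v_b` on (`2 v_b < 1 ≤ ℓ`).   HINT: `lcb_G_const`, `lcb_dy_zero`. -/
theorem lsw_b_const (v : ℝ) (hv : 2 * F.vb ≤ v) : p.toDir.b F 𝔹 v = p.bP F 𝔹 := by
  have hvb : 0 < F.vb := ok.fok.vb0
  have hl : 2 * F.vb ≤ p.ell := by have := ok.vb1; have := ok.ell1; linarith
  have e : ∀ u, p.toDir.b F 𝔹 u = p.toDir.b0 F 𝔹 + F.cb * p.lam * (p.G F u - p.U F ^ 2
      - F.c1 * p.gam0 * (p.G F u + p.U F ^ 2) - F.c1 * p.dySum F u) := fun _ => rfl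
  unfold LlPt.bP
  rw [e v, e p.ell, lcb_G_const F ok.fok p ok.x0 ok.xvb v hv, lcb_G_const F ok.fok p ok.x0 ok.xvb p.ell hl,
    lcb_dy_zero F ok.fok p ok.x0 ok.xvb v (Or.inr (by linarith)),
    lcb_dy_zero F ok.fok p ok.x0 ok.xvb p.ell (Or.inr (by linarith))]
/-! ### 1. the two profiles -/

/-- HINT: cases `M ≤ ξ`; `Adir ≤ 1 ≤ 4/ℓ`; right continuity: `ξ < M`: `Ahard = Adir` near `ξ`; `M ≤ ξ`: constant on `Ici ξ`. -/
theorem lsw_Ahard_prof : LpqProf (p.Ahard F 𝔹) p.M (4 / p.ell) := by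
  have hM := lsw_M_pos ok
  have h14 : (1 : ℝ) ≤ 4 / p.ell := by
    have := ok.cap; have := mul_nonneg ok.om0.le hM.le; linarith
  refine ⟨?_, ?_, ?_, ?_, hM.le⟩
  · intro ξ hξ ξ' hξ' h
    unfold LlPt.Ahard
    by_cases h1 : p.M ≤ ξ
    · rw [if_pos h1, if_pos (h1.trans h)]
    · rw [if_neg h1]
      by_cases h2 : p.M ≤ ξ'
      · rw [if_pos h2]; exact (ok.prof.mem_Icc ξ hξ).2.trans h14
      · rw [if_neg h2]; exact ok.prof.mono hξ hξ' h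
  · intro ξ hξ
    by_cases h1 : p.M ≤ ξ
    · refine (continuousWithinAt_const (b := 4 / p.ell)).congr (fun y hy => ?_) ?_
      · unfold LlPt.Ahard; rw [if_pos (h1.trans hy)]
      · unfold LlPt.Ahard; rw [if_pos h1]
    · push Not at h1
      refine (ok.prof.rc ξ hξ).congr_of_eventuallyEq ?_ (by unfold LlPt.Ahard; rw [if_neg (not_le.mpr h1)])
      filter_upwards [mem_nhdsWithin_of_mem_nhds (Iio_mem_nhds h1)] with y hy
      unfold LlPt.Ahard; rw [if_neg (not_le.mpr hy)]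
  · unfold LlPt.Ahard; rw [if_neg (not_le.mpr hM)]; exact ok.prof.nn
  · intro ξ hξ; unfold LlPt.Ahard; rw [if_pos hξ]
/-- HINT: inner function `S ξ = (if ξ < ξ_* then Adir ξ else p_top + (1-p_top) min 1 ((ξ-ξ_*)/ω)) + ω ξ` is nondecreasing on `[0,∞)` (`ok.below`), `S ξ ≤ 1 + ω M ≤ 4/ℓ` for `ξ < M`. -/
theorem lsw_Asm_prof : LpqProf (p.Asm F 𝔹) p.M (4 / p.ell) := by
  have hM := lsw_M_pos ok
  set xs := 𝔹.xiS F.T with hxs
  set pT := 𝔹.pTop F.T with hpT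
  let S : ℝ → ℝ := fun ξ =>
    (if ξ < xs then p.Adir F 𝔹 ξ else pT + (1 - pT) * min 1 ((ξ - xs) / p.om)) + p.om * ξ
  have hAsm : ∀ ξ, p.Asm F 𝔹 ξ = if p.M ≤ ξ then 4 / p.ell else S ξ := fun ξ => rfl
  have h1pT : 0 ≤ 1 - pT := by linarith [ok.pT1]
  have hmin0 : ∀ ξ, xs ≤ ξ → 0 ≤ min 1 ((ξ - xs) / p.om) := fun ξ h =>
    le_min zero_le_one (div_nonneg (by linarith) ok.om0.le)
  have hSmono : ∀ ξ ξ', 0 ≤ ξ → ξ ≤ ξ' → S ξ ≤ S ξ' := by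
    intro ξ ξ' h0 h
    have hom : p.om * ξ ≤ p.om * ξ' := mul_le_mul_of_nonneg_left h ok.om0.le
    simp only [S]
    by_cases h1 : ξ < xs
    · rw [if_pos h1]
      by_cases h2 : ξ' < xs
      · rw [if_pos h2]
        have := ok.prof.mono (mem_Ici.mpr h0) (mem_Ici.mpr (h0.trans h)) h
        linarith
      · rw [if_neg h2]
        have := ok.below ξ h0 h1
        have := mul_nonneg h1pT (hmin0 ξ' (not_lt.mp h2))
        linarith
    · rw [if_neg h1, if_neg (fun h2 => h1 (lt_of_le_of_lt h h2))]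
      have : min 1 ((ξ - xs) / p.om) ≤ min 1 ((ξ' - xs) / p.om) :=
        min_le_min le_rfl (div_le_div_of_nonneg_right (by linarith) ok.om0.le)
      have := mul_le_mul_of_nonneg_left this h1pT
      linarith
  have hSle : ∀ ξ, 0 ≤ ξ → ξ < p.M → S ξ ≤ 4 / p.ell := by
    intro ξ h0 h
    have hom : p.om * ξ ≤ p.om * p.M := mul_le_mul_of_nonneg_left h.le ok.om0.le
    have h1 : (if ξ < xs then p.Adir F 𝔹 ξ else pT + (1 - pT) * min 1 ((ξ - xs) / p.om)) ≤ 1 := by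
      split_ifs with h1
      · exact (ok.prof.mem_Icc ξ h0).2
      · have := mul_le_mul_of_nonneg_left (min_le_left 1 ((ξ - xs) / p.om)) h1pT
        linarith
    have := ok.cap
    simp only [S]; linarith
  refine ⟨?_, ?_, ?_, ?_, hM.le⟩
  · intro ξ hξ ξ' hξ' h
    rw [hAsm, hAsm]
    by_cases h1 : p.M ≤ ξ
    · rw [if_pos h1, if_pos (h1.trans h)]
    · rw [if_neg h1]
      by_cases h2 : p.M ≤ ξ'
      · rw [if_pos h2]; exact hSle ξ hξ (not_le.mp h1)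
      · rw [if_neg h2]; exact hSmono ξ ξ' hξ h
  · intro ξ hξ
    by_cases h1 : p.M ≤ ξ
    · refine (continuousWithinAt_const (b := 4 / p.ell)).congr (fun y hy => ?_) ?_
      · rw [hAsm, if_pos (h1.trans hy)]
      · rw [hAsm, if_pos h1]
    · push Not at h1
      have hS : ContinuousWithinAt S (Ici ξ) ξ := by
        by_cases h2 : ξ < xs
        · have hc : ContinuousWithinAt (fun y => p.Adir F 𝔹 y + p.om * y) (Ici ξ) ξ :=
            (ok.prof.rc ξ hξ).add (by fun_prop)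
          refine hc.congr_of_eventuallyEq ?_ (by simp only [S]; rw [if_pos h2])
          filter_upwards [mem_nhdsWithin_of_mem_nhds (Iio_mem_nhds h2)] with y hy
          simp only [S]; rw [if_pos (mem_Iio.mp hy)]
        · have hc : ContinuousWithinAt (fun y => pT + (1 - pT) * min 1 ((y - xs) / p.om) + p.om * y) (Ici ξ) ξ := by
            have : Continuous fun y : ℝ => pT + (1 - pT) * min 1 ((y - xs) / p.om) + p.om * y := by fun_prop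
            exact this.continuousWithinAt
          refine hc.congr (fun y hy => ?_) (by simp only [S]; rw [if_neg h2])
          simp only [S]; rw [if_neg (fun h3 => h2 (lt_of_le_of_lt hy h3))]
      refine hS.congr_of_eventuallyEq ?_ (by rw [hAsm, if_neg (not_le.mpr h1)])
      filter_upwards [mem_nhdsWithin_of_mem_nhds (Iio_mem_nhds h1)] with y hy
      rw [hAsm, if_neg (not_le.mpr (mem_Iio.mp hy))]
  · rw [hAsm, if_neg (not_le.mpr hM)]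
    simp only [S, mul_zero, add_zero]
    split_ifs with h1
    · exact ok.prof.nn
    · have := mul_nonneg h1pT (hmin0 0 (not_lt.mp h1))
      have := ok.pT0
      linarith
  · intro ξ hξ; rw [hAsm, if_pos hξ]
/-- the spread jump and the density floor -/
theorem lsw_A_diff (ξ : ℝ) (hξ : ξ ∈ Icc 0 p.M) :
    |p.Ahard F 𝔹 ξ - p.Asm F 𝔹 ξ|
      ≤ p.om * p.M + (Ico (𝔹.xiS F.T) (𝔹.xiS F.T + p.om)).indicator (fun _ => (1 : ℝ)) ξ := by
  have hM := lsw_M_pos ok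
  have hind : 0 ≤ (Ico (𝔹.xiS F.T) (𝔹.xiS F.T + p.om)).indicator (fun _ => (1 : ℝ)) ξ :=
    indicator_nonneg (fun _ _ => zero_le_one) ξ
  have homM : 0 ≤ p.om * p.M := mul_nonneg ok.om0.le hM.le
  have hom : p.om * ξ ≤ p.om * p.M := mul_le_mul_of_nonneg_left hξ.2 ok.om0.le
  have hom0 : 0 ≤ p.om * ξ := mul_nonneg ok.om0.le hξ.1
  unfold LlPt.Ahard LlPt.Asm
  by_cases h1 : p.M ≤ ξ
  · rw [if_pos h1, if_pos h1, sub_self, abs_zero]; linarith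
  rw [if_neg h1, if_neg h1]
  by_cases h2 : ξ < 𝔹.xiS F.T
  · rw [if_pos h2]
    have e : p.Adir F 𝔹 ξ - (p.Adir F 𝔹 ξ + p.om * ξ) = -(p.om * ξ) := by ring
    rw [e, abs_neg, abs_of_nonneg hom0]; linarith
  · rw [if_neg h2, ok.prof.top ξ (not_lt.mp h2)]
    have h1pT : 0 ≤ 1 - 𝔹.pTop F.T := by linarith [ok.pT1]
    by_cases h3 : ξ < 𝔹.xiS F.T + p.om
    · rw [indicator_of_mem (show ξ ∈ Ico (𝔹.xiS F.T) (𝔹.xiS F.T + p.om) from ⟨not_lt.mp h2, h3⟩)]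
      have hm0 : 0 ≤ min 1 ((ξ - 𝔹.xiS F.T) / p.om) :=
        le_min zero_le_one (div_nonneg (by linarith [not_lt.mp h2]) ok.om0.le)
      have hm1 : min 1 ((ξ - 𝔹.xiS F.T) / p.om) ≤ 1 := min_le_left _ _
      have a1 := mul_nonneg h1pT hm0
      have a2 := mul_le_mul_of_nonneg_left hm1 h1pT
      have := ok.pT0
      rw [abs_le]; constructor <;> linarith
    · have hm : min 1 ((ξ - 𝔹.xiS F.T) / p.om) = 1 := by
        refine min_eq_left ?_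
        rw [le_div_iff₀ ok.om0]; linarith [not_lt.mp h3]
      rw [hm]
      have e : (1 : ℝ) - (𝔹.pTop F.T + (1 - 𝔹.pTop F.T) * 1 + p.om * ξ) = -(p.om * ξ) := by ring
      rw [e, abs_neg, abs_of_nonneg hom0]; linarith
/-- HINT: `integral_mono_of_nonneg` with `lsw_A_diff`; `∫_{[0,M]} (ω M + 1_{[ξ_*,ξ_*+ω)}) = ω M² + ω`. -/
theorem lsw_A_L1 : ∫ ξ in Icc 0 p.M, |p.Ahard F 𝔹 ξ - p.Asm F 𝔹 ξ| ≤ p.om * p.M ^ 2 + p.om := by
  have hM := lsw_M_pos ok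
  have hi1 : IntegrableOn (fun _ : ℝ => p.om * p.M) (Icc 0 p.M) := integrableOn_const (by simp)
  have hi2 : IntegrableOn ((Ico (𝔹.xiS F.T) (𝔹.xiS F.T + p.om)).indicator fun _ => (1 : ℝ)) (Icc 0 p.M) :=
    (integrableOn_const (by simp)).indicator measurableSet_Ico
  have hset : Icc 0 p.M ∩ Ico (𝔹.xiS F.T) (𝔹.xiS F.T + p.om) = Ico (𝔹.xiS F.T) (𝔹.xiS F.T + p.om) := by
    refine inter_eq_right.mpr fun ξ hξ => ⟨ok.prof.tau.trans hξ.1, (hξ.2.le).trans ok.hM⟩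
  calc ∫ ξ in Icc 0 p.M, |p.Ahard F 𝔹 ξ - p.Asm F 𝔹 ξ|
      ≤ ∫ ξ in Icc 0 p.M, (p.om * p.M + (Ico (𝔹.xiS F.T) (𝔹.xiS F.T + p.om)).indicator (fun _ => (1 : ℝ)) ξ) :=
        integral_mono_of_nonneg (Eventually.of_forall fun _ => abs_nonneg _) (hi1.add hi2)
          ((ae_restrict_iff' measurableSet_Icc).mpr (Eventually.of_forall fun ξ hξ => lsw_A_diff ok ξ hξ))
    _ = p.om * p.M ^ 2 + p.om := by
        rw [integral_add hi1 hi2, setIntegral_const, setIntegral_indicator measurableSet_Ico, hset, setIntegral_const,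
          Real.volume_real_Icc_of_le hM.le, Real.volume_real_Ico_of_le (by linarith [ok.om0])]
        simp only [smul_eq_mul]
        ring
/-- **the area between the two inverse clocks**.   HINT: `lpq_L1_iso'`, substitution `v = ℓ w` (`intervalIntegral.integral_comp_div`), `lsw_A_L1`. -/
theorem lsw_xi_L1 : ∫ v in Ioo (0 : ℝ) 4, |p.xiH F 𝔹 v - p.xi F 𝔹 v| ≤ p.ell * (p.om * p.M ^ 2 + p.om) := by
  have hl : 0 < p.ell := by linarith [ok.ell1]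
  have e1 : ∫ v in Ioo (0 : ℝ) 4, |p.xiH F 𝔹 v - p.xi F 𝔹 v|
      = ∫ v in (0 : ℝ)..4, (fun w => |llInv (p.Ahard F 𝔹) w - llInv (p.Asm F 𝔹) w|) (v / p.ell) := by
    rw [intervalIntegral.integral_of_le (by norm_num), integral_Ioc_eq_integral_Ioo]
    unfold LlPt.xiH LlPt.xi
    rw [lsw_sm_Aprof p F 𝔹 ok.sm]
  rw [e1, intervalIntegral.integral_comp_div (fun w => |llInv (p.Ahard F 𝔹) w - llInv (p.Asm F 𝔹) w|) hl.ne',
    zero_div, lpq_L1_iso' (lsw_Ahard_prof ok) (lsw_Asm_prof ok),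
    intervalIntegral.integral_of_le (lsw_M_pos ok).le, ← integral_Icc_eq_integral_Ioc, smul_eq_mul]
  exact mul_le_mul_of_nonneg_left (lsw_A_L1 ok) hl.le
theorem lsw_xi_int : IntegrableOn (fun v => |p.xiH F 𝔹 v - p.xi F 𝔹 v|) (Ioo (0 : ℝ) 4) := by
  have hl : 0 < p.ell := by linarith [ok.ell1]
  have hmono : ∀ {A : ℝ → ℝ}, LpqProf A p.M (4 / p.ell) → IntegrableOn (fun v => llInv A (v / p.ell)) (Ioo (0 : ℝ) 4) := by
    intro A hA
    have : MonotoneOn (fun v => llInv A (v / p.ell)) (Icc (0 : ℝ) 4) := fun v _ v' hv' h =>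
      lpq_inv_mono hA _ _ (div_le_div_of_nonneg_right h hl.le) (div_le_div_of_nonneg_right hv'.2 hl.le)
    exact (this.integrableOn_isCompact isCompact_Icc).mono_set Ioo_subset_Icc_self
  have h1 := hmono (lsw_Ahard_prof ok)
  have h2 := hmono (lsw_Asm_prof ok)
  have := (h1.sub h2).abs
  unfold LlPt.xiH LlPt.xi
  rw [lsw_sm_Aprof p F 𝔹 ok.sm]
  exact this
/-- HINT: `lpq_inv_congr` -/
theorem lsw_xiH_dir (v : ℝ) (hv : v ≤ p.ell) : p.xiH F 𝔹 v = p.toDir.xi F 𝔹 v := by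
  have hl : 0 < p.ell := by linarith [ok.ell1]
  have hw : v / p.ell ≤ 1 := (div_le_one hl).mpr hv
  have h14 : (1 : ℝ) ≤ 4 / p.ell := by
    have := ok.cap; have := mul_nonneg ok.om0.le (lsw_M_pos ok).le; linarith
  unfold LlPt.xiH LlPt.xi
  rw [lsw_dir_Aprof]
  refine lpq_inv_congr _ fun ξ _ => ?_
  unfold LlPt.Ahard
  by_cases h1 : p.M ≤ ξ
  · rw [if_pos h1, ok.prof.top ξ (by linarith [ok.hM, ok.om0])]
    exact ⟨fun _ => hw, fun _ => hw.trans h14⟩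
  · rw [if_neg h1]
theorem lsw_xiH_post (v : ℝ) (h1 : p.ell < v) (h2 : v ≤ 4) : p.xiH F 𝔹 v = p.M := by
  have hl : 0 < p.ell := by linarith [ok.ell1]
  have hw : 1 < v / p.ell := (one_lt_div hl).mpr h1
  have hw4 : v / p.ell ≤ 4 / p.ell := div_le_div_of_nonneg_right h2 hl.le
  have hA := lsw_Ahard_prof ok
  refine le_antisymm (lpq_inv_le_tau hA _ hw4) ?_
  by_contra hcon
  push Not at hcon
  have h3 := lpq_le_at_inv hA _ hw4
  have h0 := lpq_inv_nonneg (p.Ahard F 𝔹) (v / p.ell)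
  have e : p.Ahard F 𝔹 (llInv (p.Ahard F 𝔹) (v / p.ell)) = p.Adir F 𝔹 (llInv (p.Ahard F 𝔹) (v / p.ell)) :=
    if_neg (not_le.mpr hcon)
  rw [e] at h3
  have := (ok.prof.mem_Icc _ h0).2
  linarith
theorem lsw_xiH_mem (v : ℝ) (h2 : v ≤ 4) : p.xiH F 𝔹 v ∈ Icc 0 p.M := by
  have hl : 0 < p.ell := by linarith [ok.ell1]
  exact ⟨lpq_inv_nonneg _ _, lpq_inv_le_tau (lsw_Ahard_prof ok) _ (div_le_div_of_nonneg_right h2 hl.le)⟩
theorem lsw_xi_mem (v : ℝ) (h2 : v ≤ 4) : p.xi F 𝔹 v ∈ Icc 0 p.M := by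
  have hl : 0 < p.ell := by linarith [ok.ell1]
  unfold LlPt.xi
  rw [lsw_sm_Aprof p F 𝔹 ok.sm]
  exact ⟨lpq_inv_nonneg _ _, lpq_inv_le_tau (lsw_Asm_prof ok) _ (div_le_div_of_nonneg_right h2 hl.le)⟩
theorem lsw_xi_dir_mem (v : ℝ) (h2 : v ≤ p.ell) : p.toDir.xi F 𝔹 v ∈ Icc 0 (𝔹.xiS F.T) := by
  have hl : 0 < p.ell := by linarith [ok.ell1]
  unfold LlPt.xi
  rw [lsw_dir_Aprof]
  exact ⟨lpq_inv_nonneg _ _, lpq_inv_le_tau ok.prof _ ((div_le_one hl).mpr h2)⟩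
/-- on the top plateau the direct scalar time is `ξ_*` -/
theorem lsw_xi_dir_top (v : ℝ) (h1 : 𝔹.pTop F.T < v / p.ell) (h2 : v ≤ p.ell) : p.toDir.xi F 𝔹 v = 𝔹.xiS F.T := by
  have hl : 0 < p.ell := by linarith [ok.ell1]
  have hw : v / p.ell ≤ 1 := (div_le_one hl).mpr h2
  refine le_antisymm (lsw_xi_dir_mem ok v h2).2 ?_
  by_contra hcon
  push Not at hcon
  have h0 := (lsw_xi_dir_mem ok v h2).1
  have h3 := ok.below _ h0 hcon
  have h4 : v / p.ell ≤ p.Adir F 𝔹 (p.toDir.xi F 𝔹 v) := by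
    unfold LlPt.xi
    rw [lsw_dir_Aprof]
    exact lpq_le_at_inv ok.prof _ hw
  linarith
/-! ### 2. pointwise comparison of the four functions, off the mass `ℓ` -/

theorem lsw_K_diff (v : ℝ) (hv : v ∈ Ioo (0 : ℝ) 4) (hne : v ≠ p.ell) :
    |p.KH F 𝔹 v - p.K F 𝔹 v| ≤ |p.xiH F 𝔹 v - p.xi F 𝔹 v| := by
  have hinv : (p.ell ^ 2)⁻¹ ≤ 1 := inv_le_one_of_one_le₀ (one_le_pow₀ ok.ell1)
  have hinv0 : 0 ≤ (p.ell ^ 2)⁻¹ := by positivity
  have e : p.KH F 𝔹 v = (p.ell ^ 2)⁻¹ * p.xiH F 𝔹 v := by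
    unfold LlPt.KH
    rcases lt_or_gt_of_ne hne with h | h
    · rw [if_pos h, lsw_xiH_dir ok v h.le]; rfl
    · rw [if_neg (not_lt.mpr h.le), lsw_xiH_post ok v h hv.2.le]; rfl
  rw [e]; unfold LlPt.K; rw [← mul_sub, abs_mul, abs_of_nonneg hinv0]
  exact mul_le_of_le_one_left (abs_nonneg _) hinv
theorem lsw_q_diff {E1 E2 E3 L : ℝ} (hG : LswGam p F 𝔹 E1 E2 E3 L) (v : ℝ) (hv : v ∈ Ioo (0 : ℝ) 4) (hne : v ≠ p.ell) :
    |p.qH F 𝔹 v - p.q F 𝔹 v| ≤ E1 + E2 + L * |p.xiH F 𝔹 v - p.xi F 𝔹 v| := by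
  have hl : p.ell ≠ 0 := by have := ok.ell1; intro h; rw [h] at this; linarith
  rw [lsw_q_eq p F 𝔹 hl v]
  have hxi := lsw_xi_mem ok v hv.2.le
  have hxH := lsw_xiH_mem ok v hv.2.le
  have hE1 : 0 ≤ E1 := (abs_nonneg _).trans (hG.cmp 0 ⟨le_rfl, ok.prof.tau⟩)
  have hE2 : 0 ≤ E2 := (abs_nonneg _).trans hG.top
  have hlip := hG.lip _ hxH _ hxi
  unfold LlPt.qH
  rcases lt_or_gt_of_ne hne with h | h
  · rw [if_pos h, lsw_q_eq p.toDir F 𝔹 hl v, ← lsw_xiH_dir ok v h.le]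
    have hmem : p.xiH F 𝔹 v ∈ Icc 0 (𝔹.xiS F.T) := by
      rw [lsw_xiH_dir ok v h.le]; exact lsw_xi_dir_mem ok v h.le
    have h1 := hG.cmp _ hmem
    have e : p.toDir.GamN F 𝔹 (p.xiH F 𝔹 v) - p.GamN F 𝔹 (p.xi F 𝔹 v)
        = (p.toDir.GamN F 𝔹 (p.xiH F 𝔹 v) - p.GamN F 𝔹 (p.xiH F 𝔹 v))
          + (p.GamN F 𝔹 (p.xiH F 𝔹 v) - p.GamN F 𝔹 (p.xi F 𝔹 v)) := by ring
    rw [e]
    refine (abs_add_le _ _).trans ?_
    linarith
  · rw [if_neg (not_lt.mpr h.le)]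
    have hM := lsw_xiH_post ok v h hv.2.le
    rw [hM] at hlip ⊢
    have e : 1 - p.GamN F 𝔹 (p.xi F 𝔹 v)
        = (1 - p.GamN F 𝔹 p.M) + (p.GamN F 𝔹 p.M - p.GamN F 𝔹 (p.xi F 𝔹 v)) := by ring
    rw [e]
    refine (abs_add_le _ _).trans ?_
    have := hG.top
    linarith
theorem lsw_b_diff (v : ℝ) : p.bH F 𝔹 v - p.b F 𝔹 v = p.toDir.b0 F 𝔹 - p.b0 F 𝔹 := by
  unfold LlPt.bH
  by_cases h : v < p.ell
  · rw [if_pos h]; exact lsw_b_sub p F 𝔹 v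
  · rw [if_neg h, ← lsw_b_const ok v (by have := ok.vb1; have := ok.ell1; have := ok.fok.vb0; linarith [not_lt.mp h])]
    exact lsw_b_sub p F 𝔹 v
/-- HINT: `v < x`: both vanish;   `x ≤ v`: `h = K - b q + H_lo + χ_lin H_lin` on both sides (`χ_e = 0`; `min v ℓ = ℓ` for `v ≥ ℓ`);   `b_H q_H - b q = b_H (q_H - q) + (b_H - b) q`. -/
theorem lsw_h_diff {Cb : ℝ} (hb : ∀ v ∈ Ioo (0 : ℝ) 4, |p.bH F 𝔹 v| ≤ Cb) (hq : ∀ v ∈ Ioo (0 : ℝ) 4, |p.q F 𝔹 v| ≤ 1)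
    (v : ℝ) (hv : v ∈ Ioo (0 : ℝ) 4) (hne : v ≠ p.ell) :
    |p.hH F 𝔹 v - p.h F 𝔹 v|
      ≤ |p.KH F 𝔹 v - p.K F 𝔹 v| + Cb * |p.qH F 𝔹 v - p.q F 𝔹 v| + |p.toDir.b0 F 𝔹 - p.b0 F 𝔹| := by
  have hx1 : p.x < p.ell := by
    have := ok.xvb; have := ok.vb1; have := ok.ell1; have := ok.x0; linarith
  have hCb : 0 ≤ Cb := (abs_nonneg _).trans (hb v hv)
  have hbd := lsw_b_diff ok v
  have ed : p.toDir.h F 𝔹 v = if v < p.x then 0 else (p.toDir.K F 𝔹 v - p.toDir.b F 𝔹 v * p.toDir.q F 𝔹 v)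
      + p.Hlo F v + p.chiL * p.Hlin F v + p.chiE * p.toDir.He F 𝔹 v := rfl
  have es : p.h F 𝔹 v = if v < p.x then 0 else (p.K F 𝔹 v - p.b F 𝔹 v * p.q F 𝔹 v)
      + p.Hlo F v + p.chiL * p.Hlin F v + p.chiE * p.He F 𝔹 v := rfl
  by_cases hvx : v < p.x
  · have e1 : p.hH F 𝔹 v = 0 := by
      unfold LlPt.hH; rw [if_pos (hvx.trans hx1), ed, if_pos hvx]
    rw [e1, es, if_pos hvx, sub_self, abs_zero]
    have := mul_nonneg hCb (abs_nonneg (p.qH F 𝔹 v - p.q F 𝔹 v))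
    have := abs_nonneg (p.KH F 𝔹 v - p.K F 𝔹 v)
    have := abs_nonneg (p.toDir.b0 F 𝔹 - p.b0 F 𝔹)
    linarith
  have key : p.hH F 𝔹 v - p.h F 𝔹 v = (p.KH F 𝔹 v - p.K F 𝔹 v)
      - (p.bH F 𝔹 v * (p.qH F 𝔹 v - p.q F 𝔹 v) + (p.bH F 𝔹 v - p.b F 𝔹 v) * p.q F 𝔹 v) := by
    rw [es, if_neg hvx, ok.chiE]
    unfold LlPt.hH LlPt.KH LlPt.bH LlPt.qH
    rcases lt_or_gt_of_ne hne with h | h
    · rw [if_pos h, if_pos h, if_pos h, if_pos h, ed, if_neg hvx, ok.chiE]; ring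
    · have hn := not_lt.mpr h.le
      rw [if_neg hn, if_neg hn, if_neg hn, if_neg hn]
      have e1 : p.Hlo F v = p.Hlo F p.ell := by
        unfold LlPt.Hlo; rw [min_eq_right h.le, min_self]
      have e2 : p.Hlin F v = p.Hlin F p.ell := by
        unfold LlPt.Hlin; rw [min_eq_right h.le, min_self]
      rw [e1, e2]; unfold LlPt.hP; ring
  rw [key, hbd]
  have h1 : |p.bH F 𝔹 v * (p.qH F 𝔹 v - p.q F 𝔹 v)| ≤ Cb * |p.qH F 𝔹 v - p.q F 𝔹 v| := by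
    rw [abs_mul]; exact mul_le_mul_of_nonneg_right (hb v hv) (abs_nonneg _)
  have h2 : |(p.toDir.b0 F 𝔹 - p.b0 F 𝔹) * p.q F 𝔹 v| ≤ |p.toDir.b0 F 𝔹 - p.b0 F 𝔹| := by
    rw [abs_mul]; exact mul_le_of_le_one_right (abs_nonneg _) (hq v hv)
  refine (abs_sub _ _).trans ?_
  have := abs_add_le (p.bH F 𝔹 v * (p.qH F 𝔹 v - p.q F 𝔹 v)) ((p.toDir.b0 F 𝔹 - p.b0 F 𝔹) * p.q F 𝔹 v)
  linarith
/-! ### 3. the `L¹` estimates.   `EK = ℓ (ω M² + ω)` -/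

/-- tool: a pointwise bound off one point by `c + L |ξ_H - ξ|` integrates.   HINT: `integral_mono_of_nonneg`, `ae` off the singleton `{ℓ}`, `lsw_xi_int`, `lsw_xi_L1`. -/
theorem lsw_L1_tool (f : ℝ → ℝ) (c L : ℝ) (hL : 0 ≤ L)
    (hf : ∀ v ∈ Ioo (0 : ℝ) 4, v ≠ p.ell → |f v| ≤ c + L * |p.xiH F 𝔹 v - p.xi F 𝔹 v|) :
    ∫ v in Ioo (0 : ℝ) 4, |f v| ≤ 4 * c + L * (p.ell * (p.om * p.M ^ 2 + p.om)) := by
  have hint := lsw_xi_int ok
  have hc : IntegrableOn (fun _ : ℝ => c) (Ioo (0 : ℝ) 4) := integrableOn_const (by simp)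
  have hae : ∀ᵐ v ∂(volume.restrict (Ioo (0 : ℝ) 4)), |f v| ≤ c + L * |p.xiH F 𝔹 v - p.xi F 𝔹 v| := by
    rw [ae_restrict_iff' measurableSet_Ioo]
    have : ∀ᵐ v ∂(volume : Measure ℝ), v ≠ p.ell := by
      simp [ae_iff, measure_singleton]
    filter_upwards [this] with v hne hv using hf v hv hne
  calc ∫ v in Ioo (0 : ℝ) 4, |f v| ≤ ∫ v in Ioo (0 : ℝ) 4, (c + L * |p.xiH F 𝔹 v - p.xi F 𝔹 v|) :=
        integral_mono_of_nonneg (Eventually.of_forall fun _ => abs_nonneg _) (hc.add (hint.const_mul L)) hae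
    _ = 4 * c + L * ∫ v in Ioo (0 : ℝ) 4, |p.xiH F 𝔹 v - p.xi F 𝔹 v| := by
        rw [integral_add hc (hint.const_mul L), setIntegral_const, integral_const_mul,
          Real.volume_real_Ioo_of_le (by norm_num)]
        simp
    _ ≤ _ := by
        have := mul_le_mul_of_nonneg_left (lsw_xi_L1 ok) hL
        linarith
theorem lsw_K_L1 : ∫ v in Ioo (0 : ℝ) 4, |p.KH F 𝔹 v - p.K F 𝔹 v| ≤ p.ell * (p.om * p.M ^ 2 + p.om) := by
  have := lsw_L1_tool ok (fun v => p.KH F 𝔹 v - p.K F 𝔹 v) 0 1 zero_le_one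
    (fun v hv hne => by simpa using lsw_K_diff ok v hv hne)
  simpa using this

theorem lsw_q_L1 {E1 E2 E3 L : ℝ} (hG : LswGam p F 𝔹 E1 E2 E3 L) :
    ∫ v in Ioo (0 : ℝ) 4, |p.qH F 𝔹 v - p.q F 𝔹 v| ≤ 4 * (E1 + E2) + L * (p.ell * (p.om * p.M ^ 2 + p.om)) :=
  lsw_L1_tool ok (fun v => p.qH F 𝔹 v - p.q F 𝔹 v) (E1 + E2) L hG.L0 (fun v hv hne => lsw_q_diff ok hG v hv hne)

theorem lsw_b_L1 {E1 E2 E3 L : ℝ} (hG : LswGam p F 𝔹 E1 E2 E3 L) :
    ∫ v in Ioo (0 : ℝ) 4, |p.bH F 𝔹 v - p.b F 𝔹 v| ≤ 4 * E3 := by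
  have := lsw_L1_tool ok (fun v => p.bH F 𝔹 v - p.b F 𝔹 v) E3 0 le_rfl
    (fun v _ _ => by simpa [lsw_b_diff ok v] using hG.b0)
  simpa using this

theorem lsw_h_L1 {E1 E2 E3 L Cb : ℝ} (hG : LswGam p F 𝔹 E1 E2 E3 L) (hCb : 0 ≤ Cb)
    (hb : ∀ v ∈ Ioo (0 : ℝ) 4, |p.bH F 𝔹 v| ≤ Cb) (hq : ∀ v ∈ Ioo (0 : ℝ) 4, |p.q F 𝔹 v| ≤ 1) :
    ∫ v in Ioo (0 : ℝ) 4, |p.hH F 𝔹 v - p.h F 𝔹 v|
      ≤ 4 * (Cb * (E1 + E2) + E3) + (1 + Cb * L) * (p.ell * (p.om * p.M ^ 2 + p.om)) := by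
  refine lsw_L1_tool ok (fun v => p.hH F 𝔹 v - p.h F 𝔹 v) (Cb * (E1 + E2) + E3) (1 + Cb * L)
    (by have := mul_nonneg hCb hG.L0; linarith) (fun v hv hne => ?_)
  have h1 := lsw_h_diff ok hb hq v hv hne
  have h2 := lsw_K_diff ok v hv hne
  have h3 := mul_le_mul_of_nonneg_left (lsw_q_diff ok hG v hv hne) hCb
  have h4 := hG.b0
  nlinarith

end main

end Claimed.Agent.R286
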