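import Claimed.Agent.R286.LL.PathsSwA

/-!
# Row 286 (S0533), LL Section 3, block SW = Prop. 3.4 (paths:switch), file B: THE PRESSURES      (architect + owner helper281; prefix `lsw_`, `Lsw`)

TEX[LL:paths:switch]   LL 03-paths.tex l.561-672 (second half of the proof).   POINTWISE in the smoothed point `p`.
IMPORTED CONTRACTS on the numbers-only interface `𝔹 : LlBase` (to be supplied by the owners of the pressure layer):
* `LlLipL1 𝔹`     (A1) / PE Lemma 2.2: the pressure is `L¹`-Lipschitz in its clocks (= `PSys.LipL1` for every `m`, `a`);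
* `LlHardJump 𝔹`  the hard-jump computation l.561-600: extension of a system of terminal mass `l` to terminal mass `a ≥ l` by ONE field jump `D = hP - hT` at the mass `l`
                  (orthant bound `lpk_orth_log` / `lpk_hard_jump` of PathsKit283 at the last level; "every earlier power mean preserves a uniform additive comparison").
EXITS: `lsw_psi`, `lsw_fRest`, `lsw_trial`.
-/

set_option autoImplicit false

namespace Claimed.Agent.R286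

open MeasureTheory Set Filter Topology

/-! ### 0. contracts on the pressure layer -/

/-- (A1), PE Lemma 2.2 -/
def LlLipL1 (𝔹 : LlBase) : Prop :=
  ∀ (m : ℕ) (a : ℝ), 0 < m → 0 < a → ∀ b h b' h' : ℝ → ℝ, IsClock a b → IsClock a h → IsClock a b' → IsClock a h' →
    |𝔹.f m a b' h' - 𝔹.f m a b h|
      ≤ (1 / 4) * (∫ v in Ioo 0 a, |b' v - b v|) + (1 / 2) * (∫ v in Ioo 0 a, |h' v - h v|)

/-- the hard field jump (LL 03 l.561-600): `bT`, `hT` = total direct clocks, `hP ≥ hT` = field clock after the jump -/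
def LlHardJump (𝔹 : LlBase) : Prop :=
  ∀ (m : ℕ) (l a : ℝ), 0 < m → 0 < l → l ≤ a → ∀ (b h : ℝ → ℝ) (bT hT hP : ℝ), IsClock l b → IsClock l h →
    Tendsto b (𝓝[<] l) (𝓝 bT) → Tendsto h (𝓝[<] l) (𝓝 hT) → hT ≤ hP →
    Real.exp (-(l ^ 2 * (hP - hT) / 2)) ≤ 1 / 2 →
    |𝔹.f m a (fun v => if v < l then b v else bT) (fun v => if v < l then h v else hP)
        - (𝔹.f m l b h + (l - a) * (bT / 4 + hP / 2) + Real.log 2 * (1 / l - 1 / a))|
      ≤ 2 / l * Real.exp (-(l ^ 2 * (hP - hT) / 2))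

/-- the tilted matrix clock of (A4) -/
noncomputable def lswTilt (s : ℝ) (b : ℝ → ℝ) : ℝ → ℝ := fun v => if s ≤ v then b v else 0

/-- bounded and measurable on `(0,a)` -/
def LswBM (a : ℝ) (f : ℝ → ℝ) : Prop :=
  AEStronglyMeasurable f (volume.restrict (Ioo 0 a)) ∧ ∃ C, ∀ v ∈ Ioo 0 a, |f v| ≤ C

theorem lsw_defsB_eqns_cite : True := by
  have := @LlLipL1.eq_1; have := @LlHardJump.eq_1; have := @lswTilt.eq_1; have := @LswBM.eq_1
  trivial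

/-! ### 1. bounded measurable functions -/

/-- HINT: `aemeasurable_restrict_of_monotoneOn measurableSet_Ioo` -/
theorem IsClock.lswBM {a : ℝ} {c : ℝ → ℝ} (h : IsClock a c) : LswBM a c := by
  refine ⟨(aemeasurable_restrict_of_monotoneOn measurableSet_Ioo h.mono).aestronglyMeasurable, ?_⟩
  obtain ⟨C, hC⟩ := h.bdd
  exact ⟨C, fun v hv => by rw [abs_of_nonneg (h.nonneg v hv)]; exact hC v hv⟩

theorem LswBM.const (a c : ℝ) : LswBM a fun _ => c := by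
  exact ⟨aestronglyMeasurable_const, |c|, fun _ _ => le_rfl⟩

theorem LswBM.add {a : ℝ} {f g : ℝ → ℝ} (hf : LswBM a f) (hg : LswBM a g) : LswBM a fun v => f v + g v := by
  obtain ⟨C, hC⟩ := hf.2
  obtain ⟨D, hD⟩ := hg.2
  exact ⟨hf.1.add hg.1, C + D, fun v hv => (abs_add_le _ _).trans (add_le_add (hC v hv) (hD v hv))⟩

theorem LswBM.sub {a : ℝ} {f g : ℝ → ℝ} (hf : LswBM a f) (hg : LswBM a g) : LswBM a fun v => f v - g v := by
  obtain ⟨C, hC⟩ := hf.2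
  obtain ⟨D, hD⟩ := hg.2
  exact ⟨hf.1.sub hg.1, C + D, fun v hv => (abs_sub _ _).trans (add_le_add (hC v hv) (hD v hv))⟩

theorem LswBM.mul {a : ℝ} {f g : ℝ → ℝ} (hf : LswBM a f) (hg : LswBM a g) : LswBM a fun v => f v * g v := by
  obtain ⟨C, hC⟩ := hf.2
  obtain ⟨D, hD⟩ := hg.2
  refine ⟨hf.1.mul hg.1, C * D, fun v hv => ?_⟩
  rw [abs_mul]
  exact mul_le_mul (hC v hv) (hD v hv) (abs_nonneg _) ((abs_nonneg _).trans (hC v hv))

theorem LswBM.abs {a : ℝ} {f : ℝ → ℝ} (hf : LswBM a f) : LswBM a fun v => |f v| := by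
  obtain ⟨C, hC⟩ := hf.2
  exact ⟨hf.1.norm, C, fun v hv => by rw [abs_abs]; exact hC v hv⟩

theorem LswBM.div {a c : ℝ} {f g : ℝ → ℝ} (hf : LswBM a f) (hg : LswBM a g) (hc : 0 < c) (hgc : ∀ v ∈ Ioo 0 a, c ≤ g v) :
    LswBM a fun v => f v / g v := by
  obtain ⟨C, hC⟩ := hf.2
  refine ⟨(hf.1.aemeasurable.div hg.1.aemeasurable).aestronglyMeasurable, C / c, fun v hv => ?_⟩
  have h1 : 0 < g v := lt_of_lt_of_le hc (hgc v hv)
  rw [abs_div, abs_of_pos h1]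
  exact div_le_div₀ ((abs_nonneg _).trans (hC v hv)) (hC v hv) hc (hgc v hv)

theorem LswBM.integrableOn {a : ℝ} {f : ℝ → ℝ} (hf : LswBM a f) : IntegrableOn f (Ioo 0 a) := by
  obtain ⟨C, hC⟩ := hf.2
  have : IsFiniteMeasure (volume.restrict (Ioo 0 a)) := ⟨by simp⟩
  refine Integrable.of_bound hf.1 C ?_
  exact (ae_restrict_iff' measurableSet_Ioo).2 (Eventually.of_forall fun v hv => by simpa using hC v hv)

/-- HINT: `AEStronglyMeasurable.piecewise`-type statement: split `Ioo 0 a = Ioo 0 l ∪ Ico l a` -/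
theorem LswBM.ext {l a c : ℝ} {f : ℝ → ℝ} (hf : LswBM l f) (hl : 0 < l) (hla : l ≤ a) :
    LswBM a fun v => if v < l then f v else c := by
  obtain ⟨C, hC⟩ := hf.2
  refine ⟨?_, max C |c|, fun v hv => ?_⟩
  · have hu : Ioo 0 a = Ioo 0 l ∪ Ico l a := (Ioo_union_Ico_eq_Ioo hl hla).symm
    rw [hu]
    refine (aestronglyMeasurable_union_iff).2 ⟨?_, ?_⟩
    · refine hf.1.congr ?_
      refine (ae_restrict_iff' measurableSet_Ioo).2 (Eventually.of_forall fun v hv => ?_)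
      simp [hv.2]
    · refine (aestronglyMeasurable_const (b := c)).congr ?_
      refine (ae_restrict_iff' measurableSet_Ico).2 (Eventually.of_forall fun v hv => ?_)
      simp [not_lt.2 hv.1]
  · by_cases h : v < l
    · simp only [h, if_true]; exact (hC v ⟨hv.1, h⟩).trans (le_max_left _ _)
    · simp only [h, if_false]; exact le_max_right _ _

/-- splitting an integral of a hard extension at the mass `l` -/
theorem lsw_int_split {l a c : ℝ} {f : ℝ → ℝ} (hf : LswBM l f) (hl : 0 < l) (hla : l ≤ a) :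
    ∫ v in (0 : ℝ)..a, (if v < l then f v else c) = (∫ v in (0 : ℝ)..l, f v) + (a - l) * c := by
  have hE := (LswBM.ext (c := c) hf hl hla).integrableOn
  have hI : IntervalIntegrable (fun v => if v < l then f v else c) volume 0 a := by
    rw [intervalIntegrable_iff_integrableOn_Ioo_of_le (hl.le.trans hla)]; exact hE
  have hI1 : IntervalIntegrable (fun v => if v < l then f v else c) volume 0 l :=
    hI.mono_set (by rw [uIcc_of_le hl.le, uIcc_of_le (hl.le.trans hla)]; exact Icc_subset_Icc le_rfl hla)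
  have hI2 : IntervalIntegrable (fun v => if v < l then f v else c) volume l a :=
    hI.mono_set (by rw [uIcc_of_le hla, uIcc_of_le (hl.le.trans hla)]; exact Icc_subset_Icc hl.le le_rfl)
  rw [← intervalIntegral.integral_add_adjacent_intervals hI1 hI2]
  congr 1
  · rw [intervalIntegral.integral_of_le hl.le, intervalIntegral.integral_of_le hl.le,
      integral_Ioc_eq_integral_Ioo, integral_Ioc_eq_integral_Ioo]
    refine setIntegral_congr_fun measurableSet_Ioo fun v hv => ?_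
    simp [hv.2]
  · rw [intervalIntegral.integral_of_le hla]
    rw [setIntegral_congr_fun (g := fun _ => c) measurableSet_Ioc fun v hv => by
      simp [not_lt.2 hv.1.le]]
    simp [hla]

/-- difference of two integrals against the `L¹` distance -/
theorem lsw_int_sub_le {a : ℝ} {f g k : ℝ → ℝ} (ha : 0 ≤ a) (hf : LswBM a f) (hg : LswBM a g) (hk : IntegrableOn k (Ioo 0 a))
    (h : ∀ᵐ v ∂(volume.restrict (Ioo 0 a)), |f v - g v| ≤ k v) :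
    |(∫ v in (0 : ℝ)..a, f v) - ∫ v in (0 : ℝ)..a, g v| ≤ ∫ v in Ioo 0 a, k v := by
  rw [intervalIntegral.integral_of_le ha, intervalIntegral.integral_of_le ha,
      integral_Ioc_eq_integral_Ioo, integral_Ioc_eq_integral_Ioo, ← integral_sub hf.integrableOn hg.integrableOn]
  refine (abs_integral_le_integral_abs).trans ?_
  exact integral_mono_of_nonneg (Eventually.of_forall fun _ => abs_nonneg _) hk h

/-! ### 2. clocks -/

theorem IsClock.tilt {a s : ℝ} {b : ℝ → ℝ} (h : IsClock a b) : IsClock a (lswTilt s b) := by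
  refine ⟨fun v hv w hw hvw => ?_, fun v hv => ?_, ?_⟩
  · unfold lswTilt
    by_cases h1 : s ≤ v
    · simp only [h1, h1.trans hvw, if_true]; exact h.mono hv hw hvw
    · by_cases h2 : s ≤ w
      · simp only [h1, h2, if_true, if_false]; exact h.nonneg w hw
      · simp only [h1, h2, if_false]; exact le_rfl
  · unfold lswTilt
    by_cases h1 : s ≤ v
    · simp only [h1, if_true]; exact h.nonneg v hv
    · simp only [h1, if_false]; exact le_rfl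
  · obtain ⟨C, hC⟩ := h.bdd
    refine ⟨C, fun v hv => ?_⟩
    unfold lswTilt
    by_cases h1 : s ≤ v
    · simp only [h1, if_true]; exact hC v hv
    · simp only [h1, if_false]; exact (h.nonneg v hv).trans (hC v hv)

/-- a clock stays below its left limit at the end of its mass interval -/
theorem lsw_le_lim {l cT : ℝ} {c : ℝ → ℝ} (h : IsClock l c) (hlim : Tendsto c (𝓝[<] l) (𝓝 cT)) (v : ℝ) (hv : v ∈ Ioo 0 l) :
    c v ≤ cT := by
  refine ge_of_tendsto hlim ?_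
  filter_upwards [Ioo_mem_nhdsLT hv.2] with w hw
  exact h.mono hv ⟨hv.1.trans hw.1, hw.2⟩ hw.1.le

/-- a clock on `(0,l)`, continued by a constant above its left limit at `l`, is a clock on `(0,a)` -/
theorem IsClock.ext {l a cT cP : ℝ} {c : ℝ → ℝ} (h : IsClock l c) (hl : 0 < l) (hlim : Tendsto c (𝓝[<] l) (𝓝 cT)) (hTP : cT ≤ cP) :
    IsClock a fun v => if v < l then c v else cP := by
  have key := lsw_le_lim h hlim
  have hP : 0 ≤ cP := ((h.nonneg (l / 2) ⟨by linarith, by linarith⟩).trans (key (l / 2) ⟨by linarith, by linarith⟩)).trans hTP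
  refine ⟨fun v hv w hw hvw => ?_, fun v hv => ?_, ?_⟩
  · by_cases h2 : w < l
    · have h1 : v < l := lt_of_le_of_lt hvw h2
      simp only [h1, h2, if_true]; exact h.mono ⟨hv.1, h1⟩ ⟨hw.1, h2⟩ hvw
    · by_cases h1 : v < l
      · simp only [h1, h2, if_true, if_false]; exact (key v ⟨hv.1, h1⟩).trans hTP
      · simp only [h1, h2, if_false]; exact le_rfl
  · by_cases h1 : v < l
    · simp only [h1, if_true]; exact h.nonneg v ⟨hv.1, h1⟩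
    · simp only [h1, if_false]; exact hP
  · refine ⟨cP, fun v hv => ?_⟩
    by_cases h1 : v < l
    · simp only [h1, if_true]; exact (key v ⟨hv.1, h1⟩).trans hTP
    · simp only [h1, if_false]; exact le_rfl

theorem lsw_zero_clock (a : ℝ) : IsClock a (0 : ℝ → ℝ) := by
  exact ⟨fun _ _ _ _ _ => le_rfl, fun _ _ => le_rfl, 0, fun _ _ => le_rfl⟩

theorem lsw_tilt_L1 {a s : ℝ} (b b' : ℝ → ℝ) (hb : LswBM a b) (hb' : LswBM a b') :
    ∫ v in Ioo 0 a, |lswTilt s b' v - lswTilt s b v| ≤ ∫ v in Ioo 0 a, |b' v - b v| := by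
  refine integral_mono_of_nonneg (Eventually.of_forall fun _ => abs_nonneg _) (hb'.sub hb).abs.integrableOn
    (Eventually.of_forall fun v => ?_)
  unfold lswTilt
  by_cases h1 : s ≤ v
  · simp only [h1, if_true]; exact le_rfl
  · simp only [h1, if_false, sub_zero, abs_zero]; exact abs_nonneg _

/-- pointwise Lipschitz bound of `(K,h,b) ↦ (K-h)²/(4b)` on `|K-h| ≤ C_0`, `b ≥ c_b` -/
theorem lsw_quad_pt {c C : ℝ} (hc : 0 < c) (K h b K' h' b' : ℝ) (h1 : |K - h| ≤ C) (h2 : |K' - h'| ≤ C) (hb : c ≤ b) (hb' : c ≤ b') :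
    |(K - h) ^ 2 / (4 * b) - (K' - h') ^ 2 / (4 * b')|
      ≤ C / (2 * c) * (|K - K'| + |h - h'|) + C ^ 2 / (4 * c ^ 2) * |b - b'| := by
  have hC : 0 ≤ C := (abs_nonneg _).trans h1
  have hb0 : 0 < b := lt_of_lt_of_le hc hb
  have hb0' : 0 < b' := lt_of_lt_of_le hc hb'
  set u := K - h with hu
  set u' := K' - h' with hu'
  have e : u ^ 2 / (4 * b) - u' ^ 2 / (4 * b') = (u - u') * (u + u') / (4 * b) + u' ^ 2 * (b' - b) / (4 * b * b') := by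
    field_simp; ring
  rw [e]
  refine (abs_add_le _ _).trans (add_le_add ?_ ?_)
  · rw [abs_div, abs_mul, abs_of_pos (by positivity : (0:ℝ) < 4 * b)]
    have h3 : |u - u'| ≤ |K - K'| + |h - h'| := by
      have : u - u' = (K - K') - (h - h') := by rw [hu, hu']; ring
      rw [this]; exact abs_sub _ _
    have h4 : |u + u'| ≤ 2 * C := (abs_add_le _ _).trans (by linarith)
    calc |u - u'| * |u + u'| / (4 * b) ≤ (|K - K'| + |h - h'|) * (2 * C) / (4 * c) := by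
          refine div_le_div₀ (by positivity) (mul_le_mul h3 h4 (abs_nonneg _) (by positivity)) (by positivity) (by linarith)
      _ = C / (2 * c) * (|K - K'| + |h - h'|) := by field_simp; ring
  · rw [abs_div, abs_mul, abs_of_pos (by positivity : (0:ℝ) < 4 * b * b'), abs_of_nonneg (sq_nonneg u'), abs_sub_comm b' b]
    have h5 : u' ^ 2 ≤ C ^ 2 := by rw [← sq_abs]; exact pow_le_pow_left₀ (abs_nonneg _) h2 2
    calc u' ^ 2 * |b - b'| / (4 * b * b') ≤ C ^ 2 * |b - b'| / (4 * c * c) := by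
          refine div_le_div₀ (by positivity) (mul_le_mul_of_nonneg_right h5 (abs_nonneg _)) (by positivity) ?_
          have : c * c ≤ b * b' := mul_le_mul hb hb' hc.le hb0.le
          nlinarith
      _ = C ^ 2 / (4 * c ^ 2) * |b - b'| := by field_simp

/-- the pointwise hypotheses on the clocks of the two systems (all from block CLK + (P2): file C) -/
structure LswClk (p : LlPt) (F : LlFix) (𝔹 : LlBase) (cb Cb C0 : ℝ) : Prop where
  bs : IsClock 4 (p.b F 𝔹)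
  hs : IsClock 4 (p.h F 𝔹)
  Ks : IsClock 4 (p.K F 𝔹)
  qs : IsClock 4 (p.q F 𝔹)
  bd : IsClock p.ell (p.toDir.b F 𝔹)
  hd : IsClock p.ell (p.toDir.h F 𝔹)
  Kd : IsClock p.ell (p.toDir.K F 𝔹)
  qd : IsClock p.ell (p.toDir.q F 𝔹)
  qs1 : ∀ v ∈ Ioo (0 : ℝ) 4, p.q F 𝔹 v ≤ 1
  qd1 : ∀ v ∈ Ioo 0 p.ell, p.toDir.q F 𝔹 v ≤ 1
  cb0 : 0 < cb
  bs_lo : ∀ v ∈ Ioo (0 : ℝ) 4, cb ≤ p.b F 𝔹 v
  bs_hi : ∀ v ∈ Ioo (0 : ℝ) 4, p.b F 𝔹 v ≤ Cb
  bd_lo : ∀ v ∈ Ioo 0 p.ell, cb ≤ p.toDir.b F 𝔹 v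
  bd_hi : ∀ v ∈ Ioo 0 p.ell, p.toDir.b F 𝔹 v ≤ Cb
  hTP : p.hT F 𝔹 ≤ p.hP F 𝔹
  KTP : p.KT F 𝔹 ≤ p.KP
  hexp : Real.exp (-(p.ell ^ 2 * (p.hP F 𝔹 - p.hT F 𝔹) / 2)) ≤ 1 / 2
  Kexp : Real.exp (-(p.ell ^ 2 * (p.KP - p.KT F 𝔹) / 2)) ≤ 1 / 2
  Khs : ∀ v ∈ Ioo (0 : ℝ) 4, |p.K F 𝔹 v - p.h F 𝔹 v| ≤ C0
  Khd : ∀ v ∈ Ioo 0 p.ell, |p.toDir.K F 𝔹 v - p.toDir.h F 𝔹 v| ≤ C0
  KhP : |p.KP - p.hP F 𝔹| ≤ C0

namespace LlPt
variable (p : LlPt) (F : LlFix) (𝔹 : LlBase)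
/-- the error of the hard jump of the matrix system / of the scalar system -/
noncomputable def eJ : ℝ := 2 / p.ell * Real.exp (-(p.ell ^ 2 * (p.hP F 𝔹 - p.hT F 𝔹) / 2))
noncomputable def eJK : ℝ := 2 / p.ell * Real.exp (-(p.ell ^ 2 * (p.KP - p.KT F 𝔹) / 2))
/-- the `γ`-independent constant of (P11) -/
noncomputable def kapSw : ℝ :=
  (p.ell - 4) / 2 * (p.KP + p.Hlo F p.ell + p.chiL * p.Hlin F p.ell) + Real.log 2 * (1 / p.ell - 1 / 4)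
end LlPt

theorem lsw_defsB2_eqns_cite : True := by
  have := @LlPt.eJ.eq_1; have := @LlPt.eJK.eq_1; have := @LlPt.kapSw.eq_1
  trivial

section main

variable {p : LlPt} {F : LlFix} {𝔹 : LlBase} {cb Cb C0 : ℝ} (ok : LswOk p F 𝔹) (ck : LswClk p F 𝔹 cb Cb C0)

include ok

/-! ### 3. left limits of the direct clocks at the mass `ℓ` -/

/-- HINT: `lsw_b_const`: eventually constant -/
theorem lsw_b_tendsto : Tendsto (p.toDir.b F 𝔹) (𝓝[<] p.ell) (𝓝 (p.bP F 𝔹)) := by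
  have h1 : (1 / 2 : ℝ) < p.ell := by linarith [ok.ell1]
  refine tendsto_const_nhds.congr' ?_
  filter_upwards [Ioo_mem_nhdsLT h1] with v hv
  exact (lsw_b_const ok v (by linarith [ok.vb1, hv.1])).symm

/-- HINT: `lsw_xi_dir_top`: eventually constant (`p_top < 1`) -/
theorem lsw_K_tendsto : Tendsto (p.toDir.K F 𝔹) (𝓝[<] p.ell) (𝓝 (p.KT F 𝔹)) := by
  have hl : 0 < p.ell := by linarith [ok.ell1]
  have h1 : 𝔹.pTop F.T * p.ell < p.ell := by nlinarith [ok.pT1]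
  refine tendsto_const_nhds.congr' ?_
  filter_upwards [Ioo_mem_nhdsLT h1] with v hv
  have e1 := lsw_xi_dir_top ok v (by rw [lt_div_iff₀ hl]; exact hv.1) hv.2.le
  have e2 := lsw_xi_dir_top ok p.ell (by rw [div_self hl.ne']; exact ok.pT1) le_rfl
  simp only [LlPt.KT, LlPt.K, e1, e2]

/-- HINT: near `ℓ-`: `h = K_T - b_P q(ℓ) + H_lo(v) + χ_lin H_lin(v)`, `H_lo`, `H_lin` continuous at `ℓ` -/
theorem lsw_h_tendsto : Tendsto (p.toDir.h F 𝔹) (𝓝[<] p.ell) (𝓝 (p.hT F 𝔹)) := by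
  have hl : 0 < p.ell := by linarith [ok.ell1]
  have hx : p.x < p.ell := by linarith [ok.ell1, ok.xvb, ok.vb1, ok.x0]
  have h1 : 𝔹.pTop F.T * p.ell < p.ell := by nlinarith [ok.pT1]
  have h2 : (1 / 2 : ℝ) < p.ell := by linarith [ok.ell1]
  have hE : p.toDir.chiE = 0 := ok.chiE
  have hxx : p.toDir.x = p.x := rfl
  have hc : ContinuousAt (fun v => p.toDir.hS F 𝔹 p.ell + p.toDir.Hlo F v + p.toDir.chiL * p.toDir.Hlin F v) p.ell := by
    have c1 : ContinuousAt (fun v => p.toDir.Hlo F v) p.ell := by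
      unfold LlPt.Hlo
      refine continuousAt_const.mul (ContinuousAt.log ?_ ?_)
      · exact ((continuous_id.min continuous_const).div_const _).continuousAt
      · have : p.toDir.ell = p.ell := rfl
        rw [this, hxx, min_self]
        exact (div_pos hl ok.x0).ne'
    have c2 : Continuous (fun v => p.toDir.Hlin F v) := by
      unfold LlPt.Hlin
      exact continuous_const.mul (continuous_const.max ((continuous_id.min continuous_const).sub continuous_const))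
    exact (continuousAt_const.add c1).add (continuousAt_const.mul c2.continuousAt)
  have hT : p.hT F 𝔹 = p.toDir.hS F 𝔹 p.ell + p.toDir.Hlo F p.ell + p.toDir.chiL * p.toDir.Hlin F p.ell := by
    simp only [LlPt.hT, LlPt.h, hE, hxx, not_lt.2 hx.le, if_false, zero_mul, add_zero]
  rw [hT]
  refine (hc.tendsto.mono_left nhdsWithin_le_nhds).congr' ?_
  filter_upwards [Ioo_mem_nhdsLT h1, Ioo_mem_nhdsLT h2, Ioo_mem_nhdsLT hx] with v hv hv2 hv3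
  have e1 := lsw_xi_dir_top ok v (by rw [lt_div_iff₀ hl]; exact hv.1) hv.2.le
  have e2 := lsw_xi_dir_top ok p.ell (by rw [div_self hl.ne']; exact ok.pT1) le_rfl
  have e3 : p.toDir.b F 𝔹 v = p.toDir.b F 𝔹 p.ell := lsw_b_const ok v (by linarith [ok.vb1, hv2.1])
  have e4 : p.toDir.hS F 𝔹 v = p.toDir.hS F 𝔹 p.ell := by
    simp only [LlPt.hS, LlPt.q, LlPt.K, e1, e2, e3]
  simp only [LlPt.h, hE, hxx, not_lt.2 hv3.1.le, if_false, zero_mul, add_zero, e4]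

include ck

/-! ### 4. the hard clocks are clocks -/

theorem lsw_bH_clock : IsClock 4 (p.bH F 𝔹) := IsClock.ext ck.bd (by linarith [ok.ell1]) (lsw_b_tendsto ok) le_rfl
theorem lsw_hH_clock : IsClock 4 (p.hH F 𝔹) := IsClock.ext ck.hd (by linarith [ok.ell1]) (lsw_h_tendsto ok) ck.hTP
theorem lsw_KH_clock : IsClock 4 (p.KH F 𝔹) := IsClock.ext ck.Kd (by linarith [ok.ell1]) (lsw_K_tendsto ok) ck.KTP

theorem lsw_bP_mem : cb ≤ p.bP F 𝔹 ∧ p.bP F 𝔹 ≤ Cb := by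
  have h1 : (1 / 2 : ℝ) ∈ Ioo 0 p.ell := ⟨by norm_num, by linarith [ok.ell1]⟩
  have e := lsw_b_const ok (1 / 2) (by linarith [ok.vb1])
  rw [← e]
  exact ⟨ck.bd_lo _ h1, ck.bd_hi _ h1⟩

theorem lsw_bH_mem (v : ℝ) (hv : v ∈ Ioo (0 : ℝ) 4) : cb ≤ p.bH F 𝔹 v ∧ p.bH F 𝔹 v ≤ Cb := by
  unfold LlPt.bH
  by_cases h : v < p.ell
  · simp only [h, if_true]; exact ⟨ck.bd_lo v ⟨hv.1, h⟩, ck.bd_hi v ⟨hv.1, h⟩⟩
  · simp only [h, if_false]; exact lsw_bP_mem ok ck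

theorem lsw_qH_mem (v : ℝ) (hv : v ∈ Ioo (0 : ℝ) 4) : 0 ≤ p.qH F 𝔹 v ∧ p.qH F 𝔹 v ≤ 1 := by
  unfold LlPt.qH
  by_cases h : v < p.ell
  · simp only [h, if_true]; exact ⟨ck.qd.nonneg v ⟨hv.1, h⟩, ck.qd1 v ⟨hv.1, h⟩⟩
  · simp only [h, if_false]; exact ⟨zero_le_one, le_rfl⟩

/-! ### 5. the hard-jump identities -/

variable (hJ : LlHardJump 𝔹) (hL : LlLipL1 𝔹)

include hJ in
theorem lsw_hard_f (m : ℕ) (hm : 0 < m) :
    |𝔹.f m 4 (p.bH F 𝔹) (p.hH F 𝔹) - (𝔹.f m p.ell (p.toDir.b F 𝔹) (p.toDir.h F 𝔹)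
        + (p.ell - 4) * (p.bP F 𝔹 / 4 + p.hP F 𝔹 / 2) + Real.log 2 * (1 / p.ell - 1 / 4))| ≤ p.eJ F 𝔹 := by
  have hl : 0 < p.ell := by linarith [ok.ell1]
  exact hJ m p.ell 4 hm hl (by linarith [ok.ell2]) _ _ _ _ _ ck.bd ck.hd (lsw_b_tendsto ok) (lsw_h_tendsto ok) ck.hTP ck.hexp

include hJ in
/-- HINT: `(fun v => if v < ℓ then lswTilt s b v else b_P) = lswTilt s b_H` since `s < ℓ` -/
theorem lsw_hard_f_tilt (m : ℕ) (hm : 0 < m) (s : ℝ) (hs : s ∈ Ioo 0 p.x) :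
    |𝔹.f m 4 (lswTilt s (p.bH F 𝔹)) (p.hH F 𝔹) - (𝔹.f m p.ell (lswTilt s (p.toDir.b F 𝔹)) (p.toDir.h F 𝔹)
        + (p.ell - 4) * (p.bP F 𝔹 / 4 + p.hP F 𝔹 / 2) + Real.log 2 * (1 / p.ell - 1 / 4))| ≤ p.eJ F 𝔹 := by
  have hl : 0 < p.ell := by linarith [ok.ell1]
  have hx : p.x < p.ell := by linarith [ok.ell1, ok.xvb, ok.vb1, ok.x0]
  have hsl : s < p.ell := hs.2.trans hx
  have ht : Tendsto (lswTilt s (p.toDir.b F 𝔹)) (𝓝[<] p.ell) (𝓝 (p.bP F 𝔹)) := by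
    refine (lsw_b_tendsto ok).congr' ?_
    filter_upwards [Ioo_mem_nhdsLT hsl] with v hv
    simp [lswTilt, hv.1.le]
  have e : lswTilt s (p.bH F 𝔹) = fun v => if v < p.ell then lswTilt s (p.toDir.b F 𝔹) v else p.bP F 𝔹 := by
    funext v
    unfold lswTilt LlPt.bH
    by_cases h : v < p.ell
    · simp only [h, if_true]
    · simp only [h, if_false, hsl.le.trans (not_lt.1 h), if_true]
  rw [e]
  exact hJ m p.ell 4 hm hl (by linarith [ok.ell2]) _ _ _ _ _ ck.bd.tilt ck.hd ht (lsw_h_tendsto ok) ck.hTP ck.hexp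

include hJ in
theorem lsw_hard_spin :
    |𝔹.fspin 4 (p.KH F 𝔹) - (𝔹.fspin p.ell (p.toDir.K F 𝔹) + (p.ell - 4) * (p.KP / 2)
        + Real.log 2 * (1 / p.ell - 1 / 4))| ≤ p.eJK F 𝔹 := by
  have hl : 0 < p.ell := by linarith [ok.ell1]
  have := hJ 1 p.ell 4 one_pos hl (by linarith [ok.ell2]) 0 (p.toDir.K F 𝔹) 0 (p.KT F 𝔹) p.KP (lsw_zero_clock _) ck.Kd
    tendsto_const_nhds (lsw_K_tendsto ok) ck.KTP ck.Kexp
  have e : (fun v : ℝ => if v < p.ell then (0 : ℝ → ℝ) v else 0) = 0 := by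
    funext v; simp
  rw [e, zero_div, zero_add] at this
  exact this

/-! ### 6. hard against smoothed -/

include hL in
theorem lsw_lip_f (m : ℕ) (hm : 0 < m) {db dh : ℝ} (hdb : ∫ v in Ioo (0 : ℝ) 4, |p.bH F 𝔹 v - p.b F 𝔹 v| ≤ db)
    (hdh : ∫ v in Ioo (0 : ℝ) 4, |p.hH F 𝔹 v - p.h F 𝔹 v| ≤ dh) :
    |𝔹.f m 4 (p.bH F 𝔹) (p.hH F 𝔹) - 𝔹.f m 4 (p.b F 𝔹) (p.h F 𝔹)| ≤ (1 / 4) * db + (1 / 2) * dh := by
  have := hL m 4 hm (by norm_num) _ _ _ _ ck.bs ck.hs (lsw_bH_clock ok ck) (lsw_hH_clock ok ck)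
  linarith

include hL in
theorem lsw_lip_f_tilt (m : ℕ) (hm : 0 < m) (s : ℝ) {db dh : ℝ}
    (hdb : ∫ v in Ioo (0 : ℝ) 4, |p.bH F 𝔹 v - p.b F 𝔹 v| ≤ db)
    (hdh : ∫ v in Ioo (0 : ℝ) 4, |p.hH F 𝔹 v - p.h F 𝔹 v| ≤ dh) :
    |𝔹.f m 4 (lswTilt s (p.bH F 𝔹)) (p.hH F 𝔹) - 𝔹.f m 4 (lswTilt s (p.b F 𝔹)) (p.h F 𝔹)|
      ≤ (1 / 4) * db + (1 / 2) * dh := by
  have := hL m 4 hm (by norm_num) _ _ _ _ (ck.bs.tilt (s := s)) ck.hs ((lsw_bH_clock ok ck).tilt (s := s)) (lsw_hH_clock ok ck)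
  have h2 := lsw_tilt_L1 (s := s) (p.b F 𝔹) (p.bH F 𝔹) ck.bs.lswBM (lsw_bH_clock ok ck).lswBM
  linarith

include hL in
theorem lsw_lip_spin {dK : ℝ} (hdK : ∫ v in Ioo (0 : ℝ) 4, |p.KH F 𝔹 v - p.K F 𝔹 v| ≤ dK) :
    |𝔹.fspin 4 (p.KH F 𝔹) - 𝔹.fspin 4 (p.K F 𝔹)| ≤ (1 / 2) * dK := by
  have := hL 1 4 one_pos (by norm_num) _ _ _ _ (lsw_zero_clock 4) ck.Ks (lsw_zero_clock 4) (lsw_KH_clock ok ck)
  simp only [sub_self, abs_zero, integral_zero, mul_zero, zero_add] at this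
  unfold LlBase.fspin
  linarith

/-! ### 7. the two deterministic integrals -/

/-- HINT: `lsw_int_split` for `b_H q_H²/4` -/
theorem lsw_bq_split :
    ∫ v in (0 : ℝ)..4, p.bH F 𝔹 v * p.qH F 𝔹 v ^ 2 / 4
      = (∫ v in (0 : ℝ)..p.ell, p.toDir.b F 𝔹 v * p.toDir.q F 𝔹 v ^ 2 / 4) + (4 - p.ell) * (p.bP F 𝔹 / 4) := by
  have hl : 0 < p.ell := by linarith [ok.ell1]
  have hf : LswBM p.ell fun v => p.toDir.b F 𝔹 v * p.toDir.q F 𝔹 v ^ 2 / 4 := by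
    have := (ck.bd.lswBM.mul (ck.qd.lswBM.mul ck.qd.lswBM)).mul (LswBM.const p.ell (1 / 4))
    refine ⟨this.1.congr (Eventually.of_forall fun v => by ring), ?_⟩
    obtain ⟨C, hC⟩ := this.2
    exact ⟨C, fun v hv => by have := hC v hv; convert this using 2; ring⟩
  have := lsw_int_split (c := p.bP F 𝔹 / 4) hf hl (by linarith [ok.ell2] : p.ell ≤ 4)
  rw [← this]
  refine intervalIntegral.integral_congr fun v _ => ?_
  simp only [LlPt.bH, LlPt.qH]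
  by_cases h : v < p.ell
  · simp only [h, if_true]
  · simp only [h, if_false]; ring

/-- HINT: `|b q² - b_H q_H²| ≤ |b - b_H| + 2 C_b |q - q_H|`, `lsw_int_sub_le` -/
theorem lsw_bq_lip {db dq : ℝ} (hdb : ∫ v in Ioo (0 : ℝ) 4, |p.bH F 𝔹 v - p.b F 𝔹 v| ≤ db)
    (hdq : ∫ v in Ioo (0 : ℝ) 4, |p.qH F 𝔹 v - p.q F 𝔹 v| ≤ dq) :
    |(∫ v in (0 : ℝ)..4, p.bH F 𝔹 v * p.qH F 𝔹 v ^ 2 / 4) - ∫ v in (0 : ℝ)..4, p.b F 𝔹 v * p.q F 𝔹 v ^ 2 / 4|
      ≤ (1 / 4) * (db + 2 * Cb * dq) := by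
  have hCb : 0 ≤ Cb := ck.cb0.le.trans ((lsw_bP_mem ok ck).1.trans (lsw_bP_mem ok ck).2)
  have bH := (lsw_bH_clock ok ck).lswBM
  have hqH : LswBM 4 (p.qH F 𝔹) := LswBM.ext ck.qd.lswBM (by linarith [ok.ell1]) (by linarith [ok.ell2])
  have mk : ∀ {b q : ℝ → ℝ}, LswBM 4 b → LswBM 4 q → LswBM 4 fun v => b v * q v ^ 2 / 4 := by
    intro b q hb hq
    have := (hb.mul (hq.mul hq)).mul (LswBM.const 4 (1 / 4))
    refine ⟨this.1.congr (Eventually.of_forall fun v => by ring), ?_⟩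
    obtain ⟨C, hC⟩ := this.2
    exact ⟨C, fun v hv => by have := hC v hv; convert this using 2; ring⟩
  have i1 := (bH.sub ck.bs.lswBM).abs.integrableOn
  have i2 := (hqH.sub ck.qs.lswBM).abs.integrableOn
  have hk : IntegrableOn (fun v => (1 / 4) * (|p.bH F 𝔹 v - p.b F 𝔹 v| + 2 * Cb * |p.qH F 𝔹 v - p.q F 𝔹 v|)) (Ioo 0 4) :=
    (i1.add (i2.const_mul (2 * Cb))).const_mul (1 / 4)
  refine (lsw_int_sub_le (by norm_num) (mk bH hqH) (mk ck.bs.lswBM ck.qs.lswBM) hk ?_).trans ?_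
  · refine (ae_restrict_iff' measurableSet_Ioo).2 (Eventually.of_forall fun v hv => ?_)
    obtain ⟨b1, b2⟩ := lsw_bH_mem ok ck v hv
    obtain ⟨q1, q2⟩ := lsw_qH_mem ok ck v hv
    have q3 := ck.qs.nonneg v hv
    have q4 := ck.qs1 v hv
    have e : p.bH F 𝔹 v * p.qH F 𝔹 v ^ 2 / 4 - p.b F 𝔹 v * p.q F 𝔹 v ^ 2 / 4
        = (1 / 4) * ((p.bH F 𝔹 v - p.b F 𝔹 v) * p.q F 𝔹 v ^ 2
            + p.bH F 𝔹 v * ((p.qH F 𝔹 v + p.q F 𝔹 v) * (p.qH F 𝔹 v - p.q F 𝔹 v))) := by ring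
    rw [e, abs_mul, abs_of_pos (by norm_num : (0:ℝ) < 1 / 4)]
    refine mul_le_mul_of_nonneg_left ((abs_add_le _ _).trans (add_le_add ?_ ?_)) (by norm_num)
    · rw [abs_mul, abs_of_nonneg (sq_nonneg (p.q F 𝔹 v))]
      have : p.q F 𝔹 v ^ 2 ≤ 1 := pow_le_one₀ q3 q4
      nlinarith [abs_nonneg (p.bH F 𝔹 v - p.b F 𝔹 v)]
    · rw [abs_mul, abs_mul, abs_of_nonneg (ck.cb0.le.trans b1), abs_of_nonneg (add_nonneg q1 q3)]
      have h1 : p.bH F 𝔹 v * (p.qH F 𝔹 v + p.q F 𝔹 v) ≤ Cb * 2 :=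
        mul_le_mul b2 (by linarith) (add_nonneg q1 q3) hCb
      nlinarith [abs_nonneg (p.qH F 𝔹 v - p.q F 𝔹 v)]
  · rw [integral_const_mul, integral_add i1 (i2.const_mul _), integral_const_mul]
    have := mul_le_mul_of_nonneg_left hdq (by linarith : 0 ≤ 2 * Cb)
    linarith

theorem lsw_quad_split :
    ∫ v in (0 : ℝ)..4, (p.KH F 𝔹 v - p.hH F 𝔹 v) ^ 2 / (4 * p.bH F 𝔹 v)
      = (∫ v in (0 : ℝ)..p.ell, (p.toDir.K F 𝔹 v - p.toDir.h F 𝔹 v) ^ 2 / (4 * p.toDir.b F 𝔹 v))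
        + (4 - p.ell) * ((p.KP - p.hP F 𝔹) ^ 2 / (4 * p.bP F 𝔹)) := by
  have hl : 0 < p.ell := by linarith [ok.ell1]
  have hf : LswBM p.ell fun v => (p.toDir.K F 𝔹 v - p.toDir.h F 𝔹 v) ^ 2 / (4 * p.toDir.b F 𝔹 v) := by
    have h1 := ck.Kd.lswBM.sub ck.hd.lswBM
    have := (h1.mul h1).div ((LswBM.const p.ell 4).mul ck.bd.lswBM) (c := 4 * cb) (by linarith [ck.cb0])
      (fun v hv => by have := ck.bd_lo v hv; linarith)
    refine ⟨this.1.congr (Eventually.of_forall fun v => by simp only [sq]), ?_⟩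
    obtain ⟨C, hC⟩ := this.2
    exact ⟨C, fun v hv => by have := hC v hv; simpa only [sq] using this⟩
  have := lsw_int_split (c := (p.KP - p.hP F 𝔹) ^ 2 / (4 * p.bP F 𝔹)) hf hl (by linarith [ok.ell2] : p.ell ≤ 4)
  rw [← this]
  refine intervalIntegral.integral_congr fun v _ => ?_
  simp only [LlPt.bH, LlPt.KH, LlPt.hH]
  by_cases h : v < p.ell
  · simp only [h, if_true]
  · simp only [h, if_false]

theorem lsw_quad_lip {dK dh db : ℝ} (hdK : ∫ v in Ioo (0 : ℝ) 4, |p.KH F 𝔹 v - p.K F 𝔹 v| ≤ dK)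
    (hdh : ∫ v in Ioo (0 : ℝ) 4, |p.hH F 𝔹 v - p.h F 𝔹 v| ≤ dh)
    (hdb : ∫ v in Ioo (0 : ℝ) 4, |p.bH F 𝔹 v - p.b F 𝔹 v| ≤ db) :
    |(∫ v in (0 : ℝ)..4, (p.KH F 𝔹 v - p.hH F 𝔹 v) ^ 2 / (4 * p.bH F 𝔹 v))
        - ∫ v in (0 : ℝ)..4, (p.K F 𝔹 v - p.h F 𝔹 v) ^ 2 / (4 * p.b F 𝔹 v)|
      ≤ C0 / (2 * cb) * (dK + dh) + C0 ^ 2 / (4 * cb ^ 2) * db := by
  have hC0 : 0 ≤ C0 := (abs_nonneg _).trans ck.KhP
  have hcb := ck.cb0
  have bH := (lsw_bH_clock ok ck).lswBM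
  have hH := (lsw_hH_clock ok ck).lswBM
  have KH := (lsw_KH_clock ok ck).lswBM
  have mk : ∀ {K h b : ℝ → ℝ}, LswBM 4 K → LswBM 4 h → LswBM 4 b → (∀ v ∈ Ioo (0 : ℝ) 4, cb ≤ b v) →
      LswBM 4 fun v => (K v - h v) ^ 2 / (4 * b v) := by
    intro K h b hK hh hb hlo
    have h1 := hK.sub hh
    have := (h1.mul h1).div ((LswBM.const 4 4).mul hb) (c := 4 * cb) (by linarith)
      (fun v hv => by have := hlo v hv; linarith)
    refine ⟨this.1.congr (Eventually.of_forall fun v => by simp only [sq]), ?_⟩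
    obtain ⟨C, hC⟩ := this.2
    exact ⟨C, fun v hv => by have := hC v hv; simpa only [sq] using this⟩
  have i1 := (KH.sub ck.Ks.lswBM).abs.integrableOn
  have i2 := (hH.sub ck.hs.lswBM).abs.integrableOn
  have i3 := (bH.sub ck.bs.lswBM).abs.integrableOn
  have hk : IntegrableOn (fun v => C0 / (2 * cb) * (|p.KH F 𝔹 v - p.K F 𝔹 v| + |p.hH F 𝔹 v - p.h F 𝔹 v|)
      + C0 ^ 2 / (4 * cb ^ 2) * |p.bH F 𝔹 v - p.b F 𝔹 v|) (Ioo 0 4) :=
    ((i1.add i2).const_mul _).add (i3.const_mul _)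
  refine (lsw_int_sub_le (by norm_num) (mk KH hH bH fun v hv => (lsw_bH_mem ok ck v hv).1)
    (mk ck.Ks.lswBM ck.hs.lswBM ck.bs.lswBM ck.bs_lo) hk ?_).trans ?_
  · refine (ae_restrict_iff' measurableSet_Ioo).2 (Eventually.of_forall fun v hv => ?_)
    refine lsw_quad_pt hcb _ _ _ _ _ _ ?_ (ck.Khs v hv) (lsw_bH_mem ok ck v hv).1 (ck.bs_lo v hv)
    simp only [LlPt.KH, LlPt.hH]
    by_cases h : v < p.ell
    · simp only [h, if_true]; exact ck.Khd v ⟨hv.1, h⟩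
    · simp only [h, if_false]; exact ck.KhP
  · have i12 : IntegrableOn (fun v => |p.KH F 𝔹 v - p.K F 𝔹 v| + |p.hH F 𝔹 v - p.h F 𝔹 v|) (Ioo 0 4) := i1.add i2
    rw [integral_add (i12.const_mul _) (i3.const_mul _), integral_const_mul, integral_const_mul,
      integral_add i1 i2]
    have a1 : 0 ≤ C0 / (2 * cb) := by positivity
    have a2 : 0 ≤ C0 ^ 2 / (4 * cb ^ 2) := by positivity
    exact add_le_add (mul_le_mul_of_nonneg_left (add_le_add hdK hdh) a1) (mul_le_mul_of_nonneg_left hdb a2)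

/-! ### 8. EXITS (pointwise form of (P11) and of the trial-gap comparison) -/

include hJ hL in
/-- first line of (P11) -/
theorem lsw_psi (m : ℕ) (hm : 0 < m) (s : ℝ) (hs : s ∈ Ioo 0 p.x) {db dh : ℝ}
    (hdb : ∫ v in Ioo (0 : ℝ) 4, |p.bH F 𝔹 v - p.b F 𝔹 v| ≤ db)
    (hdh : ∫ v in Ioo (0 : ℝ) 4, |p.hH F 𝔹 v - p.h F 𝔹 v| ≤ dh) :
    |p.psi F 𝔹 m s - p.toDir.psi F 𝔹 m s| ≤ 2 * ((1 / 4) * db + (1 / 2) * dh) + 2 * p.eJ F 𝔹 := by
  have t1 := lsw_hard_f ok ck hJ m hm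
  have t2 := lsw_hard_f_tilt ok ck hJ m hm s hs
  have t3 := lsw_lip_f ok ck hL m hm hdb hdh
  have t4 := lsw_lip_f_tilt ok ck hL m hm s hdb hdh
  have e1 : p.psi F 𝔹 m s = 𝔹.f m 4 (lswTilt s (p.b F 𝔹)) (p.h F 𝔹) - 𝔹.f m 4 (p.b F 𝔹) (p.h F 𝔹) := by
    simp only [LlPt.psi, LlBase.psi, lsw_sm_a p ok.sm]; rfl
  have e2 : p.toDir.psi F 𝔹 m s = 𝔹.f m p.ell (lswTilt s (p.toDir.b F 𝔹)) (p.toDir.h F 𝔹)
      - 𝔹.f m p.ell (p.toDir.b F 𝔹) (p.toDir.h F 𝔹) := by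
    simp only [LlPt.psi, LlBase.psi, lsw_dir_a p]; rfl
  rw [e1, e2]
  rw [abs_le] at t1 t2 t3 t4 ⊢
  constructor <;> linarith [t1.1, t1.2, t2.1, t2.2, t3.1, t3.2, t4.1, t4.2]

include hJ hL in
/-- second line of (P11) -/
theorem lsw_fRest (m : ℕ) (hm : 0 < m) {db dh dq : ℝ}
    (hdb : ∫ v in Ioo (0 : ℝ) 4, |p.bH F 𝔹 v - p.b F 𝔹 v| ≤ db)
    (hdh : ∫ v in Ioo (0 : ℝ) 4, |p.hH F 𝔹 v - p.h F 𝔹 v| ≤ dh)
    (hdq : ∫ v in Ioo (0 : ℝ) 4, |p.qH F 𝔹 v - p.q F 𝔹 v| ≤ dq) :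
    |p.fRest F 𝔹 m - p.toDir.fRest F 𝔹 m - p.kapSw F|
      ≤ (1 / 4) * db + (1 / 2) * dh + p.eJ F 𝔹 + (1 / 4) * (db + 2 * Cb * dq) := by
  have t1 := lsw_hard_f ok ck hJ m hm
  have t3 := lsw_lip_f ok ck hL m hm hdb hdh
  have t5 := lsw_bq_split ok ck
  have t6 := lsw_bq_lip ok ck hdb hdq
  have e1 : p.fRest F 𝔹 m = 𝔹.f m 4 (p.b F 𝔹) (p.h F 𝔹) - ∫ v in (0 : ℝ)..4, p.b F 𝔹 v * p.q F 𝔹 v ^ 2 / 4 := by
    simp only [LlPt.fRest, LlPt.f0, lsw_sm_a p ok.sm]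
  have e2 : p.toDir.fRest F 𝔹 m = 𝔹.f m p.ell (p.toDir.b F 𝔹) (p.toDir.h F 𝔹)
      - ∫ v in (0 : ℝ)..p.ell, p.toDir.b F 𝔹 v * p.toDir.q F 𝔹 v ^ 2 / 4 := by
    simp only [LlPt.fRest, LlPt.f0, lsw_dir_a p]
  have e3 : p.kapSw F = (p.ell - 4) * (p.bP F 𝔹 / 4 + p.hP F 𝔹 / 2) + Real.log 2 * (1 / p.ell - 1 / 4)
      - (4 - p.ell) * (p.bP F 𝔹 / 4) := by
    simp only [LlPt.kapSw, LlPt.hP]; ring
  rw [e1, e2, e3]
  rw [t5] at t6
  rw [abs_le] at t1 t3 t6 ⊢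
  constructor <;> linarith [t1.1, t1.2, t3.1, t3.2, t6.1, t6.2]

include hJ hL in
/-- the scalar trial gaps -/
theorem lsw_trial (m : ℕ) (hm : 0 < m) {dK db dh : ℝ}
    (hdK : ∫ v in Ioo (0 : ℝ) 4, |p.KH F 𝔹 v - p.K F 𝔹 v| ≤ dK)
    (hdb : ∫ v in Ioo (0 : ℝ) 4, |p.bH F 𝔹 v - p.b F 𝔹 v| ≤ db)
    (hdh : ∫ v in Ioo (0 : ℝ) 4, |p.hH F 𝔹 v - p.h F 𝔹 v| ≤ dh) :
    |p.trialGap F 𝔹 m - p.toDir.trialGap F 𝔹 m|
      ≤ (1 / 2) * dK + p.eJK F 𝔹 + (C0 / (2 * cb) * (dK + dh) + C0 ^ 2 / (4 * cb ^ 2) * db)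
        + ((1 / 4) * db + (1 / 2) * dh + p.eJ F 𝔹)
        + (4 - p.ell) * ((p.Hlo F p.ell + p.chiL * p.Hlin F p.ell) ^ 2 / (4 * p.bP F 𝔹)) := by
  have t1 := lsw_hard_f ok ck hJ m hm
  have t3 := lsw_lip_f ok ck hL m hm hdb hdh
  have t5 := lsw_quad_split ok ck
  have t6 := lsw_quad_lip ok ck hdK hdh hdb
  have t7 := lsw_hard_spin ok ck hJ
  have t8 := lsw_lip_spin ok ck hL hdK
  have hbP : 0 < p.bP F 𝔹 := lt_of_lt_of_le ck.cb0 (lsw_bP_mem ok ck).1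
  have e1 : p.trialGap F 𝔹 m = 𝔹.fspin 4 (p.K F 𝔹)
      + (∫ v in (0 : ℝ)..4, (p.K F 𝔹 v - p.h F 𝔹 v) ^ 2 / (4 * p.b F 𝔹 v)) - 𝔹.f m 4 (p.b F 𝔹) (p.h F 𝔹) := by
    simp only [LlPt.trialGap, LlPt.f0, lsw_sm_a p ok.sm]
  have e2 : p.toDir.trialGap F 𝔹 m = 𝔹.fspin p.ell (p.toDir.K F 𝔹)
      + (∫ v in (0 : ℝ)..p.ell, (p.toDir.K F 𝔹 v - p.toDir.h F 𝔹 v) ^ 2 / (4 * p.toDir.b F 𝔹 v))
      - 𝔹.f m p.ell (p.toDir.b F 𝔹) (p.toDir.h F 𝔹) := by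
    simp only [LlPt.trialGap, LlPt.f0, lsw_dir_a p]
  have e3 : (4 - p.ell) * ((p.Hlo F p.ell + p.chiL * p.Hlin F p.ell) ^ 2 / (4 * p.bP F 𝔹))
      = (p.ell - 4) * (p.KP / 2) + (4 - p.ell) * ((p.KP - p.hP F 𝔹) ^ 2 / (4 * p.bP F 𝔹))
        - (p.ell - 4) * (p.bP F 𝔹 / 4 + p.hP F 𝔹 / 2) := by
    simp only [LlPt.hP]; field_simp; ring
  have e4 : 0 ≤ (4 - p.ell) * ((p.Hlo F p.ell + p.chiL * p.Hlin F p.ell) ^ 2 / (4 * p.bP F 𝔹)) :=
    mul_nonneg (by linarith [ok.ell2]) (by positivity)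
  rw [e1, e2]
  rw [t5] at t6
  rw [abs_le] at t1 t3 t6 t7 t8 ⊢
  constructor <;> linarith [t1.1, t1.2, t3.1, t3.2, t6.1, t6.2, t7.1, t7.2, t8.1, t8.2]

end main

end Claimed.Agent.R286
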